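import Vale.Agent.P233.MathlibUsed2

set_option linter.all false

section

open MeasureTheory Filter Topology
open scoped ENNReal NNReal InnerProductSpace

universe u

namespace Vale.Agent.P233

/-! ### A first order calculus: Sobolev functions, carre du champ, bounded Lipschitz functions -/

/-- `W` is the set of Sobolev functions, `Γ f g = ⟨∇f,∇g⟩`, and `B` is the set of the
bounded Lipschitz functions. -/
structure Calc {M : Type*} [MeasurableSpace M] (m : Measure M) where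
  W : Set (M →ₘ[m] ℝ)
  Γ : (M →ₘ[m] ℝ) → (M →ₘ[m] ℝ) → (M →ₘ[m] ℝ)
  B : Set (M →ₘ[m] ℝ)

namespace Calc

variable {M : Type*} [MeasurableSpace M] {m : Measure M} (C : Calc m)

/-- `h = Δf`. -/
def IsLap (f h : M →ₘ[m] ℝ) : Prop :=
  f ∈ C.W ∧ MemLp h 2 m ∧ ∀ g ∈ C.W, ∫ x, C.Γ f g x ∂m = -∫ x, (h * g) x ∂m

open Classical in
/-- `Δf`. -/
noncomputable def lap (f : M →ₘ[m] ℝ) : M →ₘ[m] ℝ :=
  if h : ∃ h, C.IsLap f h then h.choose else 0

/-- `Test(M)`: `f ∈ D(Δ)` is bounded and Lipschitz and `Δf ∈ W`. -/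
def Test : Set (M →ₘ[m] ℝ) := {f | f ∈ C.B ∧ ∃ h, C.IsLap f h ∧ h ∈ C.W}

/-- The weak Bochner inequality `BE(K,N)`. -/
def BE (K N : ℝ) : Prop :=
  ∀ f h φ ψ : M →ₘ[m] ℝ, C.IsLap f h → h ∈ C.W → C.IsLap φ ψ → 0 ≤ φ → MemLp φ ∞ m →
    MemLp ψ ∞ m →
    ∫ x, (φ * (C.Γ f h + K • C.Γ f f + N⁻¹ • h ^ 2)) x ∂m ≤ ∫ x, ((2 : ℝ)⁻¹ • (C.Γ f f * ψ)) x ∂m

/-- `X ∈ TestV(M)`, where the list of the pairs `(a_j, b_j)` stands for `∑ a_j ∇b_j`. -/
def IsTestV (X : List ((M →ₘ[m] ℝ) × (M →ₘ[m] ℝ))) : Prop :=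
  ∀ p ∈ X, p.1 ∈ C.Test ∧ p.2 ∈ C.Test

/-- `⟨X,Y⟩`. -/
noncomputable def ip (X Y : List ((M →ₘ[m] ℝ) × (M →ₘ[m] ℝ))) : M →ₘ[m] ℝ :=
  (X.map fun p => (Y.map fun q => p.1 * q.1 * C.Γ p.2 q.2).sum).sum

/-- `div X`. -/
noncomputable def dv (X : List ((M →ₘ[m] ℝ) × (M →ₘ[m] ℝ))) : M →ₘ[m] ℝ :=
  (X.map fun p => C.Γ p.1 p.2 + p.1 * C.lap p.2).sum

/-- `Hess b (∇g, ∇h)`. -/
noncomputable def hess (b g h : M →ₘ[m] ℝ) : M →ₘ[m] ℝ :=
  (2 : ℝ)⁻¹ • (C.Γ g (C.Γ b h) + C.Γ h (C.Γ b g) - C.Γ b (C.Γ g h))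

/-- `⟨∇_X Y, Z⟩`, where `⟨∇_X (c ∇d), Z⟩ = ⟨X,∇c⟩ ⟨∇d,Z⟩ + c Hess d (X, Z)`. -/
noncomputable def nab (X Y Z : List ((M →ₘ[m] ℝ) × (M →ₘ[m] ℝ))) : M →ₘ[m] ℝ :=
  (X.map fun p => (Y.map fun q => (Z.map fun r =>
    p.1 * r.1 * (C.Γ p.2 q.1 * C.Γ q.2 r.2 + q.1 * C.hess q.2 p.2 r.2)).sum).sum).sum

/-- `f X`. -/
def mulV (f : M →ₘ[m] ℝ) (X : List ((M →ₘ[m] ℝ) × (M →ₘ[m] ℝ))) :
    List ((M →ₘ[m] ℝ) × (M →ₘ[m] ℝ)) := X.map fun p => (f * p.1, p.2)

variable {H : Type*} [NormedAddCommGroup H] [InnerProductSpace ℝ H]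
  (ι : List ((M →ₘ[m] ℝ) × (M →ₘ[m] ℝ)) → H)

/-- `H`, with the map `ι`, is the Hilbert space `L²(TM)`: the completion of `TestV(M)`
with respect to `∫ ⟨X,Y⟩ dm`. -/
def IsL2TM : Prop :=
  (∀ X Y, C.IsTestV X → C.IsTestV Y → ⟪ι X, ι Y⟫_ℝ = ∫ x, C.ip X Y x ∂m) ∧
    Dense {v | ∃ X, C.IsTestV X ∧ ι X = v}

/-- `V = ∇_X Y` in `L²(TM)`. -/
def IsCov (X Y : List ((M →ₘ[m] ℝ) × (M →ₘ[m] ℝ))) (V : H) : Prop :=
  ∀ Z, C.IsTestV Z → ⟪V, ι Z⟫_ℝ = ∫ x, C.nab X Y Z x ∂m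

/-- `V ∈ L²(TM)` is the vector field with `⟨V, X⟩ = ⟨∇_X Y, Z⟩`. -/
def IsCovT (Y Z : List ((M →ₘ[m] ℝ) × (M →ₘ[m] ℝ))) (V : H) : Prop :=
  ∀ X, C.IsTestV X → ⟪V, ι X⟫_ℝ = ∫ x, C.nab X Y Z x ∂m

open Classical in
/-- `∇_X Y ∈ L²(TM)`. -/
noncomputable def cov (X Y : List ((M →ₘ[m] ℝ) × (M →ₘ[m] ℝ))) : H :=
  if h : ∃ V, C.IsCov ι X Y V then h.choose else 0

open Classical in
/-- The field `V ∈ L²(TM)` with `⟨V, X⟩ = ⟨∇_X Y, Z⟩`. -/
noncomputable def covT (Y Z : List ((M →ₘ[m] ℝ) × (M →ₘ[m] ℝ))) : H :=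
  if h : ∃ V, C.IsCovT ι Y Z V then h.choose else 0

/-- Gigli's curvature functional `R(X,Y,Z,W)(f)`. -/
noncomputable def curv (X Y Z W : List ((M →ₘ[m] ℝ) × (M →ₘ[m] ℝ))) (f : M →ₘ[m] ℝ) : ℝ :=
  -⟪C.cov ι X (mulV f W), C.cov ι Y Z⟫_ℝ - ∫ x, (f * C.nab Y Z W * C.dv X) x ∂m
    + ⟪C.cov ι Y (mulV f W), C.cov ι X Z⟫_ℝ + ∫ x, (f * C.nab X Z W * C.dv Y) x ∂m
    - ⟪C.cov ι X Y - C.cov ι Y X, C.covT ι Z (mulV f W)⟫_ℝ

end Calc

/-! ### The Sobolev calculus of a metric measure space -/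

section Metric

variable {M : Type*} [MetricSpace M] [MeasurableSpace M] {m : Measure M}

/-- The local Lipschitz constant `limsup_{y → x} |f y - f x| / d(y,x)`. -/
noncomputable def lipAt (f : M → ℝ) (x : M) : ℝ≥0∞ :=
  limsup (fun y => ENNReal.ofReal (|f y - f x| / dist y x)) (𝓝[≠] x)

/-- `G ∈ L²` is a relaxed slope of `f ∈ L²`: there are Lipschitz `u k ∈ L²` with
`u k → f` in `L²` and `g k ∈ L²` with `lip (u k) ≤ g k` a.e. and `g k → G` in `L²`. -/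
def IsRelaxedSlope (f G : M →ₘ[m] ℝ) : Prop :=
  MemLp f 2 m ∧ MemLp G 2 m ∧ ∃ u g : ℕ → M → ℝ,
    (∀ k, (∃ K, LipschitzWith K (u k)) ∧ MemLp (u k) 2 m ∧ MemLp (g k) 2 m ∧
      ∀ᵐ x ∂m, 0 ≤ g k x ∧ lipAt (u k) x ≤ ENNReal.ofReal (g k x)) ∧
    Tendsto (fun k => eLpNorm (fun x => u k x - f x) 2 m) atTop (𝓝 0) ∧
    Tendsto (fun k => eLpNorm (fun x => g k x - G x) 2 m) atTop (𝓝 0)

/-- `G` is the minimal relaxed slope of `f`. -/
def IsMinSlope (f G : M →ₘ[m] ℝ) : Prop :=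
  IsRelaxedSlope f G ∧ ∀ G', IsRelaxedSlope f G' → G ≤ G'

open Classical in
/-- The minimal relaxed slope `|Df|`. The Cheeger energy of `f ∈ W^{1,2}` is `½ ∫ |Df|² dm`. -/
noncomputable def slope (f : M →ₘ[m] ℝ) : M →ₘ[m] ℝ :=
  if h : ∃ G, IsMinSlope f G then h.choose else 0

variable (m) in
/-- `W^{1,2}(M)`, with `⟨∇f,∇g⟩` given by polarization of `|Df|²`, and with the functions
that have a bounded Lipschitz representative. -/
noncomputable def sob : Calc m where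
  W := {f | ∃ G, IsRelaxedSlope f G}
  Γ := fun f g => (4 : ℝ)⁻¹ • (slope (f + g) ^ 2 - slope (f - g) ^ 2)
  B := {f | ∃ u : M → ℝ, (∃ K, LipschitzWith K u) ∧ (∃ K : ℝ, ∀ x, |u x| ≤ K) ∧ f =ᵐ[m] u}

/-- `RCD(K,N)` for finite `N`, in its Eulerian form. -/
structure IsRCD (m : Measure M) (K N : ℝ) : Prop where
  quadratic : ∀ f ∈ (sob m).W, ∀ g ∈ (sob m).W,
    ∫ x, (slope (f + g) ^ 2) x ∂m + ∫ x, (slope (f - g) ^ 2) x ∂m
      = 2 * ∫ x, (slope f ^ 2) x ∂m + 2 * ∫ x, (slope g ^ 2) x ∂m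
  growth : ∃ (x₀ : M) (c : ℝ), ∀ r > 0,
    m (Metric.ball x₀ r) ≤ ENNReal.ofReal (c * Real.exp (c * r ^ 2))
  sobolev_to_lipschitz : ∀ f ∈ (sob m).W, slope f ≤ 1 → ∃ u : M → ℝ, LipschitzWith 1 u ∧ f =ᵐ[m] u
  bochner : (sob m).BE K N

end Metric

end Vale.Agent.P233
end

section

open MeasureTheory Filter Topology
open scoped ENNReal NNReal

namespace Vale.Agent.P233

variable {M : Type*} [MeasurableSpace M] {m : Measure M}

noncomputable instance instCommRingL0 : CommRing (M →ₘ[m] ℝ) :=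
  { (inferInstance : AddCommGroup (M →ₘ[m] ℝ)), (inferInstance : CommMonoid (M →ₘ[m] ℝ)) with
    left_distrib := fun a b c => by
      apply AEEqFun.ext
      filter_upwards [AEEqFun.coeFn_mul a (b + c), AEEqFun.coeFn_add b c,
        AEEqFun.coeFn_add (a * b) (a * c), AEEqFun.coeFn_mul a b, AEEqFun.coeFn_mul a c]
        with x h1 h2 h3 h4 h5
      simp only [h1, h2, h3, h4, h5, Pi.mul_apply, Pi.add_apply]
      ring
    right_distrib := fun a b c => by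
      apply AEEqFun.ext
      filter_upwards [AEEqFun.coeFn_mul (a + b) c, AEEqFun.coeFn_add a b,
        AEEqFun.coeFn_add (a * c) (b * c), AEEqFun.coeFn_mul a c, AEEqFun.coeFn_mul b c]
        with x h1 h2 h3 h4 h5
      simp only [h1, h2, h3, h4, h5, Pi.mul_apply, Pi.add_apply]
      ring
    zero_mul := fun a => by
      apply AEEqFun.ext
      filter_upwards [AEEqFun.coeFn_mul 0 a, AEEqFun.coeFn_zero (α := M) (μ := m) (β := ℝ)]
        with x h1 h2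
      simp only [h1, Pi.mul_apply, h2, Pi.zero_apply, zero_mul]
    mul_zero := fun a => by
      apply AEEqFun.ext
      filter_upwards [AEEqFun.coeFn_mul a 0, AEEqFun.coeFn_zero (α := M) (μ := m) (β := ℝ)]
        with x h1 h2
      simp only [h1, Pi.mul_apply, h2, Pi.zero_apply, mul_zero] }

noncomputable instance instAlgebraL0 : Algebra ℝ (M →ₘ[m] ℝ) :=
  Algebra.ofModule
    (fun r x y => by
      apply AEEqFun.ext
      filter_upwards [AEEqFun.coeFn_mul (r • x) y, AEEqFun.coeFn_smul r x,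
        AEEqFun.coeFn_smul r (x * y), AEEqFun.coeFn_mul x y] with a h1 h2 h3 h4
      simp only [h1, h2, h3, h4, Pi.mul_apply, Pi.smul_apply, smul_eq_mul]
      ring)
    (fun r x y => by
      apply AEEqFun.ext
      filter_upwards [AEEqFun.coeFn_mul x (r • y), AEEqFun.coeFn_smul r y,
        AEEqFun.coeFn_smul r (x * y), AEEqFun.coeFn_mul x y] with a h1 h2 h3 h4
      simp only [h1, h2, h3, h4, Pi.mul_apply, Pi.smul_apply, smul_eq_mul]
      ring)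


section ae
variable (f g : M →ₘ[m] ℝ)

theorem mul_ae : ⇑(f * g) =ᵐ[m] fun x => f x * g x := AEEqFun.coeFn_mul f g
theorem add_ae : ⇑(f + g) =ᵐ[m] fun x => f x + g x := AEEqFun.coeFn_add f g
theorem sub_ae : ⇑(f - g) =ᵐ[m] fun x => f x - g x := AEEqFun.coeFn_sub f g
theorem neg_ae : ⇑(-f) =ᵐ[m] fun x => - f x := AEEqFun.coeFn_neg f
theorem smul_ae (c : ℝ) : ⇑(c • f) =ᵐ[m] fun x => c * f x := AEEqFun.coeFn_smul c f
theorem sq_ae : ⇑(f ^ 2) =ᵐ[m] fun x => f x ^ 2 := AEEqFun.coeFn_pow f 2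
theorem one_ae : ⇑(1 : M →ₘ[m] ℝ) =ᵐ[m] fun _ => (1 : ℝ) := AEEqFun.coeFn_one
theorem zero_ae : ⇑(0 : M →ₘ[m] ℝ) =ᵐ[m] fun _ => (0 : ℝ) := AEEqFun.coeFn_zero

variable {f g}
theorem le_iff_ae : f ≤ g ↔ ∀ᵐ x ∂m, f x ≤ g x := AEEqFun.coeFn_le.symm
theorem nonneg_iff_ae : 0 ≤ f ↔ ∀ᵐ x ∂m, 0 ≤ f x := by
  rw [le_iff_ae]
  constructor <;> intro h <;> filter_upwards [h, zero_ae (M := M) (m := m)] with x h1 h2
  · rwa [h2] at h1
  · rwa [h2]
theorem eq_iff_ae : f = g ↔ ∀ᵐ x ∂m, f x = g x := ⟨fun h => by rw [h]; simp, fun h => AEEqFun.ext h⟩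

end ae

instance instOrderedRingL0 : IsOrderedRing (M →ₘ[m] ℝ) where
  add_le_add_left a b h c := by
    rw [le_iff_ae] at *
    filter_upwards [h, add_ae a c, add_ae b c] with x h1 h2 h3
    rw [h2, h3]; linarith
  zero_le_one := by
    rw [le_iff_ae]
    filter_upwards [zero_ae (M := M) (m := m), one_ae (M := M) (m := m)] with x h1 h2
    rw [h1, h2]; norm_num
  mul_le_mul_of_nonneg_left a ha b c h := by
    rw [nonneg_iff_ae] at ha
    rw [le_iff_ae] at *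
    filter_upwards [h, ha, mul_ae a b, mul_ae a c] with x h1 h2 h3 h4
    rw [h3, h4]; exact mul_le_mul_of_nonneg_left h1 h2
  mul_le_mul_of_nonneg_right a ha b c h := by
    rw [nonneg_iff_ae] at ha
    rw [le_iff_ae] at *
    filter_upwards [h, ha, mul_ae b a, mul_ae c a] with x h1 h2 h3 h4
    rw [h3, h4]; exact mul_le_mul_of_nonneg_right h1 h2

theorem smul_nonneg' {c : ℝ} (hc : 0 ≤ c) {f : M →ₘ[m] ℝ} (hf : 0 ≤ f) : 0 ≤ c • f := by
  rw [nonneg_iff_ae] at *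
  filter_upwards [hf, smul_ae f c] with x h1 h2
  rw [h2]; positivity

theorem sq_nonneg' (f : M →ₘ[m] ℝ) : 0 ≤ f ^ 2 := by
  rw [nonneg_iff_ae]
  filter_upwards [sq_ae f] with x h
  rw [h]; positivity

/-! ### membership in `L^p` -/
section mem
variable {p : ℝ≥0∞} {f g : M →ₘ[m] ℝ}

theorem mem_add (hf : MemLp f p m) (hg : MemLp g p m) : MemLp (f + g : M →ₘ[m] ℝ) p m :=
  (memLp_congr_ae (AEEqFun.coeFn_add f g)).2 (hf.add hg)
theorem mem_sub (hf : MemLp f p m) (hg : MemLp g p m) : MemLp (f - g : M →ₘ[m] ℝ) p m :=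
  (memLp_congr_ae (AEEqFun.coeFn_sub f g)).2 (hf.sub hg)
theorem mem_neg (hf : MemLp f p m) : MemLp (-f : M →ₘ[m] ℝ) p m :=
  (memLp_congr_ae (AEEqFun.coeFn_neg f)).2 hf.neg
theorem mem_smul (c : ℝ) (hf : MemLp f p m) : MemLp (c • f : M →ₘ[m] ℝ) p m :=
  (memLp_congr_ae (AEEqFun.coeFn_smul c f)).2 (hf.const_smul c)
theorem mem_zero : MemLp (0 : M →ₘ[m] ℝ) p m :=
  (memLp_congr_ae AEEqFun.coeFn_zero).2 MemLp.zero
theorem mem_top_one : MemLp (1 : M →ₘ[m] ℝ) ∞ m :=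
  (memLp_congr_ae AEEqFun.coeFn_one).2 (memLp_top_const 1)
theorem mem_mul_top (hf : MemLp f ∞ m) (hg : MemLp g p m) : MemLp (f * g : M →ₘ[m] ℝ) p m :=
  (memLp_congr_ae (AEEqFun.coeFn_mul f g)).2 (MemLp.mul hg hf)
theorem mem_top_mul (hf : MemLp f p m) (hg : MemLp g ∞ m) : MemLp (f * g : M →ₘ[m] ℝ) p m := by
  rw [mul_comm]; exact mem_mul_top hg hf
theorem mem_mul_22 (hf : MemLp f 2 m) (hg : MemLp g 2 m) : MemLp (f * g : M →ₘ[m] ℝ) 1 m :=
  (memLp_congr_ae (AEEqFun.coeFn_mul f g)).2 (MemLp.mul hg hf)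
theorem mem_sq (hf : MemLp f 2 m) : MemLp (f ^ 2 : M →ₘ[m] ℝ) 1 m := by
  rw [sq]; exact mem_mul_22 hf hf
theorem mem_top_iff : MemLp f ∞ m ↔ ∃ K : ℝ, ∀ᵐ x ∂m, |f x| ≤ K := by
  constructor
  · intro h
    refine ⟨(eLpNormEssSup f m).toReal, ?_⟩
    have h2 : eLpNormEssSup f m ≠ ∞ := by
      have := h.2
      rw [eLpNorm_exponent_top] at this
      exact this.ne
    filter_upwards [ae_le_eLpNormEssSup (f := f) (μ := m)] with x hx
    rw [← Real.norm_eq_abs, ← toReal_enorm]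
    exact ENNReal.toReal_mono h2 hx
  · rintro ⟨K, hK⟩
    exact memLp_top_of_bound f.aestronglyMeasurable K (by simpa using hK)
/-- domination -/
theorem mem_of_le (hg : MemLp g p m) (h : ∀ᵐ x ∂m, |f x| ≤ |g x|) : MemLp f p m :=
  hg.mono f.aestronglyMeasurable (by simpa using h)
end mem

/-! ### the integral -/

/-- The integral of a class of functions. -/
noncomputable def I (f : M →ₘ[m] ℝ) : ℝ := ∫ x, f x ∂m

section integral
variable {f g : M →ₘ[m] ℝ}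
theorem int_of_mem (hf : MemLp f 1 m) : Integrable f m := memLp_one_iff_integrable.1 hf
theorem I_add (hf : MemLp f 1 m) (hg : MemLp g 1 m) : I (f + g) = I f + I g := by
  unfold I
  rw [integral_congr_ae (add_ae f g), integral_add (int_of_mem hf) (int_of_mem hg)]
theorem I_sub (hf : MemLp f 1 m) (hg : MemLp g 1 m) : I (f - g) = I f - I g := by
  unfold I
  rw [integral_congr_ae (sub_ae f g), integral_sub (int_of_mem hf) (int_of_mem hg)]
theorem I_neg : I (-f) = - I f := by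
  unfold I
  rw [integral_congr_ae (neg_ae f), integral_neg]
theorem I_smul (c : ℝ) : I (c • f) = c * I f := by
  unfold I
  rw [integral_congr_ae (smul_ae f c), integral_const_mul]
theorem I_zero : I (0 : M →ₘ[m] ℝ) = 0 := by
  unfold I
  rw [integral_congr_ae zero_ae]; simp
theorem I_mono (hf : MemLp f 1 m) (hg : MemLp g 1 m) (h : f ≤ g) : I f ≤ I g :=
  integral_mono_ae (int_of_mem hf) (int_of_mem hg) (le_iff_ae.1 h)
theorem I_nonneg (h : 0 ≤ f) : 0 ≤ I f :=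
  integral_nonneg_of_ae (nonneg_iff_ae.1 h)
theorem I_eq_zero_of_nonneg (hf : MemLp f 1 m) (h : 0 ≤ f) (h0 : I f = 0) : f = 0 := by
  rw [eq_iff_ae]
  have := (integral_eq_zero_iff_of_nonneg_ae (nonneg_iff_ae.1 h) (int_of_mem hf)).1 h0
  filter_upwards [this, zero_ae (M := M) (m := m)] with x h1 h2
  rw [h1, h2]; rfl
end integral

end Vale.Agent.P233
end

section

open MeasureTheory Filter Topology
open scoped ENNReal NNReal

namespace Vale.Agent.P233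

variable {M : Type*} [MeasurableSpace M] {m : Measure M}

/-- The square of the Sobolev norm. -/
noncomputable def Calc.nrm2 (C : Calc m) (f : M →ₘ[m] ℝ) : ℝ := I (f ^ 2) + I (C.Γ f f)

/-- Axioms of a calculus: a strongly local Dirichlet form with carre du champ. -/
structure IsDir (C : Calc m) : Prop where
  zero_mem : (0 : M →ₘ[m] ℝ) ∈ C.W
  add_mem : ∀ f ∈ C.W, ∀ g ∈ C.W, f + g ∈ C.W
  smul_mem : ∀ (c : ℝ), ∀ f ∈ C.W, c • f ∈ C.W
  memLp : ∀ f ∈ C.W, MemLp f 2 m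
  symm : ∀ f ∈ C.W, ∀ g ∈ C.W, C.Γ f g = C.Γ g f
  add_left : ∀ f ∈ C.W, ∀ g ∈ C.W, ∀ h ∈ C.W, C.Γ (f + g) h = C.Γ f h + C.Γ g h
  smul_left : ∀ (c : ℝ), ∀ f ∈ C.W, ∀ g ∈ C.W, C.Γ (c • f) g = c • C.Γ f g
  nonneg : ∀ f ∈ C.W, 0 ≤ C.Γ f f
  mem1 : ∀ f ∈ C.W, MemLp (C.Γ f f) 1 m
  /-- `W` is a Hilbert space -/
  complete : ∀ u : ℕ → M →ₘ[m] ℝ, (∀ n, u n ∈ C.W) →
    (∀ ε > 0, ∃ N, ∀ n ≥ N, ∀ k ≥ N, C.nrm2 (u n - u k) < ε) →
    ∃ f ∈ C.W, Tendsto (fun n => C.nrm2 (u n - f)) atTop (𝓝 0)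
  /-- chain rule -/
  chain : ∀ f ∈ C.W, ∀ (φ φ' : ℝ → ℝ) (hφ : Continuous φ) (hφ' : Continuous φ'),
    (∀ t, HasDerivAt φ (φ' t) t) → φ 0 = 0 → (∃ K : ℝ, ∀ t, |φ' t| ≤ K) →
    AEEqFun.comp φ hφ f ∈ C.W ∧
      ∀ g ∈ C.W, C.Γ (AEEqFun.comp φ hφ f) g = AEEqFun.comp φ' hφ' f * C.Γ f g
  dense_L2 : ∀ f : M →ₘ[m] ℝ, MemLp f 2 m → ∀ ε > 0, ∃ g ∈ C.W, I ((f - g) ^ 2) < ε

/-- Further axioms: density of Lipschitz functions, good cut-off functions, and the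
description of Lipschitz functions by their gradient. -/
structure IsGamma (C : Calc m) : Prop extends IsDir C where
  dense_lip : ∀ f ∈ C.W, ∀ ε > 0, ∃ g ∈ C.W, MemLp g ∞ m ∧ MemLp (C.Γ g g) ∞ m ∧
    C.nrm2 (f - g) < ε
  cutoff : ∃ η : ℕ → M →ₘ[m] ℝ, (∀ k, η k ∈ C.W ∧ 0 ≤ η k ∧ η k ≤ 1 ∧
    C.Γ (η k) (η k) ≤ ((k : ℝ) + 1)⁻¹ • 1) ∧ (∀ k, η k ≤ η (k + 1)) ∧
    ∀ᵐ x ∂m, Tendsto (fun k => η k x) atTop (𝓝 1)
  lip_iff : ∀ f ∈ C.W, (f ∈ C.B ↔ MemLp f ∞ m ∧ MemLp (C.Γ f f) ∞ m)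

/-- bounded Sobolev functions -/
def Calc.A (C : Calc m) : Set (M →ₘ[m] ℝ) := {f | f ∈ C.W ∧ MemLp f ∞ m}

/-- bounded functions that differ from a Sobolev function by a constant -/
def Calc.AP (C : Calc m) : Set (M →ₘ[m] ℝ) := {f | ∃ c : ℝ, f - c • (1 : M →ₘ[m] ℝ) ∈ C.A}

end Vale.Agent.P233
end

section

open MeasureTheory Filter Topology
open scoped ENNReal NNReal InnerProductSpace

namespace Vale.Agent.P233

variable {M : Type*} [MeasurableSpace M] {m : Measure M}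

/-! ### the product in `L²` -/

variable {f g h : M →ₘ[m] ℝ}

theorem I_mul_eq_inner (hf : MemLp f 2 m) (hg : MemLp g 2 m) :
    I (f * g) = ⟪hf.toLp, hg.toLp⟫_ℝ := by
  rw [L2.inner_def]
  unfold I
  refine integral_congr_ae ?_
  filter_upwards [mul_ae f g, hf.coeFn_toLp, hg.coeFn_toLp] with x h1 h2 h3
  rw [h1, h2, h3]
  simp [mul_comm]

theorem I_sq_eq_norm (hf : MemLp f 2 m) : I (f ^ 2) = ‖hf.toLp‖ ^ 2 := by
  rw [sq, I_mul_eq_inner hf hf, real_inner_self_eq_norm_sq]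

theorem I_cs (hf : MemLp f 2 m) (hg : MemLp g 2 m) : I (f * g) ^ 2 ≤ I (f ^ 2) * I (g ^ 2) := by
  rw [I_mul_eq_inner hf hg, I_sq_eq_norm hf, I_sq_eq_norm hg, ← mul_pow, sq_le_sq]
  refine (abs_real_inner_le_norm _ _).trans ?_
  exact le_abs_self _

theorem I_abs_le (hf : MemLp f 2 m) (hg : MemLp g 2 m) :
    |I (f * g)| ≤ Real.sqrt (I (f ^ 2)) * Real.sqrt (I (g ^ 2)) := by
  rw [I_mul_eq_inner hf hg, I_sq_eq_norm hf, I_sq_eq_norm hg, Real.sqrt_sq (norm_nonneg _),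
    Real.sqrt_sq (norm_nonneg _)]
  exact abs_real_inner_le_norm _ _

theorem I_sq_nonneg (f : M →ₘ[m] ℝ) : 0 ≤ I (f ^ 2) := I_nonneg (sq_nonneg' f)

theorem I_sq_eq_zero (hf : MemLp f 2 m) (h : I (f ^ 2) = 0) : f = 0 := by
  have h1 := I_eq_zero_of_nonneg (mem_sq hf) (sq_nonneg' f) h
  rw [eq_iff_ae] at h1 ⊢
  filter_upwards [h1, sq_ae f, zero_ae (M := M) (m := m)] with x a1 a2 a3
  rw [a2, a3] at a1
  rw [a3]
  exact pow_eq_zero_iff (two_ne_zero) |>.1 a1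

theorem eLpNorm_eq_sqrt_I {f : M →ₘ[m] ℝ} (hf : MemLp f 2 m) :
    eLpNorm f 2 m = ENNReal.ofReal (Real.sqrt (I (f ^ 2))) := by
  rw [I_sq_eq_norm hf, Real.sqrt_sq (norm_nonneg _), Lp.norm_toLp,
    ENNReal.ofReal_toReal hf.eLpNorm_lt_top.ne]

/-- `L²` convergence -/
theorem tendsto_eLpNorm_of_I_sq {u : ℕ → M →ₘ[m] ℝ} {f : M →ₘ[m] ℝ}
    (hu : ∀ n, MemLp (u n) 2 m) (hf : MemLp f 2 m)
    (h : Tendsto (fun n => I ((u n - f) ^ 2)) atTop (𝓝 0)) :
    Tendsto (fun n => eLpNorm ((⇑(u n) : M → ℝ) - ⇑f) 2 m) atTop (𝓝 0) := by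
  have h1 : ∀ n, eLpNorm ((⇑(u n) : M → ℝ) - ⇑f) 2 m =
      ENNReal.ofReal (Real.sqrt (I ((u n - f) ^ 2))) := by
    intro n
    rw [← eLpNorm_eq_sqrt_I (mem_sub (hu n) hf)]
    exact eLpNorm_congr_ae (AEEqFun.coeFn_sub (u n) f).symm
  simp_rw [h1]
  have h2 := ENNReal.tendsto_ofReal ((Real.continuous_sqrt.tendsto 0).comp h)
  simpa [Function.comp_def] using h2

/-- subsequence converging almost everywhere -/
theorem exists_subseq_of_I_sq {u : ℕ → M →ₘ[m] ℝ} {f : M →ₘ[m] ℝ}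
    (hu : ∀ n, MemLp (u n) 2 m) (hf : MemLp f 2 m)
    (h : Tendsto (fun n => I ((u n - f) ^ 2)) atTop (𝓝 0)) :
    ∃ ns : ℕ → ℕ, StrictMono ns ∧ ∀ᵐ x ∂m, Tendsto (fun n => u (ns n) x) atTop (𝓝 (f x)) :=
  (tendstoInMeasure_of_tendsto_eLpNorm (by norm_num) (fun n => (hu n).1) hf.1
    (tendsto_eLpNorm_of_I_sq hu hf h)).exists_seq_tendsto_ae

/-- dominated convergence -/
theorem I_tendsto_of_dominated {u : ℕ → M →ₘ[m] ℝ} {f : M →ₘ[m] ℝ} {G : M → ℝ}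
    (hG : Integrable G m) (hb : ∀ n, ∀ᵐ x ∂m, |u n x| ≤ G x)
    (h : ∀ᵐ x ∂m, Tendsto (fun n => u n x) atTop (𝓝 (f x))) :
    Tendsto (fun n => I (u n)) atTop (𝓝 (I f)) :=
  tendsto_integral_of_dominated_convergence G (fun n => (u n).aestronglyMeasurable) hG
    (by simpa using hb) h

/-- the elementary inequality `(a+b)² ≤ 2a²+2b²` integrated -/
theorem I_sq_add_le (hf : MemLp f 2 m) (hg : MemLp g 2 m) :
    I ((f + g) ^ 2) ≤ 2 * I (f ^ 2) + 2 * I (g ^ 2) := by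
  rw [← I_smul, ← I_smul, ← I_add (mem_smul _ (mem_sq hf)) (mem_smul _ (mem_sq hg))]
  refine I_mono (mem_sq (mem_add hf hg)) (mem_add (mem_smul _ (mem_sq hf)) (mem_smul _ (mem_sq hg)))
    ?_
  rw [le_iff_ae]
  filter_upwards [sq_ae (f + g), add_ae f g, add_ae ((2 : ℝ) • f ^ 2) ((2 : ℝ) • g ^ 2),
    smul_ae (f ^ 2) (2 : ℝ), smul_ae (g ^ 2) (2 : ℝ), sq_ae f, sq_ae g] with x b1 b2 b3 b4 b5 b6 b7
  rw [b1, b2, b3, b4, b5, b6, b7]
  linarith only [sq_nonneg (f x - g x)]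

theorem memLp_two_of_sq {F : M →ₘ[m] ℝ} (h : MemLp (F ^ 2 : M →ₘ[m] ℝ) 1 m) : MemLp F 2 m := by
  rw [memLp_two_iff_integrable_sq F.aestronglyMeasurable]
  exact (int_of_mem h).congr (sq_ae F)

end Vale.Agent.P233
end

section

open MeasureTheory Filter Topology
open scoped ENNReal NNReal

namespace Vale.Agent.P233

variable {M : Type*} [MeasurableSpace M] {m : Measure M} {C : Calc m}

/-- discriminant -/
theorem disc_of_forall {a b c : ℝ} (h : ∀ t : ℝ, 0 ≤ a + 2 * t * b + t ^ 2 * c) :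
    b ^ 2 ≤ a * c := by
  have h1 : discrim c (2 * b) a ≤ 0 := discrim_le_zero fun t => by
    have := h t
    linarith only [this]
  unfold discrim at h1
  nlinarith

theorem forall_real_of_rat {a b c : ℝ} (h : ∀ q : ℚ, 0 ≤ a + 2 * (q : ℝ) * b + (q : ℝ) ^ 2 * c)
    (t : ℝ) : 0 ≤ a + 2 * t * b + t ^ 2 * c := by
  have hcont : Continuous fun t : ℝ => a + 2 * t * b + t ^ 2 * c := by fun_prop
  have hcl : IsClosed {t : ℝ | 0 ≤ a + 2 * t * b + t ^ 2 * c} :=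
    isClosed_le continuous_const hcont
  have hd : Dense {t : ℝ | 0 ≤ a + 2 * t * b + t ^ 2 * c} :=
    Rat.denseRange_cast.mono (by rintro _ ⟨q, rfl⟩; exact h q)
  have := hcl.closure_eq ▸ hd.closure_eq
  exact (this ▸ Set.mem_univ t : t ∈ {t : ℝ | 0 ≤ a + 2 * t * b + t ^ 2 * c})

namespace IsDir

variable (hC : IsDir C)
include hC

section linear
variable {f g h : M →ₘ[m] ℝ}

theorem neg_mem (hf : f ∈ C.W) : -f ∈ C.W := by
  have := hC.smul_mem (-1) f hf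
  simpa using this

theorem sub_mem (hf : f ∈ C.W) (hg : g ∈ C.W) : f - g ∈ C.W := by
  rw [sub_eq_add_neg]; exact hC.add_mem f hf _ (hC.neg_mem hg)

theorem Γ_add_right (hf : f ∈ C.W) (hg : g ∈ C.W) (hh : h ∈ C.W) :
    C.Γ f (g + h) = C.Γ f g + C.Γ f h := by
  rw [hC.symm f hf _ (hC.add_mem g hg h hh), hC.add_left g hg h hh f hf, hC.symm g hg f hf,
    hC.symm h hh f hf]

theorem Γ_smul_right (c : ℝ) (hf : f ∈ C.W) (hg : g ∈ C.W) :
    C.Γ f (c • g) = c • C.Γ f g := by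
  rw [hC.symm f hf _ (hC.smul_mem c g hg), hC.smul_left c g hg f hf, hC.symm g hg f hf]

theorem Γ_neg_left (hf : f ∈ C.W) (hg : g ∈ C.W) : C.Γ (-f) g = - C.Γ f g := by
  have := hC.smul_left (-1) f hf g hg
  simpa using this

theorem Γ_neg_right (hf : f ∈ C.W) (hg : g ∈ C.W) : C.Γ f (-g) = - C.Γ f g := by
  have := hC.Γ_smul_right (-1) hf hg
  simpa using this

theorem Γ_sub_left (hf : f ∈ C.W) (hg : g ∈ C.W) (hh : h ∈ C.W) :
    C.Γ (f - g) h = C.Γ f h - C.Γ g h := by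
  rw [sub_eq_add_neg, hC.add_left f hf _ (hC.neg_mem hg) h hh, hC.Γ_neg_left hg hh, ← sub_eq_add_neg]

theorem Γ_sub_right (hf : f ∈ C.W) (hg : g ∈ C.W) (hh : h ∈ C.W) :
    C.Γ f (g - h) = C.Γ f g - C.Γ f h := by
  rw [sub_eq_add_neg, hC.Γ_add_right hf hg (hC.neg_mem hh), hC.Γ_neg_right hf hh, ← sub_eq_add_neg]

theorem Γ_zero_left (hf : f ∈ C.W) : C.Γ 0 f = 0 := by
  have := hC.smul_left 0 0 hC.zero_mem f hf
  simpa using this

/-- expansion of `Γ(f + tg, f + tg)` -/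
theorem Γ_expand (t : ℝ) (hf : f ∈ C.W) (hg : g ∈ C.W) :
    C.Γ (f + t • g) (f + t • g) = C.Γ f f + (2 * t) • C.Γ f g + (t ^ 2) • C.Γ g g := by
  have htg := hC.smul_mem t g hg
  have hs := hC.add_mem f hf _ htg
  rw [hC.add_left f hf _ htg _ hs, hC.Γ_add_right hf hf htg, hC.Γ_add_right htg hf htg,
    hC.Γ_smul_right t hf hg, hC.Γ_smul_right t htg hg, hC.smul_left t g hg f hf,
    hC.smul_left t g hg g hg, hC.symm g hg f hf, smul_smul]
  module

end linear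

section cs
variable {f g h : M →ₘ[m] ℝ}

theorem Γ_expand_ae (t : ℝ) (hf : f ∈ C.W) (hg : g ∈ C.W) :
    ∀ᵐ x ∂m, 0 ≤ C.Γ f f x + 2 * t * C.Γ f g x + t ^ 2 * C.Γ g g x := by
  have h1 := hC.nonneg _ (hC.add_mem f hf _ (hC.smul_mem t g hg))
  rw [hC.Γ_expand t hf hg, nonneg_iff_ae] at h1
  filter_upwards [h1, add_ae (C.Γ f f + (2 * t) • C.Γ f g) ((t ^ 2) • C.Γ g g),
    add_ae (C.Γ f f) ((2 * t) • C.Γ f g), smul_ae (C.Γ f g) (2 * t),
    smul_ae (C.Γ g g) (t ^ 2)] with x a1 a2 a3 a4 a5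
  rwa [a2, a3, a4, a5] at a1

theorem Γ_cs_ae (hf : f ∈ C.W) (hg : g ∈ C.W) :
    ∀ᵐ x ∂m, C.Γ f g x ^ 2 ≤ C.Γ f f x * C.Γ g g x := by
  have h1 : ∀ᵐ x ∂m, ∀ q : ℚ, 0 ≤ C.Γ f f x + 2 * (q : ℝ) * C.Γ f g x + (q : ℝ) ^ 2 * C.Γ g g x :=
    ae_all_iff.2 fun q => hC.Γ_expand_ae q hf hg
  filter_upwards [h1] with x hx
  exact disc_of_forall (forall_real_of_rat hx)

theorem Γ_nonneg_ae (hf : f ∈ C.W) : ∀ᵐ x ∂m, 0 ≤ C.Γ f f x := nonneg_iff_ae.1 (hC.nonneg f hf)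

theorem Γ_abs_ae (hf : f ∈ C.W) (hg : g ∈ C.W) :
    ∀ᵐ x ∂m, |C.Γ f g x| ≤ Real.sqrt (C.Γ f f x) * Real.sqrt (C.Γ g g x) := by
  filter_upwards [hC.Γ_cs_ae hf hg, hC.Γ_nonneg_ae hf] with x h1 h2
  rw [← Real.sqrt_mul h2]
  exact Real.abs_le_sqrt h1

theorem Γ_mem1 (hf : f ∈ C.W) (hg : g ∈ C.W) : MemLp (C.Γ f g) 1 m := by
  refine mem_of_le (mem_add (hC.mem1 f hf) (hC.mem1 g hg)) ?_
  filter_upwards [hC.Γ_cs_ae hf hg, hC.Γ_nonneg_ae hf, hC.Γ_nonneg_ae hg,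
    add_ae (C.Γ f f) (C.Γ g g)] with x h1 h2 h3 h4
  rw [h4, abs_of_nonneg (add_nonneg h2 h3)]
  refine abs_le_of_sq_le_sq ?_ (add_nonneg h2 h3)
  linarith only [mul_nonneg (sub_nonneg.2 h3) (sub_nonneg.2 h3), mul_nonneg (sub_nonneg.2 h2) (sub_nonneg.2 h3), mul_nonneg (sub_nonneg.2 h2) (sub_nonneg.2 h2), h1]

/-- if `|∇f|` is bounded then `Γ f g ∈ L²` -/
theorem Γ_mem2 (hf : f ∈ C.W) (hf' : MemLp (C.Γ f f) ∞ m) (hg : g ∈ C.W) :
    MemLp (C.Γ f g) 2 m := by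
  refine memLp_two_of_sq (mem_of_le (mem_mul_top hf' (hC.mem1 g hg)) ?_)
  filter_upwards [hC.Γ_cs_ae hf hg, hC.Γ_nonneg_ae hf, hC.Γ_nonneg_ae hg,
    mul_ae (C.Γ f f) (C.Γ g g), sq_ae (C.Γ f g)] with x h1 h2 h3 h4 h5
  rw [h4, h5, abs_of_nonneg (mul_nonneg h2 h3), abs_of_nonneg (sq_nonneg _)]
  exact h1

theorem Γ_memTop (hf : f ∈ C.W) (hf' : MemLp (C.Γ f f) ∞ m) (hg : g ∈ C.W)
    (hg' : MemLp (C.Γ g g) ∞ m) : MemLp (C.Γ f g) ∞ m := by
  refine mem_of_le (mem_add hf' hg') ?_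
  filter_upwards [hC.Γ_cs_ae hf hg, hC.Γ_nonneg_ae hf, hC.Γ_nonneg_ae hg,
    add_ae (C.Γ f f) (C.Γ g g)] with x h1 h2 h3 h4
  rw [h4, abs_of_nonneg (add_nonneg h2 h3)]
  refine abs_le_of_sq_le_sq ?_ (add_nonneg h2 h3)
  linarith only [mul_nonneg (sub_nonneg.2 h3) (sub_nonneg.2 h3), mul_nonneg (sub_nonneg.2 h2) (sub_nonneg.2 h3), mul_nonneg (sub_nonneg.2 h2) (sub_nonneg.2 h2), h1]

theorem E_cs (hf : f ∈ C.W) (hg : g ∈ C.W) :
    I (C.Γ f g) ^ 2 ≤ I (C.Γ f f) * I (C.Γ g g) := by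
  refine disc_of_forall fun t => ?_
  have h1 := I_nonneg (hC.nonneg _ (hC.add_mem f hf _ (hC.smul_mem t g hg)))
  rw [hC.Γ_expand t hf hg, I_add (mem_add (hC.mem1 f hf) (mem_smul _ (hC.Γ_mem1 hf hg)))
    (mem_smul _ (hC.mem1 g hg)), I_add (hC.mem1 f hf) (mem_smul _ (hC.Γ_mem1 hf hg)), I_smul,
    I_smul] at h1
  exact h1

theorem E_nonneg (hf : f ∈ C.W) : 0 ≤ I (C.Γ f f) := I_nonneg (hC.nonneg f hf)

theorem E_abs_le (hf : f ∈ C.W) (hg : g ∈ C.W) :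
    |I (C.Γ f g)| ≤ Real.sqrt (I (C.Γ f f)) * Real.sqrt (I (C.Γ g g)) := by
  rw [← Real.sqrt_mul (hC.E_nonneg hf)]
  exact Real.abs_le_sqrt (hC.E_cs hf hg)

/-- `∫ |Γ f g| ≤ √E(f) √E(g)` -/
theorem int_abs_Γ_le (hf : f ∈ C.W) (hg : g ∈ C.W) :
    ∫ x, |C.Γ f g x| ∂m ≤ Real.sqrt (I (C.Γ f f)) * Real.sqrt (I (C.Γ g g)) := by
  have hsc : Continuous Real.sqrt := Real.continuous_sqrt
  have aux : ∀ k : M →ₘ[m] ℝ, k ∈ C.W → MemLp (AEEqFun.comp Real.sqrt hsc (C.Γ k k)) 2 m ∧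
      AEEqFun.comp Real.sqrt hsc (C.Γ k k) ^ 2 = C.Γ k k := by
    intro k hk
    have e : AEEqFun.comp Real.sqrt hsc (C.Γ k k) ^ 2 = C.Γ k k := by
      rw [eq_iff_ae]
      filter_upwards [sq_ae (AEEqFun.comp Real.sqrt hsc (C.Γ k k)),
        AEEqFun.coeFn_comp Real.sqrt hsc (C.Γ k k), hC.Γ_nonneg_ae hk] with x h1 h2 h3
      rw [h1, h2, Function.comp_apply, Real.sq_sqrt h3]
    refine ⟨memLp_two_of_sq ?_, e⟩
    rw [e]; exact hC.mem1 k hk
  obtain ⟨a1, a2⟩ := aux f hf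
  obtain ⟨b1, b2⟩ := aux g hg
  have h1 := I_abs_le a1 b1
  rw [a2, b2] at h1
  refine le_trans ?_ ((le_abs_self _).trans h1)
  unfold I
  refine integral_mono_ae (int_of_mem (hC.Γ_mem1 hf hg)).abs (int_of_mem (mem_mul_22 a1 b1)) ?_
  filter_upwards [hC.Γ_abs_ae hf hg, mul_ae (AEEqFun.comp Real.sqrt hsc (C.Γ f f))
    (AEEqFun.comp Real.sqrt hsc (C.Γ g g)), AEEqFun.coeFn_comp Real.sqrt hsc (C.Γ f f),
    AEEqFun.coeFn_comp Real.sqrt hsc (C.Γ g g)] with x h1 h2 h3 h4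
  rw [h2, h3, h4]
  exact h1

end cs

section algebra
variable {f g h : M →ₘ[m] ℝ}

theorem chain_bdd (hf : f ∈ C.W) {K : ℝ} (hK : ∀ᵐ x ∂m, |f x| ≤ K)
    {φ φ' : ℝ → ℝ} (hφ : Continuous φ) (hφ' : Continuous φ')
    (hd : ∀ t ∈ Set.Icc (-K) K, HasDerivWithinAt φ (φ' t) (Set.Icc (-K) K) t) (h0 : φ 0 = 0) :
    AEEqFun.comp φ hφ f ∈ C.W ∧
      ∀ g ∈ C.W, C.Γ (AEEqFun.comp φ hφ f) g = AEEqFun.comp φ' hφ' f * C.Γ f g := by
  rcases lt_or_ge K 0 with hK0 | hK0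
  · -- trivial measure
    have hfalse : ∀ᵐ x ∂m, False := by
      filter_upwards [hK] with x hx
      linarith [abs_nonneg (f x)]
    have heq : ∀ a b : M →ₘ[m] ℝ, a = b := fun a b => by
      rw [eq_iff_ae]
      filter_upwards [hfalse] with x hx
      exact hx.elim
    refine ⟨?_, fun g _ => heq _ _⟩
    rw [heq (AEEqFun.comp φ hφ f) f]
    exact hf
  set cl : ℝ → ℝ := fun t => max (-K) (min K t) with hcl
  have hclc : Continuous cl := continuous_const.max (continuous_const.min continuous_id)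
  have hclm : ∀ t, cl t ∈ Set.Icc (-K) K := fun t =>
    ⟨le_max_left _ _, max_le (by linarith) (min_le_left _ _)⟩
  have hcleq : ∀ t ∈ Set.Icc (-K) K, cl t = t := by
    intro t ht
    simp only [hcl]
    rw [min_eq_right ht.2, max_eq_right ht.1]
  set ψ' : ℝ → ℝ := fun t => φ' (cl t) with hψ'
  have hψ'c : Continuous ψ' := hφ'.comp hclc
  set ψ : ℝ → ℝ := fun t => ∫ s in (0 : ℝ)..t, ψ' s with hψ
  have hψd : ∀ t, HasDerivAt ψ (ψ' t) t := fun t =>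
    (hψ'c.integral_hasStrictDerivAt 0 t).hasDerivAt
  have hψc : Continuous ψ := continuous_iff_continuousAt.2 fun t => (hψd t).continuousAt
  have hψ0 : ψ 0 = 0 := by simp [hψ]
  obtain ⟨B, hB⟩ : ∃ B : ℝ, ∀ t, |ψ' t| ≤ B := by
    obtain ⟨B, hB⟩ := (isCompact_Icc (a := -K) (b := K)).exists_bound_of_continuousOn
      hφ'.continuousOn
    exact ⟨B, fun t => hB _ (hclm t)⟩
  have hψφ : ∀ t ∈ Set.Icc (-K) K, ψ t = φ t := by
    intro t ht
    have h1 := Convex.norm_image_sub_le_of_norm_hasDerivWithin_le (f := fun t => ψ t - φ t)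
      (f' := fun t => ψ' t - φ' t) (s := Set.Icc (-K) K) (C := 0)
      (fun x hx => ((hψd x).hasDerivWithinAt).sub (hd x hx))
      (fun x hx => by simp only [hψ']; rw [hcleq x hx]; simp) (convex_Icc _ _)
      (show (0 : ℝ) ∈ Set.Icc (-K) K from ⟨by linarith, hK0⟩) ht
    rw [zero_mul, norm_le_zero_iff] at h1
    rw [hψ0, h0] at h1
    linarith
  obtain ⟨h1, h2⟩ := hC.chain f hf ψ ψ' hψc hψ'c hψd hψ0 ⟨B, hB⟩
  have e1 : AEEqFun.comp φ hφ f = AEEqFun.comp ψ hψc f := by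
    rw [eq_iff_ae]
    filter_upwards [AEEqFun.coeFn_comp φ hφ f, AEEqFun.coeFn_comp ψ hψc f, hK] with x a1 a2 a3
    rw [a1, a2, Function.comp_apply, Function.comp_apply, hψφ _ (abs_le.1 a3)]
  have e2 : AEEqFun.comp φ' hφ' f = AEEqFun.comp ψ' hψ'c f := by
    rw [eq_iff_ae]
    filter_upwards [AEEqFun.coeFn_comp φ' hφ' f, AEEqFun.coeFn_comp ψ' hψ'c f, hK]
      with x a1 a2 a3
    rw [a1, a2, Function.comp_apply, Function.comp_apply]
    simp only [hψ']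
    rw [hcleq _ (abs_le.1 a3)]
  rw [e1, e2]
  exact ⟨h1, h2⟩

theorem sq_mem (hf : f ∈ C.A) : f ^ 2 ∈ C.W ∧ ∀ g ∈ C.W, C.Γ (f ^ 2) g = 2 * f * C.Γ f g := by
  obtain ⟨K, hK⟩ := mem_top_iff.1 hf.2
  have hφ : Continuous fun t : ℝ => t ^ 2 := by fun_prop
  have hφ' : Continuous fun t : ℝ => 2 * t := by fun_prop
  obtain ⟨h1, h2⟩ := hC.chain_bdd hf.1 hK hφ hφ' (fun t _ => by
    have := (hasDerivAt_pow 2 t).hasDerivWithinAt (s := Set.Icc (-K) K)
    simpa using this) (by norm_num)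
  have e1 : AEEqFun.comp (fun t : ℝ => t ^ 2) hφ f = f ^ 2 := by
    rw [eq_iff_ae]
    filter_upwards [AEEqFun.coeFn_comp (fun t : ℝ => t ^ 2) hφ f, sq_ae f] with x a1 a2
    rw [a1, a2]; rfl
  have e2 : AEEqFun.comp (fun t : ℝ => 2 * t) hφ' f = 2 * f := by
    have e3 : (2 : M →ₘ[m] ℝ) = 1 + 1 := by norm_num
    rw [eq_iff_ae, e3, add_mul, one_mul]
    filter_upwards [AEEqFun.coeFn_comp (fun t : ℝ => 2 * t) hφ' f, add_ae f f] with x a1 a2
    rw [a1, a2, Function.comp_apply]; ring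
  rw [e1] at h1
  rw [e1, e2] at h2
  exact ⟨h1, h2⟩

theorem quarter (c : M →ₘ[m] ℝ) : (4 : ℝ)⁻¹ • (4 * c) = c := by
  have h1 : (4 : M →ₘ[m] ℝ) * c = (4 : ℝ) • c := by
    rw [Algebra.smul_def]
    congr 1
    exact (map_ofNat (algebraMap ℝ (M →ₘ[m] ℝ)) 4).symm
  rw [h1, smul_smul]
  norm_num

theorem A_add (hf : f ∈ C.A) (hg : g ∈ C.A) : f + g ∈ C.A :=
  ⟨hC.add_mem f hf.1 g hg.1, mem_add hf.2 hg.2⟩
theorem A_sub (hf : f ∈ C.A) (hg : g ∈ C.A) : f - g ∈ C.A :=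
  ⟨hC.sub_mem hf.1 hg.1, mem_sub hf.2 hg.2⟩
theorem A_smul (c : ℝ) (hf : f ∈ C.A) : c • f ∈ C.A :=
  ⟨hC.smul_mem c f hf.1, mem_smul c hf.2⟩
theorem A_zero : (0 : M →ₘ[m] ℝ) ∈ C.A := ⟨hC.zero_mem, mem_zero⟩

theorem mul_polar (f g : M →ₘ[m] ℝ) : f * g = (4 : ℝ)⁻¹ • ((f + g) ^ 2 - (f - g) ^ 2) := by
  have e : (f + g) ^ 2 - (f - g) ^ 2 = 4 * (f * g) := by ring
  rw [e, quarter hC]

theorem mul_mem_A (hf : f ∈ C.A) (hg : g ∈ C.A) : f * g ∈ C.A := by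
  refine ⟨?_, mem_mul_top hf.2 hg.2⟩
  rw [mul_polar hC]
  exact hC.smul_mem _ _ (hC.sub_mem (hC.sq_mem (hC.A_add hf hg)).1 (hC.sq_mem (hC.A_sub hf hg)).1)

/-- Leibniz rule for bounded Sobolev functions -/
theorem Γ_mul_left (hf : f ∈ C.A) (hg : g ∈ C.A) (hh : h ∈ C.W) :
    C.Γ (f * g) h = f * C.Γ g h + g * C.Γ f h := by
  obtain ⟨a1, a2⟩ := hC.sq_mem (hC.A_add hf hg)
  obtain ⟨b1, b2⟩ := hC.sq_mem (hC.A_sub hf hg)
  rw [mul_polar hC f g, hC.smul_left _ _ (hC.sub_mem a1 b1) h hh, hC.Γ_sub_left a1 b1 hh,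
    a2 h hh, b2 h hh, hC.add_left f hf.1 g hg.1 h hh, hC.Γ_sub_left hf.1 hg.1 hh]
  have e : 2 * (f + g) * (C.Γ f h + C.Γ g h) - 2 * (f - g) * (C.Γ f h - C.Γ g h) =
      4 * (f * C.Γ g h + g * C.Γ f h) := by ring
  rw [e, quarter hC]

theorem Γ_mul_right (hf : f ∈ C.A) (hg : g ∈ C.A) (hh : h ∈ C.W) :
    C.Γ h (f * g) = f * C.Γ h g + g * C.Γ h f := by
  rw [hC.symm h hh _ (hC.mul_mem_A hf hg).1, hC.Γ_mul_left hf hg hh, hC.symm h hh g hg.1,
    hC.symm h hh f hf.1]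

end algebra

end IsDir

end Vale.Agent.P233
end

section

open MeasureTheory Filter Topology
open scoped ENNReal NNReal

namespace Vale.Agent.P233

variable {M : Type*} [MeasurableSpace M] {m : Measure M} {C : Calc m}

theorem abs_arctan_le (t : ℝ) : |Real.arctan t| ≤ |t| := by
  have key : ∀ s : ℝ, 0 ≤ s → Real.arctan s ≤ s := by
    intro s hs
    rcases hs.eq_or_lt with h | h
    · rw [← h]; simp
    · have h2 := Real.lt_tan (Real.arctan_pos.2 h) (Real.arctan_lt_pi_div_two _)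
      rw [Real.tan_arctan] at h2
      exact h2.le
  rcases le_or_gt 0 t with ht | ht
  · rw [abs_of_nonneg (Real.arctan_nonneg.2 ht), abs_of_nonneg ht]
    exact key t ht
  · have h1 := key (-t) (by linarith)
    have h2 : 0 < Real.arctan (-t) := Real.arctan_pos.2 (by linarith)
    rw [Real.arctan_neg] at h1 h2
    rw [abs_of_neg ht, abs_of_neg (by linarith)]
    exact h1

theorem tendsto_div_succ (t : ℝ) : Tendsto (fun n : ℕ => t / ((n : ℝ) + 1)) atTop (𝓝 0) := by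
  have h1 := (tendsto_one_div_add_atTop_nhds_zero_nat (𝕜 := ℝ)).const_mul t
  rw [mul_zero] at h1
  refine h1.congr fun n => ?_
  rw [mul_one_div]

namespace IsDir

variable (hC : IsDir C)
include hC
variable {f g h k : M →ₘ[m] ℝ}

/-! ### energy of sums -/

theorem nrm2_nonneg (hf : f ∈ C.W) : 0 ≤ C.nrm2 f :=
  add_nonneg (I_sq_nonneg f) (hC.E_nonneg hf)

theorem I_sq_le_nrm2 (hf : f ∈ C.W) : I (f ^ 2) ≤ C.nrm2 f := by
  unfold Calc.nrm2; linarith [hC.E_nonneg hf]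

theorem E_le_nrm2 (f : M →ₘ[m] ℝ) : I (C.Γ f f) ≤ C.nrm2 f := by
  unfold Calc.nrm2; linarith [I_sq_nonneg f]

theorem E_add (hf : f ∈ C.W) (hg : g ∈ C.W) :
    I (C.Γ (f + g) (f + g)) = I (C.Γ f f) + 2 * I (C.Γ f g) + I (C.Γ g g) := by
  have h1 := hC.Γ_expand 1 hf hg
  rw [one_smul, mul_one, one_pow, one_smul] at h1
  rw [h1, I_add (mem_add (hC.mem1 f hf) (mem_smul _ (hC.Γ_mem1 hf hg))) (hC.mem1 g hg),
    I_add (hC.mem1 f hf) (mem_smul _ (hC.Γ_mem1 hf hg)), I_smul]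

theorem E_neg (hf : f ∈ C.W) : I (C.Γ (-f) (-f)) = I (C.Γ f f) := by
  rw [hC.Γ_neg_left hf (hC.neg_mem hf), hC.Γ_neg_right hf hf, neg_neg]

theorem E_sub (hf : f ∈ C.W) (hg : g ∈ C.W) :
    I (C.Γ (f - g) (f - g)) = I (C.Γ f f) - 2 * I (C.Γ f g) + I (C.Γ g g) := by
  rw [sub_eq_add_neg, hC.E_add hf (hC.neg_mem hg), hC.E_neg hg, hC.Γ_neg_right hf hg, I_neg]
  ring

theorem E_smul (c : ℝ) (hf : f ∈ C.W) : I (C.Γ (c • f) (c • f)) = c ^ 2 * I (C.Γ f f) := by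
  rw [hC.smul_left c f hf _ (hC.smul_mem c f hf), hC.Γ_smul_right c hf hf, I_smul, I_smul]
  ring

theorem sqrt_E_add_le (hf : f ∈ C.W) (hg : g ∈ C.W) :
    Real.sqrt (I (C.Γ (f + g) (f + g))) ≤ Real.sqrt (I (C.Γ f f)) + Real.sqrt (I (C.Γ g g)) := by
  rw [hC.E_add hf hg]
  refine Real.sqrt_le_iff.2 ⟨by positivity, ?_⟩
  have h1 := (le_abs_self _).trans (hC.E_abs_le hf hg)
  linarith only [Real.sq_sqrt (hC.E_nonneg hg), Real.sq_sqrt (hC.E_nonneg hf), h1]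

theorem E_add_le (hf : f ∈ C.W) (hg : g ∈ C.W) :
    I (C.Γ (f + g) (f + g)) ≤ 2 * I (C.Γ f f) + 2 * I (C.Γ g g) := by
  have h1 := hC.E_nonneg (hC.sub_mem hf hg)
  rw [hC.E_sub hf hg] at h1
  rw [hC.E_add hf hg]
  linarith

theorem nrm2_add_le (hf : f ∈ C.W) (hg : g ∈ C.W) :
    C.nrm2 (f + g) ≤ 2 * C.nrm2 f + 2 * C.nrm2 g := by
  unfold Calc.nrm2
  linarith [hC.E_add_le hf hg, I_sq_add_le (hC.memLp f hf) (hC.memLp g hg)]

theorem nrm2_neg (hf : f ∈ C.W) : C.nrm2 (-f) = C.nrm2 f := by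
  unfold Calc.nrm2
  rw [hC.E_neg hf, neg_sq]

theorem nrm2_sub_le (hf : f ∈ C.W) (hg : g ∈ C.W) :
    C.nrm2 (f - g) ≤ 2 * C.nrm2 f + 2 * C.nrm2 g := by
  rw [sub_eq_add_neg, ← hC.nrm2_neg hg]
  exact hC.nrm2_add_le hf (hC.neg_mem hg)

theorem nrm2_sub_comm (hf : f ∈ C.W) (hg : g ∈ C.W) : C.nrm2 (f - g) = C.nrm2 (g - f) := by
  rw [← hC.nrm2_neg (hC.sub_mem hf hg), neg_sub]

/-- convergence in `W` gives a Cauchy sequence -/
theorem cauchy_of_tendsto {u : ℕ → M →ₘ[m] ℝ} (hu : ∀ n, u n ∈ C.W) (hf : f ∈ C.W)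
    (h : Tendsto (fun n => C.nrm2 (u n - f)) atTop (𝓝 0)) :
    ∀ ε > 0, ∃ N, ∀ n ≥ N, ∀ k ≥ N, C.nrm2 (u n - u k) < ε := by
  intro ε hε
  obtain ⟨N, hN⟩ := eventually_atTop.1 (h.eventually (gt_mem_nhds (show (0 : ℝ) < ε / 4 by
    positivity)))
  refine ⟨N, fun n hn k hk => ?_⟩
  have h1 := hC.nrm2_sub_le (hC.sub_mem (hu n) hf) (hC.sub_mem (hu k) hf)
  have e : u n - f - (u k - f) = u n - u k := by abel
  rw [e] at h1
  linarith [hN n hn, hN k hk]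

/-- limits in `L²` of convergent sequences are unique -/
theorem eq_of_tendsto_I_sq {u : ℕ → M →ₘ[m] ℝ} (hu : ∀ n, MemLp (u n) 2 m) (hf : MemLp f 2 m)
    (hg : MemLp g 2 m) (h1 : Tendsto (fun n => I ((u n - f) ^ 2)) atTop (𝓝 0))
    (h2 : Tendsto (fun n => I ((u n - g) ^ 2)) atTop (𝓝 0)) : f = g := by
  rw [← sub_eq_zero]
  refine I_sq_eq_zero (mem_sub hf hg) (le_antisymm ?_ (I_sq_nonneg _))
  have h3 : Tendsto (fun n => 2 * I ((u n - g) ^ 2) + 2 * I ((u n - f) ^ 2)) atTop (𝓝 0) := by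
    simpa using (h2.const_mul 2).add (h1.const_mul 2)
  refine ge_of_tendsto' h3 fun n => ?_
  have h4 := I_sq_add_le (mem_sub (hu n) hg) (mem_neg (mem_sub (hu n) hf))
  rw [neg_sq] at h4
  have e : u n - g + -(u n - f) = f - g := by abel
  rwa [e] at h4

theorem tendsto_I_sq_of_nrm2 {u : ℕ → M →ₘ[m] ℝ} (hu : ∀ n, u n ∈ C.W) (hf : f ∈ C.W)
    (h : Tendsto (fun n => C.nrm2 (u n - f)) atTop (𝓝 0)) :
    Tendsto (fun n => I ((u n - f) ^ 2)) atTop (𝓝 0) :=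
  squeeze_zero (fun n => I_sq_nonneg _) (fun n => hC.I_sq_le_nrm2 (hC.sub_mem (hu n) hf)) h

theorem tendsto_E_of_nrm2 {u : ℕ → M →ₘ[m] ℝ} (hu : ∀ n, u n ∈ C.W) (hf : f ∈ C.W)
    (h : Tendsto (fun n => C.nrm2 (u n - f)) atTop (𝓝 0)) :
    Tendsto (fun n => I (C.Γ (u n - f) (u n - f))) atTop (𝓝 0) :=
  squeeze_zero (fun n => hC.E_nonneg (hC.sub_mem (hu n) hf)) (fun n => E_le_nrm2 hC _) h

/-- `L¹` convergence of `Γ` -/
theorem tendsto_int_abs_Γ {u : ℕ → M →ₘ[m] ℝ} (hu : ∀ n, u n ∈ C.W) (hf : f ∈ C.W) (hg : g ∈ C.W)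
    (h : Tendsto (fun n => C.nrm2 (u n - f)) atTop (𝓝 0)) :
    Tendsto (fun n => ∫ x, |C.Γ (u n - f) g x| ∂m) atTop (𝓝 0) := by
  have h1 := hC.tendsto_E_of_nrm2 hu hf h
  have h2 : Tendsto (fun n => Real.sqrt (I (C.Γ (u n - f) (u n - f))) *
      Real.sqrt (I (C.Γ g g))) atTop (𝓝 0) := by
    have := ((Real.continuous_sqrt.tendsto 0).comp h1).mul_const (Real.sqrt (I (C.Γ g g)))
    simpa [Function.comp_def] using this
  exact squeeze_zero (fun n => integral_nonneg fun x => abs_nonneg _)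
    (fun n => hC.int_abs_Γ_le (hC.sub_mem (hu n) hf) hg) h2

/-! ### truncations -/

/-- truncations -/
theorem exists_trunc (hf : f ∈ C.W) : ∃ u : ℕ → M →ₘ[m] ℝ, (∀ n, u n ∈ C.A) ∧
    (∀ n, ∀ᵐ x ∂m, |u n x| ≤ |f x|) ∧ Tendsto (fun n => C.nrm2 (u n - f)) atTop (𝓝 0) ∧
    (∀ᵐ x ∂m, Tendsto (fun n => u n x) atTop (𝓝 (f x))) := by
  set φ : ℕ → ℝ → ℝ := fun n t => ((n : ℝ) + 1) * Real.arctan (t / ((n : ℝ) + 1)) with hφ
  set φ' : ℕ → ℝ → ℝ := fun n t => 1 / (1 + (t / ((n : ℝ) + 1)) ^ 2) with hφ'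
  have hn : ∀ n : ℕ, (0 : ℝ) < (n : ℝ) + 1 := fun n => by positivity
  have hφc : ∀ n, Continuous (φ n) := fun n =>
    continuous_const.mul (Real.continuous_arctan.comp (continuous_id.div_const _))
  have hφ'c : ∀ n, Continuous (φ' n) := fun n =>
    continuous_const.div (continuous_const.add ((continuous_id.div_const _).pow 2))
      (fun t => by positivity)
  have hd : ∀ n t, HasDerivAt (φ n) (φ' n t) t := by
    intro n t
    have h1 := ((hasDerivAt_id' t).div_const ((n : ℝ) + 1)).arctan.const_mul ((n : ℝ) + 1)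
    refine h1.congr_deriv ?_
    simp only [hφ']
    have := hn n
    field_simp
  have hφ0 : ∀ n, φ n 0 = 0 := fun n => by simp [hφ]
  have hφ'1 : ∀ n t, 0 ≤ φ' n t ∧ φ' n t ≤ 1 := by
    intro n t
    simp only [hφ']
    refine ⟨by positivity, ?_⟩
    rw [div_le_one (by positivity)]
    linarith only [sq_nonneg (t / ((n : ℝ) + 1))]
  have hφ1 : ∀ n t, |φ n t| ≤ |t| := by
    intro n t
    simp only [hφ]
    rw [abs_mul, abs_of_pos (hn n)]
    have h1 := abs_arctan_le (t / ((n : ℝ) + 1))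
    rw [abs_div, abs_of_pos (hn n)] at h1
    calc ((n : ℝ) + 1) * |Real.arctan (t / ((n : ℝ) + 1))| ≤ ((n : ℝ) + 1) * (|t| / ((n : ℝ) + 1)) :=
          mul_le_mul_of_nonneg_left h1 (hn n).le
      _ = |t| := by have := hn n; field_simp
  have hlim : ∀ t, Tendsto (fun n => φ' n t) atTop (𝓝 1) := by
    intro t
    have h1 := tendsto_div_succ t
    have h2 : Tendsto (fun n : ℕ => 1 / (1 + (t / ((n : ℝ) + 1)) ^ 2)) atTop
        (𝓝 (1 / (1 + 0 ^ 2))) :=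
      Tendsto.div tendsto_const_nhds (tendsto_const_nhds.add (h1.pow 2)) (by norm_num)
    rw [show (1 : ℝ) / (1 + 0 ^ 2) = 1 by norm_num] at h2
    exact h2
  have hlim2 : ∀ t, Tendsto (fun n => φ n t) atTop (𝓝 t) := by
    intro t
    rcases eq_or_ne t 0 with rfl | ht
    · simp only [hφ0]; exact tendsto_const_nhds
    · have h1 : Tendsto (fun n : ℕ => t / ((n : ℝ) + 1)) atTop (𝓝[≠] 0) := by
        rw [tendsto_nhdsWithin_iff]
        constructor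
        · exact tendsto_div_succ t
        · exact Eventually.of_forall fun n => div_ne_zero ht (hn n).ne'
      have h2 : HasDerivAt Real.arctan 1 0 := by
        have := Real.hasDerivAt_arctan 0
        simpa using this
      rw [hasDerivAt_iff_tendsto_slope] at h2
      have h3 := (h2.comp h1).const_mul t
      rw [mul_one] at h3
      refine h3.congr fun n => ?_
      simp only [hφ, Function.comp_apply, slope_def_field, Real.arctan_zero, sub_zero]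
      have := hn n
      field_simp
  choose hmem hΓ using fun n => hC.chain f hf (φ n) (φ' n) (hφc n) (hφ'c n) (hd n) (hφ0 n)
    ⟨1, fun t => by rw [abs_of_nonneg (hφ'1 n t).1]; exact (hφ'1 n t).2⟩
  set u : ℕ → M →ₘ[m] ℝ := fun n => AEEqFun.comp (φ n) (hφc n) f with hu
  have hae : ∀ n, ⇑(u n) =ᵐ[m] fun x => φ n (f x) := fun n => AEEqFun.coeFn_comp (φ n) (hφc n) f
  have hf2 := hC.memLp f hf
  have ha2 : ∀ n, ∀ᵐ x ∂m, |u n x| ≤ |f x| := by
    intro n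
    filter_upwards [hae n] with x hx
    rw [hx]; exact hφ1 n _
  have ha3 : ∀ᵐ x ∂m, Tendsto (fun n => u n x) atTop (𝓝 (f x)) := by
    filter_upwards [ae_all_iff.2 hae] with x hx
    simp_rw [hx]
    exact hlim2 _
  refine ⟨u, fun n => ⟨hmem n, ?_⟩, ha2, ?_, ha3⟩
  · rw [mem_top_iff]
    refine ⟨((n : ℝ) + 1) * (Real.pi / 2), ?_⟩
    filter_upwards [hae n] with x hx
    rw [hx]
    simp only [hφ]
    rw [abs_mul, abs_of_pos (hn n)]
    exact mul_le_mul_of_nonneg_left (abs_le.2 ⟨(Real.neg_pi_div_two_lt_arctan _).le,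
      (Real.arctan_lt_pi_div_two _).le⟩) (hn n).le
  · -- `L²` part
    have l1 : Tendsto (fun n => I ((u n - f) ^ 2)) atTop (𝓝 (I (0 : M →ₘ[m] ℝ))) := by
      refine I_tendsto_of_dominated (G := fun x => 4 * f x ^ 2)
        ((int_of_mem (mem_sq hf2)).congr (sq_ae f) |>.const_mul 4) (fun n => ?_) ?_
      · filter_upwards [sq_ae (u n - f), sub_ae (u n) f, ha2 n] with x h1 h2 h3
        rw [h1, h2, abs_of_nonneg (sq_nonneg _)]
        have h4 : |u n x - f x| ≤ 2 * |f x| := by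
          calc |u n x - f x| ≤ |u n x| + |f x| := abs_sub _ _
            _ ≤ 2 * |f x| := by linarith
        calc (u n x - f x) ^ 2 = |u n x - f x| ^ 2 := (sq_abs _).symm
          _ ≤ (2 * |f x|) ^ 2 := by gcongr
          _ = 4 * f x ^ 2 := by rw [mul_pow, sq_abs]; ring
      · filter_upwards [ae_all_iff.2 fun n => sq_ae (u n - f), ae_all_iff.2 fun n => sub_ae (u n) f,
          ha3, zero_ae (M := M) (m := m)] with x h1 h2 h3 h4
        simp_rw [h1, h2, h4]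
        have := ((h3.sub_const (f x)).pow 2)
        simpa using this
    have l2 : Tendsto (fun n => I (C.Γ (u n - f) (u n - f))) atTop (𝓝 (I (0 : M →ₘ[m] ℝ))) := by
      have hform : ∀ n, ∀ᵐ x ∂m, C.Γ (u n - f) (u n - f) x = (φ' n (f x) - 1) ^ 2 * C.Γ f f x := by
        intro n
        have huf := hC.sub_mem (hmem n) hf
        have e1 : C.Γ (u n - f) (u n - f) = C.Γ (u n) (u n) - C.Γ (u n) f - (C.Γ f (u n) - C.Γ f f) := by
          rw [hC.Γ_sub_left (hmem n) hf huf, hC.Γ_sub_right (hmem n) (hmem n) hf,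
            hC.Γ_sub_right hf (hmem n) hf]
        have e2 : C.Γ (u n) f = AEEqFun.comp (φ' n) (hφ'c n) f * C.Γ f f := hΓ n f hf
        have e3 : C.Γ f (u n) = AEEqFun.comp (φ' n) (hφ'c n) f * C.Γ f f := by
          rw [hC.symm f hf _ (hmem n), e2]
        have e4 : C.Γ (u n) (u n) = AEEqFun.comp (φ' n) (hφ'c n) f *
            (AEEqFun.comp (φ' n) (hφ'c n) f * C.Γ f f) := by
          rw [← e3]; exact hΓ n (u n) (hmem n)
        have e5 : C.Γ (u n - f) (u n - f) = (AEEqFun.comp (φ' n) (hφ'c n) f - 1) ^ 2 * C.Γ f f := by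
          rw [e1, e4, e3, e2]; ring
        rw [e5]
        filter_upwards [mul_ae ((AEEqFun.comp (φ' n) (hφ'c n) f - 1) ^ 2) (C.Γ f f),
          sq_ae (AEEqFun.comp (φ' n) (hφ'c n) f - 1), sub_ae (AEEqFun.comp (φ' n) (hφ'c n) f) 1,
          one_ae (M := M) (m := m), AEEqFun.coeFn_comp (φ' n) (hφ'c n) f] with x h1 h2 h3 h4 h5
        rw [h1, h2, h3, h4, h5, Function.comp_apply]
      refine I_tendsto_of_dominated (G := fun x => C.Γ f f x) (int_of_mem (hC.mem1 f hf))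
        (fun n => ?_) ?_
      · filter_upwards [hform n, hC.Γ_nonneg_ae hf] with x h1 h2
        rw [h1, abs_of_nonneg (mul_nonneg (sq_nonneg _) h2)]
        have h3 : (φ' n (f x) - 1) ^ 2 ≤ 1 := by
          have := hφ'1 n (f x)
          nlinarith
        linarith only [mul_nonneg (sub_nonneg.2 h2) (sub_nonneg.2 h3)]
      · filter_upwards [ae_all_iff.2 hform, zero_ae (M := M) (m := m)] with x h1 h2
        simp_rw [h1, h2]
        have := (((hlim (f x)).sub_const 1).pow 2).mul_const (C.Γ f f x)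
        simpa using this
    rw [I_zero] at l1 l2
    have := l1.add l2
    rw [add_zero] at this
    exact this

end IsDir

end Vale.Agent.P233
end

section

open MeasureTheory Filter Topology
open scoped ENNReal NNReal

namespace Vale.Agent.P233

variable {M : Type*} [MeasurableSpace M] {m : Measure M} {C : Calc m}

namespace IsDir

variable (hC : IsDir C)
include hC

section algebra
variable {f g h : M →ₘ[m] ℝ}

/-- energy of a product -/
theorem nrm2_mul_le (hf : f ∈ C.A) {K L : ℝ} (hK : ∀ᵐ x ∂m, |f x| ≤ K)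
    (hL : ∀ᵐ x ∂m, |C.Γ f f x| ≤ L) (hg : g ∈ C.A) :
    C.nrm2 (f * g) ≤ (2 * K ^ 2 + 2 * |L|) * C.nrm2 g := by
  have hfg := hC.mul_mem_A hf hg
  have hg2 := hC.memLp g hg.1
  have h1 : C.Γ (f * g) (f * g) = f ^ 2 * C.Γ g g + 2 * (f * g) * C.Γ f g + g ^ 2 * C.Γ f f := by
    rw [hC.Γ_mul_left hf hg hfg.1, hC.Γ_mul_right hf hg hg.1, hC.Γ_mul_right hf hg hf.1,
      hC.symm g hg.1 f hf.1]
    ring
  have h2 : I (C.Γ (f * g) (f * g)) ≤ 2 * K ^ 2 * I (C.Γ g g) + 2 * |L| * I (g ^ 2) := by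
    rw [← I_smul, ← I_smul, ← I_add (mem_smul _ (hC.mem1 g hg.1)) (mem_smul _ (mem_sq hg2))]
    refine I_mono (hC.mem1 _ hfg.1) (mem_add (mem_smul _ (hC.mem1 g hg.1))
      (mem_smul _ (mem_sq hg2))) ?_
    have e2 : (2 : M →ₘ[m] ℝ) = 1 + 1 := by norm_num
    rw [le_iff_ae, h1, e2]
    filter_upwards [add_ae (f ^ 2 * C.Γ g g + (1 + 1) * (f * g) * C.Γ f g) (g ^ 2 * C.Γ f f),
      add_ae (f ^ 2 * C.Γ g g) ((1 + 1) * (f * g) * C.Γ f g), mul_ae (f ^ 2) (C.Γ g g),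
      mul_ae ((1 + 1) * (f * g)) (C.Γ f g), mul_ae (1 + 1) (f * g), add_ae (1 : M →ₘ[m] ℝ) 1,
      one_ae (M := M) (m := m), mul_ae f g, mul_ae (g ^ 2) (C.Γ f f), sq_ae f, sq_ae g,
      add_ae ((2 * K ^ 2) • C.Γ g g) ((2 * |L|) • g ^ 2), smul_ae (C.Γ g g) (2 * K ^ 2),
      smul_ae (g ^ 2) (2 * |L|), hK, hL, hC.Γ_cs_ae hf.1 hg.1, hC.Γ_nonneg_ae hf.1,
      hC.Γ_nonneg_ae hg.1] with x a1 a2 a3 a4 a5 a6 a7 a8 a9 a10 a11 a12 a13 a14 a15 a16 a17 a18 a19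
    rw [a1, a2, a3, a4, a5, a6, a7, a8, a9, a10, a11, a12, a13, a14, a11]
    have b1 : f x ^ 2 ≤ K ^ 2 := by
      rw [← sq_abs]
      gcongr
    have b2 : C.Γ f f x ≤ |L| := (le_abs_self _).trans (a16.trans (le_abs_self _))
    have b3 : 2 * (f x * g x) * C.Γ f g x ≤ f x ^ 2 * C.Γ g g x + g x ^ 2 * C.Γ f f x := by
      -- from Cauchy-Schwarz
      set A := C.Γ f f x
      set B := C.Γ g g x
      set D := C.Γ f g x
      have c1 : (2 * (f x * g x) * D) ^ 2 ≤ (f x ^ 2 * B + g x ^ 2 * A) ^ 2 := by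
        have c2 : (f x * g x) ^ 2 * D ^ 2 ≤ (f x * g x) ^ 2 * (A * B) :=
          mul_le_mul_of_nonneg_left a17 (sq_nonneg _)
        linarith only [sq_nonneg (f x ^ 2 * B - g x ^ 2 * A), c2]
      exact (le_abs_self _).trans (abs_le_of_sq_le_sq c1 (by (clear * - a19 a18; positivity)))
    have b4 : f x ^ 2 * C.Γ g g x ≤ K ^ 2 * C.Γ g g x := mul_le_mul_of_nonneg_right b1 a19
    have b5 : g x ^ 2 * C.Γ f f x ≤ g x ^ 2 * |L| := mul_le_mul_of_nonneg_left b2 (sq_nonneg _)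
    linarith
  have h3 : I ((f * g) ^ 2) ≤ K ^ 2 * I (g ^ 2) := by
    rw [← I_smul]
    refine I_mono (mem_sq (hC.memLp _ hfg.1)) (mem_smul _ (mem_sq hg2)) ?_
    rw [le_iff_ae]
    filter_upwards [sq_ae (f * g), mul_ae f g, smul_ae (g ^ 2) (K ^ 2), sq_ae g, hK]
      with x a1 a2 a3 a4 a5
    rw [a1, a2, a3, a4, mul_pow]
    refine mul_le_mul_of_nonneg_right ?_ (sq_nonneg _)
    rw [← sq_abs]
    gcongr
  unfold Calc.nrm2
  have h4 := I_sq_nonneg g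
  have h5 := hC.E_nonneg hg.1
  have h6 : 0 ≤ K ^ 2 := sq_nonneg K
  have h7 : 0 ≤ |L| := abs_nonneg L
  have h8 : 0 ≤ K ^ 2 * I (g ^ 2) := mul_nonneg h6 h4
  have h9 : 0 ≤ |L| * I (C.Γ g g) := mul_nonneg h7 h5
  linarith only [h9, h8, h3, h2]

/-- Bounded Lipschitz times Sobolev: approximation. -/
theorem mul_lip_aux (hf : f ∈ C.A) (hf' : MemLp (C.Γ f f) ∞ m) (hg : g ∈ C.W) :
    ∃ u : ℕ → M →ₘ[m] ℝ, (∀ n, u n ∈ C.A) ∧ Tendsto (fun n => C.nrm2 (u n - g)) atTop (𝓝 0) ∧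
      f * g ∈ C.W ∧ Tendsto (fun n => C.nrm2 (f * u n - f * g)) atTop (𝓝 0) := by
  obtain ⟨u, hu1, hu2, hu3, hu4⟩ := hC.exists_trunc hg
  obtain ⟨K, hK⟩ := mem_top_iff.1 hf.2
  obtain ⟨L, hL⟩ := mem_top_iff.1 hf'
  have huW : ∀ n, u n ∈ C.W := fun n => (hu1 n).1
  have hfu : ∀ n, f * u n ∈ C.W := fun n => (hC.mul_mem_A hf (hu1 n)).1
  set D : ℝ := 2 * K ^ 2 + 2 * |L| with hD
  have hD0 : 0 ≤ D := by positivity
  have hcau := hC.cauchy_of_tendsto huW hg hu3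
  obtain ⟨F, hF, hlim⟩ := hC.complete (fun n => f * u n) hfu (by
    intro ε hε
    obtain ⟨N, hN⟩ := hcau (ε / (D + 1)) (by positivity)
    refine ⟨N, fun n hn k hk => ?_⟩
    have h1 := hC.nrm2_mul_le hf hK hL (hC.A_sub (hu1 n) (hu1 k))
    rw [mul_sub] at h1
    have h2 := hN n hn k hk
    have h3 := hC.nrm2_nonneg (hC.sub_mem (huW n) (huW k))
    calc C.nrm2 (f * u n - f * u k) ≤ D * C.nrm2 (u n - u k) := h1
      _ ≤ (D + 1) * C.nrm2 (u n - u k) := by linarith only [h3]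
      _ < (D + 1) * (ε / (D + 1)) := by gcongr
      _ = ε := by field_simp)
  have hg2 := hC.memLp g hg
  have hfg2 : MemLp (f * g : M →ₘ[m] ℝ) 2 m := mem_mul_top hf.2 hg2
  have l1 := hC.tendsto_I_sq_of_nrm2 hfu hF hlim
  have l2 : Tendsto (fun n => I ((f * u n - f * g) ^ 2)) atTop (𝓝 0) := by
    have h1 := (hC.tendsto_I_sq_of_nrm2 huW hg hu3).const_mul (K ^ 2)
    rw [mul_zero] at h1
    refine squeeze_zero (fun n => I_sq_nonneg _) (fun n => ?_) h1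
    have hug2 := hC.memLp _ (hC.sub_mem (huW n) hg)
    rw [← I_smul, ← mul_sub]
    refine I_mono (mem_sq (mem_mul_top hf.2 hug2)) (mem_smul _ (mem_sq hug2)) ?_
    rw [le_iff_ae]
    filter_upwards [sq_ae (f * (u n - g)), mul_ae f (u n - g), smul_ae ((u n - g) ^ 2) (K ^ 2),
      sq_ae (u n - g), hK] with x a1 a2 a3 a4 a5
    rw [a1, a2, a3, a4, mul_pow]
    refine mul_le_mul_of_nonneg_right ?_ (sq_nonneg _)
    rw [← sq_abs]
    gcongr
  have hFeq : F = f * g := hC.eq_of_tendsto_I_sq (fun n => hC.memLp _ (hfu n)) (hC.memLp F hF)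
    hfg2 l1 l2
  rw [hFeq] at hF hlim
  exact ⟨u, hu1, hu3, hF, hlim⟩

/-- bounded Lipschitz times Sobolev is Sobolev -/
theorem mul_mem_lip (hf : f ∈ C.A) (hf' : MemLp (C.Γ f f) ∞ m) (hg : g ∈ C.W) :
    f * g ∈ C.W := by
  obtain ⟨u, h1, h2, h3, h4⟩ := hC.mul_lip_aux hf hf' hg
  exact h3

theorem Γ_mul_left_lip (hf : f ∈ C.A) (hf' : MemLp (C.Γ f f) ∞ m) (hg : g ∈ C.W)
    (hh : h ∈ C.W) : C.Γ (f * g) h = f * C.Γ g h + g * C.Γ f h := by
  obtain ⟨u, h1, h2, h3, h4⟩ := hC.mul_lip_aux hf hf' hg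
  obtain ⟨K, hK⟩ := mem_top_iff.1 hf.2
  have huW : ∀ n, u n ∈ C.W := fun n => (h1 n).1
  have hfu : ∀ n, f * u n ∈ C.W := fun n => (hC.mul_mem_A hf (h1 n)).1
  have hΓfh2 := hC.Γ_mem2 hf.1 hf' hh
  have hg2 := hC.memLp g hg
  set D := C.Γ (f * g) h - (f * C.Γ g h + g * C.Γ f h) with hD
  have hDmem : MemLp D 1 m := mem_sub (hC.Γ_mem1 h3 hh)
    (mem_add (mem_mul_top hf.2 (hC.Γ_mem1 hg hh)) (mem_mul_22 hg2 hΓfh2))
  -- bound
  have hDn : ∀ n, D = -(C.Γ (f * u n - f * g) h) + (f * C.Γ (u n - g) h + (u n - g) * C.Γ f h) := by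
    intro n
    rw [hD, hC.Γ_sub_left (hfu n) h3 hh, hC.Γ_sub_left (huW n) hg hh,
      hC.Γ_mul_left hf (h1 n) hh]
    ring
  have t1 := hC.tendsto_int_abs_Γ hfu h3 hh h4
  have t2 := (hC.tendsto_int_abs_Γ huW hg hh h2).const_mul |K|
  have t3 : Tendsto (fun n => Real.sqrt (I ((u n - g) ^ 2)) * Real.sqrt (I (C.Γ f h ^ 2))) atTop
      (𝓝 0) := by
    have := ((Real.continuous_sqrt.tendsto 0).comp (hC.tendsto_I_sq_of_nrm2 huW hg h2)).mul_const
      (Real.sqrt (I (C.Γ f h ^ 2)))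
    simpa [Function.comp_def] using this
  have hle : ∀ n, ∫ x, |D x| ∂m ≤ ∫ x, |C.Γ (f * u n - f * g) h x| ∂m +
      |K| * ∫ x, |C.Γ (u n - g) h x| ∂m +
      Real.sqrt (I ((u n - g) ^ 2)) * Real.sqrt (I (C.Γ f h ^ 2)) := by
    intro n
    have hug := hC.sub_mem (huW n) hg
    have hug2 := hC.memLp _ hug
    have hfug := hC.sub_mem (hfu n) h3
    have i1 := int_of_mem (hC.Γ_mem1 hfug hh)
    have i2 := int_of_mem (hC.Γ_mem1 hug hh)
    have i3 := int_of_mem (mem_mul_22 hug2 hΓfh2)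
    have c1 : ∫ x, |((u n - g) * C.Γ f h : M →ₘ[m] ℝ) x| ∂m ≤
        Real.sqrt (I ((u n - g) ^ 2)) * Real.sqrt (I (C.Γ f h ^ 2)) := by
      -- use absolute values
      have habs : Continuous fun t : ℝ => |t| := continuous_abs
      have aux : ∀ k : M →ₘ[m] ℝ, MemLp k 2 m → MemLp (AEEqFun.comp (fun t : ℝ => |t|) habs k) 2 m ∧
          I (AEEqFun.comp (fun t : ℝ => |t|) habs k ^ 2) = I (k ^ 2) := by
        intro k hk
        refine ⟨mem_of_le hk ?_, ?_⟩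
        · filter_upwards [AEEqFun.coeFn_comp (fun t : ℝ => |t|) habs k] with x hx
          rw [hx, Function.comp_apply, abs_abs]
        · unfold I
          refine integral_congr_ae ?_
          filter_upwards [AEEqFun.coeFn_comp (fun t : ℝ => |t|) habs k,
            sq_ae (AEEqFun.comp (fun t : ℝ => |t|) habs k), sq_ae k] with x b1 b2 b3
          rw [b2, b1, b3, Function.comp_apply, sq_abs]
      obtain ⟨p1, p2⟩ := aux _ hug2
      obtain ⟨q1, q2⟩ := aux _ hΓfh2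
      have := (le_abs_self _).trans (I_abs_le p1 q1)
      rw [p2, q2] at this
      refine le_trans (le_of_eq ?_) this
      unfold I
      refine integral_congr_ae ?_
      filter_upwards [mul_ae (u n - g) (C.Γ f h), mul_ae (AEEqFun.comp (fun t : ℝ => |t|) habs
        (u n - g)) (AEEqFun.comp (fun t : ℝ => |t|) habs (C.Γ f h)),
        AEEqFun.coeFn_comp (fun t : ℝ => |t|) habs (u n - g),
        AEEqFun.coeFn_comp (fun t : ℝ => |t|) habs (C.Γ f h)] with x b1 b2 b3 b4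
      rw [b1, b2, b3, b4, abs_mul]
      rfl
    refine le_trans ?_ (add_le_add_right c1 _)
    have i12 : Integrable (fun x => |C.Γ (f * u n - f * g) h x| + |K| * |C.Γ (u n - g) h x|) m :=
      i1.abs.add (i2.abs.const_mul _)
    rw [← integral_const_mul, ← integral_add i1.abs (i2.abs.const_mul _), ← integral_add i12 i3.abs]
    refine integral_mono_ae (int_of_mem hDmem).abs (i12.add i3.abs) ?_
    have hn := hDn n
    filter_upwards [eq_iff_ae.1 hn, add_ae (-(C.Γ (f * u n - f * g) h))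
      (f * C.Γ (u n - g) h + (u n - g) * C.Γ f h), neg_ae (C.Γ (f * u n - f * g) h),
      add_ae (f * C.Γ (u n - g) h) ((u n - g) * C.Γ f h), mul_ae f (C.Γ (u n - g) h), hK]
      with x b1 b2 b3 b4 b5 b6
    rw [b1, b2, b3, b4, b5]
    refine (abs_add_le _ _).trans ?_
    rw [abs_neg, add_assoc]
    refine add_le_add le_rfl ((abs_add_le _ _).trans (add_le_add ?_ le_rfl))
    rw [abs_mul]
    exact mul_le_mul_of_nonneg_right (b6.trans (le_abs_self _)) (abs_nonneg _)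
  have hlim : Tendsto (fun n => ∫ x, |C.Γ (f * u n - f * g) h x| ∂m +
      |K| * ∫ x, |C.Γ (u n - g) h x| ∂m +
      Real.sqrt (I ((u n - g) ^ 2)) * Real.sqrt (I (C.Γ f h ^ 2))) atTop (𝓝 0) := by
    simpa using (t1.add t2).add t3
  have h0 : ∫ x, |D x| ∂m ≤ 0 := ge_of_tendsto' hlim hle
  have h5 : ∀ᵐ x ∂m, |D x| = 0 := by
    have := (integral_eq_zero_iff_of_nonneg (fun x => abs_nonneg _)
      (int_of_mem hDmem).abs).1 (le_antisymm h0 (integral_nonneg fun x => abs_nonneg _))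
    exact this
  have h6 : D = 0 := by
    rw [eq_iff_ae]
    filter_upwards [h5, zero_ae (M := M) (m := m)] with x b1 b2
    rw [b2]
    exact abs_eq_zero.1 b1
  rw [hD, sub_eq_zero] at h6
  exact h6

end algebra

section lap
variable {f g h k : M →ₘ[m] ℝ}

/-- an `L²` function orthogonal to `W` vanishes -/
theorem eq_zero_of_orth (hf : MemLp f 2 m) (h : ∀ g ∈ C.W, I (f * g) = 0) : f = 0 := by
  refine I_sq_eq_zero hf ?_
  by_contra hne
  have hpos : 0 < I (f ^ 2) := lt_of_le_of_ne (I_sq_nonneg f) (Ne.symm hne)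
  obtain ⟨g, hg, hfg⟩ := hC.dense_L2 f hf (I (f ^ 2)) hpos
  have hg2 := hC.memLp g hg
  have h1 := I_cs hf (mem_sub hf hg2)
  have h2 : I (f * (f - g)) = I (f ^ 2) := by
    rw [mul_sub, I_sub (mem_mul_22 hf hf) (mem_mul_22 hf hg2), h g hg, sub_zero, sq]
  rw [h2] at h1
  linarith only [mul_pos (sub_pos.2 hpos) (sub_pos.2 hfg), h1]

theorem isLap_unique (h1 : C.IsLap f g) (h2 : C.IsLap f h) : g = h := by
  rw [← sub_eq_zero]
  refine hC.eq_zero_of_orth (mem_sub h1.2.1 h2.2.1) fun k hk => ?_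
  have hk2 := hC.memLp k hk
  have a1 : I (C.Γ f k) = -I (g * k) := h1.2.2 k hk
  have a2 : I (C.Γ f k) = -I (h * k) := h2.2.2 k hk
  rw [sub_mul, I_sub (mem_mul_22 h1.2.1 hk2) (mem_mul_22 h2.2.1 hk2)]
  linarith

theorem lap_eq (h1 : C.IsLap f g) : C.lap f = g := by
  have h : ∃ h, C.IsLap f h := ⟨g, h1⟩
  have h2 : C.IsLap f (C.lap f) := by
    unfold Calc.lap
    rw [dif_pos h]
    exact h.choose_spec
  exact hC.isLap_unique h2 h1

theorem isLap_add (h1 : C.IsLap f h) (h2 : C.IsLap g k) : C.IsLap (f + g) (h + k) := by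
  refine ⟨hC.add_mem f h1.1 g h2.1, mem_add h1.2.1 h2.2.1, fun l hl => ?_⟩
  have hl2 := hC.memLp l hl
  have a1 : I (C.Γ f l) = -I (h * l) := h1.2.2 l hl
  have a2 : I (C.Γ g l) = -I (k * l) := h2.2.2 l hl
  show I (C.Γ (f + g) l) = -I ((h + k) * l)
  rw [hC.add_left f h1.1 g h2.1 l hl, I_add (hC.Γ_mem1 h1.1 hl) (hC.Γ_mem1 h2.1 hl), add_mul,
    I_add (mem_mul_22 h1.2.1 hl2) (mem_mul_22 h2.2.1 hl2)]
  linarith

theorem isLap_smul (c : ℝ) (h1 : C.IsLap f h) : C.IsLap (c • f) (c • h) := by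
  refine ⟨hC.smul_mem c f h1.1, mem_smul c h1.2.1, fun l hl => ?_⟩
  have a1 : I (C.Γ f l) = -I (h * l) := h1.2.2 l hl
  show I (C.Γ (c • f) l) = -I ((c • h) * l)
  rw [hC.smul_left c f h1.1 l hl, I_smul, smul_mul_assoc, I_smul, a1]
  ring

end lap

/-- limits in `L²` along a bounded sequence in `W` are in `W` -/
theorem mem_of_bounded {u : ℕ → M →ₘ[m] ℝ} {f : M →ₘ[m] ℝ} {K : ℝ} (hu : ∀ n, u n ∈ C.W)
    (hK : ∀ n, I (C.Γ (u n) (u n)) ≤ K) (hf : MemLp f 2 m)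
    (hlim : Tendsto (fun n => I ((u n - f) ^ 2)) atTop (𝓝 0)) :
    f ∈ C.W ∧ I (C.Γ f f) ≤ K := by
  -- nested convex sets
  set S : ℕ → Set (M →ₘ[m] ℝ) := fun n => {g | g ∈ C.W ∧ I ((g - f) ^ 2) ≤ ((n : ℝ) + 1)⁻¹} with hS
  have hne : ∀ n, ∃ j, u j ∈ S n := by
    intro n
    obtain ⟨j, hj⟩ := (hlim.eventually (ge_mem_nhds (show (0 : ℝ) < ((n : ℝ) + 1)⁻¹ by
      positivity))).exists
    exact ⟨j, hu j, hj⟩
  set e : ℕ → ℝ := fun n => sInf ((fun g => I (C.Γ g g)) '' S n) with he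
  have hbdd : ∀ n, BddBelow ((fun g => I (C.Γ g g)) '' S n) := by
    intro n
    refine ⟨0, ?_⟩
    rintro _ ⟨g, hg, rfl⟩
    exact hC.E_nonneg hg.1
  have heK : ∀ n, e n ≤ K := by
    intro n
    obtain ⟨j, hj⟩ := hne n
    exact (csInf_le (hbdd n) ⟨u j, hj, rfl⟩).trans (hK j)
  have hSmono : ∀ n k, n ≤ k → S k ⊆ S n := by
    intro n k hnk g hg
    refine ⟨hg.1, hg.2.trans ?_⟩
    have : (n : ℝ) ≤ k := by exact_mod_cast hnk
    gcongr
  have hemono : Monotone e := by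
    intro n k hnk
    obtain ⟨j, hj⟩ := hne k
    exact csInf_le_csInf (hbdd n) ⟨_, ⟨u j, hj, rfl⟩⟩ (Set.image_mono (hSmono n k hnk))
  -- almost minimizers
  have hex : ∀ n : ℕ, ∃ g ∈ S n, I (C.Γ g g) < e n + ((n : ℝ) + 1)⁻¹ := by
    intro n
    obtain ⟨j, hj⟩ := hne n
    have h1 : e n < e n + ((n : ℝ) + 1)⁻¹ := by
      have : (0 : ℝ) < ((n : ℝ) + 1)⁻¹ := by positivity
      linarith
    obtain ⟨_, ⟨g, hg, rfl⟩, h2⟩ := exists_lt_of_csInf_lt
      (s := (fun g => I (C.Γ g g)) '' S n) ⟨_, ⟨u j, hj, rfl⟩⟩ h1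
    exact ⟨g, hg, h2⟩
  choose g hg1 hg2 using hex
  have hgW : ∀ n, g n ∈ C.W := fun n => (hg1 n).1
  -- limit of the minima
  have hebdd : BddAbove (Set.range e) := ⟨K, by rintro _ ⟨n, rfl⟩; exact heK n⟩
  set E := ⨆ n, e n with hE
  have helim : Tendsto e atTop (𝓝 E) := tendsto_atTop_ciSup hemono hebdd
  have heE : ∀ n, e n ≤ E := fun n => le_ciSup hebdd n
  -- L² convergence
  have hgf : Tendsto (fun n => I ((g n - f) ^ 2)) atTop (𝓝 0) :=
    squeeze_zero (fun n => I_sq_nonneg _) (fun n => (hg1 n).2) (by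
      have := tendsto_one_div_add_atTop_nhds_zero_nat (𝕜 := ℝ)
      simpa using this)
  -- key energy estimate
  have key : ∀ n k, n ≤ k → I (C.Γ (g n - g k) (g n - g k)) ≤ 2 * (E - e n) +
      4 * ((n : ℝ) + 1)⁻¹ := by
    intro n k hnk
    have hk : g k ∈ S n := hSmono n k hnk (hg1 k)
    have hmid : (2 : ℝ)⁻¹ • (g n + g k) ∈ S n := by
      refine ⟨hC.smul_mem _ _ (hC.add_mem _ (hgW n) _ (hgW k)), ?_⟩
      have e1 : (2 : ℝ)⁻¹ • (g n + g k) - f = (2 : ℝ)⁻¹ • ((g n - f) + (g k - f)) := by module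
      rw [e1, smul_pow, I_smul]
      have h1 := I_sq_add_le (mem_sub (hC.memLp _ (hgW n)) hf) (mem_sub (hC.memLp _ (hgW k)) hf)
      have h2 := (hg1 n).2
      have h3 := hk.2
      linarith
    have h1 : e n ≤ I (C.Γ ((2 : ℝ)⁻¹ • (g n + g k)) ((2 : ℝ)⁻¹ • (g n + g k))) :=
      csInf_le (hbdd n) ⟨_, hmid, rfl⟩
    rw [hC.E_smul _ (hC.add_mem _ (hgW n) _ (hgW k)), hC.E_add (hgW n) (hgW k)] at h1
    rw [hC.E_sub (hgW n) (hgW k)]
    have h2 := hg2 n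
    have h3 := hg2 k
    have h4 : (((k : ℝ) + 1)⁻¹ : ℝ) ≤ ((n : ℝ) + 1)⁻¹ := by
      have : (n : ℝ) ≤ k := by exact_mod_cast hnk
      gcongr
    have h5 := heE k
    linarith only [h5, h4, h3, h2, h1]
  have key2 : ∀ n k, n ≤ k → C.nrm2 (g n - g k) ≤ 2 * (E - e n) + 8 * ((n : ℝ) + 1)⁻¹ := by
    intro n k hnk
    have h1 := key n k hnk
    have h2 : I ((g n - g k) ^ 2) ≤ 4 * ((n : ℝ) + 1)⁻¹ := by
      have h3 := I_sq_add_le (mem_sub (hC.memLp _ (hgW n)) hf)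
        (mem_neg (mem_sub (hC.memLp _ (hgW k)) hf))
      have e1 : g n - f + -(g k - f) = g n - g k := by abel
      rw [e1, neg_sq] at h3
      have h4 := (hg1 n).2
      have h5 := (hSmono n k hnk (hg1 k)).2
      linarith
    unfold Calc.nrm2
    linarith
  have hb : Tendsto (fun n : ℕ => 2 * (E - e n) + 8 * ((n : ℝ) + 1)⁻¹) atTop (𝓝 0) := by
    have h1 := (helim.const_sub E).const_mul 2
    have h2 := (tendsto_one_div_add_atTop_nhds_zero_nat (𝕜 := ℝ)).const_mul 8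
    have h3 := h1.add h2
    simpa using h3
  obtain ⟨F, hF, hFlim⟩ := hC.complete g hgW (by
    intro ε hε
    obtain ⟨N, hN⟩ := eventually_atTop.1 (hb.eventually (gt_mem_nhds hε))
    refine ⟨N, fun n hn k hk => ?_⟩
    rcases le_total n k with hnk | hnk
    · exact (key2 n k hnk).trans_lt (hN n hn)
    · rw [hC.nrm2_sub_comm (hgW n) (hgW k)]
      exact (key2 k n hnk).trans_lt (hN k hk))
  have hFf : F = f := hC.eq_of_tendsto_I_sq (fun n => hC.memLp _ (hgW n)) (hC.memLp F hF) hf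
    (hC.tendsto_I_sq_of_nrm2 hgW hF hFlim) hgf
  rw [hFf] at hF hFlim
  refine ⟨hF, ?_⟩
  have hE1 := hC.tendsto_E_of_nrm2 hgW hF hFlim
  have hK0 : 0 ≤ K := (hC.E_nonneg (hu 0)).trans (hK 0)
  have hlim2 : Tendsto (fun n : ℕ => Real.sqrt (I (C.Γ (g n - f) (g n - f))) +
      Real.sqrt (K + ((n : ℝ) + 1)⁻¹)) atTop (𝓝 (Real.sqrt 0 + Real.sqrt (K + 0))) := by
    refine ((Real.continuous_sqrt.tendsto 0).comp hE1).add ?_
    refine (Real.continuous_sqrt.tendsto (K + 0)).comp ?_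
    have := tendsto_one_div_add_atTop_nhds_zero_nat (𝕜 := ℝ)
    have h2 := this.const_add K
    simpa using h2
  have hle : Real.sqrt (I (C.Γ f f)) ≤ Real.sqrt 0 + Real.sqrt (K + 0) := by
    refine ge_of_tendsto' hlim2 fun n => ?_
    have h1 := hC.sqrt_E_add_le (hC.neg_mem (hC.sub_mem (hgW n) hF)) (hgW n)
    have e1 : -(g n - f) + g n = f := by abel
    rw [e1, hC.E_neg (hC.sub_mem (hgW n) hF)] at h1
    refine h1.trans (add_le_add le_rfl (Real.sqrt_le_sqrt ?_))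
    linarith [hg2 n, heK n]
  rw [Real.sqrt_zero, zero_add, add_zero] at hle
  exact (Real.sqrt_le_sqrt_iff hK0).1 hle

theorem nonneg_of_forall {F : M →ₘ[m] ℝ} (hF : MemLp F 1 m)
    (h : ∀ s ∈ C.A, 0 ≤ s → 0 ≤ I (s * F)) : 0 ≤ F := by
  have hFint := int_of_mem hF
  have hFm : StronglyMeasurable (F : M → ℝ) := AEEqFun.stronglyMeasurable F
  -- it is enough to show that `{F < -ε}` is a null set
  have key : ∀ n : ℕ, m {x | F x < -((n : ℝ) + 1)⁻¹} = 0 := by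
    intro n
    set ε : ℝ := ((n : ℝ) + 1)⁻¹ with hε
    have hε0 : 0 < ε := by positivity
    set S : Set M := {x | F x < -ε} with hS
    have hSm : MeasurableSet S := measurableSet_lt hFm.measurable measurable_const
    have hSfin : m S < ∞ := by
      have h1 : S ⊆ {x | ε ≤ ‖F x‖} := by
        intro x hx
        simp only [hS] at hx
        have hx' : F x < -ε := hx
        show ε ≤ ‖F x‖
        rw [Real.norm_eq_abs]
        exact le_trans (by linarith) (neg_le_abs _)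
      exact (measure_mono h1).trans_lt (hFint.measure_norm_ge_lt_top hε0)
    have hind : MemLp (S.indicator (fun _ => (1 : ℝ))) 2 m :=
      memLp_indicator_const 2 hSm 1 (Or.inr hSfin.ne)
    set χ : M →ₘ[m] ℝ := AEEqFun.mk _ hind.1 with hχ
    have hχae := AEEqFun.coeFn_mk _ hind.1
    have hχ2 : MemLp χ 2 m := (memLp_congr_ae hχae).2 hind
    -- approximations
    choose g hg1 hg2 using fun k : ℕ => hC.dense_L2 χ hχ2 (((k : ℝ) + 1)⁻¹) (by positivity)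
    have hlim : Tendsto (fun k => I ((g k - χ) ^ 2)) atTop (𝓝 0) := by
      refine squeeze_zero (fun n => I_sq_nonneg _) (fun k => ?_) (show Tendsto (fun k : ℕ =>
        ((k : ℝ) + 1)⁻¹) atTop (𝓝 0) by
          have := tendsto_one_div_add_atTop_nhds_zero_nat (𝕜 := ℝ)
          simpa using this)
      have e1 : (g k - χ) ^ 2 = (χ - g k) ^ 2 := by ring
      rw [e1]
      exact (hg2 k).le
    obtain ⟨ns, hns, hae⟩ := exists_subseq_of_I_sq (fun k => hC.memLp _ (hg1 k)) hχ2 hlim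
    -- truncation
    set φ : ℝ → ℝ := fun t => 2 * t ^ 2 / (1 + t ^ 2) with hφ
    set φ' : ℝ → ℝ := fun t => 4 * t / (1 + t ^ 2) ^ 2 with hφ'
    have hφc : Continuous φ := (by fun_prop : Continuous fun t : ℝ => 2 * t ^ 2).div
      (by fun_prop) (fun t => by positivity)
    have hφ'c : Continuous φ' := (by fun_prop : Continuous fun t : ℝ => 4 * t).div
      (by fun_prop) (fun t => by positivity)
    have hd : ∀ t, HasDerivAt φ (φ' t) t := by
      intro t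
      have h1 : HasDerivAt (fun t : ℝ => 2 * t ^ 2) (2 * (2 * t)) t := by
        have := (hasDerivAt_pow 2 t).const_mul 2
        simpa using this
      have h2 : HasDerivAt (fun t : ℝ => 1 + t ^ 2) (2 * t) t := by
        have := (hasDerivAt_pow 2 t).const_add 1
        simpa using this
      refine (h1.div h2 (by positivity)).congr_deriv ?_
      simp only [hφ']
      field_simp
      ring
    have hφ'b : ∀ t, |φ' t| ≤ 4 := by
      intro t
      simp only [hφ']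
      rw [abs_div, abs_of_pos (show (0 : ℝ) < (1 + t ^ 2) ^ 2 by positivity),
        div_le_iff₀ (by positivity), abs_mul, abs_of_pos (by norm_num : (0:ℝ) < 4)]
      have h1 : |t| ≤ (1 + t ^ 2) ^ 2 := by
        have h2 : |t| ^ 2 = t ^ 2 := sq_abs t
        nlinarith [abs_nonneg t, sq_nonneg (|t| - 1), sq_nonneg (t ^ 2)]
      linarith
    have hφ0 : ∀ t, 0 ≤ φ t := fun t => by simp only [hφ]; positivity
    have hφ2 : ∀ t, φ t ≤ 2 := by
      intro t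
      simp only [hφ]
      rw [div_le_iff₀ (by positivity)]
      nlinarith
    have hmem := fun k => (hC.chain (g k) (hg1 k) φ φ' hφc hφ'c hd (by simp [hφ]) ⟨4, hφ'b⟩).1
    set s : ℕ → M →ₘ[m] ℝ := fun k => AEEqFun.comp φ hφc (g k) with hs
    have hsae : ∀ k, ⇑(s k) =ᵐ[m] fun x => φ (g k x) := fun k => AEEqFun.coeFn_comp φ hφc (g k)
    have hsA : ∀ k, s k ∈ C.A := by
      intro k
      refine ⟨hmem k, mem_top_iff.2 ⟨2, ?_⟩⟩
      filter_upwards [hsae k] with x hx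
      rw [hx, abs_of_nonneg (hφ0 _)]
      exact hφ2 _
    have hs0 : ∀ k, 0 ≤ s k := by
      intro k
      rw [nonneg_iff_ae]
      filter_upwards [hsae k] with x hx
      rw [hx]; exact hφ0 _
    have h3 : Tendsto (fun k => I (s (ns k) * F)) atTop (𝓝 (I (χ * F))) := by
      refine I_tendsto_of_dominated (G := fun x => 2 * |F x|) (hFint.abs.const_mul 2)
        (fun k => ?_) ?_
      · filter_upwards [mul_ae (s (ns k)) F, hsae (ns k)] with x a1 a2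
        rw [a1, a2, abs_mul, abs_of_nonneg (hφ0 _)]
        exact mul_le_mul_of_nonneg_right (hφ2 _) (abs_nonneg _)
      · filter_upwards [ae_all_iff.2 fun k => mul_ae (s (ns k)) F,
          ae_all_iff.2 fun k => hsae (ns k), hae, hχae, mul_ae χ F] with x a1 a2 a3 a4 a5
        simp_rw [a1, a5, a2]
        refine Tendsto.mul_const _ ?_
        have h4 : Tendsto (fun k => φ (g (ns k) x)) atTop (𝓝 (φ (χ x))) :=
          (hφc.tendsto (χ x)).comp a3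
        have h5 : φ (χ x) = χ x := by
          rw [hχ, a4]
          by_cases hx : x ∈ S
          · rw [Set.indicator_of_mem hx]
            simp only [hφ]; norm_num
          · rw [Set.indicator_of_notMem hx]
            simp only [hφ]; norm_num
        rwa [h5] at h4
    have h4 : 0 ≤ I (χ * F) := ge_of_tendsto' h3 fun k => h _ (hsA _) (hs0 _)
    have h5 : I (χ * F) = ∫ x in S, F x ∂m := by
      rw [← integral_indicator hSm]
      unfold I
      refine integral_congr_ae ?_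
      filter_upwards [mul_ae χ F, hχae] with x a1 a2
      rw [a1, hχ, a2]
      by_cases hx : x ∈ S
      · rw [Set.indicator_of_mem hx, Set.indicator_of_mem hx, one_mul]
      · rw [Set.indicator_of_notMem hx, Set.indicator_of_notMem hx, zero_mul]
    have h6 : ∫ x in S, F x ∂m ≤ ∫ x in S, (-ε) ∂m := by
      refine setIntegral_mono_on hFint.integrableOn ?_ hSm fun x hx => le_of_lt hx
      exact integrableOn_const (hs := hSfin.ne)
    rw [setIntegral_const, smul_eq_mul] at h6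
    have h7 : m.real S ≤ 0 := by
      rw [h5] at h4
      by_contra hcon
      push Not at hcon
      linarith only [mul_pos (sub_pos.2 hε0) (sub_pos.2 hcon), h6, h4]
    have h8 : m.real S = 0 := le_antisymm h7 measureReal_nonneg
    exact (measureReal_eq_zero_iff hSfin.ne).1 h8
  rw [nonneg_iff_ae]
  have h9 : ∀ᵐ x ∂m, ∀ n : ℕ, ¬ (F x < -((n : ℝ) + 1)⁻¹) := by
    rw [ae_all_iff]
    intro n
    exact measure_eq_zero_iff_ae_notMem.1 (key n)
  filter_upwards [h9] with x hx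
  by_contra hcon
  push Not at hcon
  obtain ⟨n, hn⟩ := exists_nat_one_div_lt (show (0 : ℝ) < -F x by linarith)
  rw [one_div] at hn
  exact hx n (by linarith)

/-- fundamental lemma -/
theorem eq_zero_of_forall {F : M →ₘ[m] ℝ} (hF : MemLp F 1 m)
    (h : ∀ s ∈ C.A, I (s * F) = 0) : F = 0 := by
  refine le_antisymm ?_ (hC.nonneg_of_forall hF fun s hs _ => (h s hs).ge)
  rw [← neg_nonneg]
  refine hC.nonneg_of_forall (mem_neg hF) fun s hs _ => ?_
  rw [mul_neg, I_neg, h s hs, neg_zero]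

end IsDir

end Vale.Agent.P233
end

section

open MeasureTheory Filter Topology
open scoped ENNReal NNReal InnerProductSpace

namespace Vale.Agent.P233

variable {M : Type*} [MeasurableSpace M] {m : Measure M} {C : Calc m}

namespace IsDir

variable (hC : IsDir C)

/-- `W` as a subspace -/
def hsub (hC : IsDir C) : Submodule ℝ (M →ₘ[m] ℝ) where
  carrier := C.W
  add_mem' := fun {a b} ha hb => hC.add_mem a ha b hb
  zero_mem' := hC.zero_mem
  smul_mem' := fun c x hx => hC.smul_mem c x hx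

/-- `W` as a type -/
def HS (hC : IsDir C) : Type _ := hC.hsub

noncomputable instance : AddCommGroup hC.HS := inferInstanceAs (AddCommGroup hC.hsub)
noncomputable instance : Module ℝ hC.HS := inferInstanceAs (Module ℝ hC.hsub)

/-- the function class -/
def HS.val {hC : IsDir C} (x : hC.HS) : M →ₘ[m] ℝ := (x : hC.hsub).1

def HS.mk {hC : IsDir C} (f : M →ₘ[m] ℝ) (hf : f ∈ C.W) : hC.HS := (⟨f, hf⟩ : hC.hsub)

theorem HS.mem {hC : IsDir C} (x : hC.HS) : x.val ∈ C.W := (x : hC.hsub).2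
@[simp] theorem HS.val_mk {hC : IsDir C} (f : M →ₘ[m] ℝ) (hf : f ∈ C.W) :
  (HS.mk f hf : hC.HS).val = f := rfl
@[simp] theorem HS.val_add {hC : IsDir C} (x y : hC.HS) : (x + y).val = x.val + y.val := rfl
@[simp] theorem HS.val_sub {hC : IsDir C} (x y : hC.HS) : (x - y).val = x.val - y.val := rfl
@[simp] theorem HS.val_smul {hC : IsDir C} (c : ℝ) (x : hC.HS) : (c • x).val = c • x.val := rfl
theorem HS.ext {hC : IsDir C} {x y : hC.HS} (h : x.val = y.val) : x = y := Subtype.ext h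

/-- inner product with weight -/
noncomputable def core (hC : IsDir C) {lam : ℝ} (hl : 0 < lam) : InnerProductSpace.Core ℝ hC.HS where
  inner x y := I (x.val * y.val) + lam * I (C.Γ x.val y.val)
  conj_inner_symm x y := by
    simp only [conj_trivial]
    rw [mul_comm y.val, hC.symm y.val y.mem x.val x.mem]
  re_inner_nonneg x := by
    simp only [RCLike.re_to_real]
    have h1 := I_sq_nonneg x.val
    have h2 := I_nonneg (hC.nonneg x.val x.mem)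
    rw [sq] at h1
    positivity
  add_left x y z := by
    simp only [HS.val_add]
    rw [hC.add_left _ x.mem _ y.mem _ z.mem, add_mul,
      I_add (mem_mul_22 (hC.memLp _ x.mem) (hC.memLp _ z.mem))
        (mem_mul_22 (hC.memLp _ y.mem) (hC.memLp _ z.mem)),
      I_add (hC.Γ_mem1 x.mem z.mem) (hC.Γ_mem1 y.mem z.mem)]
    ring
  smul_left x y r := by
    simp only [HS.val_smul, conj_trivial]
    rw [hC.smul_left _ _ x.mem _ y.mem, smul_mul_assoc, I_smul, I_smul]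
    ring
  definite x h := by
    have h1 := I_sq_nonneg x.val
    have h2 := I_nonneg (hC.nonneg x.val x.mem)
    have h3 : I (x.val * x.val) + lam * I (C.Γ x.val x.val) = 0 := h
    rw [← sq] at h3
    have h4 : I (x.val ^ 2) = 0 := by
      have : 0 ≤ lam * I (C.Γ x.val x.val) := by positivity
      linarith
    exact HS.ext (I_sq_eq_zero (hC.memLp _ x.mem) h4)

theorem exists_riesz (hC : IsDir C) {lam : ℝ} (hl : 0 < lam) {f : M →ₘ[m] ℝ} (hf : MemLp f 2 m) :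
    ∃ u ∈ C.W, ∀ g ∈ C.W, I (u * g) + lam * I (C.Γ u g) = I (f * g) := by
  letI cI : InnerProductSpace.Core ℝ hC.HS := hC.core hl
  letI nI : NormedAddCommGroup hC.HS := cI.toNormedAddCommGroup
  letI iI : InnerProductSpace ℝ hC.HS := InnerProductSpace.ofCore cI.toCore
  have hin : ∀ x y : hC.HS, ⟪x, y⟫_ℝ = I (x.val * y.val) + lam * I (C.Γ x.val y.val) :=
    fun x y => rfl
  have hnorm : ∀ x : hC.HS, ‖x‖ ^ 2 = I (x.val ^ 2) + lam * I (C.Γ x.val x.val) := fun x => by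
    rw [← real_inner_self_eq_norm_sq, hin, sq]
  have hE0 : ∀ x : hC.HS, 0 ≤ I (C.Γ x.val x.val) := fun x => I_nonneg (hC.nonneg _ x.mem)
  have hL0 : ∀ x : hC.HS, 0 ≤ I (x.val ^ 2) := fun x => I_sq_nonneg _
  -- completeness
  haveI : CompleteSpace hC.HS := by
    refine Metric.complete_of_cauchySeq_tendsto fun u hu => ?_
    set K : ℝ := 1 + lam⁻¹ with hK
    have hK1 : 1 ≤ K := by rw [hK]; linarith [inv_pos.2 hl]
    have hKl : 1 ≤ K * lam := by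
      rw [hK, add_mul, inv_mul_cancel₀ hl.ne']; linarith
    have hle : ∀ x : hC.HS, C.nrm2 x.val ≤ K * ‖x‖ ^ 2 := by
      intro x
      rw [hnorm]
      unfold Calc.nrm2
      linarith only [mul_nonneg (sub_nonneg.2 hKl) (sub_nonneg.2 (hE0 x)), mul_nonneg (sub_nonneg.2 hK1) (sub_nonneg.2 (hL0 x))]
    have hge : ∀ x : hC.HS, ‖x‖ ^ 2 ≤ (1 + lam) * C.nrm2 x.val := by
      intro x
      rw [hnorm]
      unfold Calc.nrm2
      linarith only [mul_nonneg (le_of_lt (sub_pos.2 hl)) (sub_nonneg.2 (hL0 x)), mul_nonneg (mul_self_nonneg (1 : ℝ)) (sub_nonneg.2 (hE0 x))]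
    obtain ⟨f, hf, hlim⟩ := hC.complete (fun n => (u n).val) (fun n => (u n).mem) (by
      intro ε hε
      rw [Metric.cauchySeq_iff] at hu
      obtain ⟨N, hN⟩ := hu (Real.sqrt (ε / K)) (Real.sqrt_pos.2 (by positivity))
      refine ⟨N, fun n hn k hk => ?_⟩
      have h1 := hN n hn k hk
      rw [dist_eq_norm] at h1
      have h2 : ‖u n - u k‖ ^ 2 < ε / K := by
        rw [← Real.sq_sqrt (show 0 ≤ ε / K by positivity)]
        have := norm_nonneg (u n - u k)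
        gcongr
      have h3 := hle (u n - u k)
      rw [HS.val_sub] at h3
      calc C.nrm2 ((u n).val - (u k).val) ≤ K * ‖u n - u k‖ ^ 2 := h3
        _ < K * (ε / K) := by gcongr
        _ = ε := by field_simp)
    refine ⟨HS.mk f hf, ?_⟩
    rw [tendsto_iff_norm_sub_tendsto_zero]
    have h1 : Tendsto (fun n => ‖u n - HS.mk f hf‖ ^ 2) atTop (𝓝 0) := by
      refine squeeze_zero (fun n => sq_nonneg _) (fun n => hge _) ?_
      simpa using hlim.const_mul (1 + lam)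
    have h2 := (Real.continuous_sqrt.tendsto 0).comp h1
    simpa [Function.comp_def, Real.sqrt_sq (norm_nonneg _)] using h2
  -- the functional
  let ℓ0 : hC.HS →ₗ[ℝ] ℝ :=
    { toFun := fun g => I (f * g.val)
      map_add' := fun x y => by
        rw [HS.val_add, mul_add, I_add (mem_mul_22 hf (hC.memLp _ x.mem))
          (mem_mul_22 hf (hC.memLp _ y.mem))]
      map_smul' := fun c x => by
        rw [HS.val_smul, mul_smul_comm, I_smul]; rfl }
  let ℓ : hC.HS →L[ℝ] ℝ := ℓ0.mkContinuous (Real.sqrt (I (f ^ 2))) (by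
    intro x
    show |I (f * x.val)| ≤ _
    refine (I_abs_le hf (hC.memLp _ x.mem)).trans ?_
    refine mul_le_mul_of_nonneg_left ?_ (Real.sqrt_nonneg _)
    rw [← Real.sqrt_sq (norm_nonneg x)]
    refine Real.sqrt_le_sqrt ?_
    rw [hnorm]
    have := hE0 x
    have : 0 ≤ lam * I (C.Γ x.val x.val) := by positivity
    linarith)
  refine ⟨((InnerProductSpace.toDual ℝ hC.HS).symm ℓ).val, HS.mem _, fun g hg => ?_⟩
  have h1 : ⟪(InnerProductSpace.toDual ℝ hC.HS).symm ℓ, HS.mk g hg⟫_ℝ = ℓ (HS.mk g hg) :=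
    InnerProductSpace.toDual_symm_apply
  rw [hin] at h1
  exact h1

end IsDir

end Vale.Agent.P233
end

section

open MeasureTheory Filter Topology
open scoped ENNReal NNReal

namespace Vale.Agent.P233

variable {M : Type*} [MeasurableSpace M] {m : Measure M}

/-- `u` solves `u - lam Δu = f` weakly. -/
def Calc.IsRes (C : Calc m) (lam : ℝ) (f u : M →ₘ[m] ℝ) : Prop :=
  u ∈ C.W ∧ ∀ g ∈ C.W, I (u * g) + lam * I (C.Γ u g) = I (f * g)

open Classical in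
/-- the resolvent `J_lam = (1 - lam Δ)⁻¹` -/
noncomputable def Calc.J (C : Calc m) (lam : ℝ) (f : M →ₘ[m] ℝ) : M →ₘ[m] ℝ :=
  if h : ∃ u, C.IsRes lam f u then h.choose else 0

variable {C : Calc m}

theorem tendsto_inv_succ : Tendsto (fun n : ℕ => ((n : ℝ) + 1)⁻¹) atTop (𝓝 0) := by
  have := tendsto_one_div_add_atTop_nhds_zero_nat (𝕜 := ℝ)
  simpa using this

namespace IsDir

variable (hC : IsDir C)
include hC
variable {lam : ℝ} {f g h : M →ₘ[m] ℝ}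

theorem exists_res (hl : 0 < lam) (hf : MemLp f 2 m) : ∃ u, C.IsRes lam f u := by
  obtain ⟨u, h1, h2⟩ := hC.exists_riesz hl hf
  exact ⟨u, h1, h2⟩

theorem res_unique (hl : 0 < lam) (h1 : C.IsRes lam f g) (h2 : C.IsRes lam f h) : g = h := by
  have hgh := hC.sub_mem h1.1 h2.1
  have e1 := h1.2 _ hgh
  have e2 := h2.2 _ hgh
  have m1 := hC.memLp _ h1.1
  have m2 := hC.memLp _ h2.1
  have m3 := hC.memLp _ hgh
  have k1 : I ((g - h) * (g - h)) = I (g * (g - h)) - I (h * (g - h)) := by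
    rw [sub_mul, I_sub (mem_mul_22 m1 m3) (mem_mul_22 m2 m3)]
  have k2 : I (C.Γ (g - h) (g - h)) = I (C.Γ g (g - h)) - I (C.Γ h (g - h)) := by
    rw [hC.Γ_sub_left h1.1 h2.1 hgh, I_sub (hC.Γ_mem1 h1.1 hgh) (hC.Γ_mem1 h2.1 hgh)]
  have k3 := I_nonneg (hC.nonneg _ hgh)
  have k4 := I_sq_nonneg (g - h)
  rw [sq] at k4
  have k5 : 0 ≤ lam * I (C.Γ (g - h) (g - h)) := by positivity
  have k6 : I ((g - h) ^ 2) = 0 := by
    rw [sq]
    have : I ((g - h) * (g - h)) + lam * I (C.Γ (g - h) (g - h)) = 0 := by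
      rw [k1, k2]; linarith
    linarith
  exact sub_eq_zero.1 (I_sq_eq_zero m3 k6)

theorem J_spec (hl : 0 < lam) (hf : MemLp f 2 m) : C.IsRes lam f (C.J lam f) := by
  have h := hC.exists_res hl hf
  unfold Calc.J
  rw [dif_pos h]
  exact h.choose_spec

theorem J_eq (hl : 0 < lam) (h1 : C.IsRes lam f g) : C.J lam f = g := by
  have h : ∃ u, C.IsRes lam f u := ⟨g, h1⟩
  have h2 : C.IsRes lam f (C.J lam f) := by
    unfold Calc.J
    rw [dif_pos h]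
    exact h.choose_spec
  exact hC.res_unique hl h2 h1

theorem J_mem (hl : 0 < lam) (hf : MemLp f 2 m) : C.J lam f ∈ C.W := (hC.J_spec hl hf).1

theorem J_mem2 (hl : 0 < lam) (hf : MemLp f 2 m) : MemLp (C.J lam f) 2 m :=
  hC.memLp _ (hC.J_mem hl hf)

theorem J_add (hl : 0 < lam) (hf : MemLp f 2 m) (hg : MemLp g 2 m) :
    C.J lam (f + g) = C.J lam f + C.J lam g := by
  refine hC.J_eq hl ⟨hC.add_mem _ (hC.J_mem hl hf) _ (hC.J_mem hl hg), fun k hk => ?_⟩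
  have a1 := (hC.J_spec hl hf).2 k hk
  have a2 := (hC.J_spec hl hg).2 k hk
  have hk2 := hC.memLp k hk
  rw [add_mul, add_mul, I_add (mem_mul_22 (hC.J_mem2 hl hf) hk2)
    (mem_mul_22 (hC.J_mem2 hl hg) hk2), I_add (mem_mul_22 hf hk2) (mem_mul_22 hg hk2),
    hC.add_left _ (hC.J_mem hl hf) _ (hC.J_mem hl hg) k hk,
    I_add (hC.Γ_mem1 (hC.J_mem hl hf) hk) (hC.Γ_mem1 (hC.J_mem hl hg) hk)]
  linarith

theorem J_smul (hl : 0 < lam) (c : ℝ) (hf : MemLp f 2 m) :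
    C.J lam (c • f) = c • C.J lam f := by
  refine hC.J_eq hl ⟨hC.smul_mem c _ (hC.J_mem hl hf), fun k hk => ?_⟩
  have a1 := (hC.J_spec hl hf).2 k hk
  rw [smul_mul_assoc, smul_mul_assoc, I_smul, I_smul, hC.smul_left c _ (hC.J_mem hl hf) k hk,
    I_smul, ← a1]
  ring

theorem J_neg (hl : 0 < lam) (hf : MemLp f 2 m) : C.J lam (-f) = -C.J lam f := by
  have := hC.J_smul hl (-1) hf
  simpa using this

theorem J_sub (hl : 0 < lam) (hf : MemLp f 2 m) (hg : MemLp g 2 m) :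
    C.J lam (f - g) = C.J lam f - C.J lam g := by
  rw [sub_eq_add_neg, hC.J_add hl hf (mem_neg hg), hC.J_neg hl hg, ← sub_eq_add_neg]

theorem J_isLap (hl : 0 < lam) (hf : MemLp f 2 m) :
    C.IsLap (C.J lam f) (lam⁻¹ • (C.J lam f - f)) := by
  refine ⟨hC.J_mem hl hf, mem_smul _ (mem_sub (hC.J_mem2 hl hf) hf), fun g hg => ?_⟩
  have a1 := (hC.J_spec hl hf).2 g hg
  have hg2 := hC.memLp g hg
  show I (C.Γ (C.J lam f) g) = -I (lam⁻¹ • (C.J lam f - f) * g)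
  rw [smul_mul_assoc, I_smul, sub_mul, I_sub (mem_mul_22 (hC.J_mem2 hl hf) hg2)
    (mem_mul_22 hf hg2), ← a1]
  field_simp
  ring

/-- the energy estimate -/
theorem J_energy (hl : 0 < lam) (hf : MemLp f 2 m) :
    I (C.J lam f ^ 2) + lam * I (C.Γ (C.J lam f) (C.J lam f)) = I (f * C.J lam f) := by
  have a1 := (hC.J_spec hl hf).2 _ (hC.J_mem hl hf)
  rw [← sq] at a1
  exact a1

theorem J_contr (hl : 0 < lam) (hf : MemLp f 2 m) :
    I (C.J lam f ^ 2) + lam * I (C.Γ (C.J lam f) (C.J lam f)) ≤ I (f ^ 2) := by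
  have a1 := hC.J_energy hl hf
  have a2 := I_nonneg (hC.nonneg _ (hC.J_mem hl hf))
  have a3 : 0 ≤ lam * I (C.Γ (C.J lam f) (C.J lam f)) := by positivity
  have a4 := I_cs hf (hC.J_mem2 hl hf)
  have a5 := I_sq_nonneg f
  have a6 := I_sq_nonneg (C.J lam f)
  rw [← a1] at a4
  rw [a1]
  rw [← a1]
  set A := I (C.J lam f ^ 2)
  set B := lam * I (C.Γ (C.J lam f) (C.J lam f))
  set D := I (f ^ 2)
  -- (A + B)² ≤ D A
  by_contra hcon
  push Not at hcon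
  linarith only [mul_pos (sub_pos.2 hcon) (sub_pos.2 hcon), mul_nonneg (sub_nonneg.2 a5) (le_of_lt (sub_pos.2 hcon)), mul_nonneg (sub_nonneg.2 a3) (sub_nonneg.2 a5), a4]

theorem J_sq_le (hl : 0 < lam) (hf : MemLp f 2 m) : I (C.J lam f ^ 2) ≤ I (f ^ 2) := by
  have a1 := hC.J_contr hl hf
  have a2 := I_nonneg (hC.nonneg _ (hC.J_mem hl hf))
  have a3 : 0 ≤ lam * I (C.Γ (C.J lam f) (C.J lam f)) := by positivity
  linarith

/-- the maximum principle -/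
theorem J_le (hl : 0 < lam) (hf : MemLp f 2 m) {K : ℝ} (hK : 0 ≤ K)
    (h0 : f ≤ K • (1 : M →ₘ[m] ℝ)) : C.J lam f ≤ K • (1 : M →ₘ[m] ℝ) := by
  set u := C.J lam f with hu
  have huW : u ∈ C.W := hC.J_mem hl hf
  -- test function
  set s : ℝ → ℝ := fun t => max (t - K) 0 with hs
  set φ : ℝ → ℝ := fun t => s t - Real.arctan (s t) with hφ
  set φ' : ℝ → ℝ := fun t => s t ^ 2 / (1 + s t ^ 2) with hφ'
  have hsc : Continuous s := (continuous_id.sub continuous_const).max continuous_const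
  have hφc : Continuous φ := hsc.sub (Real.continuous_arctan.comp hsc)
  have hφ'c : Continuous φ' := (hsc.pow 2).div (continuous_const.add (hsc.pow 2))
    (fun t => by positivity)
  -- auxiliary function
  have hbase : ∀ r : ℝ, HasDerivAt (fun r : ℝ => r - Real.arctan r) (r ^ 2 / (1 + r ^ 2)) r := by
    intro r
    have h1 := (hasDerivAt_id' r).sub (Real.hasDerivAt_arctan r)
    refine h1.congr_deriv ?_
    have : (0 : ℝ) < 1 + r ^ 2 := by positivity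
    field_simp
    ring
  have hd : ∀ t, HasDerivAt φ (φ' t) t := by
    intro t
    rcases lt_trichotomy t K with ht | ht | ht
    · have e1 : φ =ᶠ[𝓝 t] fun _ => 0 := by
        filter_upwards [gt_mem_nhds ht] with y hy
        simp only [hφ, hs]
        rw [max_eq_right (by linarith)]
        simp
      have e2 : φ' t = 0 := by
        simp only [hφ', hs]
        rw [max_eq_right (by linarith)]
        simp
      rw [e2]
      exact (hasDerivAt_const t (0 : ℝ)).congr_of_eventuallyEq e1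
    · have e2 : φ' t = 0 := by
        simp only [hφ', hs]
        rw [max_eq_right (by linarith)]
        simp
      rw [e2]
      -- |φ(y)| ≤ small
      have hb := hbase 0
      simp only [ne_eq, OfNat.ofNat_ne_zero, not_false_eq_true, zero_pow, add_zero, zero_div] at hb
      rw [hasDerivAt_iff_isLittleO] at hb ⊢
      have h3 : Tendsto (fun y => s y) (𝓝 t) (𝓝 0) := by
        have := hsc.tendsto t
        have e3 : s t = 0 := by simp only [hs]; rw [max_eq_right (by linarith)]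
        rwa [e3] at this
      have h4 := hb.comp_tendsto h3
      simp only [Function.comp_def, sub_zero, smul_zero, Real.arctan_zero] at h4 ⊢
      have e4 : φ t = 0 := by
        simp only [hφ, hs]
        rw [max_eq_right (by linarith)]
        simp
      rw [e4]
      simp only [sub_zero]
      refine h4.trans_isBigO ?_
      refine Asymptotics.IsBigO.of_bound 1 ?_
      filter_upwards with y
      rw [one_mul, Real.norm_eq_abs, Real.norm_eq_abs]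
      simp only [hs]
      rw [abs_of_nonneg (le_max_right _ _)]
      subst ht
      exact max_le (le_abs_self _) (abs_nonneg _)
    · have e1 : φ =ᶠ[𝓝 t] fun y => (y - K) - Real.arctan (y - K) := by
        filter_upwards [lt_mem_nhds ht] with y hy
        simp only [hφ, hs]
        rw [max_eq_left (by linarith)]
      have e2 : φ' t = (t - K) ^ 2 / (1 + (t - K) ^ 2) := by
        simp only [hφ', hs]
        rw [max_eq_left (by linarith)]
      rw [e2]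
      have h5 := (hbase (t - K)).comp_sub_const t K
      exact h5.congr_of_eventuallyEq e1
  have hφ'0 : ∀ t, 0 ≤ φ' t := fun t => by simp only [hφ']; (clear * -; positivity)
  have hφ'1 : ∀ t, |φ' t| ≤ 1 := by
    intro t
    rw [abs_of_nonneg (hφ'0 t)]
    simp only [hφ']
    rw [div_le_one (by positivity)]
    linarith
  have hφ0 : φ 0 = 0 := by
    simp only [hφ, hs]
    rw [max_eq_right (by linarith)]
    simp
  have hφpos : ∀ t, K < t → 0 < φ t := by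
    intro t ht
    have h1 : 0 < t - K := by linarith
    simp only [hφ, hs]
    rw [max_eq_left h1.le]
    have h2 := Real.lt_tan (Real.arctan_pos.2 h1) (Real.arctan_lt_pi_div_two _)
    rw [Real.tan_arctan] at h2
    linarith
  have hφzero : ∀ t, t ≤ K → φ t = 0 := by
    intro t ht
    simp only [hφ, hs]
    rw [max_eq_right (by linarith)]
    simp
  obtain ⟨hv, hΓ⟩ := hC.chain u huW φ φ' hφc hφ'c hd hφ0 ⟨1, hφ'1⟩
  set v := AEEqFun.comp φ hφc u with hvdef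
  have hv2 := hC.memLp v hv
  have hu2 := hC.memLp u huW
  have a1 := (hC.J_spec hl hf).2 v hv
  rw [← hu] at a1
  have a2 : C.Γ u v = AEEqFun.comp φ' hφ'c u * C.Γ u u := by
    rw [hC.symm u huW v hv, hΓ u huW]
  have a3 : 0 ≤ I (C.Γ u v) := by
    rw [a2]
    refine I_nonneg ?_
    refine mul_nonneg ?_ (hC.nonneg u huW)
    rw [nonneg_iff_ae]
    filter_upwards [AEEqFun.coeFn_comp φ' hφ'c u] with x hx
    rw [hx]; exact hφ'0 _
  have a4 : I ((u - f) * v) ≤ 0 := by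
    rw [sub_mul, I_sub (mem_mul_22 hu2 hv2) (mem_mul_22 hf hv2)]
    have : 0 ≤ lam * I (C.Γ u v) := by positivity
    linarith
  have a5 : 0 ≤ (u - f) * v := by
    rw [nonneg_iff_ae]
    filter_upwards [mul_ae (u - f) v, sub_ae u f, AEEqFun.coeFn_comp φ hφc u, le_iff_ae.1 h0,
      smul_ae (1 : M →ₘ[m] ℝ) K, one_ae (M := M) (m := m)] with x b1 b2 b3 b4 b5 b6
    rw [b5, b6, mul_one] at b4
    rw [b1, b2, b3]
    rcases le_or_gt (u x) K with hle | hgt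
    · simp [hφzero _ hle]
    · exact mul_nonneg (by linarith) (hφpos _ hgt).le
  have a6 := I_eq_zero_of_nonneg (mem_mul_22 (mem_sub hu2 hf) hv2) a5
    (le_antisymm a4 (I_nonneg a5))
  rw [le_iff_ae]
  filter_upwards [eq_iff_ae.1 a6, mul_ae (u - f) v, sub_ae u f, AEEqFun.coeFn_comp φ hφc u,
    le_iff_ae.1 h0, smul_ae (1 : M →ₘ[m] ℝ) K, one_ae (M := M) (m := m),
    zero_ae (M := M) (m := m)] with x b0 b1 b2 b3 b4 b5 b6 b7
  rw [b5, b6, mul_one] at b4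
  rw [b5, b6, mul_one]
  by_contra hcon
  push Not at hcon
  rw [b1, b2, b3, b7] at b0
  have c1 := hφpos _ hcon
  have c2 : 0 < (u x - f x) * φ (u x) := mul_pos (by linarith) c1
  simp only [Function.comp_apply] at b0
  linarith

theorem J_nonneg (hl : 0 < lam) (hf : MemLp f 2 m) (h0 : 0 ≤ f) : 0 ≤ C.J lam f := by
  have h1 := hC.J_le hl (mem_neg hf) (K := 0) le_rfl (by rw [zero_smul]; exact neg_nonpos.2 h0)
  rw [hC.J_neg hl hf, zero_smul] at h1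
  exact neg_nonpos.1 h1

theorem J_bdd (hl : 0 < lam) (hf : MemLp f 2 m) {K : ℝ} (h0 : ∀ᵐ x ∂m, |f x| ≤ K) :
    ∀ᵐ x ∂m, |C.J lam f x| ≤ K := by
  rcases lt_or_ge K 0 with hK | hK
  · filter_upwards [h0] with x hx
    linarith [abs_nonneg (f x)]
  have h1 := hC.J_le hl hf hK (by
    rw [le_iff_ae]
    filter_upwards [h0, smul_ae (1 : M →ₘ[m] ℝ) K, one_ae (M := M) (m := m)] with x a1 a2 a3
    rw [a2, a3, mul_one]
    exact (le_abs_self _).trans a1)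
  have h2 := hC.J_le hl (mem_neg hf) hK (by
    rw [le_iff_ae]
    filter_upwards [h0, smul_ae (1 : M →ₘ[m] ℝ) K, one_ae (M := M) (m := m), neg_ae f]
      with x a1 a2 a3 a4
    rw [a2, a3, mul_one, a4]
    exact (neg_le_abs _).trans a1)
  rw [hC.J_neg hl hf] at h2
  rw [le_iff_ae] at h1 h2
  filter_upwards [h1, h2, smul_ae (1 : M →ₘ[m] ℝ) K, one_ae (M := M) (m := m),
    neg_ae (C.J lam f)] with x a1 a2 a3 a4 a5
  rw [a3, a4, mul_one] at a1 a2
  rw [a5] at a2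
  exact abs_le.2 ⟨by linarith, a1⟩

theorem J_symm (hl : 0 < lam) (hf : MemLp f 2 m) (hg : MemLp g 2 m) :
    I (C.J lam f * g) = I (f * C.J lam g) := by
  have a1 := (hC.J_spec hl hf).2 _ (hC.J_mem hl hg)
  have a2 := (hC.J_spec hl hg).2 _ (hC.J_mem hl hf)
  rw [hC.symm _ (hC.J_mem hl hg) _ (hC.J_mem hl hf), mul_comm (C.J lam g)] at a2
  rw [mul_comm (C.J lam f) g]
  linarith

/-- `L¹` contraction -/
theorem J_L1 (hl : 0 < lam) (hf : MemLp f 2 m) (hf1 : MemLp f 1 m) (h0 : 0 ≤ f) :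
    MemLp (C.J lam f) 1 m ∧ I (C.J lam f) ≤ I f := by
  set u := C.J lam f with hu
  have hu0 : 0 ≤ u := hC.J_nonneg hl hf h0
  have hu2 : MemLp u 2 m := hC.J_mem2 hl hf
  have hum : StronglyMeasurable (u : M → ℝ) := AEEqFun.stronglyMeasurable u
  -- superlevel sets
  have hSm : ∀ k : ℕ, MeasurableSet {x | ((k : ℝ) + 1)⁻¹ < u x} := fun k =>
    measurableSet_lt measurable_const hum.measurable
  have hSfin : ∀ k : ℕ, m {x | ((k : ℝ) + 1)⁻¹ < u x} < ∞ := by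
    intro k
    have h1 := mul_meas_ge_le_pow_eLpNorm' m (p := 2) two_ne_zero (by simp) hu2.1
      (ENNReal.ofReal ((k : ℝ) + 1)⁻¹)
    have h2 : m {x | ((k : ℝ) + 1)⁻¹ < u x} ≤ m {x | ENNReal.ofReal ((k : ℝ) + 1)⁻¹ ≤ ‖u x‖ₑ} := by
      refine measure_mono fun x hx => ?_
      simp only [Set.mem_setOf_eq] at hx ⊢
      rw [← ofReal_norm_eq_enorm, Real.norm_eq_abs]
      exact ENNReal.ofReal_le_ofReal (hx.le.trans (le_abs_self _))
    refine h2.trans_lt ?_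
    by_contra hcon
    push Not at hcon
    rw [top_le_iff] at hcon
    rw [hcon] at h1
    have h3 : eLpNorm (⇑u) 2 m ^ (2 : ℝ≥0∞).toReal < ∞ :=
      ENNReal.rpow_lt_top_of_nonneg (by simp) hu2.eLpNorm_lt_top.ne
    rw [ENNReal.mul_top] at h1
    · exact absurd (top_le_iff.1 h1) h3.ne
    · have h4 : (0 : ℝ) < ((k : ℝ) + 1)⁻¹ := by positivity
      have h5 : ENNReal.ofReal ((k : ℝ) + 1)⁻¹ ≠ 0 := by
        rw [ne_eq, ENNReal.ofReal_eq_zero, not_le]; exact h4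
      simp [h5]
  -- test with indicators
  have key : ∀ k : ℕ, ∫ x in {x | ((k : ℝ) + 1)⁻¹ < u x}, u x ∂m ≤ I f := by
    intro k
    have hind : MemLp (Set.indicator {x | ((k : ℝ) + 1)⁻¹ < u x} (fun _ => (1 : ℝ))) 2 m :=
      memLp_indicator_const 2 (hSm k) 1 (Or.inr (hSfin k).ne)
    set g : M →ₘ[m] ℝ := AEEqFun.mk _ hind.1 with hg
    have hgae := AEEqFun.coeFn_mk _ hind.1
    have hg2 : MemLp g 2 m := (memLp_congr_ae hgae).2 hind
    have hg1 : g ≤ (1 : ℝ) • (1 : M →ₘ[m] ℝ) := by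
      rw [le_iff_ae]
      filter_upwards [hgae, smul_ae (1 : M →ₘ[m] ℝ) (1 : ℝ), one_ae (M := M) (m := m)]
        with x a1 a2 a3
      rw [a2, a3, hg, a1, mul_one]
      exact Set.indicator_le_self' (fun _ _ => zero_le_one) x |>.trans le_rfl
    have h1 := hC.J_symm hl hf hg2
    have h2 := hC.J_le hl hg2 zero_le_one hg1
    have h3 : I (f * C.J lam g) ≤ I f := by
      refine I_mono (mem_mul_22 hf (hC.J_mem2 hl hg2)) hf1 ?_
      rw [le_iff_ae]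
      filter_upwards [mul_ae f (C.J lam g), le_iff_ae.1 h2, nonneg_iff_ae.1 h0,
        smul_ae (1 : M →ₘ[m] ℝ) (1 : ℝ), one_ae (M := M) (m := m)] with x a1 a2 a3 a4 a5
      rw [a1]
      rw [a4, a5, mul_one] at a2
      linarith only [mul_nonneg (sub_nonneg.2 a2) (sub_nonneg.2 a3)]
    rw [← h1] at h3
    refine le_trans (le_of_eq ?_) h3
    unfold I
    rw [← integral_indicator (hSm k)]
    refine integral_congr_ae ?_
    filter_upwards [mul_ae u g, hgae] with x a1 a2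
    rw [← hu, a1, hg, a2]
    by_cases hx : x ∈ {x | ((k : ℝ) + 1)⁻¹ < u x}
    · rw [Set.indicator_of_mem hx, Set.indicator_of_mem hx, mul_one]
    · rw [Set.indicator_of_notMem hx, Set.indicator_of_notMem hx, mul_zero]
  -- monotone convergence
  have hlint : ∫⁻ x, ENNReal.ofReal (u x) ∂m ≤ ENNReal.ofReal (I f) := by
    have hmono : Monotone fun (k : ℕ) (x : M) =>
        Set.indicator {x | ((k : ℝ) + 1)⁻¹ < u x} (fun x => ENNReal.ofReal (u x)) x := by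
      intro j k hjk x
      refine Set.indicator_le_indicator_of_subset (fun y hy => ?_) (fun _ => zero_le) x
      simp only [Set.mem_setOf_eq] at hy ⊢
      refine lt_of_le_of_lt ?_ hy
      have : (j : ℝ) ≤ k := by exact_mod_cast hjk
      gcongr
    have hmeas : ∀ k : ℕ, Measurable fun (x : M) =>
        Set.indicator {x | ((k : ℝ) + 1)⁻¹ < u x} (fun x => ENNReal.ofReal (u x)) x := fun k =>
      (hum.measurable.ennreal_ofReal).indicator (hSm k)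
    have hsup : ∀ᵐ x ∂m, ENNReal.ofReal (u x) ≤ ⨆ k : ℕ,
        Set.indicator {x | ((k : ℝ) + 1)⁻¹ < u x} (fun x => ENNReal.ofReal (u x)) x := by
      filter_upwards [nonneg_iff_ae.1 hu0] with x hx
      rcases hx.eq_or_lt with h | h
      · rw [← h]; simp
      · obtain ⟨k, hk⟩ := exists_nat_one_div_lt h
        rw [one_div] at hk
        refine le_iSup_of_le k ?_
        rw [Set.indicator_of_mem (show x ∈ {x | ((k : ℝ) + 1)⁻¹ < u x} from hk)]
    calc ∫⁻ x, ENNReal.ofReal (u x) ∂m ≤ ∫⁻ x, ⨆ k : ℕ,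
        Set.indicator {x | ((k : ℝ) + 1)⁻¹ < u x} (fun x => ENNReal.ofReal (u x)) x ∂m :=
          lintegral_mono_ae hsup
      _ = ⨆ k : ℕ, ∫⁻ x,
        Set.indicator {x | ((k : ℝ) + 1)⁻¹ < u x} (fun x => ENNReal.ofReal (u x)) x ∂m :=
          lintegral_iSup hmeas hmono
      _ ≤ ENNReal.ofReal (I f) := by
          refine iSup_le fun k => ?_
          rw [lintegral_indicator (hSm k), ← ofReal_integral_eq_lintegral_ofReal]
          · exact ENNReal.ofReal_le_ofReal (key k)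
          · haveI : IsFiniteMeasure (m.restrict {x | ((k : ℝ) + 1)⁻¹ < u x}) :=
              ⟨by rw [Measure.restrict_apply_univ]; exact hSfin k⟩
            exact (hu2.restrict _).integrable (by norm_num)
          · exact ae_restrict_of_ae (nonneg_iff_ae.1 hu0)
  have hint : Integrable u m := by
    refine ⟨u.aestronglyMeasurable, ?_⟩
    rw [hasFiniteIntegral_iff_ofReal (nonneg_iff_ae.1 hu0)]
    exact hlint.trans_lt ENNReal.ofReal_lt_top
  refine ⟨memLp_one_iff_integrable.2 hint, ?_⟩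
  unfold I
  rw [integral_eq_lintegral_of_nonneg_ae (nonneg_iff_ae.1 hu0) hint.1]
  exact ENNReal.toReal_le_of_le_ofReal (I_nonneg h0) hlint

/-- basic estimates for `f ∈ W` -/
theorem J_est (hl : 0 < lam) (hf : f ∈ C.W) :
    I (C.Γ (C.J lam f) (C.J lam f)) ≤ I (C.Γ (C.J lam f) f) ∧
    I (C.Γ (C.J lam f) (C.J lam f)) ≤ I (C.Γ f f) ∧
    I ((C.J lam f - f) ^ 2) ≤ lam * I (C.Γ f f) := by
  have hf2 := hC.memLp f hf
  set u := C.J lam f with hu
  have huW : u ∈ C.W := hC.J_mem hl hf2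
  have hu2 := hC.memLp u huW
  have huf := hC.sub_mem huW hf
  have huf2 := hC.memLp _ huf
  have a1 := (hC.J_spec hl hf2).2 (u - f) huf
  rw [← hu] at a1
  have a2 : I ((u - f) ^ 2) = I (u * (u - f)) - I (f * (u - f)) := by
    rw [sq, ← I_sub (mem_mul_22 hu2 huf2) (mem_mul_22 hf2 huf2), ← sub_mul]
  have a3 : I (C.Γ u (u - f)) = I (C.Γ u u) - I (C.Γ u f) := by
    rw [hC.Γ_sub_right huW huW hf, I_sub (hC.Γ_mem1 huW huW) (hC.Γ_mem1 huW hf)]
  have a4 := I_sq_nonneg (u - f)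
  have a5 : I ((u - f) ^ 2) = lam * (I (C.Γ u f) - I (C.Γ u u)) := by
    rw [a2]; rw [a3] at a1; linarith
  have a6 : I (C.Γ u u) ≤ I (C.Γ u f) := by
    by_contra hcon
    push Not at hcon
    have : lam * (I (C.Γ u f) - I (C.Γ u u)) < 0 := mul_neg_of_pos_of_neg hl (by linarith)
    linarith
  have a7 := hC.E_cs huW hf
  have a8 := I_nonneg (hC.nonneg _ huW)
  have a9 := I_nonneg (hC.nonneg _ hf)
  have a10 : I (C.Γ u u) ≤ I (C.Γ f f) := by
    by_contra hcon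
    push Not at hcon
    linarith only [mul_pos (sub_pos.2 hcon) (sub_pos.2 hcon), mul_nonneg (sub_nonneg.2 a9) (le_of_lt (sub_pos.2 hcon)), mul_nonneg (sub_nonneg.2 a6) (le_of_lt (sub_pos.2 hcon)), mul_nonneg (sub_nonneg.2 a6) (sub_nonneg.2 a9), mul_nonneg (sub_nonneg.2 a6) (sub_nonneg.2 a6), a7]
  refine ⟨a6, a10, ?_⟩
  rw [a5]
  refine mul_le_mul_of_nonneg_left ?_ hl.le
  have a11 : I (C.Γ u f) ≤ I (C.Γ f f) := by
    by_contra hcon
    push Not at hcon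
    linarith only [mul_pos (sub_pos.2 hcon) (sub_pos.2 hcon), mul_nonneg (sub_nonneg.2 a9) (le_of_lt (sub_pos.2 hcon)), mul_nonneg (sub_nonneg.2 a9) (sub_nonneg.2 a10), a7]
  linarith

/-- `J_lam f → f` in `L²` -/
theorem J_tendsto_L2 (hf : MemLp f 2 m) :
    Tendsto (fun n : ℕ => I ((C.J ((n : ℝ) + 1)⁻¹ f - f) ^ 2)) atTop (𝓝 0) := by
  rw [Metric.tendsto_atTop]
  intro ε hε
  obtain ⟨g, hg, hfg⟩ := hC.dense_L2 f hf (ε / 12) (by positivity)
  have hg2 := hC.memLp g hg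
  have h1 : Tendsto (fun n : ℕ => ((n : ℝ) + 1)⁻¹ * I (C.Γ g g)) atTop (𝓝 0) := by
    have := tendsto_inv_succ.mul_const (I (C.Γ g g))
    simpa using this
  obtain ⟨N, hN⟩ := (Metric.tendsto_atTop.1 h1) (ε / 12) (by positivity)
  refine ⟨N, fun n hn => ?_⟩
  have hl : (0 : ℝ) < ((n : ℝ) + 1)⁻¹ := by positivity
  have hN' := hN n hn
  rw [Real.dist_eq, sub_zero, abs_of_nonneg (mul_nonneg hl.le (I_nonneg (hC.nonneg g hg)))] at hN'
  rw [Real.dist_eq, sub_zero, abs_of_nonneg (I_sq_nonneg _)]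
  have hfg2 := mem_sub hf hg2
  have k1 := hC.J_sq_le hl hfg2
  have k2 := (hC.J_est hl hg).2.2
  have hJ := hC.J_sub hl hf hg2
  set u := C.J ((n : ℝ) + 1)⁻¹ f
  set v := C.J ((n : ℝ) + 1)⁻¹ g
  have hu2 : MemLp u 2 m := hC.J_mem2 hl hf
  have hv2 : MemLp v 2 m := hC.J_mem2 hl hg2
  rw [hJ] at k1
  have k3 : I ((u - f) ^ 2) ≤ 3 * I ((u - v) ^ 2) + 3 * I ((v - g) ^ 2) + 3 * I ((f - g) ^ 2) := by
    rw [← I_smul, ← I_smul, ← I_smul, ← I_add (mem_smul _ (mem_sq (mem_sub hu2 hv2)))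
      (mem_smul _ (mem_sq (mem_sub hv2 hg2))), ← I_add (mem_add (mem_smul _
      (mem_sq (mem_sub hu2 hv2))) (mem_smul _ (mem_sq (mem_sub hv2 hg2))))
      (mem_smul _ (mem_sq (mem_sub hf hg2)))]
    refine I_mono (mem_sq (mem_sub hu2 hf)) (mem_add (mem_add (mem_smul _
      (mem_sq (mem_sub hu2 hv2))) (mem_smul _ (mem_sq (mem_sub hv2 hg2))))
      (mem_smul _ (mem_sq (mem_sub hf hg2)))) ?_
    rw [le_iff_ae]
    filter_upwards [sq_ae (u - f), sub_ae u f, add_ae ((3 : ℝ) • (u - v) ^ 2 +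
      (3 : ℝ) • (v - g) ^ 2) ((3 : ℝ) • (f - g) ^ 2), add_ae ((3 : ℝ) • (u - v) ^ 2)
      ((3 : ℝ) • (v - g) ^ 2), smul_ae ((u - v) ^ 2) (3 : ℝ), smul_ae ((v - g) ^ 2) (3 : ℝ),
      smul_ae ((f - g) ^ 2) (3 : ℝ), sq_ae (u - v), sq_ae (v - g), sq_ae (f - g), sub_ae u v,
      sub_ae v g, sub_ae f g] with x b1 b2 b3 b4 b5 b6 b7 b8 b9 b10 b11 b12 b13
    rw [b1, b2, b3, b4, b5, b6, b7, b8, b9, b10, b11, b12, b13]
    linarith only [sq_nonneg ((v x - g x) + (f x - g x)), sq_nonneg ((u x - v x) + (f x - g x)), sq_nonneg ((u x - v x) - (v x - g x))]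
  linarith

/-- `J_lam f → f` in `W` -/
theorem J_tendsto_W (hf : f ∈ C.W) :
    Tendsto (fun n : ℕ => C.nrm2 (C.J ((n : ℝ) + 1)⁻¹ f - f)) atTop (𝓝 0) := by
  have hf2 := hC.memLp f hf
  have h1 := hC.J_tendsto_L2 hf2
  have hl : ∀ n : ℕ, (0 : ℝ) < ((n : ℝ) + 1)⁻¹ := fun n => by positivity
  have hW : ∀ n : ℕ, C.J ((n : ℝ) + 1)⁻¹ f ∈ C.W := fun n => hC.J_mem (hl n) hf2
  -- lower semicontinuity
  have h2 : ∀ ε > 0, ∀ᶠ n : ℕ in atTop, I (C.Γ f f) - ε <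
      I (C.Γ (C.J ((n : ℝ) + 1)⁻¹ f) (C.J ((n : ℝ) + 1)⁻¹ f)) := by
    intro ε hε
    by_contra hcon
    rw [not_eventually] at hcon
    obtain ⟨ns, hns, hns2⟩ := extraction_of_frequently_atTop hcon
    have h3 := hC.mem_of_bounded (u := fun k => C.J (((ns k : ℕ) : ℝ) + 1)⁻¹ f) (f := f)
      (K := I (C.Γ f f) - ε) (fun k => hW (ns k)) (fun k => not_lt.1 (hns2 k)) hf2
      (h1.comp hns.tendsto_atTop)
    linarith [h3.2]
  have h3 : Tendsto (fun n : ℕ => I (C.Γ (C.J ((n : ℝ) + 1)⁻¹ f - f)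
      (C.J ((n : ℝ) + 1)⁻¹ f - f))) atTop (𝓝 0) := by
    rw [Metric.tendsto_atTop']
    intro ε hε
    obtain ⟨N, hN⟩ := eventually_atTop.1 (h2 ε hε)
    refine ⟨N, fun n hn => ?_⟩
    have hn2 := hN n hn.le
    obtain ⟨e1, e2, e3⟩ := hC.J_est (hl n) hf
    set u := C.J ((n : ℝ) + 1)⁻¹ f
    have huW : u ∈ C.W := hW n
    have huf := hC.sub_mem huW hf
    rw [Real.dist_eq, sub_zero, abs_of_nonneg (I_nonneg (hC.nonneg _ huf))]
    have e4 : I (C.Γ (u - f) (u - f)) = I (C.Γ u u) - 2 * I (C.Γ u f) + I (C.Γ f f) := by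
      rw [hC.Γ_sub_left huW hf huf, I_sub (hC.Γ_mem1 huW huf) (hC.Γ_mem1 hf huf),
        hC.Γ_sub_right huW huW hf, hC.Γ_sub_right hf huW hf, I_sub (hC.Γ_mem1 huW huW)
        (hC.Γ_mem1 huW hf), I_sub (hC.Γ_mem1 hf huW) (hC.Γ_mem1 hf hf), hC.symm f hf u huW]
      ring
    rw [e4]
    linarith
  have h4 := h1.add h3
  rw [add_zero] at h4
  exact h4

/-- a countable set is dense in `W` -/
theorem exists_dense_seq [SigmaFinite m] [MeasurableSpace.CountablyGenerated M] :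
    ∃ u : ℕ → M →ₘ[m] ℝ, (∀ n, u n ∈ C.W) ∧
      ∀ f ∈ C.W, ∀ ε > 0, ∃ n, C.nrm2 (u n - f) < ε := by
  haveI : Fact ((1 : ℝ≥0∞) ≤ 2) := ⟨by norm_num⟩
  haveI : Fact ((2 : ℝ≥0∞) ≠ ∞) := ⟨by simp⟩
  haveI : SecondCountableTopology (Lp ℝ 2 m) := inferInstance
  set d : ℕ → Lp ℝ 2 m := TopologicalSpace.denseSeq (Lp ℝ 2 m) with hd
  have hdm : ∀ k, MemLp (d k : M →ₘ[m] ℝ) 2 m := fun k => Lp.memLp (d k)
  have hl : ∀ n : ℕ, (0 : ℝ) < ((n : ℝ) + 1)⁻¹ := fun n => by positivity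
  refine ⟨fun n => C.J (((Nat.unpair n).1 : ℝ) + 1)⁻¹ (d (Nat.unpair n).2),
    fun n => hC.J_mem (hl _) (hdm _), fun f hf ε hε => ?_⟩
  have hf2 := hC.memLp f hf
  obtain ⟨n, hn⟩ := ((hC.J_tendsto_W hf).eventually (gt_mem_nhds (show (0:ℝ) < ε / 4 by
    positivity))).exists
  -- approximate f by d k
  set δ : ℝ := ε / (4 * (n + 2)) with hδ
  have hδ0 : 0 < δ := by positivity
  obtain ⟨k, hk⟩ := Metric.denseRange_iff.1 (TopologicalSpace.denseRange_denseSeq (Lp ℝ 2 m))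
    hf2.toLp (Real.sqrt δ) (Real.sqrt_pos.2 hδ0)
  rw [← hd, dist_eq_norm] at hk
  have hk2 : I ((f - (d k : M →ₘ[m] ℝ)) ^ 2) < δ := by
    have e1 : I ((f - (d k : M →ₘ[m] ℝ)) ^ 2) = ‖hf2.toLp - d k‖ ^ 2 := by
      rw [I_sq_eq_norm (mem_sub hf2 (hdm k))]
      congr 2
      apply Lp.ext
      filter_upwards [(mem_sub hf2 (hdm k)).coeFn_toLp, Lp.coeFn_sub hf2.toLp (d k),
        hf2.coeFn_toLp, sub_ae f (d k : M →ₘ[m] ℝ)] with x a1 a2 a3 a4
      rw [a1, a2, Pi.sub_apply, a3, a4]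
    rw [e1, ← Real.sq_sqrt hδ0.le]
    have := norm_nonneg (hf2.toLp - d k)
    gcongr
  refine ⟨Nat.pair n k, ?_⟩
  simp only [Nat.unpair_pair]
  have hfd := mem_sub hf2 (hdm k)
  have c1 := hC.J_contr (hl n) hfd
  have hJ := hC.J_sub (hl n) hf2 (hdm k)
  set u := C.J ((n : ℝ) + 1)⁻¹ f
  set v := C.J ((n : ℝ) + 1)⁻¹ (d k : M →ₘ[m] ℝ)
  have huW : u ∈ C.W := hC.J_mem (hl n) hf2
  have hvW : v ∈ C.W := hC.J_mem (hl n) (hdm k)
  rw [hJ] at c1
  -- `nrm2 (v - f) ≤ 2 nrm2 (u - v) + 2 nrm2 (u - f)`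
  have huv := hC.sub_mem huW hvW
  have huf := hC.sub_mem huW hf
  have hvf := hC.sub_mem hvW hf
  have c2 : C.nrm2 (v - f) ≤ 2 * C.nrm2 (u - v) + 2 * C.nrm2 (u - f) := by
    have hsum := hC.add_mem _ huv _ huf
    have p1 : I ((v - f) ^ 2) + I ((u - v + (u - f)) ^ 2) =
        2 * I ((u - v) ^ 2) + 2 * I ((u - f) ^ 2) := by
      rw [← I_add (mem_sq (hC.memLp _ hvf)) (mem_sq (hC.memLp _ hsum)), ← I_smul, ← I_smul,
        ← I_add (mem_smul _ (mem_sq (hC.memLp _ huv))) (mem_smul _ (mem_sq (hC.memLp _ huf)))]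
      congr 1
      simp only [Algebra.smul_def]
      have e2 : algebraMap ℝ (M →ₘ[m] ℝ) 2 = 2 := map_ofNat _ 2
      rw [e2]
      ring
    have p2 : I (C.Γ (v - f) (v - f)) + I (C.Γ (u - v + (u - f)) (u - v + (u - f))) =
        2 * I (C.Γ (u - v) (u - v)) + 2 * I (C.Γ (u - f) (u - f)) := by
      have e3 : v - f = (u - f) - (u - v) := by abel
      rw [e3]
      rw [hC.Γ_sub_left huf huv (hC.sub_mem huf huv), hC.Γ_sub_right huf huf huv,
        hC.Γ_sub_right huv huf huv, hC.add_left _ huv _ huf _ hsum,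
        hC.Γ_add_right huv huv huf, hC.Γ_add_right huf huv huf, hC.symm _ huf _ huv]
      rw [I_sub (mem_sub (hC.Γ_mem1 huf huf) (hC.Γ_mem1 huv huf))
        (mem_sub (hC.Γ_mem1 huv huf) (hC.Γ_mem1 huv huv)),
        I_sub (hC.Γ_mem1 huf huf) (hC.Γ_mem1 huv huf),
        I_sub (hC.Γ_mem1 huv huf) (hC.Γ_mem1 huv huv),
        I_add (mem_add (hC.Γ_mem1 huv huv) (hC.Γ_mem1 huv huf))
        (mem_add (hC.Γ_mem1 huv huf) (hC.Γ_mem1 huf huf)),
        I_add (hC.Γ_mem1 huv huv) (hC.Γ_mem1 huv huf),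
        I_add (hC.Γ_mem1 huv huf) (hC.Γ_mem1 huf huf)]
      ring
    have p3 := I_sq_nonneg (u - v + (u - f))
    have p4 := I_nonneg (hC.nonneg _ hsum)
    unfold Calc.nrm2
    linarith
  have c3 : C.nrm2 (u - v) ≤ (n + 2) * δ := by
    unfold Calc.nrm2
    have q1 := I_sq_nonneg (u - v)
    have q2 := I_nonneg (hC.nonneg _ huv)
    have q3 : (((n : ℝ) + 1)⁻¹) * I (C.Γ (u - v) (u - v)) ≤ δ := by linarith only [q1, c1, hk2]
    have q4 : I (C.Γ (u - v) (u - v)) ≤ (n + 1) * δ := by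
      rw [inv_mul_le_iff₀ (by positivity)] at q3
      exact q3
    have q5 : I ((u - v) ^ 2) ≤ δ := by
      have : 0 ≤ (((n : ℝ) + 1)⁻¹) * I (C.Γ (u - v) (u - v)) := by (clear * - q2; positivity)
      linarith only [this, c1, hk2]
    linarith
  have c4 : ((n : ℝ) + 2) * δ = ε / 4 := by
    rw [hδ]; field_simp
  have c5 : C.nrm2 (v - f) < ε := by
    rw [c4] at c3
    linarith
  exact c5

end IsDir

end Vale.Agent.P233
end

section

open Filter Topology Set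

namespace Vale.Agent.P233

/-- smooth truncation at the level `K` -/
theorem exists_clamp {K : ℝ} (hK : 0 < K) (n : ℕ) : ∃ φ φ' : ℝ → ℝ, Continuous φ ∧ Continuous φ' ∧
    (∀ t, HasDerivAt φ (φ' t) t) ∧ φ 0 = 0 ∧ (∀ t, 0 ≤ φ' t ∧ φ' t ≤ 1) ∧ (∀ t, |φ t| ≤ K) ∧
    (∀ t s, |φ t - φ s| ≤ |t - s|) ∧ ∀ t, |t| ≤ K → |φ t - t| ≤ K / ((n : ℝ) + 1) := by
  set N : ℝ := (n : ℝ) + 1 with hN
  have hN0 : 0 < N := by positivity
  have hN1 : 1 ≤ N := by rw [hN]; linarith [Nat.cast_nonneg (α := ℝ) n]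
  set ρ : ℝ → ℝ := fun s => max 0 (min 1 ((K - |s|) * (N / K))) with hρ
  have hρc : Continuous ρ := by fun_prop
  have hρ0 : ∀ s, 0 ≤ ρ s := fun s => le_max_left _ _
  have hρ1 : ∀ s, ρ s ≤ 1 := fun s => max_le zero_le_one (min_le_left _ _)
  set φ : ℝ → ℝ := fun t => ∫ s in (0 : ℝ)..t, ρ s with hφ
  have hd : ∀ t, HasDerivAt φ (ρ t) t := fun t => (hρc.integral_hasStrictDerivAt 0 t).hasDerivAt
  have hφc : Continuous φ := continuous_iff_continuousAt.2 fun t => (hd t).continuousAt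
  have hφ0 : φ 0 = 0 := by simp [hφ]
  have hlip : ∀ t s, |φ t - φ s| ≤ |t - s| := by
    intro t s
    have := Convex.norm_image_sub_le_of_norm_hasDerivWithin_le (f := φ) (f' := ρ) (s := univ)
      (C := 1) (fun x _ => (hd x).hasDerivWithinAt)
      (fun x _ => by rw [Real.norm_eq_abs, abs_of_nonneg (hρ0 x)]; exact hρ1 x) convex_univ
      (mem_univ s) (mem_univ t)
    simpa using this
  have hle : ∀ t, |φ t| ≤ |t| := by
    intro t
    have := hlip t 0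
    rwa [hφ0, sub_zero, sub_zero] at this
  -- constancy outside
  have hout1 : ∀ t, K ≤ t → φ t = φ K := by
    intro t ht
    have := Convex.norm_image_sub_le_of_norm_hasDerivWithin_le (f := φ) (f' := ρ) (s := Ici K)
      (C := 0) (fun x _ => (hd x).hasDerivWithinAt)
      (fun x hx => by
        have hx' : K ≤ x := hx
        have h1 : (K - |x|) * (N / K) ≤ 0 :=
          mul_nonpos_of_nonpos_of_nonneg (by linarith [le_abs_self x]) (by positivity)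
        have h2 : ρ x = 0 := by
          simp only [hρ]
          exact max_eq_left ((min_le_right _ _).trans h1)
        rw [h2]; simp) (convex_Ici K) (mem_Ici.2 le_rfl) (mem_Ici.2 ht)
    rw [zero_mul, norm_le_zero_iff] at this
    linarith
  have hout2 : ∀ t, t ≤ -K → φ t = φ (-K) := by
    intro t ht
    have := Convex.norm_image_sub_le_of_norm_hasDerivWithin_le (f := φ) (f' := ρ) (s := Iic (-K))
      (C := 0) (fun x _ => (hd x).hasDerivWithinAt)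
      (fun x hx => by
        have hx' : x ≤ -K := hx
        have h1 : (K - |x|) * (N / K) ≤ 0 :=
          mul_nonpos_of_nonpos_of_nonneg (by linarith [neg_le_abs x]) (by positivity)
        have h2 : ρ x = 0 := by
          simp only [hρ]
          exact max_eq_left ((min_le_right _ _).trans h1)
        rw [h2]; simp) (convex_Iic (-K)) (mem_Iic.2 le_rfl) (mem_Iic.2 ht)
    rw [zero_mul, norm_le_zero_iff] at this
    linarith
  have hbd : ∀ t, |φ t| ≤ K := by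
    intro t
    rcases le_total K t with h | h
    · rw [hout1 t h]
      exact (hle K).trans (abs_of_pos hK).le
    rcases le_total t (-K) with h' | h'
    · rw [hout2 t h']
      refine (hle (-K)).trans ?_
      rw [abs_neg, abs_of_pos hK]
    · exact (hle t).trans (abs_le.2 ⟨h', h⟩)
  -- identity inside
  set a : ℝ := K - K / N with ha
  have hKN : K / N ≤ K := div_le_self hK.le hN1
  have hKN0 : 0 < K / N := by positivity
  have ha0 : 0 ≤ a := by rw [ha]; linarith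
  have hin : ∀ t, |t| ≤ a → φ t = t := by
    intro t ht
    have := Convex.norm_image_sub_le_of_norm_hasDerivWithin_le (f := fun t => φ t - t)
      (f' := fun t => ρ t - 1) (s := Icc (-a) a)
      (C := 0) (fun x _ => ((hd x).sub (hasDerivAt_id' x)).hasDerivWithinAt)
      (fun x hx => by
        have h1 : |x| ≤ a := abs_le.2 hx
        have h2 : 1 ≤ (K - |x|) * (N / K) := by
          have h3 : K / N ≤ K - |x| := by rw [ha] at h1; linarith
          calc (1 : ℝ) = K / N * (N / K) := by field_simp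
            _ ≤ (K - |x|) * (N / K) := mul_le_mul_of_nonneg_right h3 (by positivity)
        have h4 : ρ x = 1 := by
          simp only [hρ]
          rw [min_eq_left h2]
          norm_num
        simp only [h4]; simp) (convex_Icc _ _)
      (show (0 : ℝ) ∈ Icc (-a) a from ⟨by linarith, ha0⟩) (show t ∈ Icc (-a) a from abs_le.1 ht)
    rw [zero_mul, norm_le_zero_iff] at this
    rw [hφ0] at this
    linarith
  refine ⟨φ, ρ, hφc, hρc, hd, hφ0, fun t => ⟨hρ0 t, hρ1 t⟩, hbd, hlip, fun t ht => ?_⟩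
  -- derivative of `φ - id` is between `-1` and `0`
  have hlip2 : ∀ t s, |(φ t - t) - (φ s - s)| ≤ |t - s| := by
    intro t s
    have := Convex.norm_image_sub_le_of_norm_hasDerivWithin_le (f := fun t => φ t - t)
      (f' := fun t => ρ t - 1) (s := univ)
      (C := 1) (fun x _ => ((hd x).sub (hasDerivAt_id' x)).hasDerivWithinAt)
      (fun x _ => by
        rw [Real.norm_eq_abs, abs_le]
        constructor <;> linarith [hρ0 x, hρ1 x]) convex_univ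
      (mem_univ s) (mem_univ t)
    simpa using this
  rcases le_total (|t|) a with h | h
  · rw [hin t h]; simpa using hKN0.le
  · rcases le_total 0 t with h0 | h0
    · have h1 := hlip2 t a
      rw [hin a (by rw [abs_of_nonneg ha0]), sub_self, sub_zero] at h1
      rw [abs_of_nonneg h0] at h ht
      rw [abs_of_nonneg (sub_nonneg.2 h)] at h1
      refine h1.trans ?_
      rw [ha]; linarith
    · have h1 := hlip2 t (-a)
      rw [hin (-a) (by rw [abs_neg, abs_of_nonneg ha0]), sub_self, sub_zero] at h1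
      rw [abs_of_nonpos h0] at h ht
      rw [abs_of_nonpos (show t - -a ≤ 0 by linarith)] at h1
      refine h1.trans ?_
      rw [ha] at *
      linarith

end Vale.Agent.P233
end

section

open MeasureTheory Filter Topology
open scoped ENNReal NNReal

namespace Vale.Agent.P233

variable {M : Type*} [MeasurableSpace M] {m : Measure M} {C : Calc m}

/-- dominated convergence for bounded multipliers -/
theorem I_tendsto_of_bdd {u : ℕ → M →ₘ[m] ℝ} {v G : M →ₘ[m] ℝ} {K : ℝ}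
    (hu : ∀ n, ∀ᵐ x ∂m, |u n x| ≤ K) (hlim : ∀ᵐ x ∂m, Tendsto (fun n => u n x) atTop (𝓝 (v x)))
    (hG : MemLp G 1 m) : Tendsto (fun n => I (u n * G)) atTop (𝓝 (I (v * G))) := by
  unfold I
  refine tendsto_integral_of_dominated_convergence (fun x => K * |G x|)
    (fun n => (u n * G).aestronglyMeasurable) ?_ ?_ ?_
  · exact (int_of_mem hG).abs.const_mul K
  · intro n
    filter_upwards [hu n, mul_ae (u n) G] with x h1 h2
    rw [h2, Real.norm_eq_abs, abs_mul]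
    exact mul_le_mul_of_nonneg_right h1 (abs_nonneg _)
  · have : ∀ᵐ x ∂m, ∀ n, (u n * G) x = u n x * G x := by
      rw [ae_all_iff]; intro n; exact mul_ae (u n) G
    filter_upwards [this, mul_ae v G, hlim] with x h1 h2 h3
    rw [h2]
    simp only [h1]
    exact h3.mul_const _

namespace IsDir

/-- a continuous linear functional of the form `h ↦ I(Γ(a,h)) + I(K h)` that vanishes on bounded
functions vanishes -/
theorem ext_A (hC : IsDir C) {a K h : M →ₘ[m] ℝ} (ha : a ∈ C.W) (hK : MemLp K 2 m)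
    (H : ∀ h ∈ C.A, I (C.Γ a h) + I (K * h) = 0) (hh : h ∈ C.W) :
    I (C.Γ a h) + I (K * h) = 0 := by
  obtain ⟨u, hu, -, hlim, -⟩ := hC.exists_trunc hh
  have hd : ∀ n, u n - h ∈ C.W := fun n => hC.sub_mem (hu n).1 hh
  have h1 : ∀ n, (I (C.Γ a h) + I (K * h)) ^ 2
      ≤ 2 * (I (C.Γ a a) + I (K ^ 2)) * C.nrm2 (u n - h) := by
    intro n
    have e1 : I (C.Γ a (u n - h)) = I (C.Γ a (u n)) - I (C.Γ a h) := by
      rw [hC.Γ_sub_right ha (hu n).1 hh, I_sub (hC.Γ_mem1 ha (hu n).1) (hC.Γ_mem1 ha hh)]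
    have e2 : I (K * (u n - h)) = I (K * u n) - I (K * h) := by
      rw [mul_sub, I_sub (mem_mul_22 hK (hC.memLp _ (hu n).1)) (mem_mul_22 hK (hC.memLp _ hh))]
    have e3 := H _ (hu n)
    have c1 := hC.E_cs ha (hd n)
    have c2 := I_cs hK (hC.memLp _ (hd n))
    have p1 : 0 ≤ I (C.Γ a a) := I_nonneg (hC.nonneg _ ha)
    have p2 : 0 ≤ I (K ^ 2) := I_nonneg (sq_nonneg' _)
    have p3 : 0 ≤ I (C.Γ (u n - h) (u n - h)) := I_nonneg (hC.nonneg _ (hd n))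
    have p4 : 0 ≤ I ((u n - h) ^ 2) := I_nonneg (sq_nonneg' _)
    have e4 : I (C.Γ a h) + I (K * h) = -(I (C.Γ a (u n - h)) + I (K * (u n - h))) := by
      rw [e1, e2]; linarith
    rw [e4]
    unfold Calc.nrm2
    linarith only [mul_nonneg p2 p3, mul_nonneg p1 p4, sq_nonneg (I (C.Γ a (u n - h)) - I (K * (u n - h))), c2, c1]
  have h2 : Tendsto (fun n => 2 * (I (C.Γ a a) + I (K ^ 2)) * C.nrm2 (u n - h)) atTop (𝓝 0) := by
    simpa using hlim.const_mul (2 * (I (C.Γ a a) + I (K ^ 2)))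
  have h3 := ge_of_tendsto h2 (Eventually.of_forall h1)
  have : (I (C.Γ a h) + I (K * h)) ^ 2 = 0 := le_antisymm h3 (sq_nonneg _)
  exact pow_eq_zero_iff (two_ne_zero) |>.1 this

end IsDir

end Vale.Agent.P233
end

section

open MeasureTheory Filter Topology
open scoped ENNReal NNReal

namespace Vale.Agent.P233

variable {M : Type*} [MeasurableSpace M] {m : Measure M} {C : Calc m}

section poly
open Polynomial

theorem bern_sum0 (n : ℕ) : ∑ k ∈ Finset.range (n + 1), bernsteinPolynomial ℝ n k = 1 :=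
  bernsteinPolynomial.sum ℝ n

theorem bern_sum1 (n : ℕ) :
    ∑ k ∈ Finset.range (n + 1), (k : ℝ) • bernsteinPolynomial ℝ n k = (n : ℝ) • X := by
  have h := bernsteinPolynomial.sum_smul ℝ n
  have e : ∀ (k : ℕ) (P : ℝ[X]), (k : ℝ) • P = k • P := fun k P => by
    rw [Nat.cast_smul_eq_nsmul]
  simp only [e]
  exact h

theorem bern_sum2 (n : ℕ) :
    ∑ k ∈ Finset.range (n + 1), ((k : ℝ) ^ 2) • bernsteinPolynomial ℝ n k
      = ((n : ℝ) ^ 2) • X ^ 2 + (n : ℝ) • (X * (1 - X)) := by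
  have h := bernsteinPolynomial.variance ℝ n
  have h0 := bern_sum0 n
  have h1 := bern_sum1 n
  have e : ∀ k : ℕ, (n • (X : ℝ[X]) - (k : ℝ[X])) ^ 2 * bernsteinPolynomial ℝ n k
      = ((n : ℝ) ^ 2 • X ^ 2) * bernsteinPolynomial ℝ n k
        - ((2 * (n : ℝ)) • X) * ((k : ℝ) • bernsteinPolynomial ℝ n k)
        + ((k : ℝ) ^ 2) • bernsteinPolynomial ℝ n k := by
    intro k
    simp only [smul_eq_C_mul, nsmul_eq_mul, C_pow, C_mul, map_natCast, map_ofNat]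
    ring
  simp only [e] at h
  rw [Finset.sum_add_distrib, Finset.sum_sub_distrib, ← Finset.mul_sum, ← Finset.mul_sum, h0, h1]
    at h
  simp only [smul_eq_C_mul, nsmul_eq_mul, C_pow, C_mul, map_natCast, map_ofNat] at h ⊢
  linear_combination h

theorem bern_lin (R : ℝ) {n : ℕ} (hn : n ≠ 0) :
    ∑ k ∈ Finset.range (n + 1), (R * (2 * (k : ℝ) / n - 1)) • bernsteinPolynomial ℝ n k
      = (2 * R) • X - R • (1 : ℝ[X]) := by
  have hn' : (n : ℝ) ≠ 0 := by exact_mod_cast hn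
  have e : ∀ k : ℕ, (R * (2 * (k : ℝ) / n - 1)) • bernsteinPolynomial ℝ n k
      = (2 * R / n) • ((k : ℝ) • bernsteinPolynomial ℝ n k) - R • bernsteinPolynomial ℝ n k := by
    intro k
    rw [smul_smul, ← sub_smul]
    congr 1
    field_simp
  simp only [e]
  rw [Finset.sum_sub_distrib, ← Finset.smul_sum, ← Finset.smul_sum, bern_sum0, bern_sum1, smul_smul]
  congr 2
  field_simp

theorem bern_quad (R : ℝ) {n : ℕ} (hn : n ≠ 0) :
    ∑ k ∈ Finset.range (n + 1), ((R * (2 * (k : ℝ) / n - 1)) ^ 2) • bernsteinPolynomial ℝ n k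
      = ((2 * R) • X - R • (1 : ℝ[X])) ^ 2 + (4 * R ^ 2 / n) • (X * (1 - X)) := by
  have hn' : (n : ℝ) ≠ 0 := by exact_mod_cast hn
  have e : ∀ k : ℕ, ((R * (2 * (k : ℝ) / n - 1)) ^ 2) • bernsteinPolynomial ℝ n k
      = (4 * R ^ 2 / n ^ 2) • (((k : ℝ) ^ 2) • bernsteinPolynomial ℝ n k)
        - (4 * R ^ 2 / n) • ((k : ℝ) • bernsteinPolynomial ℝ n k)
        + (R ^ 2) • bernsteinPolynomial ℝ n k := by
    intro k
    rw [smul_smul, smul_smul, ← sub_smul, ← add_smul]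
    congr 1
    field_simp
    ring
  simp only [e]
  rw [Finset.sum_add_distrib, Finset.sum_sub_distrib, ← Finset.smul_sum, ← Finset.smul_sum,
    ← Finset.smul_sum, bern_sum0, bern_sum1, bern_sum2]
  rw [smul_add, smul_smul, smul_smul, smul_smul]
  have a1 : 4 * R ^ 2 / (n : ℝ) ^ 2 * (n : ℝ) ^ 2 = 4 * R ^ 2 := by field_simp
  have a2 : 4 * R ^ 2 / (n : ℝ) ^ 2 * (n : ℝ) = 4 * R ^ 2 / n := by field_simp
  have a3 : 4 * R ^ 2 / (n : ℝ) * (n : ℝ) = 4 * R ^ 2 := by field_simp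
  rw [a1, a2, a3]
  simp only [smul_eq_C_mul, C_pow, C_mul, map_ofNat]
  ring

end poly

namespace IsDir

variable (hC : IsDir C)
include hC
variable {φ ψ z : M →ₘ[m] ℝ}

theorem A_mul_AP (hφ : φ ∈ C.A) (hz : z ∈ C.AP) : φ * z ∈ C.A := by
  obtain ⟨c, hc⟩ := hz
  have : φ * z = φ * (z - c • (1 : M →ₘ[m] ℝ)) + c • φ := by algebra
  rw [this]
  exact hC.A_add (hC.mul_mem_A hφ hc) (hC.A_smul c hφ)

theorem AP_const (c : ℝ) : c • (1 : M →ₘ[m] ℝ) ∈ C.AP :=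
  ⟨c, by rw [sub_self]; exact hC.A_zero⟩

theorem AP_of_A (hφ : φ ∈ C.A) : φ ∈ C.AP := ⟨0, by simpa using hφ⟩

theorem A_aeval (hφ : φ ∈ C.A) (hz : z ∈ C.AP) (P : Polynomial ℝ) :
    φ * Polynomial.aeval z P ∈ C.A := by
  induction P using Polynomial.induction_on with
  | C a =>
    have : φ * Polynomial.aeval z (Polynomial.C a) = a • φ := by
      rw [Polynomial.aeval_C, Algebra.algebraMap_eq_smul_one]; algebra
    rw [this]; exact hC.A_smul a hφ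
  | add p q hp hq => rw [map_add, mul_add]; exact hC.A_add hp hq
  | monomial n a h =>
    have : φ * Polynomial.aeval z (Polynomial.C a * Polynomial.X ^ (n + 1))
        = φ * Polynomial.aeval z (Polynomial.C a * Polynomial.X ^ n) * z := by
      rw [pow_succ, ← mul_assoc, map_mul, Polynomial.aeval_X, mul_assoc]
    rw [this]; exact hC.A_mul_AP h hz

omit hC in
theorem AP_top (hz : z ∈ C.AP) : MemLp z ∞ m := by
  obtain ⟨c, hc⟩ := hz
  have : z = (z - c • (1 : M →ₘ[m] ℝ)) + c • 1 := by algebra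
  rw [this]
  exact mem_add hc.2 (mem_smul _ mem_top_one)

/-- a linear functional on `A` passes through finite linear combinations of polynomials -/
theorem lin_aeval {P0 : (M →ₘ[m] ℝ) → ℝ}
    (h0 : ∀ φ ∈ C.A, ∀ ψ ∈ C.A, P0 (φ + ψ) = P0 φ + P0 ψ)
    (s0 : ∀ c : ℝ, ∀ φ ∈ C.A, P0 (c • φ) = c * P0 φ) (hφ : φ ∈ C.A) (hz : z ∈ C.AP)
    (s : Finset ℕ) (c : ℕ → ℝ) (B : ℕ → Polynomial ℝ) :
    P0 (φ * Polynomial.aeval z (∑ k ∈ s, c k • B k))
      = ∑ k ∈ s, c k * P0 (φ * Polynomial.aeval z (B k)) := by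
  classical
  induction s using Finset.induction_on with
  | empty =>
    have := s0 0 0 hC.A_zero
    simp only [Finset.sum_empty, map_zero, mul_zero]
    simpa using this
  | insert i s hi ih =>
    rw [Finset.sum_insert hi, Finset.sum_insert hi, map_add, mul_add,
      h0 _ (hC.A_aeval hφ hz _) _ (hC.A_aeval hφ hz _), ih, map_smul, mul_smul_comm,
      s0 _ _ (hC.A_aeval hφ hz _)]

theorem bernstein (P0 P1 P2 : (M →ₘ[m] ℝ) → ℝ)
    (h0 : ∀ φ ∈ C.A, ∀ ψ ∈ C.A, P0 (φ + ψ) = P0 φ + P0 ψ)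
    (h1 : ∀ φ ∈ C.A, ∀ ψ ∈ C.A, P1 (φ + ψ) = P1 φ + P1 ψ)
    (h2 : ∀ φ ∈ C.A, ∀ ψ ∈ C.A, P2 (φ + ψ) = P2 φ + P2 ψ)
    (s0 : ∀ c : ℝ, ∀ φ ∈ C.A, P0 (c • φ) = c * P0 φ)
    (s1 : ∀ c : ℝ, ∀ φ ∈ C.A, P1 (c • φ) = c * P1 φ)
    (s2 : ∀ c : ℝ, ∀ φ ∈ C.A, P2 (c • φ) = c * P2 φ)
    (hpos : ∀ c : ℝ, ∀ φ ∈ C.A, 0 ≤ φ → 0 ≤ P0 φ + c * P1 φ + c ^ 2 * P2 φ)
    {ζ : M →ₘ[m] ℝ} (hζ : ζ ∈ C.AP) (hφ : φ ∈ C.A) (hφ0 : 0 ≤ φ) :
    0 ≤ P0 φ + P1 (φ * ζ) + P2 (φ * ζ ^ 2) := by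
  obtain ⟨K, hK⟩ := mem_top_iff.1 (AP_top hζ)
  obtain ⟨c, hc⟩ := hζ
  set R := |K| + 1 with hR
  have hR0 : 0 < R := by positivity
  have hKR : ∀ᵐ x ∂m, |ζ x| ≤ R := by
    filter_upwards [hK] with x hx
    exact hx.trans ((le_abs_self K).trans (by linarith))
  set z : M →ₘ[m] ℝ := (2 * R)⁻¹ • ζ + (2⁻¹ : ℝ) • 1 with hz
  have hζz : ζ = (2 * R) • z - R • 1 := by
    have a1 : 2 * R * (2 * R)⁻¹ = 1 := by field_simp
    have a2 : 2 * R * (2⁻¹ : ℝ) = R := by ring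
    rw [hz, smul_add, smul_smul, smul_smul, a1, a2, one_smul]
    ring
  have hzAP : z ∈ C.AP := by
    refine ⟨(2 * R)⁻¹ * c + 2⁻¹, ?_⟩
    have : z - ((2 * R)⁻¹ * c + 2⁻¹) • (1 : M →ₘ[m] ℝ) = (2 * R)⁻¹ • (ζ - c • 1) := by
      rw [hz]; algebra
    rw [this]; exact hC.A_smul _ hc
  have hz0 : 0 ≤ z := by
    rw [nonneg_iff_ae]
    filter_upwards [add_ae ((2 * R)⁻¹ • ζ) ((2⁻¹ : ℝ) • (1 : M →ₘ[m] ℝ)), smul_ae ζ (2 * R)⁻¹,
      smul_ae (1 : M →ₘ[m] ℝ) (2⁻¹ : ℝ), one_ae (M := M) (m := m), hKR] with x e1 e2 e3 e4 e5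
    rw [hz, e1, e2, e3, e4]
    have := (abs_le.1 e5).1
    have h3 : (2 * R)⁻¹ * (-R) = -2⁻¹ := by field_simp
    have h4 : (2 * R)⁻¹ * (-R) ≤ (2 * R)⁻¹ * ζ x :=
      mul_le_mul_of_nonneg_left this (by positivity)
    linarith only [h4, h3]
  have hz1 : 0 ≤ 1 - z := by
    rw [nonneg_iff_ae]
    filter_upwards [add_ae ((2 * R)⁻¹ • ζ) ((2⁻¹ : ℝ) • (1 : M →ₘ[m] ℝ)), smul_ae ζ (2 * R)⁻¹,
      smul_ae (1 : M →ₘ[m] ℝ) (2⁻¹ : ℝ), one_ae (M := M) (m := m), hKR,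
      sub_ae (1 : M →ₘ[m] ℝ) z] with x e1 e2 e3 e4 e5 e6
    rw [e6, e4, hz, e1, e2, e3, e4]
    have := (abs_le.1 e5).2
    have h3 : (2 * R)⁻¹ * R = 2⁻¹ := by field_simp
    have h4 : (2 * R)⁻¹ * ζ x ≤ (2 * R)⁻¹ * R :=
      mul_le_mul_of_nonneg_left this (by positivity)
    linarith only [h4, h3]
  have hB0 : ∀ n k : ℕ, 0 ≤ φ * Polynomial.aeval z (bernsteinPolynomial ℝ n k) := by
    intro n k
    refine mul_nonneg hφ0 ?_
    have : Polynomial.aeval z (bernsteinPolynomial ℝ n k)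
        = (n.choose k : M →ₘ[m] ℝ) * z ^ k * (1 - z) ^ (n - k) := by
      simp [bernsteinPolynomial]
    rw [this]
    have hch : (0 : M →ₘ[m] ℝ) ≤ (n.choose k : M →ₘ[m] ℝ) := by
      have : ((n.choose k : ℕ) : M →ₘ[m] ℝ) = (n.choose k : ℕ) • (1 : M →ₘ[m] ℝ) := by simp
      rw [this]
      exact nsmul_nonneg zero_le_one _
    exact mul_nonneg (mul_nonneg hch (pow_nonneg hz0 _)) (pow_nonneg hz1 _)
  have key : ∀ n : ℕ, 0 ≤ (P0 φ + P1 (φ * ζ) + P2 (φ * ζ ^ 2))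
      + 4 * R ^ 2 * P2 (φ * (z * (1 - z))) / ((n + 1 : ℕ) : ℝ) := by
    intro n
    have hn : n + 1 ≠ 0 := Nat.succ_ne_zero n
    have e0 := hC.lin_aeval h0 s0 hφ hzAP (Finset.range (n + 1 + 1)) (fun _ => 1)
      (bernsteinPolynomial ℝ (n + 1))
    have e1 := hC.lin_aeval h1 s1 hφ hzAP (Finset.range (n + 1 + 1))
      (fun k => R * (2 * (k : ℝ) / (n + 1 : ℕ) - 1)) (bernsteinPolynomial ℝ (n + 1))
    have e2 := hC.lin_aeval h2 s2 hφ hzAP (Finset.range (n + 1 + 1))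
      (fun k => (R * (2 * (k : ℝ) / (n + 1 : ℕ) - 1)) ^ 2) (bernsteinPolynomial ℝ (n + 1))
    simp only [one_smul, one_mul] at e0
    rw [bern_sum0, map_one, mul_one] at e0
    rw [bern_lin R hn] at e1
    rw [bern_quad R hn] at e2
    have a1 : Polynomial.aeval z ((2 * R) • Polynomial.X - R • (1 : Polynomial ℝ)) = ζ := by
      rw [map_sub, map_smul, map_smul, map_one, Polynomial.aeval_X, ← hζz]
    rw [a1] at e1
    rw [map_add, map_pow, a1, map_smul, map_mul, map_sub, map_one, Polynomial.aeval_X, mul_add,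
      mul_smul_comm] at e2
    have m1 : φ * ζ ^ 2 ∈ C.A := by
      rw [sq, ← mul_assoc]
      exact hC.A_mul_AP (hC.A_mul_AP hφ ⟨c, hc⟩) ⟨c, hc⟩
    have m2 : φ * (z * (1 - z)) ∈ C.A := by
      have : φ * (z * (1 - z)) = φ * z + (-1 : ℝ) • (φ * z * z) := by algebra
      rw [this]
      exact hC.A_add (hC.A_mul_AP hφ hzAP) (hC.A_smul _ (hC.A_mul_AP (hC.A_mul_AP hφ hzAP) hzAP))
    rw [h2 _ m1 _ (hC.A_smul _ m2), s2 _ _ m2] at e2
    have e3 : (P0 φ + P1 (φ * ζ) + P2 (φ * ζ ^ 2))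
        + 4 * R ^ 2 * P2 (φ * (z * (1 - z))) / ((n + 1 : ℕ) : ℝ)
        = P0 φ + P1 (φ * ζ) + (P2 (φ * ζ ^ 2)
          + 4 * R ^ 2 / ((n + 1 : ℕ) : ℝ) * P2 (φ * (z * (1 - z)))) := by ring
    rw [e3, e0, e1, e2, ← Finset.sum_add_distrib, ← Finset.sum_add_distrib]
    exact Finset.sum_nonneg fun k _ => hpos _ _ (hC.A_aeval hφ hzAP _) (hB0 _ _)
  have hlim : Tendsto (fun n : ℕ => (P0 φ + P1 (φ * ζ) + P2 (φ * ζ ^ 2))
      + 4 * R ^ 2 * P2 (φ * (z * (1 - z))) / ((n + 1 : ℕ) : ℝ)) atTop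
      (𝓝 ((P0 φ + P1 (φ * ζ) + P2 (φ * ζ ^ 2)) + 0)) := by
    refine Tendsto.add tendsto_const_nhds ?_
    exact (tendsto_const_div_atTop_nhds_zero_nat (4 * R ^ 2 * P2 (φ * (z * (1 - z))))).comp
      (tendsto_add_atTop_nat 1)
  rw [add_zero] at hlim
  exact ge_of_tendsto hlim (Eventually.of_forall key)

section master
variable {ι : Type*} [Fintype ι] [DecidableEq ι] {Q : ι → ι → (M →ₘ[m] ℝ) → ℝ}

theorem update_identity (hadd : ∀ i j, ∀ φ ∈ C.A, ∀ ψ ∈ C.A, Q i j (φ + ψ) = Q i j φ + Q i j ψ)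
    (hsmul : ∀ i j, ∀ c : ℝ, ∀ φ ∈ C.A, Q i j (c • φ) = c * Q i j φ)
    {a : ι → M →ₘ[m] ℝ} (ha : ∀ i, a i ∈ C.AP) (i₀ : ι) {ζ : M →ₘ[m] ℝ} (hζ : ζ ∈ C.AP)
    (hφ : φ ∈ C.A) :
    ∑ i, ∑ j, Q i j (φ * (Function.update a i₀ ζ i * Function.update a i₀ ζ j))
      = ∑ i, ∑ j, Q i j (φ * (Function.update a i₀ 0 i * Function.update a i₀ 0 j))
        + (∑ j, Q i₀ j (φ * ζ * Function.update a i₀ 0 j)
          + ∑ i, Q i i₀ (φ * ζ * Function.update a i₀ 0 i)) + Q i₀ i₀ (φ * ζ ^ 2) := by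
  set a0 := Function.update a i₀ 0 with ha0
  have ha0' : ∀ i, a0 i ∈ C.AP := by
    intro i
    by_cases h : i = i₀
    · rw [h, ha0, Function.update_self]; exact hC.AP_of_A hC.A_zero
    · rw [ha0, Function.update_of_ne h]; exact ha i
  have hz : ∀ i j, Q i j 0 = 0 := by
    intro i j
    have := hsmul i j 0 0 hC.A_zero
    simpa using this
  have e : ∀ i j, Q i j (φ * (Function.update a i₀ ζ i * Function.update a i₀ ζ j))
      = Q i j (φ * (a0 i * a0 j)) + ((if i = i₀ then Q i j (φ * ζ * a0 j) else 0)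
        + (if j = i₀ then Q i j (φ * ζ * a0 i) else 0))
        + (if i = i₀ then (if j = i₀ then Q i j (φ * ζ ^ 2) else 0) else 0) := by
    intro i j
    by_cases hi : i = i₀
    · by_cases hj : j = i₀
      · subst hi
        subst hj
        simp only [if_true, Function.update_self, ha0, mul_zero, hz, zero_add]
        rw [sq]
      · subst hi
        simp only [if_true, if_neg hj, Function.update_self, Function.update_of_ne hj, ha0,
          zero_mul, mul_zero, hz, zero_add, add_zero]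
        rw [mul_assoc]
    · by_cases hj : j = i₀
      · subst hj
        simp only [if_true, if_neg hi, Function.update_self, Function.update_of_ne hi, ha0,
          mul_zero, hz, zero_add, add_zero]
        rw [mul_assoc, mul_comm (a i)]
      · simp only [if_neg hi, if_neg hj, Function.update_of_ne hi, Function.update_of_ne hj, ha0,
          add_zero]
  simp only [e, Finset.sum_add_distrib]
  congr 1
  · congr 1
    congr 1
    · have : ∀ i, ∑ j, (if i = i₀ then Q i j (φ * ζ * a0 j) else 0)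
          = if i = i₀ then ∑ j, Q i j (φ * ζ * a0 j) else 0 := by
        intro i; split_ifs <;> simp
      simp only [this, Finset.sum_ite_eq', Finset.mem_univ, if_true]
    · simp only [Finset.sum_ite_eq', Finset.mem_univ, if_true]
  · have : ∀ i, ∑ j, (if i = i₀ then (if j = i₀ then Q i j (φ * ζ ^ 2) else 0) else 0)
        = if i = i₀ then Q i i₀ (φ * ζ ^ 2) else 0 := by
      intro i; split_ifs <;> simp
    simp only [this, Finset.sum_ite_eq', Finset.mem_univ, if_true]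

/-- positivity for constant coefficients implies positivity for coefficients in `AP` -/
theorem master_fintype
    (hadd : ∀ i j, ∀ φ ∈ C.A, ∀ ψ ∈ C.A, Q i j (φ + ψ) = Q i j φ + Q i j ψ)
    (hsmul : ∀ i j, ∀ c : ℝ, ∀ φ ∈ C.A, Q i j (c • φ) = c * Q i j φ)
    (hpos : ∀ c : ι → ℝ, ∀ φ ∈ C.A, 0 ≤ φ → 0 ≤ ∑ i, ∑ j, c i * c j * Q i j φ)
    {a : ι → M →ₘ[m] ℝ} (ha : ∀ i, a i ∈ C.AP) (hφ : φ ∈ C.A) (hφ0 : 0 ≤ φ) :
    0 ≤ ∑ i, ∑ j, Q i j (φ * (a i * a j)) := by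
  suffices H : ∀ S : Finset ι, ∀ a : ι → M →ₘ[m] ℝ, (∀ i, a i ∈ C.AP) →
      (∀ i ∉ S, ∃ c : ℝ, a i = c • (1 : M →ₘ[m] ℝ)) → ∀ φ ∈ C.A, 0 ≤ φ →
      0 ≤ ∑ i, ∑ j, Q i j (φ * (a i * a j)) from
    H Finset.univ a ha (fun i hi => absurd (Finset.mem_univ i) hi) φ hφ hφ0
  intro S
  induction S using Finset.induction_on with
  | empty =>
    intro a _ hc φ hφ hφ0
    choose c hc using fun i => hc i (Finset.notMem_empty i)
    have : ∀ i j, Q i j (φ * (a i * a j)) = c i * c j * Q i j φ := by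
      intro i j
      have e : φ * (a i * a j) = (c i * c j) • φ := by rw [hc i, hc j]; algebra
      rw [e, hsmul _ _ _ _ hφ]
    simp only [this]
    exact hpos c φ hφ hφ0
  | insert i₀ S hi ih =>
    intro a ha hc φ hφ hφ0
    have hA0 : ∀ i, Function.update a i₀ 0 i ∈ C.AP := by
      intro i
      by_cases h : i = i₀
      · rw [h, Function.update_self]; exact hC.AP_of_A hC.A_zero
      · rw [Function.update_of_ne h]; exact ha i
    have key := hC.bernstein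
      (fun φ => ∑ i, ∑ j, Q i j (φ * (Function.update a i₀ 0 i * Function.update a i₀ 0 j)))
      (fun φ => ∑ j, Q i₀ j (φ * Function.update a i₀ 0 j)
          + ∑ i, Q i i₀ (φ * Function.update a i₀ 0 i))
      (fun φ => Q i₀ i₀ φ) ?_ ?_ ?_ ?_ ?_ ?_ ?_ (ha i₀) hφ hφ0
    · have e := hC.update_identity hadd hsmul ha i₀ (ha i₀) hφ
      rw [Function.update_eq_self] at e
      rw [e]
      exact key
    · intro φ hφ ψ hψ
      simp only [← Finset.sum_add_distrib]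
      refine Finset.sum_congr rfl fun i _ => Finset.sum_congr rfl fun j _ => ?_
      rw [add_mul, ← mul_assoc, ← mul_assoc]
      exact hadd _ _ _ (hC.A_mul_AP (hC.A_mul_AP hφ (hA0 i)) (hA0 j)) _
        (hC.A_mul_AP (hC.A_mul_AP hψ (hA0 i)) (hA0 j))
    · intro φ hφ ψ hψ
      have e1 : ∀ i j k, Q i j ((φ + ψ) * Function.update a i₀ 0 k)
          = Q i j (φ * Function.update a i₀ 0 k) + Q i j (ψ * Function.update a i₀ 0 k) := by
        intro i j k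
        rw [add_mul]
        exact hadd _ _ _ (hC.A_mul_AP hφ (hA0 k)) _ (hC.A_mul_AP hψ (hA0 k))
      simp only [e1, Finset.sum_add_distrib]
      ring
    · intro φ hφ ψ hψ
      exact hadd _ _ _ hφ _ hψ
    · intro c φ hφ
      simp only [Finset.mul_sum]
      refine Finset.sum_congr rfl fun i _ => Finset.sum_congr rfl fun j _ => ?_
      rw [smul_mul_assoc, hsmul]
      rw [← mul_assoc]
      exact hC.A_mul_AP (hC.A_mul_AP hφ (hA0 i)) (hA0 j)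
    · intro c φ hφ
      simp only [mul_add, Finset.mul_sum]
      congr 1 <;> refine Finset.sum_congr rfl fun i _ => ?_
      all_goals rw [smul_mul_assoc, hsmul _ _ _ _ (hC.A_mul_AP hφ (hA0 i))]
    · intro c φ hφ
      exact hsmul _ _ _ _ hφ
    · intro c φ hφ hφ0
      have e := hC.update_identity hadd hsmul ha i₀ (hC.AP_const c) hφ
      have h1 := ih (Function.update a i₀ (c • (1 : M →ₘ[m] ℝ))) ?_ ?_ φ hφ hφ0
      · rw [e] at h1
        have e1 : ∀ i j k, Q i j (φ * c • (1 : M →ₘ[m] ℝ) * Function.update a i₀ 0 k)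
            = c * Q i j (φ * Function.update a i₀ 0 k) := by
          intro i j k
          rw [← hsmul _ _ _ _ (hC.A_mul_AP hφ (hA0 k))]
          congr 1
          algebra
        have e2 : Q i₀ i₀ (φ * (c • (1 : M →ₘ[m] ℝ)) ^ 2) = c ^ 2 * Q i₀ i₀ φ := by
          rw [← hsmul _ _ _ _ hφ]
          congr 1
          algebra
        simp only [e1, e2, ← Finset.mul_sum] at h1
        convert h1 using 1
        ring
      · intro i
        by_cases h : i = i₀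
        · rw [h, Function.update_self]; exact hC.AP_const c
        · rw [Function.update_of_ne h]; exact ha i
      · intro i hi'
        by_cases h : i = i₀
        · exact ⟨c, by rw [h, Function.update_self]⟩
        · rw [Function.update_of_ne h]
          exact hc i (by simp [h, hi'])

end master

end IsDir

end Vale.Agent.P233
end

section

open MeasureTheory Filter Topology
open scoped ENNReal NNReal

namespace Vale.Agent.P233

variable {M : Type*} [MeasurableSpace M] {m : Measure M}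

/-- The weak Bochner inequality without dimension term, `BE(K,∞)`. -/
def Calc.BEi (C : Calc m) (K : ℝ) : Prop :=
  ∀ f h φ ψ : M →ₘ[m] ℝ, C.IsLap f h → h ∈ C.W → C.IsLap φ ψ → 0 ≤ φ → MemLp φ ∞ m →
    MemLp ψ ∞ m →
    ∫ x, (φ * (C.Γ f h + K • C.Γ f f)) x ∂m ≤ ∫ x, ((2 : ℝ)⁻¹ • (C.Γ f f * ψ)) x ∂m

theorem IsGamma.bei {C : Calc m} (hC : IsGamma C) {K N : ℝ} (hN : 0 < N) (hB : C.BE K N) :
    C.BEi K := by
  intro f h φ ψ h1 h2 h3 h4 h5 h6
  refine le_trans ?_ (hB f h φ ψ h1 h2 h3 h4 h5 h6)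
  have hfW := h1.1
  have hh2 := hC.memLp h h2
  refine I_mono (mem_mul_top h5 (mem_add (hC.toIsDir.Γ_mem1 hfW h2) (mem_smul _ (hC.mem1 f hfW))))
    (mem_mul_top h5 (mem_add (mem_add (hC.toIsDir.Γ_mem1 hfW h2) (mem_smul _ (hC.mem1 f hfW)))
    (mem_smul _ (mem_sq hh2)))) ?_
  refine mul_le_mul_of_nonneg_left ?_ h4
  rw [le_add_iff_nonneg_right]
  exact smul_nonneg' (inv_nonneg.2 hN.le) (sq_nonneg' _)

end Vale.Agent.P233
end

section

open MeasureTheory Filter Topology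
open scoped ENNReal NNReal

namespace Vale.Agent.P233

variable {M : Type*} [MeasurableSpace M] {m : Measure M} {C : Calc m}

/-- a pointwise bound from integrated bounds -/
theorem le_const_of_forall {F : M →ₘ[m] ℝ} (hF : MemLp F 1 m) {K : ℝ} (hK : 0 ≤ K)
    (h : ∀ ψ : M →ₘ[m] ℝ, 0 ≤ ψ → MemLp ψ 2 m → MemLp ψ 1 m → MemLp ψ ∞ m →
      I (F * ψ) ≤ K * I ψ) : ∀ᵐ x ∂m, F x ≤ K := by
  have hFint := int_of_mem hF
  have hFm : StronglyMeasurable (F : M → ℝ) := AEEqFun.stronglyMeasurable F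
  have key : ∀ n : ℕ, m {x | K + ((n : ℝ) + 1)⁻¹ < F x} = 0 := by
    intro n
    set ε : ℝ := ((n : ℝ) + 1)⁻¹ with hε
    have hε0 : 0 < ε := by positivity
    set S : Set M := {x | K + ε < F x} with hS
    have hSm : MeasurableSet S := measurableSet_lt measurable_const hFm.measurable
    have hSfin : m S < ∞ := by
      have h1 : S ⊆ {x | ε ≤ ‖F x‖} := by
        intro x hx
        have hx' : K + ε < F x := hx
        show ε ≤ ‖F x‖
        rw [Real.norm_eq_abs]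
        exact le_trans (by linarith) (le_abs_self _)
      exact (measure_mono h1).trans_lt (hFint.measure_norm_ge_lt_top hε0)
    have hind : ∀ p : ℝ≥0∞, MemLp (S.indicator (fun _ => (1 : ℝ))) p m := fun p =>
      memLp_indicator_const p hSm 1 (Or.inr hSfin.ne)
    set χ : M →ₘ[m] ℝ := AEEqFun.mk _ (hind 2).1 with hχ
    have hχae := AEEqFun.coeFn_mk _ (hind 2).1
    have hχp : ∀ p : ℝ≥0∞, MemLp χ p m := fun p => (memLp_congr_ae hχae).2 (hind p)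
    have h1 := h χ (by
      rw [nonneg_iff_ae]
      filter_upwards [hχae] with x hx
      rw [hχ, hx]
      exact Set.indicator_nonneg (fun _ _ => zero_le_one) x) (hχp 2) (hχp 1) (hχp ∞)
    have h5 : I (F * χ) = ∫ x in S, F x ∂m := by
      rw [← integral_indicator hSm]
      unfold I
      refine integral_congr_ae ?_
      filter_upwards [mul_ae F χ, hχae] with x a1 a2
      rw [a1, hχ, a2]
      by_cases hx : x ∈ S
      · rw [Set.indicator_of_mem hx, Set.indicator_of_mem hx, mul_one]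
      · rw [Set.indicator_of_notMem hx, Set.indicator_of_notMem hx, mul_zero]
    have h6 : I χ = m.real S := by
      unfold I
      rw [integral_congr_ae hχae, integral_indicator hSm, setIntegral_const, smul_eq_mul, mul_one]
    have h7 : ∫ x in S, (K + ε) ∂m ≤ ∫ x in S, F x ∂m := by
      refine setIntegral_mono_on ?_ hFint.integrableOn hSm fun x hx => le_of_lt hx
      exact integrableOn_const (hs := hSfin.ne)
    rw [setIntegral_const, smul_eq_mul] at h7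
    rw [h5, h6] at h1
    have h8 : m.real S ≤ 0 := by
      have h9 : 0 ≤ m.real S := measureReal_nonneg
      by_contra hcon
      push Not at hcon
      linarith only [mul_pos (sub_pos.2 hε0) (sub_pos.2 hcon), h7, h1]
    exact (measureReal_eq_zero_iff hSfin.ne).1 (le_antisymm h8 measureReal_nonneg)
  have h9 : ∀ᵐ x ∂m, ∀ n : ℕ, ¬ (K + ((n : ℝ) + 1)⁻¹ < F x) := by
    rw [ae_all_iff]
    intro n
    exact measure_eq_zero_iff_ae_notMem.1 (key n)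
  filter_upwards [h9] with x hx
  by_contra hcon
  push Not at hcon
  obtain ⟨n, hn⟩ := exists_nat_one_div_lt (show (0 : ℝ) < F x - K by linarith)
  rw [one_div] at hn
  exact hx n (by linarith)

/-- positivity in `L²` -/
theorem nonneg_of_forall_L2 {F : M →ₘ[m] ℝ} (hF : MemLp F 2 m)
    (h : ∀ ψ : M →ₘ[m] ℝ, 0 ≤ ψ → MemLp ψ 2 m → MemLp ψ ∞ m → 0 ≤ I (F * ψ)) : 0 ≤ F := by
  set θ : ℝ → ℝ := fun t => min (max (-t) 0) 1 with hθ
  have hθc : Continuous θ := by fun_prop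
  have hθ0 : ∀ t, 0 ≤ θ t := fun t => le_min (le_max_right _ _) zero_le_one
  have hθ1 : ∀ t, θ t ≤ 1 := fun t => min_le_right _ _
  have hθle : ∀ t, |θ t| ≤ |t| := by
    intro t
    rw [abs_of_nonneg (hθ0 t)]
    exact (min_le_left _ _).trans (max_le (neg_le_abs t) (abs_nonneg t))
  set ψ := AEEqFun.comp θ hθc F with hψ
  have hψae := AEEqFun.coeFn_comp θ hθc F
  have hψ0 : 0 ≤ ψ := by
    rw [nonneg_iff_ae]
    filter_upwards [hψae] with x hx
    rw [hx]; exact hθ0 _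
  have hψ2 : MemLp ψ 2 m := mem_of_le hF (by
    filter_upwards [hψae] with x hx
    rw [hx]; exact hθle _)
  have hψt : MemLp ψ ∞ m := mem_top_iff.2 ⟨1, by
    filter_upwards [hψae] with x hx
    rw [hx, Function.comp_apply, abs_of_nonneg (hθ0 _)]; exact hθ1 _⟩
  have h1 := h ψ hψ0 hψ2 hψt
  have hprod : ∀ t : ℝ, 0 ≤ -(t * θ t) := by
    intro t
    rcases le_total 0 t with ht | ht
    · have : θ t = 0 := by
        simp only [hθ]
        rw [max_eq_right (by linarith)]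
        norm_num
      rw [this]; simp
    · linarith only [mul_nonneg (sub_nonneg.2 ht) (sub_nonneg.2 (hθ0 t))]
  have h2 : 0 ≤ -(F * ψ) := by
    rw [nonneg_iff_ae]
    filter_upwards [neg_ae (F * ψ), mul_ae F ψ, hψae] with x a1 a2 a3
    rw [a1, a2, a3]
    exact hprod _
  have h3 : -(F * ψ) = 0 := I_eq_zero_of_nonneg (mem_neg (mem_mul_22 hF hψ2)) h2 (by
    refine le_antisymm ?_ (I_nonneg h2)
    rw [I_neg]; linarith)
  rw [nonneg_iff_ae]
  filter_upwards [eq_iff_ae.1 h3, neg_ae (F * ψ), mul_ae F ψ, hψae, zero_ae (M := M) (m := m)]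
    with x a0 a1 a2 a3 a4
  by_contra hcon
  push Not at hcon
  rw [a1, a2, a3, a4] at a0
  have h4 : 0 < θ (F x) := by
    simp only [hθ]
    exact lt_min (lt_max_of_lt_left (by linarith)) one_pos
  have h5 : 0 < -(F x * θ (F x)) := by linarith only [mul_pos (sub_pos.2 hcon) (sub_pos.2 h4)]
  simp only [Function.comp_apply] at a0
  linarith only [h5, a0]

namespace IsGamma

variable (hC : IsGamma C) {κ : ℝ} (hB : C.BEi κ)
variable {f g h φ ψ : M →ₘ[m] ℝ}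

section basic
include hC

theorem mem_test_iff : f ∈ C.Test ↔
    f ∈ C.W ∧ MemLp f ∞ m ∧ MemLp (C.Γ f f) ∞ m ∧ ∃ h, C.IsLap f h ∧ h ∈ C.W := by
  constructor
  · rintro ⟨h1, h, h2, h3⟩
    have h4 := (hC.lip_iff f h2.1).1 h1
    exact ⟨h2.1, h4.1, h4.2, h, h2, h3⟩
  · rintro ⟨h1, h2, h3, h4⟩
    exact ⟨(hC.lip_iff f h1).2 ⟨h2, h3⟩, h4⟩

theorem test_A (hf : f ∈ C.Test) : f ∈ C.A := by
  have h := hC.mem_test_iff.1 hf
  exact ⟨h.1, h.2.1⟩

theorem test_Γ_top (hf : f ∈ C.Test) : MemLp (C.Γ f f) ∞ m :=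
  (hC.mem_test_iff.1 hf).2.2.1

theorem test_isLap (hf : f ∈ C.Test) : C.IsLap f (C.lap f) := by
  obtain ⟨h, h1, h2⟩ := (hC.mem_test_iff.1 hf).2.2.2
  rw [hC.toIsDir.lap_eq h1]
  exact h1

theorem test_lap_mem (hf : f ∈ C.Test) : C.lap f ∈ C.W := by
  obtain ⟨h, h1, h2⟩ := (hC.mem_test_iff.1 hf).2.2.2
  rw [hC.toIsDir.lap_eq h1]
  exact h2

theorem test_add' (hf : f ∈ C.Test) (hg : g ∈ C.Test) : f + g ∈ C.Test := by
  rw [hC.mem_test_iff]
  have hD := hC.toIsDir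
  obtain ⟨f1, f2, f3, hf', f4, f5⟩ := hC.mem_test_iff.1 hf
  obtain ⟨g1, g2, g3, hg', g4, g5⟩ := hC.mem_test_iff.1 hg
  refine ⟨hD.add_mem f f1 g g1, mem_add f2 g2, ?_, hf' + hg', hD.isLap_add f4 g4,
    hD.add_mem _ f5 _ g5⟩
  have h1 := hD.Γ_expand 1 f1 g1
  rw [one_smul, mul_one, one_pow, one_smul] at h1
  rw [h1]
  exact mem_add (mem_add f3 (mem_smul _ (hD.Γ_memTop f1 f3 g1 g3))) g3

theorem test_smul' (c : ℝ) (hf : f ∈ C.Test) : c • f ∈ C.Test := by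
  rw [hC.mem_test_iff]
  have hD := hC.toIsDir
  obtain ⟨f1, f2, f3, hf', f4, f5⟩ := hC.mem_test_iff.1 hf
  refine ⟨hD.smul_mem c f f1, mem_smul c f2, ?_, c • hf', hD.isLap_smul c f4,
    hD.smul_mem c _ f5⟩
  rw [hD.smul_left c f f1 _ (hD.smul_mem c f f1), hD.Γ_smul_right c f1 f1]
  exact mem_smul _ (mem_smul _ f3)

theorem test_zero' : (0 : M →ₘ[m] ℝ) ∈ C.Test := by
  rw [hC.mem_test_iff]
  have hD := hC.toIsDir
  refine ⟨hD.zero_mem, mem_zero, ?_, 0, ⟨hD.zero_mem, mem_zero, fun g hg => ?_⟩, hD.zero_mem⟩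
  · rw [hD.Γ_zero_left hD.zero_mem]; exact mem_zero
  · show I (C.Γ 0 g) = -I (0 * g)
    rw [hD.Γ_zero_left hg, zero_mul, I_zero, neg_zero]

end basic

/-- the bracket in the Bochner inequality is integrable -/
theorem bracket_mem (hC : IsGamma C) (κ : ℝ) (hf : f ∈ C.W) (hh : h ∈ C.W) :
    MemLp (C.Γ f h + κ • C.Γ f f : M →ₘ[m] ℝ) 1 m :=
  mem_add (hC.toIsDir.Γ_mem1 hf hh) (mem_smul _ (hC.mem1 f hf))

include hB in
theorem be (hfh : C.IsLap f h) (hh : h ∈ C.W) (hφψ : C.IsLap φ ψ) (h0 : 0 ≤ φ)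
    (hφ : MemLp φ ∞ m) (hψ : MemLp ψ ∞ m) :
    I (φ * (C.Γ f h + κ • C.Γ f f)) ≤ (2 : ℝ)⁻¹ * I (C.Γ f f * ψ) := by
  rw [← I_smul]
  exact hB f h φ ψ hfh hh hφψ h0 hφ hψ

include hC hB

/-- the resolvent maps bounded Lipschitz functions to test functions, for small `lam` -/
theorem J_test [SigmaFinite m] {lam : ℝ} (hl : 0 < lam) (hl2 : 0 < 1 + 2 * lam * κ)
    (hf : f ∈ C.A) (hf' : MemLp (C.Γ f f) ∞ m) : C.J lam f ∈ C.Test := by
  have hD := hC.toIsDir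
  have hf2 := hC.memLp f hf.1
  obtain ⟨K, hK⟩ := mem_top_iff.1 hf.2
  obtain ⟨L, hL⟩ := mem_top_iff.1 hf'
  have hLap := hD.J_isLap hl hf2
  set u := C.J lam f with hu
  set h := lam⁻¹ • (u - f) with hh
  have huW : u ∈ C.W := hLap.1
  have hhW : h ∈ C.W := hD.smul_mem _ _ (hD.sub_mem huW hf.1)
  rw [hC.mem_test_iff]
  refine ⟨huW, mem_top_iff.2 ⟨K, hD.J_bdd hl hf2 hK⟩, ?_, h, hLap, hhW⟩
  -- the gradient bound
  set μ : ℝ := lam⁻¹ + 2 * κ with hμ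
  have hμ0 : 0 < μ := by
    have : μ = (1 + 2 * lam * κ) / lam := by rw [hμ]; field_simp
    rw [this]; positivity
  have hμl : 0 < lam * μ := mul_pos hl hμ0
  have key : ∀ᵐ x ∂m, C.Γ u u x ≤ |L| / (lam * μ) := by
    refine le_const_of_forall (hC.mem1 u huW) (by positivity) fun ψ₀ h0 h2 h1 ht => ?_
    -- the test function
    have hμi : 0 < μ⁻¹ := inv_pos.2 hμ0
    have hwLap := hD.J_isLap hμi h2
    have hw0 := hD.J_nonneg hμi h2 h0
    obtain ⟨B, hB0⟩ := mem_top_iff.1 ht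
    have hwb := hD.J_bdd hμi h2 hB0
    have hw1 := hD.J_L1 hμi h2 h1 h0
    set w := C.J μ⁻¹ ψ₀ with hw
    rw [inv_inv] at hwLap
    have hwt : MemLp w ∞ m := mem_top_iff.2 ⟨B, hwb⟩
    have hφLap := hD.isLap_smul μ⁻¹ hwLap
    have e1 : μ⁻¹ • μ • (w - ψ₀) = w - ψ₀ := by
      rw [smul_smul, inv_mul_cancel₀ hμ0.ne', one_smul]
    rw [e1] at hφLap
    have hbe := be hB hLap hhW hφLap (smul_nonneg' hμi.le hw0) (mem_smul _ hwt) (mem_sub hwt ht)
    -- lower bound of the left hand side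
    have hΓuu := hC.mem1 u huW
    have hΓff := hC.mem1 f hf.1
    have hlow : I (μ⁻¹ • w * ((μ / 2) • C.Γ u u - (lam⁻¹ / 2) • C.Γ f f)) ≤
        I (μ⁻¹ • w * (C.Γ u h + κ • C.Γ u u)) := by
      refine I_mono (mem_mul_top (mem_smul _ hwt) (mem_sub (mem_smul _ hΓuu) (mem_smul _ hΓff)))
        (mem_mul_top (mem_smul _ hwt) (hC.bracket_mem κ huW hhW)) ?_
      refine mul_le_mul_of_nonneg_left ?_ (smul_nonneg' hμi.le hw0)
      have e2 : C.Γ u h = lam⁻¹ • (C.Γ u u - C.Γ u f) := by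
        rw [hh, hD.Γ_smul_right _ huW (hD.sub_mem huW hf.1), hD.Γ_sub_right huW huW hf.1]
      rw [le_iff_ae, e2]
      have hnn := hC.nonneg _ (hD.sub_mem huW hf.1)
      rw [hD.Γ_sub_left huW hf.1 (hD.sub_mem huW hf.1), hD.Γ_sub_right huW huW hf.1,
        hD.Γ_sub_right hf.1 huW hf.1, hD.symm f hf.1 u huW, nonneg_iff_ae] at hnn
      filter_upwards [hnn, sub_ae (C.Γ u u - C.Γ u f) (C.Γ u f - C.Γ f f),
        sub_ae (C.Γ u u) (C.Γ u f), sub_ae (C.Γ u f) (C.Γ f f),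
        sub_ae ((μ / 2) • C.Γ u u) ((lam⁻¹ / 2) • C.Γ f f), smul_ae (C.Γ u u) (μ / 2),
        smul_ae (C.Γ f f) (lam⁻¹ / 2),
        add_ae (lam⁻¹ • (C.Γ u u - C.Γ u f)) (κ • C.Γ u u),
        smul_ae (C.Γ u u - C.Γ u f) lam⁻¹, smul_ae (C.Γ u u) κ]
          with x a1 a2 a3 a4 a5 a6 a7 a9 a10 a11
      rw [a2, a3, a4] at a1
      rw [a5, a6, a7, a9, a10, a11, a3]
      have hli : 0 < lam⁻¹ := inv_pos.2 hl
      rw [hμ]
      linarith only [mul_nonneg hli.le a1]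
    have hlow2 : I (μ⁻¹ • w * ((μ / 2) • C.Γ u u - (lam⁻¹ / 2) • C.Γ f f)) =
        (2 : ℝ)⁻¹ * I (w * C.Γ u u) - (μ⁻¹ * (lam⁻¹ / 2)) * I (w * C.Γ f f) := by
      have e3 : μ⁻¹ • w * ((μ / 2) • C.Γ u u - (lam⁻¹ / 2) • C.Γ f f) =
          (2 : ℝ)⁻¹ • (w * C.Γ u u) - (μ⁻¹ * (lam⁻¹ / 2)) • (w * C.Γ f f) := by
        rw [mul_sub, smul_mul_smul_comm, smul_mul_smul_comm]
        congr 2
        field_simp
      rw [e3, I_sub (mem_smul _ (mem_mul_top hwt hΓuu)) (mem_smul _ (mem_mul_top hwt hΓff)),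
        I_smul, I_smul]
    have hR : I (C.Γ u u * (w - ψ₀)) = I (w * C.Γ u u) - I (C.Γ u u * ψ₀) := by
      rw [mul_sub, mul_comm (C.Γ u u) w, I_sub (mem_mul_top hwt hΓuu) (mem_top_mul hΓuu ht)]
    have h3 : I (w * C.Γ f f) ≤ |L| * I ψ₀ := by
      calc I (w * C.Γ f f) ≤ I (|L| • w) := by
            refine I_mono (mem_mul_top hwt hΓff) (mem_smul _ hw1.1) ?_
            rw [le_iff_ae]
            filter_upwards [mul_ae w (C.Γ f f), smul_ae w |L|, nonneg_iff_ae.1 hw0, hL]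
              with x a1 a2 a3 a4
            rw [a1, a2, mul_comm (|L|)]
            exact mul_le_mul_of_nonneg_left (((le_abs_self _).trans a4).trans (le_abs_self L)) a3
        _ = |L| * I w := I_smul _
        _ ≤ |L| * I ψ₀ := mul_le_mul_of_nonneg_left hw1.2 (abs_nonneg L)
    have h4 : (2 : ℝ)⁻¹ * I (C.Γ u u * ψ₀) ≤ (μ⁻¹ * (lam⁻¹ / 2)) * I (w * C.Γ f f) := by
      rw [hlow2] at hlow
      rw [hR] at hbe
      linarith only [hlow, hbe]
    have h5 : (μ⁻¹ * (lam⁻¹ / 2)) * I (w * C.Γ f f) ≤ (μ⁻¹ * (lam⁻¹ / 2)) * (|L| * I ψ₀) :=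
      mul_le_mul_of_nonneg_left h3 (by positivity)
    have h6 : |L| / (lam * μ) * I ψ₀ = 2 * ((μ⁻¹ * (lam⁻¹ / 2)) * (|L| * I ψ₀)) := by
      field_simp
    rw [h6]
    linarith only [h5, h4]
  rw [mem_top_iff]
  refine ⟨|L| / (lam * μ), ?_⟩
  filter_upwards [key, hD.Γ_nonneg_ae huW] with x h1 h2
  rwa [abs_of_nonneg h2]

omit hC hB in
/-- `1 + 2 lam κ > 0` for small `lam` -/
theorem exists_small (κ : ℝ) : ∃ N : ℕ, ∀ n ≥ N, 0 < 1 + 2 * ((n : ℝ) + 1)⁻¹ * κ := by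
  obtain ⟨N, hN⟩ := exists_nat_ge (2 * |κ|)
  refine ⟨N, fun n hn => ?_⟩
  have h1 : (N : ℝ) ≤ n := by exact_mod_cast hn
  have h2 : (0 : ℝ) < (n : ℝ) + 1 := by positivity
  have h3 : 0 < ((n : ℝ) + 1 + 2 * κ) / ((n : ℝ) + 1) := by
    apply div_pos _ h2
    linarith [neg_abs_le κ]
  have h4 : 1 + 2 * ((n : ℝ) + 1)⁻¹ * κ = ((n : ℝ) + 1 + 2 * κ) / ((n : ℝ) + 1) := by
    field_simp
  rw [h4]; exact h3

theorem test_dense [SigmaFinite m] (hf : f ∈ C.W) {ε : ℝ} (hε : 0 < ε) :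
    ∃ g ∈ C.Test, C.nrm2 (g - f) < ε := by
  have hD := hC.toIsDir
  obtain ⟨g, hg1, hg2, hg3, hg4⟩ := hC.dense_lip f hf (ε / 4) (by positivity)
  obtain ⟨N, hN⟩ := exists_small κ
  have h1 := hD.J_tendsto_W hg1
  obtain ⟨n, hn1, hn2⟩ := ((h1.eventually (gt_mem_nhds (show (0 : ℝ) < ε / 4 by positivity))).and
    (eventually_ge_atTop N)).exists
  have hl : (0 : ℝ) < ((n : ℝ) + 1)⁻¹ := by positivity
  have hJ := hC.J_test hB hl (hN n hn2) ⟨hg1, hg2⟩ hg3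
  refine ⟨_, hJ, ?_⟩
  have hJW := (hC.test_A hJ).1
  have h2 := hD.nrm2_add_le (hD.sub_mem hJW hg1) (hD.sub_mem hg1 hf)
  have e : C.J ((n : ℝ) + 1)⁻¹ g - g + (g - f) = C.J ((n : ℝ) + 1)⁻¹ g - f := by abel
  rw [e, hD.nrm2_sub_comm hg1 hf] at h2
  linarith only [h2, hn1, hg4]

/-- bounded `L²` functions are limits of uniformly bounded test functions -/
theorem test_dense_bdd [SigmaFinite m] (hf : MemLp f 2 m) {K : ℝ} (hK : ∀ᵐ x ∂m, |f x| ≤ K) :
    ∃ u : ℕ → M →ₘ[m] ℝ, (∀ n, u n ∈ C.Test) ∧ (∀ n, ∀ᵐ x ∂m, |u n x| ≤ K) ∧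
      (∀ᵐ x ∂m, Tendsto (fun n => u n x) atTop (𝓝 (f x))) ∧
      Tendsto (fun n => I ((u n - f) ^ 2)) atTop (𝓝 0) := by
  have hD := hC.toIsDir
  rcases le_or_gt K 0 with hK0 | hK0
  · -- trivial case
    have hf0 : f = 0 := by
      rw [eq_iff_ae]
      filter_upwards [hK, zero_ae (M := M) (m := m)] with x a1 a2
      rw [a2]
      exact abs_eq_zero.1 (le_antisymm (a1.trans hK0) (abs_nonneg _))
    refine ⟨fun _ => 0, fun _ => hC.test_zero', fun _ => ?_, ?_, ?_⟩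
    · filter_upwards [hK, zero_ae (M := M) (m := m)] with x a1 a2
      rw [a2, abs_zero]
      exact (abs_nonneg _).trans a1
    · rw [hf0]; filter_upwards with x; exact tendsto_const_nhds
    · rw [hf0]
      have e : ((0 : M →ₘ[m] ℝ) - 0) ^ 2 = 0 := by ring
      simp only [e, I_zero]
      exact tendsto_const_nhds
  -- Lipschitz approximations
  have hex : ∀ k : ℕ, ∃ g ∈ C.W, MemLp g ∞ m ∧ MemLp (C.Γ g g) ∞ m ∧
      I ((g - f) ^ 2) < ((k : ℝ) + 1)⁻¹ := by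
    intro k
    have hk : (0 : ℝ) < ((k : ℝ) + 1)⁻¹ := by positivity
    obtain ⟨g1, h1, h2⟩ := hC.dense_L2 f hf (((k : ℝ) + 1)⁻¹ / 4) (by positivity)
    obtain ⟨g2, h3, h4, h5, h6⟩ := hC.dense_lip g1 h1 (((k : ℝ) + 1)⁻¹ / 4) (by positivity)
    refine ⟨g2, h3, h4, h5, ?_⟩
    have h7 := I_sq_add_le (mem_sub (hC.memLp g1 h1) (hC.memLp g2 h3))
      (mem_sub hf (hC.memLp g1 h1))
    have e1 : (g1 - g2 + (f - g1)) ^ 2 = (g2 - f) ^ 2 := by ring
    rw [e1] at h7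
    have h8 := hD.I_sq_le_nrm2 (hD.sub_mem h1 h3)
    linarith
  choose g hg1 hg2 hg3 hg4 using hex
  choose φ φ' hφc hφ'c hφd hφ0 hφ'b hφb hφl hφi using fun k : ℕ => exists_clamp hK0 k
  have hch := fun k => hC.chain (g k) (hg1 k) (φ k) (φ' k) (hφc k) (hφ'c k) (hφd k) (hφ0 k)
    ⟨1, fun t => by rw [abs_of_nonneg (hφ'b k t).1]; exact (hφ'b k t).2⟩
  set v : ℕ → M →ₘ[m] ℝ := fun k => AEEqFun.comp (φ k) (hφc k) (g k) with hv
  have hvae : ∀ k, ⇑(v k) =ᵐ[m] fun x => φ k (g k x) := fun k =>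
    AEEqFun.coeFn_comp (φ k) (hφc k) (g k)
  have hvW : ∀ k, v k ∈ C.W := fun k => (hch k).1
  have hvK : ∀ k, ∀ᵐ x ∂m, |v k x| ≤ K := by
    intro k
    filter_upwards [hvae k] with x hx
    rw [hx]; exact hφb k _
  have hvA : ∀ k, v k ∈ C.A := fun k => ⟨hvW k, mem_top_iff.2 ⟨K, hvK k⟩⟩
  have hv2 : ∀ k, MemLp (v k) 2 m := fun k => hC.memLp _ (hvW k)
  have hvΓ : ∀ k, MemLp (C.Γ (v k) (v k)) ∞ m := by
    intro k
    have e1 : C.Γ (v k) (v k) = AEEqFun.comp (φ' k) (hφ'c k) (g k) *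
        (AEEqFun.comp (φ' k) (hφ'c k) (g k) * C.Γ (g k) (g k)) := by
      rw [(hch k).2 (v k) (hvW k), hD.symm (g k) (hg1 k) (v k) (hvW k),
        (hch k).2 (g k) (hg1 k)]
    have h1 : MemLp (AEEqFun.comp (φ' k) (hφ'c k) (g k)) ∞ m := by
      rw [mem_top_iff]
      refine ⟨1, ?_⟩
      filter_upwards [AEEqFun.coeFn_comp (φ' k) (hφ'c k) (g k)] with x hx
      rw [hx, Function.comp_apply, abs_of_nonneg (hφ'b k _).1]
      exact (hφ'b k _).2
    rw [e1]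
    exact mem_mul_top h1 (mem_mul_top h1 (hg3 k))
  -- `v k → f` in `L²`
  have hinv : Tendsto (fun k : ℕ => ((k : ℝ) + 1)⁻¹) atTop (𝓝 0) := tendsto_inv_succ
  have hvf : Tendsto (fun k => I ((v k - f) ^ 2)) atTop (𝓝 0) := by
    -- intermediate functions
    set w : ℕ → M →ₘ[m] ℝ := fun k => AEEqFun.comp (φ k) (hφc k) f with hw
    have hwae : ∀ k, ⇑(w k) =ᵐ[m] fun x => φ k (f x) := fun k =>
      AEEqFun.coeFn_comp (φ k) (hφc k) f
    have hwle : ∀ k, ∀ᵐ x ∂m, |w k x| ≤ |f x| := by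
      intro k
      filter_upwards [hwae k] with x hx
      rw [hx]
      have := hφl k (f x) 0
      rwa [hφ0, sub_zero, sub_zero] at this
    have hw2 : ∀ k, MemLp (w k) 2 m := fun k => mem_of_le hf (hwle k)
    have l1 : Tendsto (fun k => I ((w k - f) ^ 2)) atTop (𝓝 (I (0 : M →ₘ[m] ℝ))) := by
      refine I_tendsto_of_dominated (G := fun x => 4 * f x ^ 2)
        ((int_of_mem (mem_sq hf)).congr (sq_ae f) |>.const_mul 4) (fun n => ?_) ?_
      · filter_upwards [sq_ae (w n - f), sub_ae (w n) f, hwle n] with x h1 h2 h3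
        rw [h1, h2, abs_of_nonneg (sq_nonneg _)]
        have h4 : |w n x - f x| ≤ 2 * |f x| := by
          calc |w n x - f x| ≤ |w n x| + |f x| := abs_sub _ _
            _ ≤ 2 * |f x| := by linarith
        calc (w n x - f x) ^ 2 = |w n x - f x| ^ 2 := (sq_abs _).symm
          _ ≤ (2 * |f x|) ^ 2 := by gcongr
          _ = 4 * f x ^ 2 := by rw [mul_pow, sq_abs]; ring
      · filter_upwards [ae_all_iff.2 fun n => sq_ae (w n - f), ae_all_iff.2 fun n => sub_ae (w n) f,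
          ae_all_iff.2 hwae, hK, zero_ae (M := M) (m := m)] with x h1 h2 h3 h4 h5
        simp_rw [h1, h2, h3, h5]
        have h6 : Tendsto (fun k : ℕ => |φ k (f x) - f x|) atTop (𝓝 0) := by
          refine squeeze_zero (fun k => abs_nonneg _) (fun k => hφi k (f x) h4) ?_
          exact tendsto_div_succ K
        have h7 := h6.pow 2
        simpa [sq_abs] using h7
    rw [I_zero] at l1
    have l2 : Tendsto (fun k : ℕ => 2 * ((k : ℝ) + 1)⁻¹ + 2 * I ((w k - f) ^ 2)) atTop (𝓝 0) := by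
      simpa using (hinv.const_mul 2).add (l1.const_mul 2)
    refine squeeze_zero (fun k => I_sq_nonneg _) (fun k => ?_) l2
    have h1 := I_sq_add_le (mem_sub (hv2 k) (hw2 k)) (mem_sub (hw2 k) hf)
    have e1 : v k - w k + (w k - f) = v k - f := by abel
    rw [e1] at h1
    have h2 : I ((v k - w k) ^ 2) ≤ I ((g k - f) ^ 2) := by
      refine I_mono (mem_sq (mem_sub (hv2 k) (hw2 k)))
        (mem_sq (mem_sub (hC.memLp _ (hg1 k)) hf)) ?_
      rw [le_iff_ae]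
      filter_upwards [sq_ae (v k - w k), sub_ae (v k) (w k), hvae k, hwae k, sq_ae (g k - f),
        sub_ae (g k) f] with x a1 a2 a3 a4 a5 a6
      rw [a1, a2, a3, a4, a5, a6]
      exact sq_le_sq.2 (hφl k _ _)
    linarith [(hg4 k).le]
  -- apply the resolvent
  obtain ⟨N, hN⟩ := exists_small κ
  have hl : ∀ n : ℕ, (0 : ℝ) < ((n : ℝ) + 1)⁻¹ := fun n => by positivity
  set u : ℕ → M →ₘ[m] ℝ := fun k => C.J (((k + N : ℕ) : ℝ) + 1)⁻¹ (v k) with hu
  have huT : ∀ k, u k ∈ C.Test := fun k =>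
    hC.J_test hB (hl (k + N)) (hN (k + N) (Nat.le_add_left _ _)) (hvA k) (hvΓ k)
  have huK : ∀ k, ∀ᵐ x ∂m, |u k x| ≤ K := fun k => hD.J_bdd (hl (k + N)) (hv2 k) (hvK k)
  have hu2 : ∀ k, MemLp (u k) 2 m := fun k => hC.memLp _ (hC.test_A (huT k)).1
  have huf : Tendsto (fun k => I ((u k - f) ^ 2)) atTop (𝓝 0) := by
    have l1 : Tendsto (fun k : ℕ => I ((C.J (((k + N : ℕ) : ℝ) + 1)⁻¹ f - f) ^ 2)) atTop (𝓝 0) :=
      (hD.J_tendsto_L2 hf).comp (tendsto_add_atTop_nat N)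
    have l2 : Tendsto (fun k : ℕ => 2 * I ((v k - f) ^ 2) +
        2 * I ((C.J (((k + N : ℕ) : ℝ) + 1)⁻¹ f - f) ^ 2)) atTop (𝓝 0) := by
      simpa using (hvf.const_mul 2).add (l1.const_mul 2)
    refine squeeze_zero (fun k => I_sq_nonneg _) (fun k => ?_) l2
    have h1 := hD.J_sq_le (hl (k + N)) (mem_sub (hv2 k) hf)
    rw [hD.J_sub (hl (k + N)) (hv2 k) hf] at h1
    have hJf : MemLp (C.J (((k + N : ℕ) : ℝ) + 1)⁻¹ f) 2 m := hD.J_mem2 (hl (k + N)) hf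
    have h2 := I_sq_add_le (mem_sub (hu2 k) hJf) (mem_sub hJf hf)
    have e1 : u k - C.J (((k + N : ℕ) : ℝ) + 1)⁻¹ f + (C.J (((k + N : ℕ) : ℝ) + 1)⁻¹ f - f) =
        u k - f := by abel
    rw [e1] at h2
    have h3 : I ((u k - C.J (((k + N : ℕ) : ℝ) + 1)⁻¹ f) ^ 2) ≤ I ((v k - f) ^ 2) := h1
    linarith only [h3, h2]
  obtain ⟨ns, hns, hae⟩ := exists_subseq_of_I_sq hu2 hf huf
  exact ⟨fun k => u (ns k), fun k => huT _, fun k => huK _, hae, huf.comp hns.tendsto_atTop⟩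

/-- fundamental lemma with test functions -/
theorem eq_zero_of_forall_test [SigmaFinite m] {F : M →ₘ[m] ℝ} (hF : MemLp F 1 m)
    (h : ∀ s ∈ C.Test, I (s * F) = 0) : F = 0 := by
  have hD := hC.toIsDir
  refine hD.eq_zero_of_forall hF fun s hs => ?_
  obtain ⟨K, hK⟩ := mem_top_iff.1 hs.2
  obtain ⟨u, h1, h2, h3, h4⟩ := hC.test_dense_bdd hB (hC.memLp s hs.1) hK
  have hlim : Tendsto (fun n => I (u n * F)) atTop (𝓝 (I (s * F))) := by
    refine I_tendsto_of_dominated (G := fun x => K * |F x|) ((int_of_mem hF).abs.const_mul K)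
      (fun n => ?_) ?_
    · filter_upwards [mul_ae (u n) F, h2 n] with x a1 a2
      rw [a1, abs_mul]
      exact mul_le_mul_of_nonneg_right a2 (abs_nonneg _)
    · filter_upwards [ae_all_iff.2 fun n => mul_ae (u n) F, mul_ae s F, h3] with x a1 a2 a3
      simp_rw [a1, a2]
      exact a3.mul_const _
  simp_rw [fun n => h (u n) (h1 n)] at hlim
  exact tendsto_nhds_unique hlim tendsto_const_nhds

/-- Savare's regularity -/
theorem Γ_self_mem (hf : f ∈ C.Test) : C.Γ f f ∈ C.W := by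
  have hD := hC.toIsDir
  have hfA := hC.test_A hf
  have hfΓ := hC.test_Γ_top hf
  have hfL := hC.test_isLap hf
  have hfLW := hC.test_lap_mem hf
  set v := C.Γ f f with hv
  have hv0 : 0 ≤ v := hC.nonneg f hfA.1
  have hv2 : MemLp v 2 m := hD.Γ_mem2 hfA.1 hfΓ hfA.1
  set g0 : M →ₘ[m] ℝ := (2 : ℝ) • (C.Γ f (C.lap f) + κ • v) with hg0
  have hg02 : MemLp g0 2 m := mem_smul _ (mem_add (hD.Γ_mem2 hfA.1 hfΓ hfLW) (mem_smul _ hv2))
  -- the basic inequality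
  have hstar : ∀ φ ψ : M →ₘ[m] ℝ, C.IsLap φ ψ → 0 ≤ φ → MemLp φ ∞ m → MemLp ψ ∞ m →
      I (φ * g0) ≤ I (v * ψ) := by
    intro φ ψ h1 h2 h3 h4
    have h5 := be hB hfL hfLW h1 h2 h3 h4
    have hφ2 := hC.memLp φ h1.1
    have h6 : (2 : ℝ)⁻¹ * I (φ * g0) ≤
        I (φ * (C.Γ f (C.lap f) + κ • v)) := by
      rw [← I_smul]
      refine I_mono (mem_smul _ (mem_mul_22 hφ2 hg02))
        (mem_mul_top h3 (hC.bracket_mem κ hfA.1 hfLW)) ?_
      have e1 : (2 : ℝ)⁻¹ • (φ * g0) = φ * (C.Γ f (C.lap f) + κ • v) := by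
        rw [hg0, mul_smul_comm, smul_smul]
        norm_num
      rw [e1]
    linarith
  obtain ⟨B, hBv⟩ := mem_top_iff.1 hfΓ
  have hl : ∀ n : ℕ, (0 : ℝ) < ((n : ℝ) + 1)⁻¹ := fun n => by positivity
  -- the Laplacian of the regularizations
  have hlow : ∀ n : ℕ, C.J ((n : ℝ) + 1)⁻¹ g0 ≤
      (((n : ℝ) + 1)⁻¹)⁻¹ • (C.J ((n : ℝ) + 1)⁻¹ v - v) := by
    intro n
    rw [← sub_nonneg]
    have hJv2 := hD.J_mem2 (hl n) hv2
    have hJg2 := hD.J_mem2 (hl n) hg02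
    have hm : MemLp ((((n : ℝ) + 1)⁻¹)⁻¹ • (C.J ((n : ℝ) + 1)⁻¹ v - v) : M →ₘ[m] ℝ) 2 m :=
      mem_smul _ (mem_sub hJv2 hv2)
    refine nonneg_of_forall_L2 (mem_sub hm hJg2) fun ψ h0 h2 ht => ?_
    have hJψ2 := hD.J_mem2 (hl n) h2
    have hJψ0 := hD.J_nonneg (hl n) h2 h0
    obtain ⟨D, hDψ⟩ := mem_top_iff.1 ht
    have hJψt : MemLp (C.J ((n : ℝ) + 1)⁻¹ ψ) ∞ m := mem_top_iff.2 ⟨D, hD.J_bdd (hl n) h2 hDψ⟩
    have h3 := hstar _ _ (hD.J_isLap (hl n) h2) hJψ0 hJψt (mem_smul _ (mem_sub hJψt ht))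
    rw [sub_mul, I_sub (mem_mul_22 hm h2) (mem_mul_22 hJg2 h2), smul_mul_assoc, I_smul, sub_mul,
      I_sub (mem_mul_22 hJv2 h2) (mem_mul_22 hv2 h2), hD.J_symm (hl n) hv2 h2,
      hD.J_symm (hl n) hg02 h2]
    have e2 : v * ((((n : ℝ) + 1)⁻¹)⁻¹ • (C.J ((n : ℝ) + 1)⁻¹ ψ - ψ)) =
        (((n : ℝ) + 1)⁻¹)⁻¹ • (v * C.J ((n : ℝ) + 1)⁻¹ ψ - v * ψ) := by
      rw [mul_smul_comm, mul_sub]
    rw [e2, I_smul, I_sub (mem_mul_22 hv2 hJψ2) (mem_mul_22 hv2 h2),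
      mul_comm (C.J ((n : ℝ) + 1)⁻¹ ψ) g0] at h3
    linarith
  have hbound : ∀ n : ℕ, I (C.Γ (C.J ((n : ℝ) + 1)⁻¹ v) (C.J ((n : ℝ) + 1)⁻¹ v)) ≤
      Real.sqrt (I (v ^ 2)) * Real.sqrt (I (g0 ^ 2)) := by
    intro n
    have hJv2 := hD.J_mem2 (hl n) hv2
    have hJg2 := hD.J_mem2 (hl n) hg02
    have hJvW := hD.J_mem (hl n) hv2
    have hJv0 := hD.J_nonneg (hl n) hv2 hv0
    have hLap := hD.J_isLap (hl n) hv2
    have h1 : I (C.Γ (C.J ((n : ℝ) + 1)⁻¹ v) (C.J ((n : ℝ) + 1)⁻¹ v)) =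
        -I ((((n : ℝ) + 1)⁻¹)⁻¹ • (C.J ((n : ℝ) + 1)⁻¹ v - v) * C.J ((n : ℝ) + 1)⁻¹ v) :=
      hLap.2.2 _ hJvW
    have h2 : I (C.J ((n : ℝ) + 1)⁻¹ g0 * C.J ((n : ℝ) + 1)⁻¹ v) ≤
        I ((((n : ℝ) + 1)⁻¹)⁻¹ • (C.J ((n : ℝ) + 1)⁻¹ v - v) * C.J ((n : ℝ) + 1)⁻¹ v) :=
      I_mono (mem_mul_22 hJg2 hJv2) (mem_mul_22 hLap.2.1 hJv2)
        (mul_le_mul_of_nonneg_right (hlow n) hJv0)
    have h3 := I_abs_le hJg2 hJv2
    have h4 := Real.sqrt_le_sqrt (hD.J_sq_le (hl n) hv2)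
    have h5 := Real.sqrt_le_sqrt (hD.J_sq_le (hl n) hg02)
    have h6 := neg_abs_le (I (C.J ((n : ℝ) + 1)⁻¹ g0 * C.J ((n : ℝ) + 1)⁻¹ v))
    have h7 : Real.sqrt (I (C.J ((n : ℝ) + 1)⁻¹ g0 ^ 2)) * Real.sqrt (I (C.J ((n : ℝ) + 1)⁻¹ v ^ 2))
        ≤ Real.sqrt (I (g0 ^ 2)) * Real.sqrt (I (v ^ 2)) :=
      mul_le_mul h5 h4 (Real.sqrt_nonneg _) (Real.sqrt_nonneg _)
    rw [mul_comm (Real.sqrt (I (v ^ 2)))]
    linarith
  exact (hD.mem_of_bounded (fun n => hD.J_mem (hl n) hv2) hbound hv2 (hD.J_tendsto_L2 hv2)).1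

theorem Γ_mem (hf : f ∈ C.Test) (hg : g ∈ C.Test) : C.Γ f g ∈ C.A := by
  have hD := hC.toIsDir
  have hfA := hC.test_A hf
  have hgA := hC.test_A hg
  refine ⟨?_, hD.Γ_memTop hfA.1 (hC.test_Γ_top hf) hgA.1 (hC.test_Γ_top hg)⟩
  have h1 := hC.Γ_self_mem hB (hC.test_add' hf hg)
  have h2 := hC.Γ_self_mem hB hf
  have h3 := hC.Γ_self_mem hB hg
  have h4 := hD.Γ_expand 1 hfA.1 hgA.1
  rw [one_smul, mul_one, one_pow, one_smul] at h4
  have h5 : C.Γ f g = (2 : ℝ)⁻¹ • (C.Γ (f + g) (f + g) - C.Γ f f - C.Γ g g) := by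
    rw [h4]
    module
  rw [h5]
  exact hD.smul_mem _ _ (hD.sub_mem (hD.sub_mem h1 h2) h3)

theorem bochner_weak (hf : f ∈ C.Test) (hφ : φ ∈ C.A) (h0 : 0 ≤ φ) :
    I (φ * (C.Γ f (C.lap f) + κ • C.Γ f f))
      ≤ -((2 : ℝ)⁻¹ * I (C.Γ (C.Γ f f) φ)) := by
  have hD := hC.toIsDir
  have hfA := hC.test_A hf
  have hfL := hC.test_isLap hf
  have hfLW := hC.test_lap_mem hf
  have hv := (hC.Γ_mem hB hf hf).1
  have hφ2 := hC.memLp φ hφ.1
  obtain ⟨K, hK⟩ := mem_top_iff.1 hφ.2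
  have hl : ∀ n : ℕ, (0 : ℝ) < ((n : ℝ) + 1)⁻¹ := fun n => by positivity
  set G := C.Γ f (C.lap f) + κ • C.Γ f f with hG
  have hG1 : MemLp G 1 m := hC.bracket_mem κ hfA.1 hfLW
  set u : ℕ → M →ₘ[m] ℝ := fun n => C.J ((n : ℝ) + 1)⁻¹ φ with hu
  have huW : ∀ n, u n ∈ C.W := fun n => hD.J_mem (hl n) hφ2
  have huK : ∀ n, ∀ᵐ x ∂m, |u n x| ≤ K := fun n => hD.J_bdd (hl n) hφ2 hK
  have hut : ∀ n, MemLp (u n) ∞ m := fun n => mem_top_iff.2 ⟨K, huK n⟩
  have hlimW : Tendsto (fun n => C.nrm2 (u n - φ)) atTop (𝓝 0) := hD.J_tendsto_W hφ.1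
  have key : ∀ n, I (u n * G) ≤ -((2 : ℝ)⁻¹ * I (C.Γ (C.Γ f f) (u n))) := by
    intro n
    have hL := hD.J_isLap (hl n) hφ2
    have h1 := be hB hfL hfLW hL (hD.J_nonneg (hl n) hφ2 h0) (hut n)
      (mem_smul _ (mem_sub (hut n) hφ.2))
    have h2 : I (C.Γ (u n) (C.Γ f f)) =
        -I ((((n : ℝ) + 1)⁻¹)⁻¹ • (u n - φ) * C.Γ f f) := hL.2.2 _ hv
    rw [hD.symm _ (huW n) _ hv, mul_comm _ (C.Γ f f)] at h2
    rw [h2]
    have h3 : I (u n * G) ≤ (2 : ℝ)⁻¹ * I (C.Γ f f * ((((n : ℝ) + 1)⁻¹)⁻¹ • (u n - φ))) := h1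
    linarith only [h3]
  obtain ⟨ns, hns, hae⟩ := exists_subseq_of_I_sq (fun n => hC.memLp _ (huW n)) hφ2
    (hD.tendsto_I_sq_of_nrm2 huW hφ.1 hlimW)
  have l1 : Tendsto (fun n => I (u (ns n) * G)) atTop (𝓝 (I (φ * G))) := by
    refine I_tendsto_of_dominated (G := fun x => K * |G x|) ((int_of_mem hG1).abs.const_mul K)
      (fun n => ?_) ?_
    · filter_upwards [mul_ae (u (ns n)) G, huK (ns n)] with x a1 a2
      rw [a1, abs_mul]
      exact mul_le_mul_of_nonneg_right a2 (abs_nonneg _)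
    · filter_upwards [ae_all_iff.2 fun n => mul_ae (u (ns n)) G, mul_ae φ G, hae] with x a1 a2 a3
      simp_rw [a1, a2]
      exact a3.mul_const _
  have l2 : Tendsto (fun n => I (C.Γ (C.Γ f f) (u n))) atTop (𝓝 (I (C.Γ (C.Γ f f) φ))) := by
    rw [tendsto_iff_dist_tendsto_zero]
    have h1 := hD.tendsto_E_of_nrm2 huW hφ.1 hlimW
    have h2 : Tendsto (fun n => Real.sqrt (I (C.Γ (C.Γ f f) (C.Γ f f))) *
        Real.sqrt (I (C.Γ (u n - φ) (u n - φ)))) atTop (𝓝 0) := by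
      have := ((Real.continuous_sqrt.tendsto 0).comp h1).const_mul
        (Real.sqrt (I (C.Γ (C.Γ f f) (C.Γ f f))))
      simpa [Function.comp_def] using this
    refine squeeze_zero (fun n => dist_nonneg) (fun n => ?_) h2
    rw [Real.dist_eq, ← I_sub (hD.Γ_mem1 hv (huW n)) (hD.Γ_mem1 hv hφ.1),
      ← hD.Γ_sub_right hv (huW n) hφ.1]
    exact hD.E_abs_le hv (hD.sub_mem (huW n) hφ.1)
  have l3 : Tendsto (fun n => -((2 : ℝ)⁻¹ * I (C.Γ (C.Γ f f) (u (ns n))))) atTop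
      (𝓝 (-((2 : ℝ)⁻¹ * I (C.Γ (C.Γ f f) φ)))) :=
    ((l2.comp hns.tendsto_atTop).const_mul _).neg
  exact le_of_tendsto_of_tendsto' l1 l3 fun n => key (ns n)

end IsGamma

end Vale.Agent.P233
end

section

open MeasureTheory Filter Topology
open scoped ENNReal NNReal

namespace Vale.Agent.P233

variable {M : Type*} [MeasurableSpace M] {m : Measure M} {C : Calc m}

/-- `N(f,g;φ)`: the weak form of `Γ₂(f,g) - κ Γ(f,g)` tested with `φ` -/
noncomputable def Calc.NN (C : Calc m) (κ : ℝ) (f g φ : M →ₘ[m] ℝ) : ℝ :=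
  -((2 : ℝ)⁻¹ * I (C.Γ (C.Γ f g) φ))
    - (2 : ℝ)⁻¹ * I (φ * (C.Γ f (C.lap g) + C.Γ g (C.lap f)))
    - κ * I (φ * C.Γ f g)

/-- twice the Hessian: `2 Hess h (f,g)` -/
noncomputable def Calc.KK (C : Calc m) (h f g : M →ₘ[m] ℝ) : M →ₘ[m] ℝ :=
  (2 : ℝ) • C.hess h f g

/-- `Γ(h,f)Γ(k,g) + Γ(h,g)Γ(k,f)` -/
noncomputable def Calc.MM (C : Calc m) (f g h k : M →ₘ[m] ℝ) : M →ₘ[m] ℝ :=
  C.Γ h f * C.Γ k g + C.Γ h g * C.Γ k f

namespace IsGamma

variable (hC : IsGamma C) {κ : ℝ} (hB : C.BEi κ)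
variable {f g h k φ ψ : M →ₘ[m] ℝ}

include hC hB

/-! ### the algebra of test functions -/

theorem test_add (hf : f ∈ C.Test) (hg : g ∈ C.Test) : f + g ∈ C.Test := by
  rw [hC.mem_test_iff] at hf hg ⊢
  obtain ⟨f1, f2, f3, f4, f5, f6⟩ := hf
  obtain ⟨g1, g2, g3, g4, g5, g6⟩ := hg
  refine ⟨hC.add_mem _ f1 _ g1, mem_add f2 g2, ?_, f4 + g4, hC.isLap_add f5 g5,
    hC.add_mem _ f6 _ g6⟩
  have : C.Γ (f + g) (f + g) = C.Γ f f + (2 : ℝ) • C.Γ f g + C.Γ g g := by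
    rw [hC.add_left _ f1 _ g1 _ (hC.add_mem _ f1 _ g1), hC.Γ_add_right f1 f1 g1,
      hC.Γ_add_right g1 f1 g1, hC.symm _ g1 _ f1]
    algebra
  rw [this]
  exact mem_add (mem_add f3 (mem_smul _ (hC.Γ_memTop f1 f3 g1 g3))) g3

theorem test_smul (c : ℝ) (hf : f ∈ C.Test) : c • f ∈ C.Test := by
  rw [hC.mem_test_iff] at hf ⊢
  obtain ⟨f1, f2, f3, f4, f5, f6⟩ := hf
  refine ⟨hC.smul_mem _ _ f1, mem_smul _ f2, ?_, c • f4, hC.isLap_smul c f5,
    hC.smul_mem _ _ f6⟩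
  rw [hC.smul_left _ _ f1 _ (hC.smul_mem _ _ f1), hC.Γ_smul_right _ f1 f1]
  exact mem_smul _ (mem_smul _ f3)

theorem test_zero : (0 : M →ₘ[m] ℝ) ∈ C.Test := by
  rw [hC.mem_test_iff]
  refine ⟨hC.zero_mem, mem_zero, by rw [hC.Γ_zero_left hC.zero_mem]; exact mem_zero, 0,
    ⟨hC.zero_mem, mem_zero, fun g hg => ?_⟩, hC.zero_mem⟩
  change I (C.Γ 0 g) = -I (0 * g)
  rw [hC.Γ_zero_left hg, zero_mul, I_zero, neg_zero]

theorem lap_add (hf : f ∈ C.Test) (hg : g ∈ C.Test) : C.lap (f + g) = C.lap f + C.lap g := by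
  exact hC.lap_eq (hC.isLap_add (hC.test_isLap hf) (hC.test_isLap hg))

theorem lap_smul (c : ℝ) (hf : f ∈ C.Test) : C.lap (c • f) = c • C.lap f := by
  exact hC.lap_eq (hC.isLap_smul c (hC.test_isLap hf))

theorem isLap_mul (hf : f ∈ C.Test) (hg : g ∈ C.Test) :
    C.IsLap (f * g) (f * C.lap g + g * C.lap f + (2 : ℝ) • C.Γ f g) := by
  have fA := hC.test_A hf
  have gA := hC.test_A hg
  have lf := hC.test_isLap hf
  have lg := hC.test_isLap hg
  have hfg := hC.Γ_mem hB hf hg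
  have hK : MemLp (f * C.lap g + g * C.lap f + (2 : ℝ) • C.Γ f g : M →ₘ[m] ℝ) 2 m :=
    mem_add (mem_add (mem_mul_top fA.2 lg.2.1) (mem_mul_top gA.2 lf.2.1))
      (mem_smul _ (hC.memLp _ hfg.1))
  have hmem : f * g ∈ C.W := (hC.mul_mem_A fA gA).1
  refine ⟨hmem, hK, fun h hh => ?_⟩
  change I (C.Γ (f * g) h) = -I ((f * C.lap g + g * C.lap f + (2 : ℝ) • C.Γ f g) * h)
  suffices H : I (C.Γ (f * g) h)
      + I ((f * C.lap g + g * C.lap f + (2 : ℝ) • C.Γ f g) * h) = 0 by linarith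
  refine hC.ext_A hmem hK (fun h hh => ?_) hh
  have e1 : I (C.Γ g (f * h)) = -I (C.lap g * (f * h)) := lg.2.2 _ (hC.mul_mem_A fA hh).1
  have e2 : I (C.Γ f (g * h)) = -I (C.lap f * (g * h)) := lf.2.2 _ (hC.mul_mem_A gA hh).1
  rw [hC.Γ_mul_right fA hh gA.1] at e1
  rw [hC.Γ_mul_right gA hh fA.1] at e2
  have n1 := mem_mul_top fA.2 (hC.Γ_mem1 gA.1 hh.1)
  have n2 := mem_mul_top hh.2 (hC.Γ_mem1 gA.1 fA.1)
  have n3 := mem_mul_top gA.2 (hC.Γ_mem1 fA.1 hh.1)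
  have n4 := mem_mul_top hh.2 (hC.Γ_mem1 fA.1 gA.1)
  have n5 := mem_mul_22 lg.2.1 (mem_mul_top fA.2 (hC.memLp _ hh.1))
  have n6 := mem_mul_22 lf.2.1 (mem_mul_top gA.2 (hC.memLp _ hh.1))
  rw [I_add n1 n2] at e1
  rw [I_add n3 n4] at e2
  rw [hC.Γ_mul_left fA gA hh.1, I_add n1 n3]
  have e3 : (f * C.lap g + g * C.lap f + (2 : ℝ) • C.Γ f g) * h
      = C.lap g * (f * h) + C.lap f * (g * h) + (2 : ℝ) • (h * C.Γ f g) := by algebra
  rw [e3, I_add (mem_add n5 n6) (mem_smul _ n4), I_add n5 n6, I_smul]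
  rw [hC.symm _ gA.1 _ fA.1] at e1
  linarith

theorem lap_mul (hf : f ∈ C.Test) (hg : g ∈ C.Test) :
    C.lap (f * g) = f * C.lap g + g * C.lap f + (2 : ℝ) • C.Γ f g :=
  hC.lap_eq (hC.isLap_mul hB hf hg)

theorem test_mul (hf : f ∈ C.Test) (hg : g ∈ C.Test) : f * g ∈ C.Test := by
  have fA := hC.test_A hf
  have gA := hC.test_A hg
  have h1 := hC.test_Γ_top hf
  have h2 := hC.test_Γ_top hg
  have h3 := hC.Γ_memTop fA.1 h1 gA.1 h2
  have hmem : f * g ∈ C.A := hC.mul_mem_A fA gA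
  rw [hC.mem_test_iff]
  refine ⟨hmem.1, hmem.2, ?_, _, hC.isLap_mul hB hf hg, ?_⟩
  · rw [hC.Γ_mul_left fA gA hmem.1, hC.Γ_mul_right fA gA gA.1, hC.Γ_mul_right fA gA fA.1]
    refine mem_add (mem_mul_top fA.2 (mem_add (mem_mul_top fA.2 h2) (mem_mul_top gA.2 ?_)))
      (mem_mul_top gA.2 (mem_add (mem_mul_top fA.2 h3) (mem_mul_top gA.2 h1)))
    rw [hC.symm _ gA.1 _ fA.1]; exact h3
  · exact hC.add_mem _ (hC.add_mem _ (hC.mul_mem_lip fA h1 (hC.test_lap_mem hg)) _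
      (hC.mul_mem_lip gA h2 (hC.test_lap_mem hf))) _ (hC.smul_mem _ _ (hC.Γ_mem hB hf hg).1)

theorem test_sum {ι : Type*} (s : Finset ι) {F : ι → M →ₘ[m] ℝ} (hF : ∀ i, F i ∈ C.Test) :
    ∑ i ∈ s, F i ∈ C.Test := by
  classical
  induction s using Finset.induction_on with
  | empty => simpa using hC.test_zero hB
  | insert i s hi ih => rw [Finset.sum_insert hi]; exact hC.test_add hB (hF i) ih

/-! ### the functional `NN` -/

theorem NN_int1 (hf : f ∈ C.Test) (hg : g ∈ C.Test) (hφ : φ ∈ C.A) :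
    MemLp (C.Γ (C.Γ f g) φ) 1 m ∧ MemLp (φ * (C.Γ f (C.lap g) + C.Γ g (C.lap f))) 1 m ∧
      MemLp (φ * C.Γ f g) 1 m ∧ MemLp (φ * (C.lap f * C.lap g)) 1 m := by
  have fA := hC.test_A hf
  have gA := hC.test_A hg
  refine ⟨hC.Γ_mem1 (hC.Γ_mem hB hf hg).1 hφ.1, mem_mul_top hφ.2 (mem_add ?_ ?_),
    mem_mul_top hφ.2 (hC.Γ_mem1 fA.1 gA.1),
    mem_mul_top hφ.2 (mem_mul_22 (hC.test_isLap hf).2.1 (hC.test_isLap hg).2.1)⟩
  · exact hC.Γ_mem1 fA.1 (hC.test_lap_mem hg)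
  · exact hC.Γ_mem1 gA.1 (hC.test_lap_mem hf)

/-- `NN` as the integral of one function -/
theorem NN_eq (hf : f ∈ C.Test) (hg : g ∈ C.Test) (hφ : φ ∈ C.A) :
    C.NN κ f g φ = I (-((2 : ℝ)⁻¹ • C.Γ (C.Γ f g) φ)
      - (2 : ℝ)⁻¹ • (φ * (C.Γ f (C.lap g) + C.Γ g (C.lap f))) - κ • (φ * C.Γ f g)) := by
  obtain ⟨n1, n2, n3, n4⟩ := hC.NN_int1 hB hf hg hφ
  rw [I_sub (mem_sub (mem_neg (mem_smul _ n1)) (mem_smul _ n2)) (mem_smul _ n3),
    I_sub (mem_neg (mem_smul _ n1)) (mem_smul _ n2), I_neg, I_smul, I_smul, I_smul]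
  rfl

theorem NN_int (hf : f ∈ C.Test) (hg : g ∈ C.Test) (hφ : φ ∈ C.A) :
    MemLp (-((2 : ℝ)⁻¹ • C.Γ (C.Γ f g) φ)
      - (2 : ℝ)⁻¹ • (φ * (C.Γ f (C.lap g) + C.Γ g (C.lap f))) - κ • (φ * C.Γ f g) :
        M →ₘ[m] ℝ) 1 m := by
  obtain ⟨n1, n2, n3, n4⟩ := hC.NN_int1 hB hf hg hφ
  exact mem_sub (mem_sub (mem_neg (mem_smul _ n1)) (mem_smul _ n2)) (mem_smul _ n3)

theorem NN_symm (hf : f ∈ C.Test) (hg : g ∈ C.Test) : C.NN κ f g φ = C.NN κ g f φ := by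
  have fA := hC.test_A hf
  have gA := hC.test_A hg
  unfold Calc.NN
  rw [hC.symm _ gA.1 _ fA.1, add_comm (C.Γ g (C.lap f))]

theorem NN_add_left (hf : f ∈ C.Test) (hg : g ∈ C.Test) (hh : h ∈ C.Test) (hφ : φ ∈ C.A) :
    C.NN κ (f + g) h φ = C.NN κ f h φ + C.NN κ g h φ := by
  have fA := hC.test_A hf
  have gA := hC.test_A hg
  have hA := hC.test_A hh
  have hfg := hC.test_add hB hf hg
  have lf := hC.test_lap_mem hf
  have lg := hC.test_lap_mem hg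
  have lh := hC.test_lap_mem hh
  rw [hC.NN_eq hB hfg hh hφ, hC.NN_eq hB hf hh hφ, hC.NN_eq hB hg hh hφ,
    ← I_add (hC.NN_int hB hf hh hφ) (hC.NN_int hB hg hh hφ), hC.lap_add hB hf hg,
    hC.add_left _ fA.1 _ gA.1 _ hA.1, hC.add_left _ fA.1 _ gA.1 _ lh,
    hC.Γ_add_right hA.1 lf lg,
    hC.add_left _ (hC.Γ_mem hB hf hh).1 _ (hC.Γ_mem hB hg hh).1 _ hφ.1]
  congr 1
  algebra

theorem NN_smul_left (c : ℝ) (hf : f ∈ C.Test) (hh : h ∈ C.Test) (hφ : φ ∈ C.A) :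
    C.NN κ (c • f) h φ = c * C.NN κ f h φ := by
  have fA := hC.test_A hf
  have hA := hC.test_A hh
  have hcf := hC.test_smul hB c hf
  have lf := hC.test_lap_mem hf
  have lh := hC.test_lap_mem hh
  rw [hC.NN_eq hB hcf hh hφ, hC.NN_eq hB hf hh hφ, ← I_smul, hC.lap_smul hB c hf,
    hC.smul_left _ _ fA.1 _ hA.1, hC.smul_left _ _ fA.1 _ lh, hC.Γ_smul_right _ hA.1 lf,
    hC.smul_left _ _ (hC.Γ_mem hB hf hh).1 _ hφ.1]
  congr 1
  algebra

theorem NN_add_φ (hf : f ∈ C.Test) (hg : g ∈ C.Test) (hφ : φ ∈ C.A) (hψ : ψ ∈ C.A) :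
    C.NN κ f g (φ + ψ) = C.NN κ f g φ + C.NN κ f g ψ := by
  have hφψ : φ + ψ ∈ C.A := ⟨hC.add_mem _ hφ.1 _ hψ.1, mem_add hφ.2 hψ.2⟩
  rw [hC.NN_eq hB hf hg hφψ, hC.NN_eq hB hf hg hφ, hC.NN_eq hB hf hg hψ,
    ← I_add (hC.NN_int hB hf hg hφ) (hC.NN_int hB hf hg hψ),
    hC.Γ_add_right (hC.Γ_mem hB hf hg).1 hφ.1 hψ.1]
  congr 1
  algebra

theorem NN_smul_φ (c : ℝ) (hf : f ∈ C.Test) (hg : g ∈ C.Test) (hφ : φ ∈ C.A) :
    C.NN κ f g (c • φ) = c * C.NN κ f g φ := by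
  have hcφ : c • φ ∈ C.A := ⟨hC.smul_mem _ _ hφ.1, mem_smul _ hφ.2⟩
  rw [hC.NN_eq hB hf hg hcφ, hC.NN_eq hB hf hg hφ, ← I_smul,
    hC.Γ_smul_right _ (hC.Γ_mem hB hf hg).1 hφ.1]
  congr 1
  algebra

theorem NN_nonneg (hf : f ∈ C.Test) (hφ : φ ∈ C.A) (h0 : 0 ≤ φ) : 0 ≤ C.NN κ f f φ := by
  have h1 := hC.bochner_weak hB hf hφ h0
  obtain ⟨n1, n2, n3, n4⟩ := hC.NN_int1 hB hf hf hφ
  have e : φ * (C.Γ f (C.lap f) + κ • C.Γ f f)
      = (2 : ℝ)⁻¹ • (φ * (C.Γ f (C.lap f) + C.Γ f (C.lap f))) + κ • (φ * C.Γ f f) := by algebra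
  rw [e, I_add (mem_smul _ n2) (mem_smul _ n3), I_smul, I_smul] at h1
  unfold Calc.NN
  linarith only [h1]

/-- product rule for `NN` -/
theorem NN_mul (hf : f ∈ C.Test) (hg : g ∈ C.Test) (hh : h ∈ C.Test) (hφ : φ ∈ C.A) :
    C.NN κ (f * g) h φ = C.NN κ g h (f * φ) + C.NN κ f h (g * φ) + I (φ * C.KK h f g) := by
  have fA := hC.test_A hf
  have gA := hC.test_A hg
  have hA := hC.test_A hh
  have fT := hC.test_Γ_top hf
  have gT := hC.test_Γ_top hg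
  have hT := hC.test_Γ_top hh
  have hfg := hC.test_mul hB hf hg
  have lf := hC.test_lap_mem hf
  have lg := hC.test_lap_mem hg
  have lh := hC.test_lap_mem hh
  have fφ : f * φ ∈ C.A := hC.mul_mem_A fA hφ
  have gφ : g * φ ∈ C.A := hC.mul_mem_A gA hφ
  have aA := hC.Γ_mem hB hg hh
  have bA := hC.Γ_mem hB hf hh
  have cA := hC.Γ_mem hB hf hg
  set a := C.Γ g h with ha
  set b := C.Γ f h with hb
  set c := C.Γ f g with hc
  -- the two integration by parts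
  have p1 : I (C.Γ f (a * φ)) + I (C.lap f * (a * φ)) = 0 := by
    have : I (C.Γ f (a * φ)) = -I (C.lap f * (a * φ)) :=
      (hC.test_isLap hf).2.2 _ (hC.mul_mem_A aA hφ).1
    linarith
  have p2 : I (C.Γ g (b * φ)) + I (C.lap g * (b * φ)) = 0 := by
    have : I (C.Γ g (b * φ)) = -I (C.lap g * (b * φ)) :=
      (hC.test_isLap hg).2.2 _ (hC.mul_mem_A bA hφ).1
    linarith
  have k1 := mem_mul_22 (hC.memLp _ lf) (hC.memLp _ (hC.mul_mem_A aA hφ).1)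
  have k2 := mem_mul_22 (hC.memLp _ lg) (hC.memLp _ (hC.mul_mem_A bA hφ).1)
  have k3 := hC.Γ_mem1 fA.1 (hC.mul_mem_A aA hφ).1
  have k4 := hC.Γ_mem1 gA.1 (hC.mul_mem_A bA hφ).1
  rw [← I_add k3 k1] at p1
  rw [← I_add k4 k2] at p2
  have hK : MemLp (φ * C.KK h f g) 1 m := by
    refine mem_mul_top hφ.2 ?_
    unfold Calc.KK Calc.hess
    refine mem_smul _ (mem_smul _ (mem_sub (mem_add ?_ ?_) ?_))
    · exact hC.Γ_mem1 fA.1 (hC.Γ_mem hB hh hg).1
    · exact hC.Γ_mem1 gA.1 (hC.Γ_mem hB hh hf).1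
    · exact hC.Γ_mem1 hA.1 cA.1
  have q1 := hC.NN_int (κ := κ) hB hfg hh hφ
  have q2 := hC.NN_int (κ := κ) hB hg hh fφ
  have q3 := hC.NN_int (κ := κ) hB hf hh gφ
  rw [hC.NN_eq hB hfg hh hφ, hC.NN_eq hB hg hh fφ, hC.NN_eq hB hf hh gφ,
    ← I_add q2 q3, ← I_add (mem_add q2 q3) hK]
  -- the pointwise identity
  have e1 : C.Γ (f * g) h = f * a + g * b := hC.Γ_mul_left fA gA hA.1
  have e2 : C.Γ (f * a + g * b) φ = (f * C.Γ a φ + a * C.Γ f φ) + (g * C.Γ b φ + b * C.Γ g φ) := by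
    rw [hC.add_left _ (hC.mul_mem_A fA aA).1 _ (hC.mul_mem_A gA bA).1 _ hφ.1,
      hC.Γ_mul_left fA aA hφ.1, hC.Γ_mul_left gA bA hφ.1]
  have e3 : C.Γ (f * g) (C.lap h) = f * C.Γ g (C.lap h) + g * C.Γ f (C.lap h) :=
    hC.Γ_mul_left fA gA lh
  have e4 : C.Γ h (C.lap (f * g)) = (f * C.Γ h (C.lap g) + C.lap g * b)
      + (g * C.Γ h (C.lap f) + C.lap f * a) + (2 : ℝ) • C.Γ h c := by
    have m1 := hC.mul_mem_lip fA fT lg
    have m2 := hC.mul_mem_lip gA gT lf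
    rw [hC.lap_mul hB hf hg, hC.Γ_add_right hA.1 (hC.add_mem _ m1 _ m2) (hC.smul_mem _ _ cA.1),
      hC.Γ_add_right hA.1 m1 m2, hC.Γ_smul_right _ hA.1 cA.1, hC.symm _ hA.1 _ m1,
      hC.symm _ hA.1 _ m2, hC.Γ_mul_left_lip fA fT lg hA.1, hC.Γ_mul_left_lip gA gT lf hA.1,
      hC.symm _ hA.1 _ lg, hC.symm _ hA.1 _ lf]
  have e5 : C.Γ a (f * φ) = f * C.Γ a φ + φ * C.Γ f a := by
    rw [hC.Γ_mul_right fA hφ aA.1, hC.symm _ aA.1 _ fA.1]
  have e6 : C.Γ b (g * φ) = g * C.Γ b φ + φ * C.Γ g b := by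
    rw [hC.Γ_mul_right gA hφ bA.1, hC.symm _ bA.1 _ gA.1]
  have e7 : C.Γ f (a * φ) = a * C.Γ f φ + φ * C.Γ f a := hC.Γ_mul_right aA hφ fA.1
  have e8 : C.Γ g (b * φ) = b * C.Γ g φ + φ * C.Γ g b := hC.Γ_mul_right bA hφ gA.1
  have e9 : C.KK h f g = C.Γ f a + C.Γ g b - C.Γ h c := by
    unfold Calc.KK Calc.hess
    rw [hC.symm _ hA.1 _ gA.1, hC.symm _ hA.1 _ fA.1, ← ha, ← hb, ← hc]
    algebra
  have s1 : MemLp (C.Γ f (a * φ) + C.lap f * (a * φ) : M →ₘ[m] ℝ) 1 m := mem_add k3 k1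
  have s2 : MemLp (C.Γ g (b * φ) + C.lap g * (b * φ) : M →ₘ[m] ℝ) 1 m := mem_add k4 k2
  have hD : (-((2 : ℝ)⁻¹ • C.Γ (C.Γ (f * g) h) φ)
      - (2 : ℝ)⁻¹ • (φ * (C.Γ (f * g) (C.lap h) + C.Γ h (C.lap (f * g))))
      - κ • (φ * C.Γ (f * g) h))
      = ((-((2 : ℝ)⁻¹ • C.Γ (C.Γ g h) (f * φ))
      - (2 : ℝ)⁻¹ • (f * φ * (C.Γ g (C.lap h) + C.Γ h (C.lap g)))
      - κ • (f * φ * C.Γ g h))
      + (-((2 : ℝ)⁻¹ • C.Γ (C.Γ f h) (g * φ))
      - (2 : ℝ)⁻¹ • (g * φ * (C.Γ f (C.lap h) + C.Γ h (C.lap f)))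
      - κ • (g * φ * C.Γ f h))
      + φ * C.KK h f g)
      + (-(2 : ℝ)⁻¹) • (C.Γ f (a * φ) + C.lap f * (a * φ)) 
      + (-(2 : ℝ)⁻¹) • (C.Γ g (b * φ) + C.lap g * (b * φ)) := by
    rw [e1, e2, e3, e4, ← ha, ← hb, e5, e6, e7, e8, e9]
    algebra
  rw [hD, I_add (mem_add (mem_add (mem_add q2 q3) hK) (mem_smul _ s1)) (mem_smul _ s2),
    I_add (mem_add (mem_add q2 q3) hK) (mem_smul _ s1), I_smul, I_smul, p1, p2]
  ring

theorem KK_mem2 (hf : f ∈ C.Test) (hg : g ∈ C.Test) (hh : h ∈ C.Test) :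
    MemLp (C.KK h f g) 2 m := by
  have fA := hC.test_A hf
  have gA := hC.test_A hg
  have hA := hC.test_A hh
  have fT := hC.test_Γ_top hf
  have gT := hC.test_Γ_top hg
  have hT := hC.test_Γ_top hh
  unfold Calc.KK Calc.hess
  refine mem_smul _ (mem_smul _ (mem_sub (mem_add ?_ ?_) ?_))
  · exact hC.Γ_mem2 fA.1 fT (hC.Γ_mem hB hh hg).1
  · exact hC.Γ_mem2 gA.1 gT (hC.Γ_mem hB hh hf).1
  · exact hC.Γ_mem2 hA.1 hT (hC.Γ_mem hB hf hg).1

theorem KK_mul (hf : f ∈ C.Test) (hg : g ∈ C.Test) (hh : h ∈ C.Test) (hk : k ∈ C.Test) :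
    C.KK (h * k) f g = h * C.KK k f g + k * C.KK h f g + (2 : ℝ) • C.MM f g h k := by
  have fA := hC.test_A hf
  have gA := hC.test_A hg
  have hA := hC.test_A hh
  have kA := hC.test_A hk
  have fg := hC.Γ_mem hB hf hg
  have kg := hC.Γ_mem hB hk hg
  have hg' := hC.Γ_mem hB hh hg
  have kf := hC.Γ_mem hB hk hf
  have hf' := hC.Γ_mem hB hh hf
  unfold Calc.KK Calc.hess Calc.MM
  rw [hC.Γ_mul_left hA kA gA.1, hC.Γ_mul_left hA kA fA.1, hC.Γ_mul_left hA kA fg.1,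
    hC.Γ_add_right fA.1 (hC.mul_mem_A hA kg).1 (hC.mul_mem_A kA hg').1,
    hC.Γ_add_right gA.1 (hC.mul_mem_A hA kf).1 (hC.mul_mem_A kA hf').1,
    hC.Γ_mul_right hA kg fA.1, hC.Γ_mul_right kA hg' fA.1,
    hC.Γ_mul_right hA kf gA.1, hC.Γ_mul_right kA hf' gA.1,
    hC.symm _ fA.1 _ hA.1, hC.symm _ fA.1 _ kA.1, hC.symm _ gA.1 _ hA.1, hC.symm _ gA.1 _ kA.1]
  algebra

theorem MM_mem1 (hf : f ∈ C.Test) (hg : g ∈ C.Test) (hh : h ∈ C.Test) (hk : k ∈ C.Test) :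
    MemLp (C.MM f g h k) 1 m := by
  have fA := hC.test_A hf
  have gA := hC.test_A hg
  have hA := hC.test_A hh
  have kA := hC.test_A hk
  unfold Calc.MM
  exact mem_add (mem_mul_top (hC.Γ_mem hB hh hf).2 (hC.Γ_mem1 kA.1 gA.1))
    (mem_mul_top (hC.Γ_mem hB hh hg).2 (hC.Γ_mem1 kA.1 fA.1))

/-! ### from constant to function coefficients (Bernstein polynomials) -/

section fintype
variable {ι : Type*}

theorem NN_zero_left (hh : h ∈ C.Test) (hφ : φ ∈ C.A) : C.NN κ 0 h φ = 0 := by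
  have := hC.NN_smul_left (κ := κ) hB 0 (hC.test_zero hB) hh hφ
  simpa using this

theorem NN_sum_left (s : Finset ι) {F : ι → M →ₘ[m] ℝ} (hF : ∀ i, F i ∈ C.Test) (c : ι → ℝ)
    (hh : h ∈ C.Test) (hφ : φ ∈ C.A) :
    C.NN κ (∑ i ∈ s, c i • F i) h φ = ∑ i ∈ s, c i * C.NN κ (F i) h φ := by
  classical
  induction s using Finset.induction_on with
  | empty => simpa using hC.NN_zero_left hB hh hφ
  | insert i s hi ih =>
    rw [Finset.sum_insert hi, Finset.sum_insert hi,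
      hC.NN_add_left hB (hC.test_smul hB _ (hF i))
        (hC.test_sum hB s (fun i => hC.test_smul hB _ (hF i))) hh hφ,
      ih, hC.NN_smul_left hB _ (hF i) hh hφ]

theorem NN_master' [Fintype ι] [DecidableEq ι] {F : ι → M →ₘ[m] ℝ} (hF : ∀ i, F i ∈ C.Test)
    {a : ι → M →ₘ[m] ℝ} (ha : ∀ i, a i ∈ C.AP) (hφ : φ ∈ C.A) (hφ0 : 0 ≤ φ) :
    0 ≤ ∑ i, ∑ j, C.NN κ (F i) (F j) (φ * (a i * a j)) := by
  refine hC.master_fintype (Q := fun i j φ => C.NN κ (F i) (F j) φ) ?_ ?_ ?_ ha hφ hφ0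
  · intro i j φ hφ ψ hψ
    exact hC.NN_add_φ hB (hF i) (hF j) hφ hψ
  · intro i j c φ hφ
    exact hC.NN_smul_φ hB c (hF i) (hF j) hφ
  · intro c φ hφ hφ0
    have hS := hC.test_sum hB Finset.univ (fun i => hC.test_smul hB (c i) (hF i))
    have h1 := hC.NN_nonneg hB hS hφ hφ0
    rw [hC.NN_sum_left hB _ hF c hS hφ] at h1
    have h2 : ∀ i, C.NN κ (F i) (∑ j, c j • F j) φ = ∑ j, c j * C.NN κ (F i) (F j) φ := by
      intro i
      rw [hC.NN_symm hB (hF i) hS, hC.NN_sum_left hB _ hF c (hF i) hφ]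
      exact Finset.sum_congr rfl fun j _ => by rw [hC.NN_symm hB (hF j) (hF i)]
    simp only [h2, Finset.mul_sum] at h1
    convert h1 using 1
    refine Finset.sum_congr rfl fun i _ => Finset.sum_congr rfl fun j _ => ?_
    ring

end fintype

/-- a block of three terms -/
theorem block (hf : f ∈ C.Test) (hh : h ∈ C.Test) (hg : g ∈ C.Test) {s a : M →ₘ[m] ℝ}
    (hs : s ∈ C.A) (ha : a ∈ C.AP) (hφ : φ ∈ C.A) :
    C.NN κ (f * h) g (φ * (s * a)) + C.NN κ h g (φ * (-(s * f) * a))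
      + C.NN κ f g (φ * (-(s * h) * a)) = I (φ * (s * a) * C.KK g f h) := by
  have hψ : φ * (s * a) ∈ C.A := by
    rw [← mul_assoc]; exact hC.A_mul_AP (hC.mul_mem_A hφ hs) ha
  have h1 := hC.NN_mul (κ := κ) hB hf hh hg hψ
  have e1 : φ * (-(s * f) * a) = (-1 : ℝ) • (f * (φ * (s * a))) := by algebra
  have e2 : φ * (-(s * h) * a) = (-1 : ℝ) • (h * (φ * (s * a))) := by algebra
  rw [e1, e2, hC.NN_smul_φ hB _ hh hg (hC.mul_mem_A (hC.test_A hf) hψ),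
    hC.NN_smul_φ hB _ hf hg (hC.mul_mem_A (hC.test_A hh) hψ), h1]
  ring

/-- the key inequality, for tensors `∑ s_r (∇f_r ⊗ ∇h_r + ∇h_r ⊗ ∇f_r)` -/
theorem tensor_ineq {n : ℕ} {b : M →ₘ[m] ℝ} (hb : b ∈ C.Test) {F H s : Fin n → M →ₘ[m] ℝ}
    (hF : ∀ i, F i ∈ C.Test) (hH : ∀ i, H i ∈ C.Test) (hs : ∀ i, s i ∈ C.A)
    (hφ : φ ∈ C.A) (hφ0 : 0 ≤ φ) :
    0 ≤ C.NN κ b b φ + 2 * ∑ i, I (φ * (s i * C.KK b (F i) (H i)))
      + 2 * ∑ i, ∑ j, I (φ * (s i * s j * C.MM (F i) (H i) (F j) (H j))) := by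
  set G : Option (Fin n × Fin 3) → M →ₘ[m] ℝ :=
    fun o => o.elim b (fun p => (![F p.1 * H p.1, H p.1, F p.1] : Fin 3 → M →ₘ[m] ℝ) p.2) with hG
  set a : Option (Fin n × Fin 3) → M →ₘ[m] ℝ :=
    fun o => o.elim 1 (fun p => (![s p.1, -(s p.1 * F p.1), -(s p.1 * H p.1)] :
      Fin 3 → M →ₘ[m] ℝ) p.2) with ha
  have hGT : ∀ o, G o ∈ C.Test := by
    rintro (_ | ⟨i, t⟩)
    · exact hb
    · fin_cases t
      · exact hC.test_mul hB (hF i) (hH i)
      · exact hH i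
      · exact hF i
  have haA : ∀ o, a o ∈ C.AP := by
    rintro (_ | ⟨i, t⟩)
    · have := hC.AP_const 1
      simpa [ha] using this
    · fin_cases t
      · exact hC.AP_of_A (hs i)
      · have := hC.A_smul (-1) (hC.mul_mem_A (hs i) (hC.test_A (hF i)))
        exact hC.AP_of_A (by simpa [ha] using this)
      · have := hC.A_smul (-1) (hC.mul_mem_A (hs i) (hC.test_A (hH i)))
        exact hC.AP_of_A (by simpa [ha] using this)
  have key := hC.NN_master' (κ := κ) hB hGT haA hφ hφ0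
  -- sum over a block against a fixed partner
  have hblock : ∀ (i : Fin n) (o : Option (Fin n × Fin 3)),
      ∑ t : Fin 3, C.NN κ (G (some (i, t))) (G o) (φ * (a (some (i, t)) * a o))
        = I (φ * (s i * a o) * C.KK (G o) (F i) (H i)) := by
    intro i o
    rw [Fin.sum_univ_three]
    exact hC.block hB (hF i) (hH i) (hGT o) (hs i) (haA o) hφ
  have hsum : ∑ o, ∑ o', C.NN κ (G o) (G o') (φ * (a o * a o'))
      = C.NN κ b b φ + 2 * ∑ i, I (φ * (s i * C.KK b (F i) (H i)))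
      + 2 * ∑ i, ∑ j, I (φ * (s i * s j * C.MM (F i) (H i) (F j) (H j))) := by
    have n0 : C.NN κ (G none) (G none) (φ * (a none * a none)) = C.NN κ b b φ := by
      simp [hG, ha]
    have n1 : ∑ p : Fin n × Fin 3, C.NN κ (G (some p)) (G none) (φ * (a (some p) * a none))
        = ∑ i, I (φ * (s i * C.KK b (F i) (H i))) := by
      rw [Fintype.sum_prod_type]
      refine Finset.sum_congr rfl fun i _ => ?_
      rw [hblock i none]
      congr 1
      simp only [hG, ha, Option.elim_none]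
      ring
    have n2 : ∑ p : Fin n × Fin 3, C.NN κ (G none) (G (some p)) (φ * (a none * a (some p)))
        = ∑ i, I (φ * (s i * C.KK b (F i) (H i))) := by
      rw [← n1]
      refine Finset.sum_congr rfl fun p _ => ?_
      rw [hC.NN_symm hB (hGT _) (hGT _), mul_comm (a none)]
    have n3 : ∑ p : Fin n × Fin 3, ∑ q : Fin n × Fin 3,
        C.NN κ (G (some p)) (G (some q)) (φ * (a (some p) * a (some q)))
        = 2 * ∑ i, ∑ j, I (φ * (s i * s j * C.MM (F i) (H i) (F j) (H j))) := by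
      have : ∀ (t : Fin 3) (j : Fin n), ∑ p : Fin n × Fin 3,
          C.NN κ (G (some p)) (G (some (j, t))) (φ * (a (some p) * a (some (j, t))))
          = ∑ i, I (φ * (s i * a (some (j, t))) * C.KK (G (some (j, t))) (F i) (H i)) := by
        intro t j
        rw [Fintype.sum_prod_type]
        exact Finset.sum_congr rfl fun i _ => hblock i _
      have h2 : ∀ j i : Fin n, ∑ t : Fin 3,
          I (φ * (s i * a (some (j, t))) * C.KK (G (some (j, t))) (F i) (H i))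
          = 2 * I (φ * (s i * s j * C.MM (F i) (H i) (F j) (H j))) := by
        intro j i
        rw [Fin.sum_univ_three]
        have k0 := mem_mul_22 (hC.memLp _ (hC.mul_mem_A hφ (hC.mul_mem_A (hs i) (hs j))).1)
          (hC.KK_mem2 hB (hF i) (hH i) (hC.test_mul hB (hF j) (hH j)))
        have k1 := mem_mul_22 (hC.memLp _ (hC.mul_mem_A hφ (hC.mul_mem_A (hs i)
          (hC.mul_mem_A (hs j) (hC.test_A (hF j))))).1)
          (hC.KK_mem2 hB (hF i) (hH i) (hH j))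
        have k2 := mem_mul_22 (hC.memLp _ (hC.mul_mem_A hφ (hC.mul_mem_A (hs i)
          (hC.mul_mem_A (hs j) (hC.test_A (hH j))))).1)
          (hC.KK_mem2 hB (hF i) (hH i) (hF j))
        have e0 : φ * (s i * a (some (j, 0))) * C.KK (G (some (j, 0))) (F i) (H i)
            = φ * (s i * s j) * C.KK (F j * H j) (F i) (H i) := by
          simp [hG, ha]
        have e1 : φ * (s i * a (some (j, 1))) * C.KK (G (some (j, 1))) (F i) (H i)
            = -(φ * (s i * (s j * F j)) * C.KK (H j) (F i) (H i)) := by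
          simp [hG, ha]
        have e2 : φ * (s i * a (some (j, 2))) * C.KK (G (some (j, 2))) (F i) (H i)
            = -(φ * (s i * (s j * H j)) * C.KK (F j) (F i) (H i)) := by
          simp [hG, ha]
        rw [e0, e1, e2, ← I_add k0 (mem_neg k1), ← I_add (mem_add k0 (mem_neg k1)) (mem_neg k2),
          ← I_smul]
        congr 1
        rw [hC.KK_mul hB (hF i) (hH i) (hF j) (hH j)]
        algebra
      have h3 : ∀ j : Fin n, ∑ t : Fin 3, ∑ i : Fin n,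
          I (φ * (s i * a (some (j, t))) * C.KK (G (some (j, t))) (F i) (H i))
          = ∑ i, 2 * I (φ * (s i * s j * C.MM (F i) (H i) (F j) (H j))) := by
        intro j
        rw [Finset.sum_comm]
        exact Finset.sum_congr rfl fun i _ => h2 j i
      rw [Finset.sum_comm, Fintype.sum_prod_type]
      simp only [this, h3, ← Finset.mul_sum]
      rw [Finset.sum_comm]
    rw [Fintype.sum_option, Fintype.sum_option, n0, n2]
    simp only [Fintype.sum_option, Finset.sum_add_distrib, n1, n3]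
    ring
  rw [hsum] at key
  exact key

/-- the same with bounded measurable coefficients -/
theorem tensor_ineq' [SigmaFinite m] {n : ℕ} {b : M →ₘ[m] ℝ} (hb : b ∈ C.Test)
    {F H s : Fin n → M →ₘ[m] ℝ}
    (hF : ∀ i, F i ∈ C.Test) (hH : ∀ i, H i ∈ C.Test) (hs : ∀ i, MemLp (s i) ∞ m)
    (hs2 : ∀ i, MemLp (s i) 2 m) (hφ : φ ∈ C.A) (hφ0 : 0 ≤ φ) :
    0 ≤ C.NN κ b b φ + 2 * ∑ i, I (φ * (s i * C.KK b (F i) (H i)))
      + 2 * ∑ i, ∑ j, I (φ * (s i * s j * C.MM (F i) (H i) (F j) (H j))) := by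
  choose K hK using fun i => mem_top_iff.1 (hs i)
  choose u hu1 hu2 hu3 _ using fun i => hC.test_dense_bdd hB (hs2 i) (hK i)
  have key : ∀ k : ℕ, 0 ≤ C.NN κ b b φ + 2 * ∑ i, I (u i k * (φ * C.KK b (F i) (H i)))
      + 2 * ∑ i, ∑ j, I (u i k * u j k * (φ * C.MM (F i) (H i) (F j) (H j))) := by
    intro k
    have h1 := hC.tensor_ineq (κ := κ) hB hb hF hH (fun i => hC.test_A (hu1 i k)) hφ hφ0
    have e1 : ∀ i, φ * (u i k * C.KK b (F i) (H i)) = u i k * (φ * C.KK b (F i) (H i)) := by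
      intro i; ring
    have e2 : ∀ i j, φ * (u i k * u j k * C.MM (F i) (H i) (F j) (H j))
        = u i k * u j k * (φ * C.MM (F i) (H i) (F j) (H j)) := by
      intro i j; ring
    simp only [e1, e2] at h1
    exact h1
  have l1 : ∀ i, Tendsto (fun k => I (u i k * (φ * C.KK b (F i) (H i)))) atTop
      (𝓝 (I (s i * (φ * C.KK b (F i) (H i))))) := fun i =>
    I_tendsto_of_bdd (hu2 i) (hu3 i)
      (mem_mul_22 (hC.memLp _ hφ.1) (hC.KK_mem2 hB (hF i) (hH i) hb))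
  have l2 : ∀ i j, Tendsto (fun k => I (u i k * u j k * (φ * C.MM (F i) (H i) (F j) (H j)))) atTop
      (𝓝 (I (s i * s j * (φ * C.MM (F i) (H i) (F j) (H j))))) := by
    intro i j
    refine I_tendsto_of_bdd (K := K i * K j) ?_ ?_
      (mem_mul_top hφ.2 (hC.MM_mem1 hB (hF i) (hH i) (hF j) (hH j)))
    · intro k
      filter_upwards [hu2 i k, hu2 j k, mul_ae (u i k) (u j k)] with x h1 h2 h3
      rw [h3, abs_mul]
      exact mul_le_mul h1 h2 (abs_nonneg _) ((abs_nonneg _).trans h1)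
    · have hm : ∀ᵐ x ∂m, ∀ k, (u i k * u j k) x = u i k x * u j k x := by
        rw [ae_all_iff]; intro k; exact mul_ae _ _
      filter_upwards [hm, mul_ae (s i) (s j), hu3 i, hu3 j] with x h1 h2 h3 h4
      rw [h2]
      simp only [h1]
      exact h3.mul h4
  have hlim := ((tendsto_const_nhds (x := C.NN κ b b φ)).add
    ((tendsto_finset_sum Finset.univ fun i _ => l1 i).const_mul 2)).add
    ((tendsto_finset_sum Finset.univ fun i _ => tendsto_finset_sum Finset.univ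
      fun j _ => l2 i j).const_mul 2)
  have h0 := ge_of_tendsto hlim (Eventually.of_forall key)
  have e1 : ∀ i, φ * (s i * C.KK b (F i) (H i)) = s i * (φ * C.KK b (F i) (H i)) := by
    intro i; ring
  have e2 : ∀ i j, φ * (s i * s j * C.MM (F i) (H i) (F j) (H j))
      = s i * s j * (φ * C.MM (F i) (H i) (F j) (H j)) := by
    intro i j; ring
  simp only [e1, e2]
  exact h0

end IsGamma

end Vale.Agent.P233
end

section

set_option linter.all false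

open MeasureTheory Filter Topology
open scoped ENNReal NNReal

namespace Vale.Agent.P233

variable {M : Type*} [MeasurableSpace M] {m : Measure M} {C : Calc m}

namespace IsGamma

variable (hC : IsGamma C) {κ : ℝ} (hB : C.BEi κ)
variable {b f g h φ ψ v w χ : M →ₘ[m] ℝ}

include hC hB

/-- gradient bound for the resolvent -/
theorem J_grad_le [SigmaFinite m] {lam L : ℝ} (hl : 0 < lam) (hl2 : 0 < 1 + 2 * lam * κ)
    (hf : f ∈ C.A) (hL0 : 0 ≤ L) (hL : ∀ᵐ x ∂m, |C.Γ f f x| ≤ L) :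
    ∀ᵐ x ∂m, C.Γ (C.J lam f) (C.J lam f) x ≤ L / (1 + 2 * lam * κ) := by
  have hD := hC.toIsDir
  have hf2 := hC.memLp f hf.1
  have hLap := hD.J_isLap hl hf2
  set u := C.J lam f with hu
  set h := lam⁻¹ • (u - f) with hh
  have huW : u ∈ C.W := hLap.1
  have hhW : h ∈ C.W := hD.smul_mem _ _ (hD.sub_mem huW hf.1)
  set μ : ℝ := lam⁻¹ + 2 * κ with hμ
  have hμe : 1 + 2 * lam * κ = lam * μ := by rw [hμ]; field_simp
  have hμ0 : 0 < μ := by
    have : μ = (1 + 2 * lam * κ) / lam := by rw [hμ]; field_simp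
    rw [this]; positivity
  have hμl : 0 < lam * μ := mul_pos hl hμ0
  rw [hμe]
  refine le_const_of_forall (hC.mem1 u huW) (by positivity) fun ψ₀ h0 h2 h1 ht => ?_
  -- the test function
  have hμi : 0 < μ⁻¹ := inv_pos.2 hμ0
  have hwLap := hD.J_isLap hμi h2
  have hw0 := hD.J_nonneg hμi h2 h0
  obtain ⟨B, hB0⟩ := mem_top_iff.1 ht
  have hwb := hD.J_bdd hμi h2 hB0
  have hw1 := hD.J_L1 hμi h2 h1 h0
  set w := C.J μ⁻¹ ψ₀ with hw
  rw [inv_inv] at hwLap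
  have hwt : MemLp w ∞ m := mem_top_iff.2 ⟨B, hwb⟩
  have hφLap := hD.isLap_smul μ⁻¹ hwLap
  have e1 : μ⁻¹ • μ • (w - ψ₀) = w - ψ₀ := by
    rw [smul_smul, inv_mul_cancel₀ hμ0.ne', one_smul]
  rw [e1] at hφLap
  have hbe := be hB hLap hhW hφLap (smul_nonneg' hμi.le hw0) (mem_smul _ hwt) (mem_sub hwt ht)
  -- lower bound of the left hand side
  have hΓuu := hC.mem1 u huW
  have hΓff := hC.mem1 f hf.1
  have hlow : I (μ⁻¹ • w * ((μ / 2) • C.Γ u u - (lam⁻¹ / 2) • C.Γ f f)) ≤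
      I (μ⁻¹ • w * (C.Γ u h + κ • C.Γ u u)) := by
    refine I_mono (mem_mul_top (mem_smul _ hwt) (mem_sub (mem_smul _ hΓuu) (mem_smul _ hΓff)))
      (mem_mul_top (mem_smul _ hwt) (hC.bracket_mem κ huW hhW)) ?_
    refine mul_le_mul_of_nonneg_left ?_ (smul_nonneg' hμi.le hw0)
    have e2 : C.Γ u h = lam⁻¹ • (C.Γ u u - C.Γ u f) := by
      rw [hh, hD.Γ_smul_right _ huW (hD.sub_mem huW hf.1), hD.Γ_sub_right huW huW hf.1]
    rw [le_iff_ae, e2]
    have hnn := hC.nonneg _ (hD.sub_mem huW hf.1)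
    rw [hD.Γ_sub_left huW hf.1 (hD.sub_mem huW hf.1), hD.Γ_sub_right huW huW hf.1,
      hD.Γ_sub_right hf.1 huW hf.1, hD.symm f hf.1 u huW, nonneg_iff_ae] at hnn
    filter_upwards [hnn, sub_ae (C.Γ u u - C.Γ u f) (C.Γ u f - C.Γ f f),
      sub_ae (C.Γ u u) (C.Γ u f), sub_ae (C.Γ u f) (C.Γ f f),
      sub_ae ((μ / 2) • C.Γ u u) ((lam⁻¹ / 2) • C.Γ f f), smul_ae (C.Γ u u) (μ / 2),
      smul_ae (C.Γ f f) (lam⁻¹ / 2),
      add_ae (lam⁻¹ • (C.Γ u u - C.Γ u f)) (κ • C.Γ u u),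
      smul_ae (C.Γ u u - C.Γ u f) lam⁻¹, smul_ae (C.Γ u u) κ]
        with x a1 a2 a3 a4 a5 a6 a7 a9 a10 a11
    rw [a2, a3, a4] at a1
    rw [a5, a6, a7, a9, a10, a11, a3]
    have hli : 0 < lam⁻¹ := inv_pos.2 hl
    rw [hμ]
    linarith only [mul_nonneg hli.le a1]
  have hlow2 : I (μ⁻¹ • w * ((μ / 2) • C.Γ u u - (lam⁻¹ / 2) • C.Γ f f)) =
      (2 : ℝ)⁻¹ * I (w * C.Γ u u) - (μ⁻¹ * (lam⁻¹ / 2)) * I (w * C.Γ f f) := by
    have e3 : μ⁻¹ • w * ((μ / 2) • C.Γ u u - (lam⁻¹ / 2) • C.Γ f f) =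
        (2 : ℝ)⁻¹ • (w * C.Γ u u) - (μ⁻¹ * (lam⁻¹ / 2)) • (w * C.Γ f f) := by
      rw [mul_sub, smul_mul_smul_comm, smul_mul_smul_comm]
      congr 2
      field_simp
    rw [e3, I_sub (mem_smul _ (mem_mul_top hwt hΓuu)) (mem_smul _ (mem_mul_top hwt hΓff)),
      I_smul, I_smul]
  have hR : I (C.Γ u u * (w - ψ₀)) = I (w * C.Γ u u) - I (C.Γ u u * ψ₀) := by
    rw [mul_sub, mul_comm (C.Γ u u) w, I_sub (mem_mul_top hwt hΓuu) (mem_top_mul hΓuu ht)]
  have h3 : I (w * C.Γ f f) ≤ L * I ψ₀ := by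
    calc I (w * C.Γ f f) ≤ I (L • w) := by
          refine I_mono (mem_mul_top hwt hΓff) (mem_smul _ hw1.1) ?_
          rw [le_iff_ae]
          filter_upwards [mul_ae w (C.Γ f f), smul_ae w L, nonneg_iff_ae.1 hw0, hL]
            with x a1 a2 a3 a4
          rw [a1, a2, mul_comm L]
          exact mul_le_mul_of_nonneg_left ((le_abs_self _).trans a4) a3
      _ = L * I w := I_smul _
      _ ≤ L * I ψ₀ := mul_le_mul_of_nonneg_left hw1.2 hL0
  have h4 : (2 : ℝ)⁻¹ * I (C.Γ u u * ψ₀) ≤ (μ⁻¹ * (lam⁻¹ / 2)) * I (w * C.Γ f f) := by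
    rw [hlow2] at hlow
    rw [hR] at hbe
    linarith only [hlow, hbe]
  have h5 : (μ⁻¹ * (lam⁻¹ / 2)) * I (w * C.Γ f f) ≤ (μ⁻¹ * (lam⁻¹ / 2)) * (L * I ψ₀) :=
    mul_le_mul_of_nonneg_left h3 (by (clear * - hμ0 hl; positivity))
  have h6 : L / (lam * μ) * I ψ₀ = 2 * ((μ⁻¹ * (lam⁻¹ / 2)) * (L * I ψ₀)) := by
    field_simp
  rw [h6]
  linarith only [h5, h4]

/-- Cut-off functions that are test functions with uniformly bounded Laplacian tending to `0`. -/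
theorem exists_cut [SigmaFinite m] : ∃ (χ : ℕ → M →ₘ[m] ℝ) (Λ : ℝ), (∀ k, χ k ∈ C.Test) ∧
    (∀ k, 0 ≤ χ k) ∧ (∀ k, ∀ᵐ x ∂m, |χ k x| ≤ 1) ∧
    (∀ᵐ x ∂m, Tendsto (fun k => χ k x) atTop (𝓝 1)) ∧
    (∀ k, ∀ᵐ x ∂m, |C.lap (χ k) x| ≤ Λ) ∧
    (∀ᵐ x ∂m, Tendsto (fun k => C.lap (χ k) x) atTop (𝓝 0)) ∧
    (∀ k, ∀ᵐ x ∂m, |C.Γ (χ k) (χ k) x| ≤ Λ * ((k : ℝ) + 1)⁻¹) := by
  have hD := hC.toIsDir
  obtain ⟨η, h1, hmono, h3⟩ := hC.cutoff
  obtain ⟨N, hN⟩ := exists_small κ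
  set lam : ℝ := ((N : ℝ) + 1)⁻¹ with hlam
  have hl : 0 < lam := by positivity
  have hl2 : 0 < 1 + 2 * lam * κ := hN N le_rfl
  have hη1 : ∀ k, ∀ᵐ x ∂m, |η k x| ≤ 1 := by
    intro k
    filter_upwards [nonneg_iff_ae.1 (h1 k).2.1, le_iff_ae.1 (h1 k).2.2.1,
      one_ae (M := M) (m := m)] with x b1 b2 b3
    rw [abs_of_nonneg b1]
    rwa [b3] at b2
  have hηA : ∀ k, η k ∈ C.A := fun k => ⟨(h1 k).1, mem_top_iff.2 ⟨1, hη1 k⟩⟩
  have hη2 : ∀ k, MemLp (η k) 2 m := fun k => hC.memLp _ (h1 k).1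
  have hηΓ : ∀ k : ℕ, ∀ᵐ x ∂m, |C.Γ (η k) (η k) x| ≤ ((k : ℝ) + 1)⁻¹ := by
    intro k
    filter_upwards [le_iff_ae.1 (h1 k).2.2.2, smul_ae (1 : M →ₘ[m] ℝ) ((k : ℝ) + 1)⁻¹,
      one_ae (M := M) (m := m), hD.Γ_nonneg_ae (h1 k).1] with x b1 b2 b3 b4
    rw [b2, b3, mul_one] at b1
    rw [abs_of_nonneg b4]
    exact b1
  have hηT : ∀ k, MemLp (C.Γ (η k) (η k)) ∞ m := fun k => mem_top_iff.2 ⟨_, hηΓ k⟩
  set χ : ℕ → M →ₘ[m] ℝ := fun k => C.J lam (η k) with hχ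
  have hT : ∀ k, χ k ∈ C.Test := fun k => hC.J_test hB hl hl2 (hηA k) (hηT k)
  have h0 : ∀ k, 0 ≤ χ k := fun k => hD.J_nonneg hl (hη2 k) (h1 k).2.1
  have hb : ∀ k, ∀ᵐ x ∂m, |χ k x| ≤ 1 := fun k => hD.J_bdd hl (hη2 k) (hη1 k)
  have hlap : ∀ k, C.lap (χ k) = lam⁻¹ • (χ k - η k) := fun k =>
    hD.lap_eq (hD.J_isLap hl (hη2 k))
  have hχΓ : ∀ k : ℕ, ∀ᵐ x ∂m, C.Γ (χ k) (χ k) x ≤ ((k : ℝ) + 1)⁻¹ / (1 + 2 * lam * κ) :=
    fun k => hC.J_grad_le hB hl hl2 (hηA k) (by positivity) (hηΓ k)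
  -- monotonicity
  have hm : ∀ k, χ k ≤ χ (k + 1) := by
    intro k
    have := hD.J_nonneg hl (mem_sub (hη2 (k + 1)) (hη2 k)) (sub_nonneg.2 (hmono k))
    rw [hD.J_sub hl (hη2 (k + 1)) (hη2 k)] at this
    exact sub_nonneg.1 this
  have hmae : ∀ᵐ x ∂m, Monotone fun k => χ k x := by
    have : ∀ᵐ x ∂m, ∀ k, χ k x ≤ χ (k + 1) x := by
      rw [ae_all_iff]; exact fun k => le_iff_ae.1 (hm k)
    filter_upwards [this] with x hx
    exact monotone_nat_of_le_succ hx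
  -- mass conservation
  have hlim : ∀ j, Tendsto (fun k => I ((χ k * η j - η j) ^ 2)) atTop (𝓝 0) := by
    intro j
    have hjA := hηA j
    have hj2 : MemLp (η j) 2 m := hη2 j
    have hsq := hD.sq_mem hjA
    -- first part
    have a1 : Tendsto (fun k => I ((η k) * (η j ^ 2))) atTop (𝓝 (I ((1 : M →ₘ[m] ℝ) * η j ^ 2))) := by
      refine I_tendsto_of_bdd (K := 1) hη1 ?_ (mem_sq hj2)
      filter_upwards [h3, one_ae (M := M) (m := m)] with x b1 b2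
      rw [b2]; exact b1
    -- second part
    have a2 : Tendsto (fun k => lam * I (C.Γ (χ k) (η j ^ 2))) atTop (𝓝 0) := by
      have c1 : Tendsto (fun k : ℕ => lam * (2 * (Real.sqrt (I (η j ^ 2)) *
          Real.sqrt (((k : ℝ) + 1)⁻¹ / (1 + 2 * lam * κ) * I (C.Γ (η j) (η j)))))) atTop (𝓝 0) := by
        have c2 : Tendsto (fun k : ℕ => ((k : ℝ) + 1)⁻¹ / (1 + 2 * lam * κ)
            * I (C.Γ (η j) (η j))) atTop (𝓝 0) := by
          have := (tendsto_inv_succ.div_const (1 + 2 * lam * κ)).mul_const (I (C.Γ (η j) (η j)))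
          simpa using this
        have := (((Real.continuous_sqrt.tendsto 0).comp c2).const_mul
          (Real.sqrt (I (η j ^ 2)))).const_mul 2
        simpa using this.const_mul lam
      refine squeeze_zero_norm (fun k => ?_) c1
      rw [Real.norm_eq_abs, abs_mul, abs_of_pos hl]
      refine mul_le_mul_of_nonneg_left ?_ hl.le
      have kW := (hC.test_A (hT k)).1
      have e1 : C.Γ (χ k) (η j ^ 2) = (2 : ℝ) • (η j * C.Γ (χ k) (η j)) := by
        rw [hC.symm _ kW _ hsq.1, hsq.2 _ kW, hC.symm _ hjA.1 _ kW]; algebra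
      have g2 := hD.Γ_mem2 kW (hC.test_Γ_top (hT k)) hjA.1
      rw [e1, I_smul, abs_mul, abs_two]
      refine mul_le_mul_of_nonneg_left ?_ zero_le_two
      refine (I_abs_le hj2 g2).trans ?_
      refine mul_le_mul_of_nonneg_left (Real.sqrt_le_sqrt ?_) (Real.sqrt_nonneg _)
      rw [← I_smul]
      refine I_mono (mem_sq g2) (mem_smul _ (hC.mem1 _ hjA.1)) ?_
      rw [le_iff_ae]
      filter_upwards [hD.Γ_cs_ae kW hjA.1, hD.Γ_nonneg_ae hjA.1, hχΓ k,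
        sq_ae (C.Γ (χ k) (η j)), smul_ae (C.Γ (η j) (η j)) (((k : ℝ) + 1)⁻¹ / (1 + 2 * lam * κ))]
        with x b1 b2 b3 b4 b5
      rw [b4, b5]
      exact b1.trans (mul_le_mul_of_nonneg_right b3 b2)
    have a3 : ∀ k, I (η j ^ 2) - I (χ k * η j ^ 2)
        = lam * I (C.Γ (χ k) (η j ^ 2)) + (I ((1 : M →ₘ[m] ℝ) * η j ^ 2) - I (η k * η j ^ 2)) := by
      intro k
      have := (hD.J_spec hl (hη2 k)).2 _ hsq.1
      rw [one_mul]
      change I (χ k * η j ^ 2) + lam * I (C.Γ (χ k) (η j ^ 2)) = I (η k * η j ^ 2) at this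
      linarith
    have a4 : Tendsto (fun k => I (η j ^ 2) - I (χ k * η j ^ 2)) atTop (𝓝 0) := by
      simp only [a3]
      have := a2.add ((tendsto_const_nhds (x := I ((1 : M →ₘ[m] ℝ) * η j ^ 2))).sub a1)
      simpa using this
    refine squeeze_zero (fun k => I_sq_nonneg _) (fun k => ?_) a4
    have n1 := mem_mul_top (hC.test_A (hT k)).2 (mem_sq hj2)
    rw [← I_sub (mem_sq hj2) n1]
    refine I_mono (mem_sq (mem_sub (mem_mul_top (hC.test_A (hT k)).2 hj2) hj2))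
      (mem_sub (mem_sq hj2) n1) ?_
    rw [le_iff_ae]
    filter_upwards [sq_ae (χ k * η j - η j), sub_ae (χ k * η j) (η j), mul_ae (χ k) (η j),
      sub_ae (η j ^ 2) (χ k * η j ^ 2), sq_ae (η j), mul_ae (χ k) (η j ^ 2),
      nonneg_iff_ae.1 (h0 k), hb k] with x b1 b2 b3 b4 b5 b6 b7 b8
    rw [b1, b2, b3, b4, b6, b5]
    rw [abs_of_nonneg b7] at b8
    have : (χ k x * η j x - η j x) ^ 2 = (1 - χ k x) ^ 2 * η j x ^ 2 := by ring
    rw [this]
    have h4 : η j x ^ 2 - χ k x * η j x ^ 2 = (1 - χ k x) * η j x ^ 2 := by ring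
    rw [h4]
    refine mul_le_mul_of_nonneg_right ?_ (sq_nonneg _)
    linarith only [mul_nonneg (sub_nonneg.2 b7) (sub_nonneg.2 b8)]
  have hconv : ∀ᵐ x ∂m, Tendsto (fun k => χ k x) atTop (𝓝 1) := by
    choose ns hns1 hns2 using fun j => exists_subseq_of_I_sq
      (u := fun k => χ k * η j) (f := η j)
      (fun k => mem_mul_top (hC.test_A (hT k)).2 (hη2 j)) (hη2 j) (hlim j)
    have hall := ae_all_iff.2 hns2
    have hmul : ∀ᵐ x ∂m, ∀ j k, (χ k * η j) x = χ k x * η j x := by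
      rw [ae_all_iff]; intro j
      rw [ae_all_iff]; intro k
      exact mul_ae _ _
    filter_upwards [hall, hmul, h3, hmae] with x b1 b2 b3 b4
    obtain ⟨j, hj⟩ := (b3.eventually (lt_mem_nhds (show (0 : ℝ) < 1 by norm_num))).exists
    have b5 := b1 j
    simp only [b2] at b5
    have b6 : Tendsto (fun k => χ (ns j k) x) atTop (𝓝 1) := by
      have := b5.div_const (η j x)
      rw [div_self hj.ne'] at this
      refine this.congr fun k => ?_
      field_simp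
    exact (tendsto_iff_tendsto_subseq_of_monotone b4 (hns1 j).tendsto_atTop).2 b6
  refine ⟨χ, max (2 * lam⁻¹) (1 / (1 + 2 * lam * κ)), hT, h0, hb, hconv, ?_, ?_, ?_⟩
  · intro k
    rw [hlap k]
    filter_upwards [smul_ae (χ k - η k) lam⁻¹, sub_ae (χ k) (η k), hb k, hη1 k] with x b1 b2 b3 b4
    rw [b1, b2, abs_mul, abs_of_pos (inv_pos.2 hl)]
    have : |χ k x - η k x| ≤ 2 := (abs_sub _ _).trans (by linarith)
    have h5 : lam⁻¹ * |χ k x - η k x| ≤ lam⁻¹ * 2 := mul_le_mul_of_nonneg_left this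
      (inv_pos.2 hl).le
    refine h5.trans (le_trans (le_of_eq (mul_comm _ _)) (le_max_left _ _))
  · have hall : ∀ᵐ x ∂m, ∀ k, C.lap (χ k) x = lam⁻¹ * (χ k x - η k x) := by
      rw [ae_all_iff]
      intro k
      rw [hlap k]
      filter_upwards [smul_ae (χ k - η k) lam⁻¹, sub_ae (χ k) (η k)] with x b1 b2
      rw [b1, b2]
    filter_upwards [hall, hconv, h3] with x b1 b2 b3
    simp only [b1]
    have := (b2.sub b3).const_mul lam⁻¹
    simpa using this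
  · intro k
    filter_upwards [hχΓ k, hD.Γ_nonneg_ae (hC.test_A (hT k)).1] with x b1 b2
    rw [abs_of_nonneg b2]
    refine b1.trans ?_
    rw [div_eq_mul_one_div, mul_comm]
    exact mul_le_mul_of_nonneg_right (le_max_right _ _) (by positivity)

theorem Γ_lap_I (hb : b ∈ C.Test) : I (C.Γ b (C.lap b)) = -I (C.lap b ^ 2) := by
  have := (hC.test_isLap hb).2.2 _ (hC.test_lap_mem hb)
  rw [sq]
  exact this

theorem NN_tendsto {χ : ℕ → M →ₘ[m] ℝ} {Λ : ℝ} (hT : ∀ k, χ k ∈ C.Test)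
    (hb1 : ∀ k, ∀ᵐ x ∂m, |χ k x| ≤ 1)
    (hconv : ∀ᵐ x ∂m, Tendsto (fun k => χ k x) atTop (𝓝 1))
    (hlb : ∀ k, ∀ᵐ x ∂m, |C.lap (χ k) x| ≤ Λ)
    (hl0 : ∀ᵐ x ∂m, Tendsto (fun k => C.lap (χ k) x) atTop (𝓝 0)) (hb : b ∈ C.Test) :
    Tendsto (fun k => C.NN κ b b (χ k)) atTop (𝓝 (I (C.lap b ^ 2) - κ * I (C.Γ b b))) := by
  have bA := hC.test_A hb
  have hconv' : ∀ᵐ x ∂m, Tendsto (fun k => χ k x) atTop (𝓝 ((1 : M →ₘ[m] ℝ) x)) := by
    filter_upwards [hconv, one_ae (M := M) (m := m)] with x b1 b2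
    rw [b2]; exact b1
  have hl0' : ∀ᵐ x ∂m, Tendsto (fun k => C.lap (χ k) x) atTop (𝓝 ((0 : M →ₘ[m] ℝ) x)) := by
    filter_upwards [hl0, zero_ae (M := M) (m := m)] with x b1 b2
    rw [b2]; exact b1
  have t1 := I_tendsto_of_bdd hlb hl0' (hC.mem1 _ bA.1)
  have t2 := I_tendsto_of_bdd hb1 hconv'
    (mem_add (hC.Γ_mem1 bA.1 (hC.test_lap_mem hb)) (hC.Γ_mem1 bA.1 (hC.test_lap_mem hb)))
  have t3 := I_tendsto_of_bdd hb1 hconv' (hC.mem1 _ bA.1)
  rw [zero_mul, I_zero] at t1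
  rw [one_mul] at t2 t3
  have e1 : ∀ k, I (C.Γ (C.Γ b b) (χ k)) = - I (C.lap (χ k) * C.Γ b b) := by
    intro k
    have := (hC.test_isLap (hT k)).2.2 _ (hC.Γ_mem hB hb hb).1
    rw [hC.symm _ (hC.Γ_mem hB hb hb).1 _ (hC.test_A (hT k)).1]
    exact this
  have e2 : I (C.Γ b (C.lap b) + C.Γ b (C.lap b)) = -(2 * I (C.lap b ^ 2)) := by
    rw [I_add (hC.Γ_mem1 bA.1 (hC.test_lap_mem hb)) (hC.Γ_mem1 bA.1 (hC.test_lap_mem hb)),
      hC.Γ_lap_I hB hb]
    ring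
  rw [e2] at t2
  unfold Calc.NN
  simp only [e1]
  have := ((t1.neg.const_mul 2⁻¹).neg.sub (t2.const_mul 2⁻¹)).sub (t3.const_mul κ)
  convert this using 2
  ring

/-- `∫ |Hess b|² ≤ ∫ (Δb)² - κ ∫ Γ(b)` in the weak form of tensors, with `φ = 1`. -/
theorem tensor_ineq_one [SigmaFinite m] {n : ℕ} (hb : b ∈ C.Test) {F H s : Fin n → M →ₘ[m] ℝ}
    (hF : ∀ i, F i ∈ C.Test) (hH : ∀ i, H i ∈ C.Test) (hs : ∀ i, MemLp (s i) ∞ m)
    (hs2 : ∀ i, MemLp (s i) 2 m) :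
    0 ≤ I (C.lap b ^ 2) - κ * I (C.Γ b b) + 2 * ∑ i, I (s i * C.KK b (F i) (H i))
      + 2 * ∑ i, ∑ j, I (s i * s j * C.MM (F i) (H i) (F j) (H j)) := by
  obtain ⟨χ, Λ, hT, h0, hb1, hconv, hlb, hl0, -⟩ := hC.exists_cut hB
  have key : ∀ k, 0 ≤ C.NN κ b b (χ k) + 2 * ∑ i, I (χ k * (s i * C.KK b (F i) (H i)))
      + 2 * ∑ i, ∑ j, I (χ k * (s i * s j * C.MM (F i) (H i) (F j) (H j))) := fun k =>
    hC.tensor_ineq' hB hb hF hH hs hs2 (hC.test_A (hT k)) (h0 k)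
  have hconv' : ∀ᵐ x ∂m, Tendsto (fun k => χ k x) atTop (𝓝 ((1 : M →ₘ[m] ℝ) x)) := by
    filter_upwards [hconv, one_ae (M := M) (m := m)] with x b1 b2
    rw [b2]; exact b1
  have t1 : ∀ i, Tendsto (fun k => I (χ k * (s i * C.KK b (F i) (H i)))) atTop
      (𝓝 (I (s i * C.KK b (F i) (H i)))) := by
    intro i
    have := I_tendsto_of_bdd hb1 hconv' (mem_mul_22 (hs2 i) (hC.KK_mem2 hB (hF i) (hH i) hb))
    rwa [one_mul] at this
  have t2 : ∀ i j, Tendsto (fun k => I (χ k * (s i * s j * C.MM (F i) (H i) (F j) (H j)))) atTop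
      (𝓝 (I (s i * s j * C.MM (F i) (H i) (F j) (H j)))) := by
    intro i j
    have := I_tendsto_of_bdd hb1 hconv' (mem_mul_top (mem_mul_top (hs i) (hs j))
      (hC.MM_mem1 hB (hF i) (hH i) (hF j) (hH j)))
    rwa [one_mul] at this
  exact ge_of_tendsto (((hC.NN_tendsto hB hT hb1 hconv hlb hl0 hb).add
    ((tendsto_finset_sum Finset.univ fun i _ => t1 i).const_mul 2)).add
    ((tendsto_finset_sum Finset.univ fun i _ => tendsto_finset_sum Finset.univ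
      fun j _ => t2 i j).const_mul 2)) (Eventually.of_forall key)

/-- the quadratic functional in `tensor_ineq_one` -/
noncomputable def _root_.Vale.Agent.P233.Calc.QT (C : Calc m) (κ : ℝ) (b : M →ₘ[m] ℝ) {n : ℕ}
    (F H s : Fin n → M →ₘ[m] ℝ) : ℝ :=
  I (C.lap b ^ 2) - κ * I (C.Γ b b) + 2 * ∑ i, I (s i * C.KK b (F i) (H i))
      + 2 * ∑ i, ∑ j, I (s i * s j * C.MM (F i) (H i) (F j) (H j))

theorem QT_cons {n : ℕ} (hb : b ∈ C.Test) {F H s : Fin n → M →ₘ[m] ℝ}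
    (hF : ∀ i, F i ∈ C.Test) (hH : ∀ i, H i ∈ C.Test) (hs : ∀ i, MemLp (s i) ∞ m)
    (hs2 : ∀ i, MemLp (s i) 2 m) (hw : w ∈ C.Test) (hχ : MemLp χ ∞ m) (hχ2 : MemLp χ 2 m) (t : ℝ) :
    C.QT κ b (Fin.cons w F : Fin (n + 1) → M →ₘ[m] ℝ) (Fin.cons w H) (Fin.cons (t • χ) s)
      = C.QT κ b F H s + 2 * t * I (χ * C.KK b w w)
        + 4 * t * ∑ i, I (χ * (s i * C.MM w w (F i) (H i)))
        + 2 * t ^ 2 * I (χ * (χ * C.MM w w w w)) := by
  unfold Calc.QT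
  simp only [Fin.sum_univ_succ, Fin.cons_zero, Fin.cons_succ]
  have e1 : I (t • χ * C.KK b w w) = t * I (χ * C.KK b w w) := by
    rw [← I_smul]; congr 1; algebra
  have e2 : I (t • χ * t • χ * C.MM w w w w) = t ^ 2 * I (χ * (χ * C.MM w w w w)) := by
    rw [← I_smul]; congr 1; algebra
  have e3 : ∀ i, I (t • χ * s i * C.MM w w (F i) (H i)) = t * I (χ * (s i * C.MM w w (F i) (H i))) := by
    intro i
    rw [← I_smul]; congr 1; algebra
  have e4 : ∀ i, I (s i * t • χ * C.MM (F i) (H i) w w) = t * I (χ * (s i * C.MM w w (F i) (H i))) := by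
    intro i
    rw [← I_smul]; congr 1
    have : C.MM (F i) (H i) w w = C.MM w w (F i) (H i) := by
      unfold Calc.MM
      rw [hC.symm _ (hC.test_A hw).1 _ (hC.test_A (hF i)).1,
        hC.symm _ (hC.test_A hw).1 _ (hC.test_A (hH i)).1]
      ring
    rw [this]
    algebra
  rw [e1, e2]
  simp only [e3, e4, Finset.sum_add_distrib, ← Finset.mul_sum]
  ring

theorem MM_bd (hw : w ∈ C.Test) (hf : f ∈ C.Test) (hg : g ∈ C.Test) {s : M →ₘ[m] ℝ}
    (hs : MemLp s ∞ m) :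
    ∃ K : ℝ, 0 ≤ K ∧ ∀ w ∈ C.Test, |I (s * C.MM w w f g)| ≤ K * I (C.Γ w w) := by
  obtain ⟨A, hA⟩ := mem_top_iff.1 hs
  obtain ⟨B, hB1⟩ := mem_top_iff.1 (hC.test_Γ_top hf)
  obtain ⟨D, hD1⟩ := mem_top_iff.1 (hC.test_Γ_top hg)
  refine ⟨|A| * (|B| + |D|), by positivity, fun w hw => ?_⟩
  have hD := hC.toIsDir
  have wA := hC.test_A hw
  have fA := hC.test_A hf
  have gA := hC.test_A hg
  rw [← I_smul]
  unfold I
  refine abs_integral_le_integral_abs.trans ?_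
  refine integral_mono_ae (int_of_mem (mem_mul_top hs (hC.MM_mem1 hB hw hw hf hg))).abs
    (int_of_mem (mem_smul _ (hC.mem1 _ wA.1))) ?_
  filter_upwards [mul_ae s (C.MM w w f g), hA, hB1, hD1, hD.Γ_cs_ae fA.1 wA.1,
    hD.Γ_cs_ae gA.1 wA.1, hD.Γ_nonneg_ae wA.1, hD.Γ_nonneg_ae fA.1, hD.Γ_nonneg_ae gA.1,
    smul_ae (C.Γ w w) (|A| * (|B| + |D|)),
    add_ae (C.Γ f w * C.Γ g w) (C.Γ f w * C.Γ g w), mul_ae (C.Γ f w) (C.Γ g w)]
    with x b1 b2 b3 b4 b5 b6 b7 b8 b9 b10 b11 b12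
  have e : C.MM w w f g = C.Γ f w * C.Γ g w + C.Γ f w * C.Γ g w := rfl
  rw [b1, b10, e, b11, b12, abs_mul]
  rw [abs_of_nonneg b8] at b3
  rw [abs_of_nonneg b9] at b4
  have h1 : |C.Γ f w x * C.Γ g w x + C.Γ f w x * C.Γ g w x| ≤ (|B| + |D|) * C.Γ w w x := by
    have h2 : C.Γ f w x ^ 2 ≤ |B| * C.Γ w w x :=
      b5.trans (mul_le_mul_of_nonneg_right (b3.trans (le_abs_self _)) b7)
    have h3 : C.Γ g w x ^ 2 ≤ |D| * C.Γ w w x :=
      b6.trans (mul_le_mul_of_nonneg_right (b4.trans (le_abs_self _)) b7)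
    rw [abs_le]
    constructor <;> nlinarith [sq_nonneg (C.Γ f w x + C.Γ g w x), sq_nonneg (C.Γ f w x - C.Γ g w x)]
  calc |s x| * |C.Γ f w x * C.Γ g w x + C.Γ f w x * C.Γ g w x|
      ≤ |A| * ((|B| + |D|) * C.Γ w w x) :=
        mul_le_mul (b2.trans (le_abs_self _)) h1 (abs_nonneg _) (abs_nonneg _)
    _ = |A| * (|B| + |D|) * C.Γ w w x := by ring

/-- the Hessian of a test function is a bounded tensor plus a tensor that is small in `L²`. -/
theorem hess_approx [SigmaFinite m] (hb : b ∈ C.Test) {δ : ℝ} (hδ : 0 < δ) :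
    ∃ Λ ≥ 0, ∀ w ∈ C.Test, |I (C.hess b w w)| ≤
      Λ * I (C.Γ w w) + δ * √(I (C.Γ w w ^ 2)) := by
  classical
  set S : Set ℝ := {q | ∃ (n : ℕ) (F H s : Fin n → M →ₘ[m] ℝ), (∀ i, F i ∈ C.Test) ∧
    (∀ i, H i ∈ C.Test) ∧ (∀ i, MemLp (s i) ∞ m) ∧ (∀ i, MemLp (s i) 2 m) ∧
    q = C.QT κ b F H s} with hS
  have hne : S.Nonempty := ⟨_, 0, Fin.elim0, Fin.elim0, Fin.elim0, fun i => i.elim0,
    fun i => i.elim0, fun i => i.elim0, fun i => i.elim0, rfl⟩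
  have hbd : BddBelow S := by
    refine ⟨0, ?_⟩
    rintro q ⟨n, F, H, s, h1, h2, h3, h4, rfl⟩
    exact hC.tensor_ineq_one hB hb h1 h2 h3 h4
  obtain ⟨q, hq, hq2⟩ := exists_lt_of_csInf_lt hne
    (show sInf S < sInf S + δ ^ 2 by linarith [pow_pos hδ 2])
  obtain ⟨n, F, H, s, hF, hH, hs, hs2, rfl⟩ := hq
  obtain ⟨χ, Λ, hT, h0, hb1, hconv, -⟩ := hC.exists_cut hB
  have hconv' : ∀ᵐ x ∂m, Tendsto (fun k => χ k x) atTop (𝓝 ((1 : M →ₘ[m] ℝ) x)) := by
    filter_upwards [hconv, one_ae (M := M) (m := m)] with x b1 b2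
    rw [b2]; exact b1
  choose K hK0 hK using fun i => hC.MM_bd hB hb (hF i) (hH i) (hs i)
  refine ⟨∑ i, K i, Finset.sum_nonneg fun i _ => hK0 i, fun w hw => ?_⟩
  have wA := hC.test_A hw
  have bA := hC.test_A hb
  have nKK : MemLp (C.KK b w w) 1 m := by
    unfold Calc.KK Calc.hess
    exact mem_smul _ (mem_smul _ (mem_sub (mem_add (hC.Γ_mem1 wA.1 (hC.Γ_mem hB hb hw).1)
      (hC.Γ_mem1 wA.1 (hC.Γ_mem hB hb hw).1)) (hC.Γ_mem1 bA.1 (hC.Γ_mem hB hw hw).1)))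
  have key : ∀ (t : ℝ) (k : ℕ), 0 ≤ δ ^ 2 + 2 * t * I (χ k * C.KK b w w)
        + 4 * t * ∑ i, I (χ k * (s i * C.MM w w (F i) (H i)))
        + 2 * t ^ 2 * I (χ k * (χ k * C.MM w w w w)) := by
    intro t k
    have kA := hC.test_A (hT k)
    have h1 : C.QT κ b (Fin.cons w F : Fin (n + 1) → M →ₘ[m] ℝ) (Fin.cons w H)
        (Fin.cons (t • χ k) s) ∈ S := by
      refine ⟨n + 1, _, _, _, ?_, ?_, ?_, ?_, rfl⟩
      · intro i
        refine Fin.cases ?_ (fun j => ?_) i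
        · simpa using hw
        · simpa using hF j
      · intro i
        refine Fin.cases ?_ (fun j => ?_) i
        · simpa using hw
        · simpa using hH j
      · intro i
        refine Fin.cases ?_ (fun j => ?_) i
        · rw [Fin.cons_zero]; exact mem_smul _ kA.2
        · rw [Fin.cons_succ]; exact hs j
      · intro i
        refine Fin.cases ?_ (fun j => ?_) i
        · rw [Fin.cons_zero]; exact mem_smul _ (hC.memLp _ kA.1)
        · rw [Fin.cons_succ]; exact hs2 j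
    have h2 := csInf_le hbd h1
    rw [hC.QT_cons hB hb hF hH hs hs2 hw kA.2 (hC.memLp _ kA.1) t] at h2
    linarith
  have key2 : ∀ t : ℝ, 0 ≤ δ ^ 2 + 2 * t * (I (C.KK b w w)
      + 2 * ∑ i, I (s i * C.MM w w (F i) (H i))) + t ^ 2 * (2 * I (C.MM w w w w)) := by
    intro t
    have t1 : Tendsto (fun k => I (χ k * C.KK b w w)) atTop (𝓝 (I (C.KK b w w))) := by
      have := I_tendsto_of_bdd hb1 hconv' nKK
      rwa [one_mul] at this
    have t2 : ∀ i, Tendsto (fun k => I (χ k * (s i * C.MM w w (F i) (H i)))) atTop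
        (𝓝 (I (s i * C.MM w w (F i) (H i)))) := by
      intro i
      have := I_tendsto_of_bdd hb1 hconv' (mem_mul_top (hs i) (hC.MM_mem1 hB hw hw (hF i) (hH i)))
      rwa [one_mul] at this
    have t3 : Tendsto (fun k => I (χ k * (χ k * C.MM w w w w))) atTop (𝓝 (I (C.MM w w w w))) := by
      have h1 : ∀ k, ∀ᵐ x ∂m, |(χ k * χ k) x| ≤ 1 := by
        intro k
        filter_upwards [mul_ae (χ k) (χ k), hb1 k] with x b1 b2
        rw [b1, abs_mul]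
        linarith only [mul_nonneg (sub_nonneg.2 b2) (sub_nonneg.2 (abs_nonneg (χ k x))), mul_nonneg (sub_nonneg.2 b2) (sub_nonneg.2 b2)]
      have h2 : ∀ᵐ x ∂m, Tendsto (fun k => (χ k * χ k) x) atTop (𝓝 ((1 : M →ₘ[m] ℝ) x)) := by
        have h3 : ∀ᵐ x ∂m, ∀ k, (χ k * χ k) x = χ k x * χ k x := by
          rw [ae_all_iff]; exact fun k => mul_ae _ _
        filter_upwards [h3, hconv, one_ae (M := M) (m := m)] with x b1 b2 b3
        rw [b3]
        simp only [b1]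
        simpa using b2.mul b2
      have := I_tendsto_of_bdd h1 h2 (hC.MM_mem1 hB hw hw hw hw)
      rw [one_mul] at this
      refine this.congr fun k => ?_
      rw [mul_assoc]
    have hlim := (((tendsto_const_nhds (x := δ ^ 2)).add (t1.const_mul (2 * t))).add
      ((tendsto_finset_sum Finset.univ fun i _ => t2 i).const_mul (4 * t))).add
      (t3.const_mul (2 * t ^ 2))
    have h1 := ge_of_tendsto hlim (Eventually.of_forall (key t))
    have e : δ ^ 2 + 2 * t * (I (C.KK b w w)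
      + 2 * ∑ i, I (s i * C.MM w w (F i) (H i))) + t ^ 2 * (2 * I (C.MM w w w w))
      = δ ^ 2 + 2 * t * I (C.KK b w w) + 4 * t * ∑ i, I (s i * C.MM w w (F i) (H i))
        + 2 * t ^ 2 * I (C.MM w w w w) := by ring
    rw [e]; exact h1
  have hdisc := disc_of_forall key2
  have eMM : C.MM w w w w = (2 : ℝ) • C.Γ w w ^ 2 := by unfold Calc.MM; algebra
  have eKK : I (C.KK b w w) = 2 * I (C.hess b w w) := by
    unfold Calc.KK; rw [I_smul]
  rw [eMM, I_smul, eKK] at hdisc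
  have hΓ2 : 0 ≤ I (C.Γ w w ^ 2) := I_sq_nonneg _
  have h3 : |2 * I (C.hess b w w) + 2 * ∑ i, I (s i * C.MM w w (F i) (H i))|
      ≤ 2 * (δ * √(I (C.Γ w w ^ 2))) := by
    refine abs_le_of_sq_le_sq ?_ (by positivity)
    refine hdisc.trans (le_of_eq ?_)
    have := Real.sq_sqrt hΓ2
    rw [mul_pow, mul_pow, this]; ring
  have h4 : |∑ i, I (s i * C.MM w w (F i) (H i))| ≤ (∑ i, K i) * I (C.Γ w w) := by
    refine (Finset.abs_sum_le_sum_abs _ _).trans ?_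
    rw [Finset.sum_mul]
    exact Finset.sum_le_sum fun i _ => hK i w hw
  have h5 := abs_le.1 h3
  have h6 := abs_le.1 h4
  rw [abs_le]
  constructor <;> linarith [h5.1, h5.2, h6.1, h6.2]

end IsGamma

end Vale.Agent.P233
end

section

open MeasureTheory Filter Topology
open scoped ENNReal NNReal

namespace Vale.Agent.P233

variable {M : Type*} [MeasurableSpace M] {m : Measure M}

/-- `div (φ ∇a)` -/
noncomputable def Calc.De (C : Calc m) (φ a : M →ₘ[m] ℝ) : M →ₘ[m] ℝ :=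
  C.Γ φ a + φ * C.lap a

/-- `∫ φ Hess b (∇a, ∇h)` for test functions `a`, `b` and `h ∈ W` -/
noncomputable def Calc.HW (C : Calc m) (b a h φ : M →ₘ[m] ℝ) : ℝ :=
  (2 : ℝ)⁻¹ * (-I (C.Γ b h * C.De φ a) + I (φ * C.Γ h (C.Γ b a)) + I (C.Γ a h * C.De φ b))

/-- `R(∇a,∇b,∇b,∇a)(f) + 3 ∫ f |∇_{∇a} ∇b|²` -/
noncomputable def Calc.S0 (C : Calc m) (a b f : M →ₘ[m] ℝ) : ℝ :=
  -I (C.De f a * C.hess b a b) + I (C.De f b * C.hess b a a) + 2 * C.HW b a (C.Γ a b) f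
    - (4 : ℝ)⁻¹ * I (f * C.Γ (C.Γ a a) (C.Γ b b))

/-- The core inequality for a triple `(a,b,f)`:
`κ ∫ f |∇a ∧ ∇b|² ≤ R(∇a,∇b,∇b,∇a)(f) + 3 ∫ f |∇_{∇a} ∇b + ∇k|² + K ∑ ∫ f (|∇a_i|² - t_i)²`
for all test functions `k` and all constants `t_i ≥ 0` (`a_1 = a`, `a_2 = b`, `a_3 = -a-b`). -/
def Calc.CoreAt (C : Calc m) (κ K : ℝ) (a b f : M →ₘ[m] ℝ) : Prop :=
  ∀ k ∈ C.Test, ∀ t₁ t₂ t₃ : ℝ, 0 ≤ t₁ → 0 ≤ t₂ → 0 ≤ t₃ →
    κ * I (f * (C.Γ a a * C.Γ b b - C.Γ a b ^ 2)) ≤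
      C.S0 a b f + 6 * C.HW b a k f + 3 * I (f * C.Γ k k)
        + K * (I (f * (C.Γ a a - t₁ • 1) ^ 2) + I (f * (C.Γ b b - t₂ • 1) ^ 2)
          + I (f * (C.Γ (a + b) (a + b) - t₃ • 1) ^ 2))

end Vale.Agent.P233
end

section

open MeasureTheory Filter Topology
open scoped ENNReal NNReal

namespace Vale.Agent.P233

variable {M : Type*} [MeasurableSpace M] {m : Measure M} {C : Calc m}

/-- test functions with bounded Laplacian -/
def Calc.TestI (C : Calc m) : Set (M →ₘ[m] ℝ) := {f | f ∈ C.Test ∧ MemLp (C.lap f) ∞ m}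

namespace IsDir

/-- composition of a bounded Sobolev function with a smooth function -/
theorem ti_comp (hC : IsDir C) {f : M →ₘ[m] ℝ} (hf : f ∈ C.A) {Ψ Ψ' : ℝ → ℝ}
    (hc : Continuous Ψ) (hc' : Continuous Ψ') (hd : ∀ t, HasDerivAt Ψ (Ψ' t) t) :
    ∃ b ∈ C.A, AEEqFun.comp Ψ hc f = Ψ 0 • (1 : M →ₘ[m] ℝ) + b ∧
      ∀ h ∈ C.W, C.Γ b h = AEEqFun.comp Ψ' hc' f * C.Γ f h := by
  obtain ⟨K, hK⟩ := mem_top_iff.1 hf.2
  have hc0 : Continuous fun t => Ψ t - Ψ 0 := hc.sub continuous_const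
  obtain ⟨h1, h2⟩ := hC.chain_bdd hf.1 hK hc0 hc'
    (fun t _ => ((hd t).sub_const _).hasDerivWithinAt) (sub_self _)
  refine ⟨_, ⟨h1, ?_⟩, ?_, h2⟩
  · obtain ⟨B, hB⟩ := (isCompact_Icc (a := -K) (b := K)).exists_bound_of_continuousOn
      hc0.continuousOn
    refine mem_top_iff.2 ⟨B, ?_⟩
    filter_upwards [AEEqFun.coeFn_comp _ hc0 f, hK] with x a1 a2
    rw [a1, Function.comp_apply, ← Real.norm_eq_abs]
    exact hB _ (abs_le.1 a2)
  · rw [eq_iff_ae]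
    filter_upwards [AEEqFun.coeFn_comp _ hc0 f, AEEqFun.coeFn_comp _ hc f,
      add_ae (Ψ 0 • (1 : M →ₘ[m] ℝ)) (AEEqFun.comp _ hc0 f), smul_ae (1 : M →ₘ[m] ℝ) (Ψ 0),
      one_ae (M := M) (m := m)] with x a1 a2 a3 a4 a5
    rw [a2, a3, a4, a5, a1, Function.comp_apply, Function.comp_apply]
    ring

end IsDir

namespace IsGamma

variable (hC : IsGamma C) {κ : ℝ} (hB : C.BEi κ)
variable {f g h φ ψ : M →ₘ[m] ℝ}

include hC hB

theorem testI_zero : (0 : M →ₘ[m] ℝ) ∈ C.TestI := by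
  refine ⟨hC.test_zero hB, ?_⟩
  have h1 := hC.lap_smul hB 0 (hC.test_zero hB)
  rw [zero_smul, zero_smul] at h1
  rw [h1]
  exact mem_zero

theorem testI_add (hf : f ∈ C.TestI) (hg : g ∈ C.TestI) : f + g ∈ C.TestI := by
  refine ⟨hC.test_add hB hf.1 hg.1, ?_⟩
  rw [hC.lap_add hB hf.1 hg.1]
  exact mem_add hf.2 hg.2

theorem testI_smul (c : ℝ) (hf : f ∈ C.TestI) : c • f ∈ C.TestI := by
  refine ⟨hC.test_smul hB c hf.1, ?_⟩
  rw [hC.lap_smul hB c hf.1]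
  exact mem_smul c hf.2

theorem testI_mul (hf : f ∈ C.TestI) (hg : g ∈ C.TestI) : f * g ∈ C.TestI := by
  refine ⟨hC.test_mul hB hf.1 hg.1, ?_⟩
  rw [hC.lap_mul hB hf.1 hg.1]
  exact mem_add (mem_add (mem_mul_top (hC.test_A hf.1).2 hg.2)
    (mem_mul_top (hC.test_A hg.1).2 hf.2)) (mem_smul _ (hC.Γ_mem hB hf.1 hg.1).2)

omit hB in
theorem testI_lap_A' (hf : f ∈ C.TestI) : C.lap f ∈ C.A :=
  ⟨hC.test_lap_mem hf.1, hf.2⟩

theorem testI_lap_A (hf : f ∈ C.TestI) : C.lap f ∈ C.A := hC.testI_lap_A' hf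

/-- smooth functions of test functions -/
theorem testI_comp (hf : f ∈ C.TestI) (Φ : ℝ → ℝ) (hΦ : ContDiff ℝ 3 Φ) (h0 : Φ 0 = 0) :
    ∃ g ∈ C.TestI, (∀ᵐ x ∂m, g x = Φ (f x)) ∧
      (∀ h ∈ C.W, ∀ᵐ x ∂m, C.Γ g h x = deriv Φ (f x) * C.Γ f h x) ∧
      ∀ᵐ x ∂m, C.lap g x = deriv Φ (f x) * C.lap f x + deriv (deriv Φ) (f x) * C.Γ f f x := by
  have hD := hC.toIsDir
  have hΦ1 : ContDiff ℝ 2 (deriv Φ) := (contDiff_succ_iff_deriv (n := 2)).1 (by
    norm_num; exact hΦ) |>.2.2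
  have hΦ2 : ContDiff ℝ 1 (deriv (deriv Φ)) := (contDiff_succ_iff_deriv (n := 1)).1 (by
    norm_num; exact hΦ1) |>.2.2
  have hΦ3 : ContDiff ℝ 0 (deriv (deriv (deriv Φ))) := (contDiff_succ_iff_deriv (n := 0)).1 (by
    norm_num; exact hΦ2) |>.2.2
  have hc0 : Continuous Φ := hΦ.continuous
  have hc1 : Continuous (deriv Φ) := hΦ1.continuous
  have hc2 : Continuous (deriv (deriv Φ)) := hΦ2.continuous
  have hc3 : Continuous (deriv (deriv (deriv Φ))) := hΦ3.continuous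
  have hd0 : ∀ t, HasDerivAt Φ (deriv Φ t) t := fun t =>
    (hΦ.differentiable (by norm_num) t).hasDerivAt
  have hd1 : ∀ t, HasDerivAt (deriv Φ) (deriv (deriv Φ) t) t := fun t =>
    (hΦ1.differentiable (by norm_num) t).hasDerivAt
  have hd2 : ∀ t, HasDerivAt (deriv (deriv Φ)) (deriv (deriv (deriv Φ)) t) t := fun t =>
    (hΦ2.differentiable (by norm_num) t).hasDerivAt
  have hA := hC.test_A hf.1
  obtain ⟨g, gA, ge, gΓ⟩ := hD.ti_comp hA hc0 hc1 hd0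
  obtain ⟨b, bA, be, bΓ⟩ := hD.ti_comp hA hc1 hc2 hd1
  obtain ⟨d, dA, de, dΓ⟩ := hD.ti_comp hA hc2 hc3 hd2
  rw [h0, zero_smul, zero_add] at ge
  have aP : AEEqFun.comp (deriv Φ) hc1 f ∈ C.AP := ⟨deriv Φ 0, by rw [be]; simpa using bA⟩
  have eP : AEEqFun.comp (deriv (deriv Φ)) hc2 f ∈ C.AP :=
    ⟨deriv (deriv Φ) 0, by rw [de]; simpa using dA⟩
  set c : ℝ := deriv Φ 0 with hc
  set a := AEEqFun.comp (deriv Φ) hc1 f with ha
  set e := AEEqFun.comp (deriv (deriv Φ)) hc2 f with he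
  set L : M →ₘ[m] ℝ := C.lap f * a + C.Γ f f * e with hL
  have LA : L ∈ C.A := hD.A_add (hD.A_mul_AP (hC.testI_lap_A' hf) aP)
    (hD.A_mul_AP (hC.Γ_mem hB hf.1 hf.1) eP)
  have L2 : MemLp L 2 m := hC.memLp _ LA.1
  have hfl := hC.test_isLap hf.1
  have hLap : C.IsLap g L := by
    refine ⟨gA.1, L2, fun k hk => ?_⟩
    change I (C.Γ g k) = -I (L * k)
    suffices H : I (C.Γ g k) + I (L * k) = 0 by linarith
    refine hD.ext_A gA.1 L2 (fun k hk => ?_) hk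
    have m1 := hD.Γ_mem1 hA.1 hk.1
    have m2 := mem_mul_22 hfl.2.1 (hC.memLp _ hk.1)
    have bk := hD.mul_mem_A bA hk
    have m3 := hD.Γ_mem1 hA.1 bk.1
    have m4 := mem_mul_22 hfl.2.1 (hC.memLp _ bk.1)
    have e1 : I (C.Γ f k) = -I (C.lap f * k) := hfl.2.2 _ hk.1
    have e2 : I (C.Γ f (b * k)) = -I (C.lap f * (b * k)) := hfl.2.2 _ bk.1
    have e3 : C.Γ f (b * k) = b * C.Γ f k + k * (e * C.Γ f f) := by
      rw [hD.Γ_mul_right bA hk hA.1, hC.symm _ hA.1 _ bA.1, bΓ _ hA.1]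
    have e4 : C.Γ g k + L * k = c • (C.Γ f k + C.lap f * k)
        + (C.Γ f (b * k) + C.lap f * (b * k)) := by
      rw [gΓ _ hk.1, e3, hL, be]
      algebra
    rw [← I_add (hD.Γ_mem1 gA.1 hk.1) (mem_mul_22 L2 (hC.memLp _ hk.1)), e4,
      I_add (mem_smul _ (mem_add m1 m2)) (mem_add m3 m4), I_smul, I_add m1 m2, I_add m3 m4,
      e1, e2]
    ring
  have hlap : C.lap g = L := hD.lap_eq hLap
  have hΓgg : MemLp (C.Γ g g) ∞ m := by
    rw [gΓ _ gA.1, hC.symm _ hA.1 _ gA.1, gΓ _ hA.1]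
    exact mem_mul_top (IsDir.AP_top aP) (mem_mul_top (IsDir.AP_top aP) (hC.test_Γ_top hf.1))
  refine ⟨g, ⟨hC.mem_test_iff.2 ⟨gA.1, gA.2, hΓgg, L, hLap, LA.1⟩, by rw [hlap]; exact LA.2⟩,
    ?_, ?_, ?_⟩
  · filter_upwards [AEEqFun.coeFn_comp _ hc0 f] with x a1
    rw [← ge, a1, Function.comp_apply]
  · intro k hk
    rw [gΓ _ hk]
    filter_upwards [mul_ae a (C.Γ f k), AEEqFun.coeFn_comp _ hc1 f] with x a1 a2
    rw [a1, ha, a2, Function.comp_apply]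
  · rw [hlap]
    filter_upwards [add_ae (C.lap f * a) (C.Γ f f * e), mul_ae (C.lap f) a, mul_ae (C.Γ f f) e,
      AEEqFun.coeFn_comp _ hc1 f, AEEqFun.coeFn_comp _ hc2 f] with x a1 a2 a3 a4 a5
    rw [hL, a1, a2, a3, ha, a4, he, a5, Function.comp_apply, Function.comp_apply]
    ring

theorem testI_J [SigmaFinite m] {lam : ℝ} (hl : 0 < lam) (hl2 : 0 < 1 + 2 * lam * κ)
    (hf : f ∈ C.A) (hf' : MemLp (C.Γ f f) ∞ m) : C.J lam f ∈ C.TestI := by
  have h1 := hC.J_test hB hl hl2 hf hf'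
  refine ⟨h1, ?_⟩
  rw [hC.toIsDir.lap_eq (hC.toIsDir.J_isLap hl (hC.memLp _ hf.1))]
  exact mem_smul _ (mem_sub (hC.test_A h1).2 hf.2)

omit hB in
theorem lap_J' {lam : ℝ} (hl : 0 < lam) (hf : f ∈ C.Test) :
    C.lap (C.J lam f) = C.J lam (C.lap f) := by
  have hD := hC.toIsDir
  have hA := hC.test_A hf
  have hf2 := hC.memLp _ hA.1
  have hL := hC.test_isLap hf
  have h1 : C.J lam (f - lam • C.lap f) = f := by
    refine hD.J_eq hl ⟨hA.1, fun k hk => ?_⟩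
    have hk2 := hC.memLp _ hk
    have e1 : I (C.Γ f k) = -I (C.lap f * k) := hL.2.2 _ hk
    have e2 : (f - lam • C.lap f) * k = f * k - lam • (C.lap f * k) := by algebra
    rw [e2, I_sub (mem_mul_22 hf2 hk2) (mem_smul _ (mem_mul_22 hL.2.1 hk2)), I_smul, e1]
    ring
  rw [hD.J_sub hl hf2 (mem_smul _ hL.2.1), hD.J_smul hl _ hL.2.1] at h1
  rw [hD.lap_eq (hD.J_isLap hl hf2)]
  have h2 : C.J lam f - f = lam • C.J lam (C.lap f) := by
    rw [sub_eq_iff_eq_add] at h1 ⊢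
    rw [h1, add_comm]
  rw [h2, smul_smul, inv_mul_cancel₀ hl.ne', one_smul]

theorem lap_J {lam : ℝ} (hl : 0 < lam) (hf : f ∈ C.Test) :
    C.lap (C.J lam f) = C.J lam (C.lap f) := hC.lap_J' hl hf

theorem testI_dense [SigmaFinite m] (hf : f ∈ C.W) {ε : ℝ} (hε : 0 < ε) :
    ∃ g ∈ C.TestI, C.nrm2 (g - f) < ε := by
  have hD := hC.toIsDir
  obtain ⟨g, hg1, hg2, hg3, hg4⟩ := hC.dense_lip f hf (ε / 4) (by positivity)
  obtain ⟨N, hN⟩ := exists_small κ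
  have h1 := hD.J_tendsto_W hg1
  obtain ⟨n, hn1, hn2⟩ := ((h1.eventually (gt_mem_nhds (show (0 : ℝ) < ε / 4 by positivity))).and
    (eventually_ge_atTop N)).exists
  have hl : (0 : ℝ) < ((n : ℝ) + 1)⁻¹ := by positivity
  have hJ := hC.testI_J hB hl (hN n hn2) ⟨hg1, hg2⟩ hg3
  refine ⟨_, hJ, ?_⟩
  have hJW := (hC.test_A hJ.1).1
  have h2 := hD.nrm2_add_le (hD.sub_mem hJW hg1) (hD.sub_mem hg1 hf)
  have e : C.J ((n : ℝ) + 1)⁻¹ g - g + (g - f) = C.J ((n : ℝ) + 1)⁻¹ g - f := by abel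
  rw [e, hD.nrm2_sub_comm hg1 hf] at h2
  linarith only [h2, hn1, hg4]

end IsGamma

end Vale.Agent.P233
end

section

open MeasureTheory Filter Topology Set
open scoped ENNReal NNReal

namespace Vale.Agent.P233.Met

variable {M : Type*} [MetricSpace M]

/-- globally Lipschitz functions -/
def IsLip (f : M → ℝ) : Prop := ∃ K : ℝ≥0, LipschitzWith K f

/-- pointwise bound of the local Lipschitz constant, in real terms -/
def LipBd (f : M → ℝ) (x : M) (c : ℝ) : Prop :=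
  ∀ c' > c, ∀ᶠ y in 𝓝 x, |f y - f x| ≤ c' * dist y x

theorem lipAt_le_ofReal_iff {f : M → ℝ} {x : M} {c : ℝ} (hc : 0 ≤ c) :
    lipAt f x ≤ ENNReal.ofReal c ↔ LipBd f x c := by
  constructor
  · intro h c' hc'
    have h1 : lipAt f x < ENNReal.ofReal c' :=
      lt_of_le_of_lt h ((ENNReal.ofReal_lt_ofReal_iff (lt_of_le_of_lt hc hc')).2 hc')
    have h2 := eventually_lt_of_limsup_lt h1
    rw [eventually_nhdsWithin_iff] at h2
    filter_upwards [h2] with y hy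
    by_cases hyx : y = x
    · subst hyx; simp
    · have hd : 0 < dist y x := dist_pos.2 hyx
      have h3 := hy hyx
      have h4 := (ENNReal.ofReal_lt_ofReal_iff (lt_of_le_of_lt hc hc')).1 h3
      rw [div_lt_iff₀ hd] at h4
      exact h4.le
  · intro h
    refine le_of_forall_gt_imp_ge_of_dense ?_
    intro a ha
    by_cases hat : a = ∞
    · subst hat; exact le_top
    obtain ⟨a', rfl⟩ : ∃ a' : ℝ≥0, a = a' := ⟨a.toNNReal, (ENNReal.coe_toNNReal hat).symm⟩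
    have h1 : c < a' := by
      have := (ENNReal.ofReal_lt_coe_iff hc).1 ha
      exact this
    unfold lipAt
    refine limsup_le_of_le (by isBoundedDefault) ?_
    rw [eventually_nhdsWithin_iff]
    filter_upwards [h _ h1] with y hy hyx
    have hd : 0 < dist y x := dist_pos.2 hyx
    rw [← ENNReal.ofReal_coe_nnreal]
    apply ENNReal.ofReal_le_ofReal
    rw [div_le_iff₀ hd]
    exact hy

theorem LipBd.mono {f : M → ℝ} {x : M} {c d : ℝ} (h : LipBd f x c) (hcd : c ≤ d) :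
    LipBd f x d := fun c' hc' => h c' (lt_of_le_of_lt hcd hc')

theorem LipBd.add {f g : M → ℝ} {x : M} {a b : ℝ} (hf : LipBd f x a) (hg : LipBd g x b) :
    LipBd (f + g) x (a + b) := by
  intro c hc
  have h1 := hf (a + (c - a - b) / 2) (by linarith)
  have h2 := hg (b + (c - a - b) / 2) (by linarith)
  filter_upwards [h1, h2] with y hy1 hy2
  have : (f + g) y - (f + g) x = (f y - f x) + (g y - g x) := by simp; ring
  rw [this]
  refine (abs_add_le _ _).trans ?_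
  have : c * dist y x = (a + (c - a - b) / 2) * dist y x + (b + (c - a - b) / 2) * dist y x := by
    ring
  linarith only [hy2, hy1]

theorem LipBd.const_mul {f : M → ℝ} {x : M} {a : ℝ} (c : ℝ) (hf : LipBd f x a) :
    LipBd (fun y => c * f y) x (|c| * a) := by
  intro b hb
  by_cases hc : c = 0
  · subst hc
    simp only [abs_zero, zero_mul] at hb
    filter_upwards with y
    simp only [zero_mul, sub_self, abs_zero]
    have := dist_nonneg (x := y) (y := x)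
    positivity
  · have hc' : 0 < |c| := abs_pos.2 hc
    have h1 := hf (b / |c|) (by rw [gt_iff_lt, lt_div_iff₀ hc']; linarith [mul_comm |c| a])
    filter_upwards [h1] with y hy
    rw [← mul_sub, abs_mul]
    calc |c| * |f y - f x| ≤ |c| * (b / |c| * dist y x) := by gcongr
      _ = b * dist y x := by field_simp

theorem LipBd.of_lipschitz {f : M → ℝ} {K : ℝ≥0} (hf : LipschitzWith K f) (x : M) :
    LipBd f x K := by
  intro c hc
  filter_upwards with y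
  have := hf.dist_le_mul y x
  rw [Real.dist_eq] at this
  refine this.trans ?_
  have := dist_nonneg (x := y) (y := x)
  gcongr

theorem LipBd.comp {f : M → ℝ} {x : M} {a : ℝ} {φ : ℝ → ℝ} (hφ : ContDiff ℝ 1 φ)
    (hfc : ContinuousAt f x) (hf : LipBd f x a) :
    LipBd (fun y => φ (f y)) x (|deriv φ (f x)| * a) := by
  intro b hb
  -- choose η with (|φ'|+η)(a+η) < b
  set p := |deriv φ (f x)| with hp
  have hp0 : 0 ≤ p := abs_nonneg _
  obtain ⟨η, hη, hηb⟩ : ∃ η > 0, (p + η) * (a + η) < b := by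
    have hcont : Continuous (fun η : ℝ => (p + η) * (a + η)) := by fun_prop
    have h0 : (fun η : ℝ => (p + η) * (a + η)) 0 < b := by simpa using hb
    have := (hcont.continuousAt (x := 0)).eventually_lt continuousAt_const h0
    rw [Metric.eventually_nhds_iff] at this
    obtain ⟨ε, hε, h⟩ := this
    refine ⟨ε / 2, by positivity, h ?_⟩
    simp [abs_of_pos hε, hε]
  -- derivative bound near f x
  have hd : HasStrictDerivAt φ (deriv φ (f x)) (f x) :=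
    (hφ.contDiffAt.hasStrictDerivAt (by norm_num))
  have h1 : ∀ᶠ t in 𝓝 (f x), |φ t - φ (f x)| ≤ (p + η) * |t - f x| := by
    have h2 := hd.hasDerivAt.isLittleO.def hη
    filter_upwards [h2] with t ht
    rw [Real.norm_eq_abs, Real.norm_eq_abs] at ht
    have h3 : φ t - φ (f x) = (φ t - φ (f x) - (t - f x) • deriv φ (f x)) +
        (t - f x) * deriv φ (f x) := by simp
    rw [h3]
    refine (abs_add_le _ _).trans ?_
    rw [abs_mul]
    have : |t - f x| * |deriv φ (f x)| = p * |t - f x| := by rw [hp]; ring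
    linarith only [ht]
  have h3 := hf (a + η) (by linarith)
  filter_upwards [h3, hfc.eventually h1] with y hy1 hy2
  refine hy2.trans ?_
  calc (p + η) * |f y - f x| ≤ (p + η) * ((a + η) * dist y x) := by gcongr
    _ = ((p + η) * (a + η)) * dist y x := by ring
    _ ≤ b * dist y x := by gcongr

theorem LipBd.mul {f g : M → ℝ} {x : M} {a b : ℝ}
    (hfc : ContinuousAt f x)
    (hf : LipBd f x a) (hg : LipBd g x b) :
    LipBd (fun y => f y * g y) x (|f x| * b + |g x| * a) := by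
  intro c hc
  obtain ⟨η, hη, hηb⟩ : ∃ η > 0, (|f x| + η) * (b + η) + |g x| * (a + η) < c := by
    have hcont : Continuous (fun η : ℝ => (|f x| + η) * (b + η) + |g x| * (a + η)) := by fun_prop
    have h0 : (fun η : ℝ => (|f x| + η) * (b + η) + |g x| * (a + η)) 0 < c := by simpa using hc
    have := (hcont.continuousAt (x := 0)).eventually_lt continuousAt_const h0
    rw [Metric.eventually_nhds_iff] at this
    obtain ⟨ε, hε, h⟩ := this
    refine ⟨ε / 2, by positivity, h ?_⟩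
    simp [abs_of_pos hε, hε]
  have h1 := hf (a + η) (by linarith)
  have h2 := hg (b + η) (by linarith)
  have h3 : ∀ᶠ y in 𝓝 x, |f y| < |f x| + η := by
    have : ContinuousAt (fun y => |f y|) x := hfc.abs
    exact this.eventually_lt continuousAt_const (by simpa using hη)
  filter_upwards [h1, h2, h3] with y hy1 hy2 hy3
  have : f y * g y - f x * g x = f y * (g y - g x) + g x * (f y - f x) := by ring
  rw [this]
  refine (abs_add_le _ _).trans ?_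
  rw [abs_mul, abs_mul]
  calc |f y| * |g y - g x| + |g x| * |f y - f x|
      ≤ (|f x| + η) * ((b + η) * dist y x) + |g x| * ((a + η) * dist y x) := by gcongr
    _ = ((|f x| + η) * (b + η) + |g x| * (a + η)) * dist y x := by ring
    _ ≤ c * dist y x := by gcongr

theorem IsLip.continuous {f : M → ℝ} (hf : IsLip f) : Continuous f := by
  obtain ⟨K, hK⟩ := hf; exact hK.continuous

theorem IsLip.add {f g : M → ℝ} (hf : IsLip f) (hg : IsLip g) : IsLip (f + g) := by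
  obtain ⟨K, hK⟩ := hf; obtain ⟨L, hL⟩ := hg; exact ⟨K + L, hK.add hL⟩

theorem IsLip.const_mul {f : M → ℝ} (c : ℝ) (hf : IsLip f) : IsLip (fun y => c * f y) := by
  obtain ⟨K, hK⟩ := hf
  refine ⟨Real.toNNReal |c| * K, LipschitzWith.of_dist_le_mul fun x y => ?_⟩
  rw [Real.dist_eq, ← mul_sub, abs_mul, NNReal.coe_mul, Real.coe_toNNReal _ (abs_nonneg c),
    mul_assoc]
  gcongr
  have := hK.dist_le_mul x y
  rwa [Real.dist_eq] at this

theorem IsLip.mul {f g : M → ℝ} (hf : IsLip f) (hg : IsLip g)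
    (hfb : ∃ C, ∀ x, |f x| ≤ C) (hgb : ∃ C, ∀ x, |g x| ≤ C) : IsLip (fun x => f x * g x) := by
  obtain ⟨K, hK⟩ := hf; obtain ⟨L, hL⟩ := hg
  obtain ⟨C, hC⟩ := hfb; obtain ⟨D, hD⟩ := hgb
  refine ⟨Real.toNNReal (|C| * L + |D| * K), LipschitzWith.of_dist_le_mul fun x y => ?_⟩
  have h1 := hK.dist_le_mul x y
  have h2 := hL.dist_le_mul x y
  rw [Real.dist_eq] at h1 h2
  rw [Real.coe_toNNReal _ (by positivity), Real.dist_eq]
  have : f x * g x - f y * g y = f x * (g x - g y) + g y * (f x - f y) := by ring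
  rw [this]
  refine (abs_add_le _ _).trans ?_
  rw [abs_mul, abs_mul]
  have h3 : |f x| ≤ |C| := (hC x).trans (le_abs_self C)
  have h4 : |g y| ≤ |D| := (hD y).trans (le_abs_self D)
  calc |f x| * |g x - g y| + |g y| * |f x - f y|
      ≤ |C| * (L * dist x y) + |D| * (K * dist x y) := by gcongr
    _ = _ := by ring

theorem IsLip.comp {f : M → ℝ} (hf : IsLip f) {φ : ℝ → ℝ} {L : ℝ≥0} (hφ : LipschitzWith L φ) :
    IsLip (fun x => φ (f x)) := by
  obtain ⟨K, hK⟩ := hf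
  exact ⟨L * K, hφ.comp hK⟩

end Vale.Agent.P233.Met
end

section

/-! P233 AB, block 3 (viscous Hamilton-Jacobi by resolvents): composition with functions of one
real variable. -/

open MeasureTheory Filter Topology
open scoped ENNReal NNReal

namespace Vale.Agent.P233

variable {M : Type*} [MeasurableSpace M] {m : Measure M} {C : Calc m}

/-- Chain rule on the range of `f`. -/
theorem IsDir.hc_chain (hC : IsDir C) {f : M →ₘ[m] ℝ} (hf : f ∈ C.W) {a b : ℝ} (ha : a ≤ 0)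
    (hb : 0 ≤ b) (hab : ∀ᵐ x ∂m, a ≤ f x ∧ f x ≤ b) {φ φ' : ℝ → ℝ} (hφ : Continuous φ)
    (hφ' : Continuous φ')
    (hd : ∀ t ∈ Set.Icc a b, HasDerivWithinAt φ (φ' t) (Set.Icc a b) t) (h0 : φ 0 = 0) :
    AEEqFun.comp φ hφ f ∈ C.W ∧
      ∀ g ∈ C.W, C.Γ (AEEqFun.comp φ hφ f) g = AEEqFun.comp φ' hφ' f * C.Γ f g := by
  have hab' : a ≤ b := ha.trans hb
  set cl : ℝ → ℝ := fun t => max a (min b t) with hcl
  have hclc : Continuous cl := continuous_const.max (continuous_const.min continuous_id)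
  have hclm : ∀ t, cl t ∈ Set.Icc a b := fun t =>
    ⟨le_max_left _ _, max_le hab' (min_le_left _ _)⟩
  have hcleq : ∀ t ∈ Set.Icc a b, cl t = t := by
    intro t ht
    simp only [hcl]
    rw [min_eq_right ht.2, max_eq_right ht.1]
  set ψ' : ℝ → ℝ := fun t => φ' (cl t) with hψ'
  have hψ'c : Continuous ψ' := hφ'.comp hclc
  set ψ : ℝ → ℝ := fun t => ∫ s in (0 : ℝ)..t, ψ' s with hψ
  have hψd : ∀ t, HasDerivAt ψ (ψ' t) t := fun t =>
    (hψ'c.integral_hasStrictDerivAt 0 t).hasDerivAt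
  have hψc : Continuous ψ := continuous_iff_continuousAt.2 fun t => (hψd t).continuousAt
  have hψ0 : ψ 0 = 0 := by simp [hψ]
  obtain ⟨B, hB⟩ : ∃ B : ℝ, ∀ t, |ψ' t| ≤ B := by
    obtain ⟨B, hB⟩ := (isCompact_Icc (a := a) (b := b)).exists_bound_of_continuousOn
      hφ'.continuousOn
    exact ⟨B, fun t => hB _ (hclm t)⟩
  have hψφ : ∀ t ∈ Set.Icc a b, ψ t = φ t := by
    intro t ht
    have h1 := Convex.norm_image_sub_le_of_norm_hasDerivWithin_le (f := fun t => ψ t - φ t)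
      (f' := fun t => ψ' t - φ' t) (s := Set.Icc a b) (C := 0)
      (fun x hx => ((hψd x).hasDerivWithinAt).sub (hd x hx))
      (fun x hx => by simp only [hψ']; rw [hcleq x hx]; simp) (convex_Icc _ _)
      (show (0 : ℝ) ∈ Set.Icc a b from ⟨ha, hb⟩) ht
    rw [zero_mul, norm_le_zero_iff] at h1
    rw [hψ0, h0] at h1
    linarith
  obtain ⟨h1, h2⟩ := hC.chain f hf ψ ψ' hψc hψ'c hψd hψ0 ⟨B, hB⟩
  have e1 : AEEqFun.comp φ hφ f = AEEqFun.comp ψ hψc f := by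
    rw [eq_iff_ae]
    filter_upwards [AEEqFun.coeFn_comp φ hφ f, AEEqFun.coeFn_comp ψ hψc f, hab] with x a1 a2 a3
    rw [a1, a2, Function.comp_apply, Function.comp_apply, hψφ _ a3]
  have e2 : AEEqFun.comp φ' hφ' f = AEEqFun.comp ψ' hψ'c f := by
    rw [eq_iff_ae]
    filter_upwards [AEEqFun.coeFn_comp φ' hφ' f, AEEqFun.coeFn_comp ψ' hψ'c f, hab]
      with x a1 a2 a3
    rw [a1, a2, Function.comp_apply, Function.comp_apply]
    simp only [hψ']
    rw [hcleq _ a3]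
  rw [e1, e2]
  exact ⟨h1, h2⟩

/-- A continuous function of a bounded function is bounded. -/
theorem hc_comp_top {f : M →ₘ[m] ℝ} {a b : ℝ} (hab : ∀ᵐ x ∂m, a ≤ f x ∧ f x ≤ b) {φ : ℝ → ℝ}
    (hφ : Continuous φ) : MemLp (AEEqFun.comp φ hφ f) ∞ m := by
  obtain ⟨B, hB⟩ := (isCompact_Icc (a := a) (b := b)).exists_bound_of_continuousOn
    hφ.continuousOn
  rw [mem_top_iff]
  refine ⟨B, ?_⟩
  filter_upwards [AEEqFun.coeFn_comp φ hφ f, hab] with x h1 h2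
  rw [h1, Function.comp_apply]
  exact hB _ h2

namespace IsGamma

variable (hC : IsGamma C)
include hC

/-- The composition of a test function with a function of one variable. -/
theorem hc_comp {f : M →ₘ[m] ℝ} (hf : f ∈ C.Test) (hff : C.Γ f f ∈ C.W) {a b : ℝ} (ha : a ≤ 0)
    (hb : 0 ≤ b) (hab : ∀ᵐ x ∂m, a ≤ f x ∧ f x ≤ b) {φ φ1 φ2 φ3 : ℝ → ℝ} (hφ : Continuous φ)
    (hφ1 : Continuous φ1) (hφ2 : Continuous φ2) (hφ3 : Continuous φ3)
    (hd : ∀ t ∈ Set.Icc a b, HasDerivWithinAt φ (φ1 t) (Set.Icc a b) t)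
    (hd1 : ∀ t ∈ Set.Icc a b, HasDerivWithinAt φ1 (φ2 t) (Set.Icc a b) t)
    (hd2 : ∀ t ∈ Set.Icc a b, HasDerivWithinAt φ2 (φ3 t) (Set.Icc a b) t) (h0 : φ 0 = 0) :
    AEEqFun.comp φ hφ f ∈ C.Test ∧
      C.lap (AEEqFun.comp φ hφ f) =
        AEEqFun.comp φ1 hφ1 f * C.lap f + AEEqFun.comp φ2 hφ2 f * C.Γ f f ∧
      ∀ g ∈ C.W, C.Γ (AEEqFun.comp φ hφ f) g = AEEqFun.comp φ1 hφ1 f * C.Γ f g := by
  have hD := hC.toIsDir
  have hfA := hC.test_A hf
  have hfΓ := hC.test_Γ_top hf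
  have hfL := hC.test_isLap hf
  have hlW := hC.test_lap_mem hf
  obtain ⟨p1, p2⟩ := hD.hc_chain hfA.1 ha hb hab hφ hφ1 hd h0
  have q1 : MemLp (AEEqFun.comp φ1 hφ1 f) ∞ m := hc_comp_top hab hφ1
  have q2 : MemLp (AEEqFun.comp φ2 hφ2 f) ∞ m := hc_comp_top hab hφ2
  -- the shifted functions
  have hv1 : Continuous fun t => φ1 t - φ1 0 := hφ1.sub continuous_const
  have hv2 : Continuous fun t => φ2 t - φ2 0 := hφ2.sub continuous_const
  obtain ⟨r1, r2⟩ := hD.hc_chain hfA.1 ha hb hab hv1 hφ2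
    (fun t ht => (hd1 t ht).sub_const _) (sub_self _)
  obtain ⟨s1, s2⟩ := hD.hc_chain hfA.1 ha hb hab hv2 hφ3
    (fun t ht => (hd2 t ht).sub_const _) (sub_self _)
  set V := AEEqFun.comp (fun t => φ1 t - φ1 0) hv1 f with hV
  set V2 := AEEqFun.comp (fun t => φ2 t - φ2 0) hv2 f with hV2
  have hVA : V ∈ C.A := ⟨r1, hc_comp_top hab hv1⟩
  have hV2A : V2 ∈ C.A := ⟨s1, hc_comp_top hab hv2⟩
  have eV : AEEqFun.comp φ1 hφ1 f = φ1 0 • (1 : M →ₘ[m] ℝ) + V := by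
    rw [eq_iff_ae]
    filter_upwards [AEEqFun.coeFn_comp φ1 hφ1 f, AEEqFun.coeFn_comp _ hv1 f,
      add_ae (φ1 0 • (1 : M →ₘ[m] ℝ)) V, smul_ae (1 : M →ₘ[m] ℝ) (φ1 0), one_ae (M := M) (m := m)]
      with x a1 a2 a3 a4 a5
    rw [a1, a3, a4, a5, hV, a2]
    simp
  have eV2 : AEEqFun.comp φ2 hφ2 f = φ2 0 • (1 : M →ₘ[m] ℝ) + V2 := by
    rw [eq_iff_ae]
    filter_upwards [AEEqFun.coeFn_comp φ2 hφ2 f, AEEqFun.coeFn_comp _ hv2 f,
      add_ae (φ2 0 • (1 : M →ₘ[m] ℝ)) V2, smul_ae (1 : M →ₘ[m] ℝ) (φ2 0),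
      one_ae (M := M) (m := m)] with x a1 a2 a3 a4 a5
    rw [a1, a3, a4, a5, hV2, a2]
    simp
  have hΓt : MemLp (C.Γ (AEEqFun.comp φ hφ f) (AEEqFun.comp φ hφ f)) ∞ m := by
    rw [p2 _ p1, hD.symm _ hfA.1 _ p1, p2 _ hfA.1]
    exact mem_mul_top q1 (mem_mul_top q1 hfΓ)
  have hVΓ : MemLp (C.Γ V V) ∞ m := by
    rw [r2 _ r1, hD.symm _ hfA.1 _ r1, r2 _ hfA.1]
    exact mem_mul_top q2 (mem_mul_top q2 hfΓ)
  -- the Laplacian is a Sobolev function
  have hVl : V * C.lap f ∈ C.W := (hD.mul_mem_lip hVA hVΓ hlW)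
  have hHW : AEEqFun.comp φ1 hφ1 f * C.lap f + AEEqFun.comp φ2 hφ2 f * C.Γ f f ∈ C.W := by
    rw [eV, eV2, add_mul, add_mul, smul_mul_assoc, smul_mul_assoc, one_mul, one_mul]
    exact hD.add_mem _ (hD.add_mem _ (hD.smul_mem _ _ hlW) _ hVl) _
      (hD.add_mem _ (hD.smul_mem _ _ hff) _ (hD.mul_mem_A hV2A ⟨hff, hfΓ⟩).1)
  have hL : C.IsLap (AEEqFun.comp φ hφ f)
      (AEEqFun.comp φ1 hφ1 f * C.lap f + AEEqFun.comp φ2 hφ2 f * C.Γ f f) := by
    refine ⟨p1, hC.memLp _ hHW, fun g hg => ?_⟩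
    show I (C.Γ (AEEqFun.comp φ hφ f) g) = -I ((AEEqFun.comp φ1 hφ1 f * C.lap f
      + AEEqFun.comp φ2 hφ2 f * C.Γ f f) * g)
    have hg2 := hC.memLp g hg
    have hVg : V * g ∈ C.W := hD.mul_mem_lip hVA hVΓ hg
    have k1 : I (C.Γ f g) = -I (C.lap f * g) := hfL.2.2 g hg
    have k2 : I (C.Γ f (V * g)) = -I (C.lap f * (V * g)) := hfL.2.2 _ hVg
    have k3 : C.Γ f (V * g) = V * C.Γ f g + AEEqFun.comp φ2 hφ2 f * C.Γ f f * g := by
      rw [hD.symm _ hfA.1 _ hVg, hD.Γ_mul_left_lip hVA hVΓ hg hfA.1, hD.symm _ hg _ hfA.1,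
        r2 _ hfA.1]
      ring
    have m1 : MemLp (C.Γ f g) 1 m := hD.Γ_mem1 hfA.1 hg
    have m2 : MemLp (V * C.Γ f g) 1 m := mem_mul_top hVA.2 m1
    have m3 : MemLp (AEEqFun.comp φ2 hφ2 f * C.Γ f f * g) 1 m :=
      mem_mul_22 (mem_mul_top q2 (hC.memLp _ hff)) hg2
    have m4 : MemLp (C.lap f * g) 1 m := mem_mul_22 (hC.memLp _ hlW) hg2
    have m5 : MemLp (C.lap f * (V * g)) 1 m := mem_mul_22 (hC.memLp _ hlW) (hC.memLp _ hVg)
    rw [p2 g hg, eV, add_mul, smul_mul_assoc, one_mul, I_add (mem_smul _ m1) m2, I_smul, k1]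
    rw [k3, I_add m2 m3] at k2
    have e : (AEEqFun.comp φ1 hφ1 f * C.lap f + AEEqFun.comp φ2 hφ2 f * C.Γ f f) * g =
        φ1 0 • (C.lap f * g) + C.lap f * (V * g) + AEEqFun.comp φ2 hφ2 f * C.Γ f f * g := by
      rw [eV, add_mul, add_mul, smul_mul_assoc, one_mul, add_mul, smul_mul_assoc]
      ring
    rw [← eV, e, I_add (mem_add (mem_smul _ m4) m5) m3, I_add (mem_smul _ m4) m5, I_smul]
    linarith
  refine ⟨hC.mem_test_iff.2 ⟨p1, hc_comp_top hab hφ, hΓt, _, hL, hHW⟩, hD.lap_eq hL, p2⟩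

end IsGamma

end Vale.Agent.P233
end
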