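import Vale.Agent.P233.MathlibUsed2

set_option linter.all false

section

namespace Vale.Agent.P233.AB

open Real

/-- comparison angle in the model plane of curvature `κ`: adjacent sides `a, b`, opposite side `c` -/
noncomputable def cang (κ a b c : ℝ) : ℝ :=
  if κ = 0 then arccos ((a ^ 2 + b ^ 2 - c ^ 2) / (2 * a * b))
  else if 0 < κ then
    arccos ((cos (√κ * c) - cos (√κ * a) * cos (√κ * b)) / (sin (√κ * a) * sin (√κ * b)))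
  else arccos ((cosh (√(-κ) * a) * cosh (√(-κ) * b) - cosh (√(-κ) * c)) /
    (sinh (√(-κ) * a) * sinh (√(-κ) * b)))

end Vale.Agent.P233.AB
end

section

/-!
# P233, block H1 of project AB: trigonometry

`lss_of_angle_sum`: three comparison angles at a point with sum `≤ 2π` give the quadratic inequality
(LSS₃) with the `κ`-correction `κ/4 · H(d₁², d₂², d₃²)` up to `O(r⁶)`.
-/

namespace Vale.Agent.P233.AB

open Real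

/-- three angles with sum `2π` above given angles with sum `≤ 2π` -/
theorem exists_anglesH {t₁ t₂ t₃ : ℝ} (h₁ : t₁ ≤ π) (h₂ : t₂ ≤ π) (h₃ : t₃ ≤ π)
    (hs : t₁ + t₂ + t₃ ≤ 2 * π) :
    ∃ f₁ f₂ f₃ : ℝ, t₁ ≤ f₁ ∧ f₁ ≤ π ∧ t₂ ≤ f₂ ∧ f₂ ≤ π ∧ t₃ ≤ f₃ ∧ f₃ ≤ π ∧
      f₁ + f₂ + f₃ = 2 * π := by
  have hd : 0 < 3 * π - (t₁ + t₂ + t₃) := by linarith [pi_pos]
  obtain ⟨s, hs0, hs1, hse⟩ : ∃ s : ℝ, 0 ≤ s ∧ s ≤ 1 ∧
      s * (3 * π - (t₁ + t₂ + t₃)) = 2 * π - (t₁ + t₂ + t₃) := by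
    refine ⟨(2 * π - (t₁ + t₂ + t₃)) / (3 * π - (t₁ + t₂ + t₃)), div_nonneg (by linarith) hd.le,
      (div_le_one hd).2 (by linarith [pi_pos]), ?_⟩
    exact div_mul_cancel₀ _ hd.ne'
  have e1 := mul_nonneg hs0 (sub_nonneg.2 h₁)
  have e2 := mul_nonneg hs0 (sub_nonneg.2 h₂)
  have e3 := mul_nonneg hs0 (sub_nonneg.2 h₃)
  have g1 := mul_nonneg (sub_nonneg.2 hs1) (sub_nonneg.2 h₁)
  have g2 := mul_nonneg (sub_nonneg.2 hs1) (sub_nonneg.2 h₂)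
  have g3 := mul_nonneg (sub_nonneg.2 hs1) (sub_nonneg.2 h₃)
  exact ⟨t₁ + s * (π - t₁), t₂ + s * (π - t₂), t₃ + s * (π - t₃), by linarith, by linarith,
    by linarith, by linarith, by linarith, by linarith, by linarith⟩

private theorem abs_mul_leH {a b A B : ℝ} (ha : |a| ≤ A) (hb : |b| ≤ B) : |a * b| ≤ A * B := by
  rw [abs_mul]
  exact mul_le_mul ha hb (abs_nonneg _) ((abs_nonneg _).trans ha)

private theorem combH (y₁ y₂ s₁ s₂ u v r : ℝ) (hr : 0 ≤ r) (a₁ : |y₁| ≤ r) (a₂ : |y₂| ≤ r)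
    (b₁ : |s₁| ≤ 2 * r ^ 2) (b₂ : |s₂| ≤ 2 * r ^ 2) (cu : |u| ≤ 3 * r) (cv : |v| ≤ 4 * r ^ 2) :
    (1 / 3 * (y₁ * s₁ - y₂ * s₂) + u * v / 4) ^ 2 ≤ 25 * r ^ 6 := by
  have m1 := abs_le.1 (abs_mul_leH a₁ b₁)
  have m2 := abs_le.1 (abs_mul_leH a₂ b₂)
  have m3 := abs_le.1 (abs_mul_leH cu cv)
  have hr3 : 0 ≤ r ^ 3 := by positivity
  have e1 : r * (2 * r ^ 2) = 2 * r ^ 3 := by ring
  have e2 : 3 * r * (4 * r ^ 2) = 12 * r ^ 3 := by ring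
  rw [e1] at m1 m2
  rw [e2] at m3
  have h := sq_le_sq' (a := 1 / 3 * (y₁ * s₁ - y₂ * s₂) + u * v / 4) (b := 5 * r ^ 3)
    (by linarith only [m3.2, m3.1, m2.2, m1.1])
    (by linarith [m1.1, m1.2, m2.1, m2.2, m3.1, m3.2])
  calc _ ≤ (5 * r ^ 3) ^ 2 := h
    _ = _ := by ring

private theorem wdH {r : ℝ} (u v u' v' : ℝ) (h : u ^ 2 + v ^ 2 ≤ r ^ 2)
    (h' : u' ^ 2 + v' ^ 2 ≤ r ^ 2) :
    |u * v' - u' * v| ≤ r ^ 2 ∧ |u * u' + v * v'| ≤ r ^ 2 := by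
  have e : (u * v' - u' * v) ^ 2 + (u * u' + v * v') ^ 2 = (u ^ 2 + v ^ 2) * (u' ^ 2 + v' ^ 2) := by
    ring
  have e' : (u ^ 2 + v ^ 2) * (u' ^ 2 + v' ^ 2) ≤ r ^ 2 * r ^ 2 :=
    mul_le_mul h h' (by positivity) (by positivity)
  have e'' : r ^ 2 * r ^ 2 = (r ^ 2) ^ 2 := by ring
  exact ⟨abs_le_of_sq_le_sq (by linarith [sq_nonneg (u * u' + v * v')]) (by positivity),
    abs_le_of_sq_le_sq (by linarith [sq_nonneg (u * v' - u' * v)]) (by positivity)⟩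

/-- the planar estimate -/
theorem planarH (κ x₁ y₁ x₂ y₂ x₃ y₃ r : ℝ) (hr : 0 ≤ r) (h₁ : x₁ ^ 2 + y₁ ^ 2 ≤ r ^ 2)
    (h₂ : x₂ ^ 2 + y₂ ^ 2 ≤ r ^ 2) (h₃ : x₃ ^ 2 + y₃ ^ 2 ≤ r ^ 2) :
    -((x₁ + x₂ + x₃) ^ 2 + (y₁ + y₂ + y₃) ^ 2)
      - κ / 3 * ((x₁ * y₂ - x₂ * y₁) ^ 2 + (x₂ * y₃ - x₃ * y₂) ^ 2 + (x₃ * y₁ - x₁ * y₃) ^ 2)
      + κ / 4 * (2 * ((x₁ ^ 2 + y₁ ^ 2) * (x₂ ^ 2 + y₂ ^ 2)
        + (x₂ ^ 2 + y₂ ^ 2) * (x₃ ^ 2 + y₃ ^ 2) + (x₁ ^ 2 + y₁ ^ 2) * (x₃ ^ 2 + y₃ ^ 2))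
        - ((x₁ ^ 2 + y₁ ^ 2) ^ 2 + (x₂ ^ 2 + y₂ ^ 2) ^ 2 + (x₃ ^ 2 + y₃ ^ 2) ^ 2))
      ≤ 13 * κ ^ 2 * r ^ 6 := by
  have ab : ∀ u v : ℝ, u ^ 2 + v ^ 2 ≤ r ^ 2 → |u| ≤ r ∧ |v| ≤ r := fun u v h =>
    ⟨abs_le_of_sq_le_sq (by linarith [sq_nonneg v]) hr,
      abs_le_of_sq_le_sq (by linarith [sq_nonneg u]) hr⟩
  obtain ⟨ax1, ay1⟩ := ab _ _ h₁
  obtain ⟨ax2, ay2⟩ := ab _ _ h₂
  obtain ⟨ax3, ay3⟩ := ab _ _ h₃
  obtain ⟨aw, ap⟩ := wdH _ _ _ _ h₁ h₂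
  have aw23 := (wdH _ _ _ _ h₂ h₃).1
  have aw31 := (wdH _ _ _ _ h₃ h₁).1
  have aq : |2 * (x₁ * x₂ + y₁ * y₂) + ((x₃ ^ 2 + y₃ ^ 2) - (x₁ ^ 2 + y₁ ^ 2)
      - (x₂ ^ 2 + y₂ ^ 2))| ≤ 4 * r ^ 2 := by
    rw [abs_le] at ap ⊢
    constructor <;> linarith [sq_nonneg x₁, sq_nonneg y₁, sq_nonneg x₂, sq_nonneg y₂,
      sq_nonneg x₃, sq_nonneg y₃, ap.1, ap.2]
  have s1 : |(x₁ * y₂ - x₂ * y₁) + (x₂ * y₃ - x₃ * y₂)| ≤ 2 * r ^ 2 :=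
    (abs_add_le _ _).trans (by linarith)
  have s2 : |(x₁ * y₂ - x₂ * y₁) + (x₃ * y₁ - x₁ * y₃)| ≤ 2 * r ^ 2 :=
    (abs_add_le _ _).trans (by linarith)
  have s3 : |x₃ - x₁ - x₂| ≤ 3 * r := by
    rw [abs_le] at ax1 ax2 ax3 ⊢; constructor <;> linarith [ax1.1, ax1.2, ax2.1, ax2.2, ax3.1, ax3.2]
  have s4 : |y₃ - y₁ - y₂| ≤ 3 * r := by
    rw [abs_le] at ay1 ay2 ay3 ⊢; constructor <;> linarith [ay1.1, ay1.2, ay2.1, ay2.2, ay3.1, ay3.2]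
  have hA2 := combH _ _ _ _ _ _ _ hr ay1 ay2 s2 s1 s3 aq
  have hB2 := combH _ _ _ _ _ _ _ hr ax2 ax1 s1 s2 s4 aq
  obtain ⟨A, hA⟩ : ∃ A, A = 1 / 3 * (y₁ * ((x₁ * y₂ - x₂ * y₁) + (x₃ * y₁ - x₁ * y₃))
      - y₂ * ((x₁ * y₂ - x₂ * y₁) + (x₂ * y₃ - x₃ * y₂)))
      + (x₃ - x₁ - x₂) * (2 * (x₁ * x₂ + y₁ * y₂) + ((x₃ ^ 2 + y₃ ^ 2) - (x₁ ^ 2 + y₁ ^ 2)
      - (x₂ ^ 2 + y₂ ^ 2))) / 4 := ⟨_, rfl⟩
  obtain ⟨B, hB⟩ : ∃ B, B = 1 / 3 * (x₂ * ((x₁ * y₂ - x₂ * y₁) + (x₂ * y₃ - x₃ * y₂))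
      - x₁ * ((x₁ * y₂ - x₂ * y₁) + (x₃ * y₁ - x₁ * y₃)))
      + (y₃ - y₁ - y₂) * (2 * (x₁ * x₂ + y₁ * y₂) + ((x₃ ^ 2 + y₃ ^ 2) - (x₁ ^ 2 + y₁ ^ 2)
      - (x₂ ^ 2 + y₂ ^ 2))) / 4 := ⟨_, rfl⟩
  have key : κ / 3 * ((x₁ * y₂ - x₂ * y₁) ^ 2 + (x₂ * y₃ - x₃ * y₂) ^ 2 + (x₃ * y₁ - x₁ * y₃) ^ 2)
        - κ / 4 * (2 * ((x₁ ^ 2 + y₁ ^ 2) * (x₂ ^ 2 + y₂ ^ 2)
        + (x₂ ^ 2 + y₂ ^ 2) * (x₃ ^ 2 + y₃ ^ 2) + (x₁ ^ 2 + y₁ ^ 2) * (x₃ ^ 2 + y₃ ^ 2))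
        - ((x₁ ^ 2 + y₁ ^ 2) ^ 2 + (x₂ ^ 2 + y₂ ^ 2) ^ 2 + (x₃ ^ 2 + y₃ ^ 2) ^ 2))
      = κ * ((x₁ + x₂ + x₃) * A + (y₁ + y₂ + y₃) * B) := by
    rw [hA, hB]; ring
  rw [← hA] at hA2
  rw [← hB] at hB2
  clear hA hB
  have q1 : 0 ≤ (x₁ + x₂ + x₃) ^ 2 + κ * ((x₁ + x₂ + x₃) * A) + κ ^ 2 * A ^ 2 / 4 := by
    have := sq_nonneg ((x₁ + x₂ + x₃) + κ * A / 2)
    linarith only [this]
  have q2 : 0 ≤ (y₁ + y₂ + y₃) ^ 2 + κ * ((y₁ + y₂ + y₃) * B) + κ ^ 2 * B ^ 2 / 4 := by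
    have := sq_nonneg ((y₁ + y₂ + y₃) + κ * B / 2)
    linarith only [this]
  have hκ : 0 ≤ κ ^ 2 := sq_nonneg κ
  have g1 := mul_le_mul_of_nonneg_left hA2 hκ
  have g2 := mul_le_mul_of_nonneg_left hB2 hκ
  have g3 : 0 ≤ κ ^ 2 * r ^ 6 := by positivity
  rw [mul_add] at key
  linarith only [g3, g2, g1, q2, q1, key]

/-- half angle expansion -/
private theorem from_halfH (σ t s : ℝ) (hσ : σ = 1 ∨ σ = -1) (ht0 : 0 ≤ t) (ht : t ≤ 1)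
    (hs : |s - (t / 2 - σ * (t / 2) ^ 3 / 6)| ≤ (t / 2) ^ 5 / 100) :
    |(1 - 2 * σ * s ^ 2) - (1 - σ * t ^ 2 / 2 + t ^ 4 / 24)| ≤ t ^ 6 / 100 := by
  obtain ⟨e, he⟩ : ∃ e, e = s - (t / 2 - σ * (t / 2) ^ 3 / 6) := ⟨_, rfl⟩
  rw [← he] at hs
  have hs' : |e| ≤ t ^ 5 / 3200 := by
    have : (t / 2) ^ 5 / 100 = t ^ 5 / 3200 := by ring
    linarith
  have hse : s = t / 2 - σ * (t / 2) ^ 3 / 6 + e := by linarith
  have ht3 : t ^ 3 ≤ t := by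
    calc t ^ 3 ≤ t ^ 1 := pow_le_pow_of_le_one ht0 ht (by norm_num)
      _ = t := pow_one t
  have ht30 : 0 ≤ t ^ 3 := by positivity
  have ht6 : 0 ≤ t ^ 6 := by positivity
  have h1 : |t / 2 - σ * t ^ 3 / 48| ≤ t := by
    rw [abs_le]
    rcases hσ with rfl | rfl <;> constructor <;> linarith only [ht30, ht3]
  have h2 := abs_le.1 (abs_mul_leH hs' h1)
  have h3 := abs_le.1 (abs_mul_leH hs' hs')
  have h4 : t ^ 5 / 3200 * (t ^ 5 / 3200) ≤ t ^ 6 / 3200 := by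
    have : t ^ 10 ≤ t ^ 6 := pow_le_pow_of_le_one ht0 ht (by norm_num)
    have e : t ^ 5 / 3200 * (t ^ 5 / 3200) = t ^ 10 / 10240000 := by ring
    rw [e]; linarith only [this, ht6]
  have e5 : t ^ 5 / 3200 * t = t ^ 6 / 3200 := by ring
  rw [e5] at h2
  have key : (1 - 2 * σ * s ^ 2) - (1 - σ * t ^ 2 / 2 + t ^ 4 / 24)
      = - 2 * σ * (t ^ 6 / 2304 + 2 * (e * (t / 2 - σ * t ^ 3 / 48)) + e * e) := by
    rw [hse]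
    rcases hσ with rfl | rfl <;> ring
  rw [key, abs_le]
  rcases hσ with rfl | rfl <;> constructor <;> linarith [h2.1, h2.2, h3.1, h3.2]

private theorem mono6H {a b r : ℝ} (ha : 0 ≤ a) (har : a ≤ r) (hb : 0 ≤ b) (hbr : b ≤ r)
    (i j k : ℕ) (h : i + j = k) : 0 ≤ a ^ i * b ^ j ∧ a ^ i * b ^ j ≤ r ^ k := by
  refine ⟨by positivity, ?_⟩
  rw [← h, pow_add]
  exact mul_le_mul (pow_le_pow_left₀ ha har i) (pow_le_pow_left₀ hb hbr j) (by positivity)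
    (pow_nonneg (ha.trans har) i)

private theorem remCH (σ a b r Ca Cb : ℝ) (hσ : σ = 1 ∨ σ = -1) (ha : 0 ≤ a) (har : a ≤ r)
    (hb : 0 ≤ b) (hbr : b ≤ r) (hr : r ≤ 1 / 2)
    (hCa : |Ca - (1 - σ * a ^ 2 / 2 + a ^ 4 / 24)| ≤ a ^ 6 / 100)
    (hCb : |Cb - (1 - σ * b ^ 2 / 2 + b ^ 4 / 24)| ≤ b ^ 6 / 100) :
    |Ca * Cb - (1 - σ * a ^ 2 / 2 - σ * b ^ 2 / 2 + a ^ 4 / 24 + b ^ 4 / 24 + a ^ 2 * b ^ 2 / 4)|
      ≤ r ^ 6 / 10 := by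
  have hr0 : 0 ≤ r := ha.trans har
  obtain ⟨ea, hea⟩ : ∃ e, e = Ca - (1 - σ * a ^ 2 / 2 + a ^ 4 / 24) := ⟨_, rfl⟩
  obtain ⟨eb, heb⟩ : ∃ e, e = Cb - (1 - σ * b ^ 2 / 2 + b ^ 4 / 24) := ⟨_, rfl⟩
  rw [← hea] at hCa
  rw [← heb] at hCb
  have r2 : r ^ 2 ≤ (1 / 2) ^ 2 := pow_le_pow_left₀ hr0 hr 2
  have r4 : r ^ 4 ≤ (1 / 2) ^ 4 := pow_le_pow_left₀ hr0 hr 4
  have r6 : r ^ 6 ≤ (1 / 2) ^ 6 := pow_le_pow_left₀ hr0 hr 6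
  have r60 : 0 ≤ r ^ 6 := by positivity
  have a2 := pow_le_pow_left₀ ha har 2
  have a4 := pow_le_pow_left₀ ha har 4
  have a6 := pow_le_pow_left₀ ha har 6
  have b2 := pow_le_pow_left₀ hb hbr 2
  have b4 := pow_le_pow_left₀ hb hbr 4
  have b6 := pow_le_pow_left₀ hb hbr 6
  have a20 : 0 ≤ a ^ 2 := by positivity
  have a40 : 0 ≤ a ^ 4 := by positivity
  have b20 : 0 ≤ b ^ 2 := by positivity
  have b40 : 0 ≤ b ^ 4 := by positivity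
  have hCa' : |ea| ≤ r ^ 6 / 100 := by linarith only [a6, hCa]
  have hCb' : |eb| ≤ r ^ 6 / 100 := by linarith only [b6, hCb]
  have hPa : |1 - σ * a ^ 2 / 2 + a ^ 4 / 24| ≤ 6 / 5 := by
    rw [abs_le]
    norm_num at r2 r4
    rcases hσ with rfl | rfl <;> constructor <;> linarith
  have hCbb : |Cb| ≤ 6 / 5 := by
    have h1 := abs_le.1 hCb'
    have h2 : Cb = 1 - σ * b ^ 2 / 2 + b ^ 4 / 24 + eb := by linarith
    rw [h2, abs_le]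
    norm_num at r2 r4 r6
    rcases hσ with rfl | rfl <;> constructor <;> linarith [h1.1, h1.2]
  have m1 := abs_le.1 (abs_mul_leH hCa' hCbb)
  have m2 := abs_le.1 (abs_mul_leH hCb' hPa)
  have n1 := mono6H ha har hb hbr 2 4 6 rfl
  have n2 := mono6H ha har hb hbr 4 2 6 rfl
  have n3 := mono6H ha har hb hbr 4 4 8 rfl
  have n4 : r ^ 8 ≤ r ^ 6 := pow_le_pow_of_le_one hr0 (by linarith only [hr]) (by norm_num)
  have key : Ca * Cb - (1 - σ * a ^ 2 / 2 - σ * b ^ 2 / 2 + a ^ 4 / 24 + b ^ 4 / 24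
      + a ^ 2 * b ^ 2 / 4) = -σ * (a ^ 2 * b ^ 4 + a ^ 4 * b ^ 2) / 48 + a ^ 4 * b ^ 4 / 576
      + ea * Cb + eb * (1 - σ * a ^ 2 / 2 + a ^ 4 / 24) := by
    rw [hea, heb]
    rcases hσ with rfl | rfl <;> ring
  rw [key, abs_le]
  rcases hσ with rfl | rfl <;> constructor <;>
    linarith [m1.1, m1.2, m2.1, m2.2, n1.1, n1.2, n2.1, n2.2, n3.1, n3.2]

private theorem remSH (σ a b r Sa Sb : ℝ) (hσ : σ = 1 ∨ σ = -1) (ha : 0 ≤ a) (har : a ≤ r)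
    (hb : 0 ≤ b) (hbr : b ≤ r) (hr : r ≤ 1 / 2)
    (hSa : |Sa - (a - σ * a ^ 3 / 6)| ≤ a ^ 5 / 100)
    (hSb : |Sb - (b - σ * b ^ 3 / 6)| ≤ b ^ 5 / 100) :
    |Sa * Sb - (a * b - σ * (a ^ 3 * b + a * b ^ 3) / 6)| ≤ r ^ 6 / 10 := by
  have hr0 : 0 ≤ r := ha.trans har
  obtain ⟨ea, hea⟩ : ∃ e, e = Sa - (a - σ * a ^ 3 / 6) := ⟨_, rfl⟩
  obtain ⟨eb, heb⟩ : ∃ e, e = Sb - (b - σ * b ^ 3 / 6) := ⟨_, rfl⟩
  rw [← hea] at hSa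
  rw [← heb] at hSb
  have r60 : 0 ≤ r ^ 6 := by positivity
  have q3 : r ^ 3 ≤ r / 4 := by
    have : r * r ^ 2 ≤ r * (1 / 2) ^ 2 :=
      mul_le_mul_of_nonneg_left (pow_le_pow_left₀ hr0 hr 2) hr0
    linarith only [this]
  have q5 : r ^ 5 ≤ r / 16 := by
    have : r * r ^ 4 ≤ r * (1 / 2) ^ 4 :=
      mul_le_mul_of_nonneg_left (pow_le_pow_left₀ hr0 hr 4) hr0
    linarith only [this]
  have a3 := pow_le_pow_left₀ ha har 3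
  have a5 := pow_le_pow_left₀ ha har 5
  have b3 := pow_le_pow_left₀ hb hbr 3
  have b5 := pow_le_pow_left₀ hb hbr 5
  have a30 : 0 ≤ a ^ 3 := by positivity
  have b30 : 0 ≤ b ^ 3 := by positivity
  have hSa' : |ea| ≤ r ^ 5 / 100 := by linarith only [a5, hSa]
  have hSb' : |eb| ≤ r ^ 5 / 100 := by linarith only [b5, hSb]
  have hPa : |a - σ * a ^ 3 / 6| ≤ 6 / 5 * r := by
    rw [abs_le]
    rcases hσ with rfl | rfl <;> constructor <;> linarith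
  have hSbb : |Sb| ≤ 6 / 5 * r := by
    have h1 := abs_le.1 hSb'
    have h2 : Sb = b - σ * b ^ 3 / 6 + eb := by linarith
    rw [h2, abs_le]
    rcases hσ with rfl | rfl <;> constructor <;> linarith [h1.1, h1.2]
  have m1 := abs_le.1 (abs_mul_leH hSa' hSbb)
  have m2 := abs_le.1 (abs_mul_leH hSb' hPa)
  have e1 : r ^ 5 / 100 * (6 / 5 * r) = 6 / 500 * r ^ 6 := by ring
  rw [e1] at m1 m2
  have n1 := mono6H ha har hb hbr 3 3 6 rfl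
  have key : Sa * Sb - (a * b - σ * (a ^ 3 * b + a * b ^ 3) / 6)
      = a ^ 3 * b ^ 3 / 36 + ea * Sb + eb * (a - σ * a ^ 3 / 6) := by
    rw [hea, heb]
    rcases hσ with rfl | rfl <;> ring
  rw [key, abs_le]
  constructor <;> linarith [m1.1, m1.2, m2.1, m2.2, n1.1, n1.2]

/-- the abstract law of cosines, `σ = ±1` the sign of the curvature -/
private theorem lawH (σ a b c x r Ca Cb Cc Sa Sb : ℝ) (hσ : σ = 1 ∨ σ = -1) (ha : 0 ≤ a)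
    (har : a ≤ r) (hb : 0 ≤ b) (hbr : b ≤ r) (hc : 0 ≤ c) (hcr : c ≤ 2 * r) (hr : r ≤ 1 / 2)
    (hx : |x| ≤ 1)
    (hCa : |Ca - (1 - σ * a ^ 2 / 2 + a ^ 4 / 24)| ≤ a ^ 6 / 100)
    (hCb : |Cb - (1 - σ * b ^ 2 / 2 + b ^ 4 / 24)| ≤ b ^ 6 / 100)
    (hCc : |Cc - (1 - σ * c ^ 2 / 2 + c ^ 4 / 24)| ≤ c ^ 6 / 100)
    (hSa : |Sa - (a - σ * a ^ 3 / 6)| ≤ a ^ 5 / 100)
    (hSb : |Sb - (b - σ * b ^ 3 / 6)| ≤ b ^ 5 / 100)
    (law : Cc = Ca * Cb + σ * (Sa * Sb) * x) :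
    c ^ 2 ≤ a ^ 2 + b ^ 2 - 2 * a * b * x - σ / 3 * (a ^ 2 * b ^ 2) * (1 - x ^ 2) + 5 * r ^ 6 := by
  have hr0 : 0 ≤ r := ha.trans har
  have hR1 := remCH σ a b r Ca Cb hσ ha har hb hbr hr hCa hCb
  have hR2 := remSH σ a b r Sa Sb hσ ha har hb hbr hr hSa hSb
  obtain ⟨R1, h1⟩ : ∃ R, R = Ca * Cb - (1 - σ * a ^ 2 / 2 - σ * b ^ 2 / 2 + a ^ 4 / 24
    + b ^ 4 / 24 + a ^ 2 * b ^ 2 / 4) := ⟨_, rfl⟩
  obtain ⟨R2, h2⟩ : ∃ R, R = Sa * Sb - (a * b - σ * (a ^ 3 * b + a * b ^ 3) / 6) := ⟨_, rfl⟩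
  obtain ⟨ec, hec⟩ : ∃ e, e = Cc - (1 - σ * c ^ 2 / 2 + c ^ 4 / 24) := ⟨_, rfl⟩
  rw [← h1] at hR1
  rw [← h2] at hR2
  rw [← hec] at hCc
  have hc6 : c ^ 6 ≤ 64 * r ^ 6 := by
    calc c ^ 6 ≤ (2 * r) ^ 6 := pow_le_pow_left₀ hc hcr 6
      _ = 64 * r ^ 6 := by ring
  have hc4 : c ^ 4 ≤ 16 * r ^ 4 := by
    calc c ^ 4 ≤ (2 * r) ^ 4 := pow_le_pow_left₀ hc hcr 4
      _ = 16 * r ^ 4 := by ring
  have hc2 : c ^ 2 ≤ 4 * r ^ 2 := by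
    calc c ^ 2 ≤ (2 * r) ^ 2 := pow_le_pow_left₀ hc hcr 2
      _ = 4 * r ^ 2 := by ring
  have hec' : |ec| ≤ 64 / 100 * r ^ 6 := by linarith only [hc6, hCc]
  have xR2 : |x * R2| ≤ r ^ 6 / 10 := by
    have := abs_mul_leH hx hR2
    linarith only [this]
  -- first order expansion
  have r60 : 0 ≤ r ^ 6 := by positivity
  have r40 : 0 ≤ r ^ 4 := by positivity
  have r64 : r ^ 6 ≤ r ^ 4 / 4 := by
    have : r ^ 4 * r ^ 2 ≤ r ^ 4 * (1 / 2) ^ 2 :=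
      mul_le_mul_of_nonneg_left (pow_le_pow_left₀ hr0 hr 2) r40
    linarith only [this]
  have n0 := mono6H ha har hb hbr 4 0 4 rfl
  have n1 := mono6H ha har hb hbr 0 4 4 rfl
  have n2 := mono6H ha har hb hbr 2 2 4 rfl
  have n3 := mono6H ha har hb hbr 3 1 4 rfl
  have n4 := mono6H ha har hb hbr 1 3 4 rfl
  have n5 := mono6H ha har hb hbr 1 1 2 rfl
  simp only [pow_zero, mul_one, one_mul, pow_one] at n0 n1 n2 n3 n4 n5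
  have hab : |a ^ 3 * b + a * b ^ 3| ≤ 2 * r ^ 4 := by
    rw [abs_of_nonneg (by linarith only [n4.1, n3.1])]; linarith only [n4.2, n3.2]
  have hxab := abs_le.1 (abs_mul_leH hx hab)
  have hab1 : |a * b| ≤ r ^ 2 := by
    rw [abs_of_nonneg n5.1]; exact n5.2
  have hxab1 := abs_le.1 (abs_mul_leH hx hab1)
  obtain ⟨Q, hQ⟩ : ∃ Q, Q = a ^ 2 + b ^ 2 - 2 * (x * (a * b)) := ⟨_, rfl⟩
  have b1 := abs_le.1 hR1
  have b2 := abs_le.1 xR2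
  have b3 := abs_le.1 hec'
  have a2 := pow_le_pow_left₀ ha har 2
  have b2' := pow_le_pow_left₀ hb hbr 2
  have a20 : 0 ≤ a ^ 2 := by (clear * -; positivity)
  have b20 : 0 ≤ b ^ 2 := by positivity
  have c20 : 0 ≤ c ^ 2 := by positivity
  have c40 : 0 ≤ c ^ 4 := by positivity
  have id1 : c ^ 2 - Q = σ * c ^ 4 / 12 + 2 * σ * ec - σ * (a ^ 4 + b ^ 4) / 12
      - σ * (a ^ 2 * b ^ 2) / 2 - 2 * σ * R1 + σ * (x * (a ^ 3 * b + a * b ^ 3)) / 3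
      - 2 * (x * R2) := by
    rw [hQ, hec, h1, h2, law]
    rcases hσ with rfl | rfl <;> ring
  have hcQ : |c ^ 2 - Q| ≤ 4 * r ^ 4 := by
    rw [id1, abs_le]
    rcases hσ with rfl | rfl <;> constructor <;>
      linarith [b1.1, b1.2, b2.1, b2.2, b3.1, b3.2, hxab.1, hxab.2, n0.1, n0.2, n1.1, n1.2,
        n2.1, n2.2]
  have hcQ' : |c ^ 2 + Q| ≤ 8 * r ^ 2 := by
    rw [hQ, abs_le]
    constructor <;> linarith [hxab1.1, hxab1.2]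
  have hcQ4 := abs_le.1 (abs_mul_leH hcQ hcQ')
  have e8 : 4 * r ^ 4 * (8 * r ^ 2) = 32 * r ^ 6 := by ring
  rw [e8] at hcQ4
  have id2 : c ^ 2 - (a ^ 2 + b ^ 2 - 2 * a * b * x - σ / 3 * (a ^ 2 * b ^ 2) * (1 - x ^ 2))
      = σ * ((c ^ 2 - Q) * (c ^ 2 + Q)) / 12 + 2 * σ * ec - 2 * σ * R1 - 2 * (x * R2) := by
    rw [hQ, hec, h1, h2, law]
    rcases hσ with rfl | rfl <;> ring
  have : |c ^ 2 - (a ^ 2 + b ^ 2 - 2 * a * b * x - σ / 3 * (a ^ 2 * b ^ 2) * (1 - x ^ 2))|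
      ≤ 5 * r ^ 6 := by
    rw [id2, abs_le]
    rcases hσ with rfl | rfl <;> constructor <;>
      linarith [b1.1, b1.2, b2.1, b2.2, b3.1, b3.2, hcQ4.1, hcQ4.2]
  linarith only [(abs_le.1 this).2]

private theorem sin_boundH (t : ℝ) (h0 : 0 ≤ t) (h1 : t ≤ 1) :
    |sin t - (t - 1 * t ^ 3 / 6)| ≤ t ^ 5 / 100 := by
  have h := Real.sin_bound (x := t) (by rw [abs_of_nonneg h0]; exact h1)
  rw [abs_of_nonneg h0] at h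
  rwa [one_mul]

private theorem sinh_boundH (t : ℝ) (h0 : 0 ≤ t) (h1 : t ≤ 1) :
    |sinh t - (t - (-1) * t ^ 3 / 6)| ≤ t ^ 5 / 100 := by
  have h := Complex.sin_bound (x := (t : ℂ) * Complex.I) (by
    rw [norm_mul, Complex.norm_I, mul_one, Complex.norm_real, Real.norm_eq_abs, abs_of_nonneg h0]
    exact h1)
  have e : Complex.sin ((t : ℂ) * Complex.I) - ((t : ℂ) * Complex.I - ((t : ℂ) * Complex.I) ^ 3 / 6)
      = ((sinh t - (t - (-1) * t ^ 3 / 6) : ℝ) : ℂ) * Complex.I := by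
    rw [Complex.sin_mul_I, mul_pow, Complex.I_pow_three]
    push_cast
    ring
  rw [e, norm_mul, norm_mul, Complex.norm_I, mul_one, mul_one, Complex.norm_real,
    Complex.norm_real, Real.norm_eq_abs, Real.norm_eq_abs, abs_of_nonneg h0] at h
  exact h

private theorem cos_boundH (t : ℝ) (h0 : 0 ≤ t) (h1 : t ≤ 1) :
    |cos t - (1 - 1 * t ^ 2 / 2 + t ^ 4 / 24)| ≤ t ^ 6 / 100 := by
  have h := from_halfH 1 t (sin (t / 2)) (Or.inl rfl) h0 h1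
    (sin_boundH (t / 2) (by linarith) (by linarith))
  have e : cos t = 1 - 2 * 1 * sin (t / 2) ^ 2 := by
    have h2 : t = 2 * (t / 2) := by ring
    conv_lhs => rw [h2, cos_two_mul]
    linarith [sin_sq_add_cos_sq (t / 2)]
  rwa [← e] at h

private theorem cosh_boundH (t : ℝ) (h0 : 0 ≤ t) (h1 : t ≤ 1) :
    |cosh t - (1 - (-1) * t ^ 2 / 2 + t ^ 4 / 24)| ≤ t ^ 6 / 100 := by
  have h := from_halfH (-1) t (sinh (t / 2)) (Or.inr rfl) h0 h1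
    (sinh_boundH (t / 2) (by linarith) (by linarith))
  have e : cosh t = 1 - 2 * (-1) * sinh (t / 2) ^ 2 := by
    have h2 : t = 2 * (t / 2) := by ring
    conv_lhs => rw [h2, cosh_two_mul]
    linarith [cosh_sq (t / 2)]
  rwa [← e] at h

/-- law of cosines, curvature `1` -/
private theorem law_posH {a b c r : ℝ} (ha : 0 < a) (har : a ≤ r) (hb : 0 < b) (hbr : b ≤ r)
    (hr : r ≤ 1 / 2) (h1 : |a - b| ≤ c) (h2 : c ≤ a + b) :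
    |(cos c - cos a * cos b) / (sin a * sin b)| ≤ 1 ∧
    c ^ 2 ≤ a ^ 2 + b ^ 2 - 2 * a * b * ((cos c - cos a * cos b) / (sin a * sin b))
      - 1 / 3 * (a ^ 2 * b ^ 2) * (1 - ((cos c - cos a * cos b) / (sin a * sin b)) ^ 2)
      + 5 * r ^ 6 := by
  have hpi := pi_gt_three
  have sa : 0 < sin a := sin_pos_of_pos_of_lt_pi ha (by linarith)
  have sb : 0 < sin b := sin_pos_of_pos_of_lt_pi hb (by linarith)
  have sab : 0 < sin a * sin b := mul_pos sa sb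
  have hc : 0 ≤ c := (abs_nonneg _).trans h1
  have hx : |(cos c - cos a * cos b) / (sin a * sin b)| ≤ 1 := by
    rw [abs_le]
    constructor
    · rw [le_div_iff₀ sab]
      have := cos_le_cos_of_nonneg_of_le_pi hc (by linarith : a + b ≤ π) h2
      rw [cos_add] at this
      linarith
    · rw [div_le_iff₀ sab]
      have := cos_le_cos_of_nonneg_of_le_pi (abs_nonneg (a - b)) (by linarith : c ≤ π) h1
      rw [cos_abs, cos_sub] at this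
      linarith
  refine ⟨hx, ?_⟩
  refine lawH 1 a b c _ r (cos a) (cos b) (cos c) (sin a) (sin b) (Or.inl rfl) ha.le har hb.le hbr
    hc (by linarith) hr hx (cos_boundH a ha.le (by linarith)) (cos_boundH b hb.le (by linarith))
    (cos_boundH c hc (by linarith)) (sin_boundH a ha.le (by linarith))
    (sin_boundH b hb.le (by linarith)) ?_
  rw [one_mul, mul_div_cancel₀ _ sab.ne']
  ring

/-- law of cosines, curvature `-1` -/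
private theorem law_negH {a b c r : ℝ} (ha : 0 < a) (har : a ≤ r) (hb : 0 < b) (hbr : b ≤ r)
    (hr : r ≤ 1 / 2) (h1 : |a - b| ≤ c) (h2 : c ≤ a + b) :
    |(cosh a * cosh b - cosh c) / (sinh a * sinh b)| ≤ 1 ∧
    c ^ 2 ≤ a ^ 2 + b ^ 2 - 2 * a * b * ((cosh a * cosh b - cosh c) / (sinh a * sinh b))
      - (-1) / 3 * (a ^ 2 * b ^ 2) * (1 - ((cosh a * cosh b - cosh c) / (sinh a * sinh b)) ^ 2)
      + 5 * r ^ 6 := by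
  have sa : 0 < sinh a := sinh_pos_iff.2 ha
  have sb : 0 < sinh b := sinh_pos_iff.2 hb
  have sab : 0 < sinh a * sinh b := mul_pos sa sb
  have hc : 0 ≤ c := (abs_nonneg _).trans h1
  have hx : |(cosh a * cosh b - cosh c) / (sinh a * sinh b)| ≤ 1 := by
    rw [abs_le]
    constructor
    · rw [le_div_iff₀ sab]
      have : cosh c ≤ cosh (a + b) := by
        rw [cosh_le_cosh, abs_of_nonneg hc, abs_of_nonneg (by linarith)]; exact h2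
      rw [cosh_add] at this
      linarith
    · rw [div_le_iff₀ sab]
      have : cosh (a - b) ≤ cosh c := by
        rw [cosh_le_cosh, abs_of_nonneg hc]; exact h1
      rw [cosh_sub] at this
      linarith
  refine ⟨hx, ?_⟩
  refine lawH (-1) a b c _ r (cosh a) (cosh b) (cosh c) (sinh a) (sinh b) (Or.inr rfl) ha.le har
    hb.le hbr hc (by linarith) hr hx (cosh_boundH a ha.le (by linarith))
    (cosh_boundH b hb.le (by linarith)) (cosh_boundH c hc (by linarith))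
    (sinh_boundH a ha.le (by linarith)) (sinh_boundH b hb.le (by linarith)) ?_
  have e := mul_div_cancel₀ (cosh a * cosh b - cosh c) sab.ne'
  have : (-1 : ℝ) * (sinh a * sinh b) * ((cosh a * cosh b - cosh c) / (sinh a * sinh b))
      = -(sinh a * sinh b * ((cosh a * cosh b - cosh c) / (sinh a * sinh b))) := by ring
  rw [this, mul_div_cancel₀ _ sab.ne']
  ring

private theorem scaleH {k a b c r x s : ℝ} (hk : 0 < k)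
    (h : (k * c) ^ 2 ≤ (k * a) ^ 2 + (k * b) ^ 2 - 2 * (k * a) * (k * b) * x
      - s / 3 * ((k * a) ^ 2 * (k * b) ^ 2) * (1 - x ^ 2) + 5 * (k * r) ^ 6) :
    c ^ 2 ≤ a ^ 2 + b ^ 2 - 2 * a * b * x - s * k ^ 2 / 3 * (a ^ 2 * b ^ 2) * (1 - x ^ 2)
      + 5 * (k ^ 2) ^ 2 * r ^ 6 := by
  have hk2 : 0 < k ^ 2 := by positivity
  refine le_of_mul_le_mul_left ?_ hk2
  linarith

theorem cang_nonnegH (κ a b c : ℝ) : 0 ≤ cang κ a b c := by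
  unfold cang; split_ifs <;> exact arccos_nonneg _

theorem cang_le_piH (κ a b c : ℝ) : cang κ a b c ≤ π := by
  unfold cang; split_ifs <;> exact arccos_le_pi _

/-- law of cosines in the model plane of curvature `κ`, up to sixth order -/
theorem law_of_cosinesH (κ : ℝ) {a b c r : ℝ} (ha : 0 < a) (har : a ≤ r) (hb : 0 < b) (hbr : b ≤ r)
    (hr : √|κ| * r ≤ 1 / 2) (h1 : |a - b| ≤ c) (h2 : c ≤ a + b) :
    c ^ 2 ≤ a ^ 2 + b ^ 2 - 2 * a * b * cos (cang κ a b c)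
      - κ / 3 * (a ^ 2 * b ^ 2) * (1 - cos (cang κ a b c) ^ 2) + 5 * κ ^ 2 * r ^ 6 := by
  have hab : 0 < 2 * a * b := by positivity
  rcases lt_trichotomy κ 0 with hκ | hκ | hκ
  · have hk : 0 < √(-κ) := sqrt_pos.2 (by linarith)
    have hk2 : √(-κ) ^ 2 = -κ := sq_sqrt (by linarith)
    rw [abs_of_neg hκ] at hr
    have e1 : |√(-κ) * a - √(-κ) * b| ≤ √(-κ) * c := by
      rw [← mul_sub, abs_mul, abs_of_pos hk]
      exact mul_le_mul_of_nonneg_left h1 hk.le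
    have e2 : √(-κ) * c ≤ √(-κ) * a + √(-κ) * b := by
      rw [← mul_add]; exact mul_le_mul_of_nonneg_left h2 hk.le
    obtain ⟨hx, h⟩ := law_negH (mul_pos hk ha) (mul_le_mul_of_nonneg_left har hk.le)
      (mul_pos hk hb) (mul_le_mul_of_nonneg_left hbr hk.le) hr e1 e2
    have hc : cos (cang κ a b c) = (cosh (√(-κ) * a) * cosh (√(-κ) * b) - cosh (√(-κ) * c)) /
        (sinh (√(-κ) * a) * sinh (√(-κ) * b)) := by
      unfold cang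
      rw [if_neg hκ.ne, if_neg hκ.not_gt]
      exact cos_arccos (abs_le.1 hx).1 (abs_le.1 hx).2
    rw [hc]
    have := scaleH hk h
    rw [hk2] at this
    linarith only [this]
  · subst hκ
    have hx : cos (cang 0 a b c) = (a ^ 2 + b ^ 2 - c ^ 2) / (2 * a * b) := by
      unfold cang
      rw [if_pos rfl]
      have h0 : 0 ≤ c := (abs_nonneg _).trans h1
      have s1 : (a - b) ^ 2 ≤ c ^ 2 := sq_le_sq.2 (by rwa [abs_of_nonneg h0])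
      have s2 : c ^ 2 ≤ (a + b) ^ 2 := pow_le_pow_left₀ h0 h2 2
      refine cos_arccos ?_ ?_
      · rw [le_div_iff₀ hab]; linarith
      · rw [div_le_iff₀ hab]; linarith only [s1]
    rw [hx, mul_div_cancel₀ _ hab.ne']
    linarith only []
  · have hk : 0 < √κ := sqrt_pos.2 hκ
    have hk2 : √κ ^ 2 = κ := sq_sqrt hκ.le
    rw [abs_of_pos hκ] at hr
    have e1 : |√κ * a - √κ * b| ≤ √κ * c := by
      rw [← mul_sub, abs_mul, abs_of_pos hk]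
      exact mul_le_mul_of_nonneg_left h1 hk.le
    have e2 : √κ * c ≤ √κ * a + √κ * b := by
      rw [← mul_add]; exact mul_le_mul_of_nonneg_left h2 hk.le
    obtain ⟨hx, h⟩ := law_posH (mul_pos hk ha) (mul_le_mul_of_nonneg_left har hk.le)
      (mul_pos hk hb) (mul_le_mul_of_nonneg_left hbr hk.le) hr e1 e2
    have hc : cos (cang κ a b c) = (cos (√κ * c) - cos (√κ * a) * cos (√κ * b)) /
        (sin (√κ * a) * sin (√κ * b)) := by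
      unfold cang
      rw [if_neg hκ.ne', if_pos hκ]
      exact cos_arccos (abs_le.1 hx).1 (abs_le.1 hx).2
    rw [hc]
    have := scaleH hk h
    rw [hk2] at this
    linarith only [this]

/-- larger angle, larger opposite side -/
private theorem replH {κ a b r x y : ℝ} (hκ : |κ| * r ^ 2 ≤ 1) (ha : 0 ≤ a) (har : a ≤ r)
    (hb : 0 ≤ b) (hbr : b ≤ r) (hxy : y ≤ x) (hx : |x| ≤ 1) (hy : |y| ≤ 1) :
    -2 * a * b * x - κ / 3 * (a ^ 2 * b ^ 2) * (1 - x ^ 2)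
      ≤ -2 * a * b * y - κ / 3 * (a ^ 2 * b ^ 2) * (1 - y ^ 2) := by
  have hab : a * b ≤ r ^ 2 := by
    have := mul_le_mul har hbr hb (ha.trans har)
    linarith
  have hab0 : 0 ≤ a * b := mul_nonneg ha hb
  have h1 : |κ * (a * b)| ≤ 1 := by
    rw [abs_mul, abs_of_nonneg hab0]
    exact (mul_le_mul_of_nonneg_left hab (abs_nonneg κ)).trans hκ
  have h2 : |x + y| ≤ 2 := (abs_add_le _ _).trans (by linarith)
  have h3 := abs_le.1 (abs_mul_leH h1 h2)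
  have h4 : 0 ≤ a * b * (x - y) * (2 - κ * (a * b) * (x + y) / 3) :=
    mul_nonneg (mul_nonneg hab0 (by linarith)) (by linarith only [h3.2])
  have h5 : a * b * (x - y) * (2 - κ * (a * b) * (x + y) / 3)
      = (-2 * a * b * y - κ / 3 * (a ^ 2 * b ^ 2) * (1 - y ^ 2))
        - (-2 * a * b * x - κ / 3 * (a ^ 2 * b ^ 2) * (1 - x ^ 2)) := by ring
  linarith only [h4]

theorem lss_of_angle_sum (κ : ℝ) :
    ∃ r₀ > 0, ∃ C ≥ 0, ∀ d₁ d₂ d₃ c₁₂ c₂₃ c₁₃ r : ℝ, 0 < d₁ → 0 < d₂ → 0 < d₃ → d₁ ≤ r → d₂ ≤ r →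
      d₃ ≤ r → r ≤ r₀ → |d₁ - d₂| ≤ c₁₂ → c₁₂ ≤ d₁ + d₂ → |d₂ - d₃| ≤ c₂₃ → c₂₃ ≤ d₂ + d₃ →
      |d₁ - d₃| ≤ c₁₃ → c₁₃ ≤ d₁ + d₃ →
      cang κ d₁ d₂ c₁₂ + cang κ d₂ d₃ c₂₃ + cang κ d₁ d₃ c₁₃ ≤ 2 * π →
      c₁₂ ^ 2 + c₂₃ ^ 2 + c₁₃ ^ 2 + κ / 4 * (2 * (d₁ ^ 2 * d₂ ^ 2 + d₂ ^ 2 * d₃ ^ 2
        + d₁ ^ 2 * d₃ ^ 2) - (d₁ ^ 4 + d₂ ^ 4 + d₃ ^ 4))
        ≤ 3 * (d₁ ^ 2 + d₂ ^ 2 + d₃ ^ 2) + C * r ^ 6 := by
  have hs0 : 0 ≤ √|κ| := sqrt_nonneg _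
  refine ⟨1 / (2 * (√|κ| + 1)), by positivity, 28 * κ ^ 2, by positivity, ?_⟩
  intro d₁ d₂ d₃ c₁₂ c₂₃ c₁₃ r h1 h2 h3 h1r h2r h3r hr a12 b12 a23 b23 a13 b13 hsum
  have hr0 : 0 < r := h1.trans_le h1r
  have hkr : √|κ| * r ≤ 1 / 2 := by
    have h : (√|κ| + 1) * r ≤ (√|κ| + 1) * (1 / (2 * (√|κ| + 1))) :=
      mul_le_mul_of_nonneg_left hr (by positivity)
    have e : (√|κ| + 1) * (1 / (2 * (√|κ| + 1))) = 1 / 2 := by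
      field_simp
    rw [e] at h
    linarith only [h, hr0]
  have hκr : |κ| * r ^ 2 ≤ 1 := by
    have h := pow_le_pow_left₀ (by positivity) hkr 2
    rw [mul_pow, sq_sqrt (abs_nonneg κ)] at h
    linarith only [h]
  have L12 := law_of_cosinesH κ h1 h1r h2 h2r hkr a12 b12
  have L23 := law_of_cosinesH κ h2 h2r h3 h3r hkr a23 b23
  have L13 := law_of_cosinesH κ h1 h1r h3 h3r hkr a13 b13
  obtain ⟨f₁, f₂, f₃, g1, p1, g2, p2, g3, p3, hf⟩ := exists_anglesH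
    (cang_le_piH κ d₁ d₂ c₁₂) (cang_le_piH κ d₂ d₃ c₂₃) (cang_le_piH κ d₁ d₃ c₁₃) hsum
  have C1 := cos_le_cos_of_nonneg_of_le_pi (cang_nonnegH κ d₁ d₂ c₁₂) p1 g1
  have C2 := cos_le_cos_of_nonneg_of_le_pi (cang_nonnegH κ d₂ d₃ c₂₃) p2 g2
  have C3 := cos_le_cos_of_nonneg_of_le_pi (cang_nonnegH κ d₁ d₃ c₁₃) p3 g3
  have R1 := replH hκr h1.le h1r h2.le h2r C1 (abs_cos_le_one _) (abs_cos_le_one _)
  have R2 := replH hκr h2.le h2r h3.le h3r C2 (abs_cos_le_one _) (abs_cos_le_one _)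
  have R3 := replH hκr h1.le h1r h3.le h3r C3 (abs_cos_le_one _) (abs_cos_le_one _)
  have hf2 : f₂ = 2 * π - (f₁ + f₃) := by linarith
  have e2 : cos f₂ = cos f₁ * cos f₃ - sin f₁ * sin f₃ := by
    rw [hf2, cos_two_pi_sub, cos_add]
  have q1 : d₁ ^ 2 + 0 ^ 2 ≤ r ^ 2 := by
    have := pow_le_pow_left₀ h1.le h1r 2
    linarith only [this]
  have t1 := sin_sq_add_cos_sq f₁
  have t3 := sin_sq_add_cos_sq f₃
  have n2 : (d₂ * cos f₁) ^ 2 + (d₂ * sin f₁) ^ 2 = d₂ ^ 2 := by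
    have : (d₂ * cos f₁) ^ 2 + (d₂ * sin f₁) ^ 2 = d₂ ^ 2 * (sin f₁ ^ 2 + cos f₁ ^ 2) := by ring
    rw [this, t1, mul_one]
  have n3 : (d₃ * cos f₃) ^ 2 + (-(d₃ * sin f₃)) ^ 2 = d₃ ^ 2 := by
    have : (d₃ * cos f₃) ^ 2 + (-(d₃ * sin f₃)) ^ 2 = d₃ ^ 2 * (sin f₃ ^ 2 + cos f₃ ^ 2) := by ring
    rw [this, t3, mul_one]
  have P := planarH κ d₁ 0 (d₂ * cos f₁) (d₂ * sin f₁) (d₃ * cos f₃) (-(d₃ * sin f₃)) r hr0.le q1
    (by rw [n2]; exact pow_le_pow_left₀ h2.le h2r 2) (by rw [n3]; exact pow_le_pow_left₀ h3.le h3r 2)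
  rw [n2, n3] at P
  have w12 : (d₁ * (d₂ * sin f₁) - d₂ * cos f₁ * 0) ^ 2 = d₁ ^ 2 * d₂ ^ 2 * (1 - cos f₁ ^ 2) := by
    have : sin f₁ ^ 2 = 1 - cos f₁ ^ 2 := by linarith
    rw [← this]; ring
  have w31 : (d₃ * cos f₃ * 0 - d₁ * -(d₃ * sin f₃)) ^ 2 = d₁ ^ 2 * d₃ ^ 2 * (1 - cos f₃ ^ 2) := by
    have : sin f₃ ^ 2 = 1 - cos f₃ ^ 2 := by linarith
    rw [← this]; ring
  have w23 : (d₂ * cos f₁ * -(d₃ * sin f₃) - d₃ * cos f₃ * (d₂ * sin f₁)) ^ 2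
      = d₂ ^ 2 * d₃ ^ 2 * (1 - cos f₂ ^ 2) := by
    have t2 : 1 - cos f₂ ^ 2 = (sin f₁ * cos f₃ + cos f₁ * sin f₃) ^ 2 := by
      have : sin f₂ = -(sin f₁ * cos f₃ + cos f₁ * sin f₃) := by
        rw [hf2, sin_two_pi_sub, sin_add]
      have h := sin_sq_add_cos_sq f₂
      rw [this] at h
      linarith
    rw [t2]; ring
  have S : (d₁ + d₂ * cos f₁ + d₃ * cos f₃) ^ 2 + (0 + d₂ * sin f₁ + -(d₃ * sin f₃)) ^ 2
      = d₁ ^ 2 + d₂ ^ 2 + d₃ ^ 2 + 2 * d₁ * d₂ * cos f₁ + 2 * d₂ * d₃ * cos f₂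
        + 2 * d₁ * d₃ * cos f₃ := by
    rw [e2]
    have e : (d₁ + d₂ * cos f₁ + d₃ * cos f₃) ^ 2 + (0 + d₂ * sin f₁ + -(d₃ * sin f₃)) ^ 2
      = d₁ ^ 2 + ((d₂ * cos f₁) ^ 2 + (d₂ * sin f₁) ^ 2)
        + ((d₃ * cos f₃) ^ 2 + (-(d₃ * sin f₃)) ^ 2) + 2 * d₁ * d₂ * cos f₁
        + 2 * d₂ * d₃ * (cos f₁ * cos f₃ - sin f₁ * sin f₃) + 2 * d₁ * d₃ * cos f₃ := by ring
    rw [e, n2, n3]
  rw [w12, w31, w23, S] at P
  linarith only [R3, R2, R1, L13, L23, L12, P]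

end Vale.Agent.P233.AB
end
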