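import Vale.Agent.P233.MathlibUsed2
import Vale.Agent.P233.Bd3.B1

set_option linter.all false

section

open MeasureTheory Filter Topology
open scoped ENNReal NNReal

namespace Vale.Agent.P233

variable {M : Type*} [MeasurableSpace M] {m : Measure M}

/-- The output of the resolvent scheme for the viscous Hamilton-Jacobi equation
`∂_t u + Γ(u,u)/2 = σ Δu`: a discrete solution with `n` steps of size `τ`, with bounds that are
uniform in `σ` and `n` (`L`, `Λ`) and a bound `D` that may depend on `σ`. -/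
structure Calc.VHJ (C : Calc m) (σ τ L Λ D : ℝ) (n : ℕ) (u : ℕ → M →ₘ[m] ℝ) : Prop where
  test : ∀ k, u k ∈ C.Test
  grad : ∀ k ≤ n, ∀ᵐ x ∂m, C.Γ (u k) (u k) x ≤ L
  lap_le : ∀ k ≤ n, ∀ᵐ x ∂m, C.lap (u k) x ≤ Λ
  lap_abs : ∀ k ≤ n, ∀ᵐ x ∂m, |C.lap (u k) x| ≤ D
  step_le : ∀ k < n, ∀ᵐ x ∂m, u (k + 1) x - u k x
    ≤ τ * (σ * C.lap (u (k + 1)) x - C.Γ (u (k + 1)) (u (k + 1)) x / 2)
  step_ge : ∀ k < n, ∃ R : M →ₘ[m] ℝ, MemLp R 1 m ∧ I R ≤ D * τ ^ 2 ∧ ∀ᵐ x ∂m, 0 ≤ R x ∧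
    R x ≤ D * τ ^ 2 ∧ τ * (σ * C.lap (u (k + 1)) x - C.Γ (u (k + 1)) (u (k + 1)) x / 2) - R x
      ≤ u (k + 1) x - u k x

end Vale.Agent.P233
end

section

/-! Estimates for the resolvent and its square: gradient bounds used in the pointwise duality. -/

open MeasureTheory Filter Topology
open scoped ENNReal NNReal

namespace Vale.Agent.P233

variable {M : Type*} [MeasurableSpace M] {m : Measure M} {C : Calc m}

namespace IsDir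

variable (hC : IsDir C)
include hC
variable {lam r μ : ℝ} {f g h ψ : M →ₘ[m] ℝ}

/-- monotonicity up to a constant -/
theorem J_le_add (hl : 0 < lam) (hf : MemLp f 2 m) (hg : MemLp g 2 m) {c : ℝ} (hc : 0 ≤ c)
    (h : ∀ᵐ x ∂m, f x ≤ g x + c) : ∀ᵐ x ∂m, C.J lam f x ≤ C.J lam g x + c := by
  have h1 := hC.J_le hl (mem_sub hf hg) hc (by
    rw [le_iff_ae]
    filter_upwards [h, sub_ae f g, smul_ae (1 : M →ₘ[m] ℝ) c, one_ae (M := M) (m := m)]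
      with x a1 a2 a3 a4
    rw [a2, a3, a4, mul_one]; linarith)
  rw [hC.J_sub hl hf hg, le_iff_ae] at h1
  filter_upwards [h1, sub_ae (C.J lam f) (C.J lam g), smul_ae (1 : M →ₘ[m] ℝ) c,
    one_ae (M := M) (m := m)] with x a1 a2 a3 a4
  rw [a2, a3, a4, mul_one] at a1
  linarith

/-- `J f - f = lam J (Δ f)` -/
theorem J_sub_self (hl : 0 < lam) (hfh : C.IsLap f h) :
    C.J lam f - f = lam • C.J lam h := by
  have hf2 := hC.memLp f hfh.1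
  have h1 : C.IsRes lam (f - lam • h) f := by
    refine ⟨hfh.1, fun g hg => ?_⟩
    have hg2 := hC.memLp g hg
    have e1 : I (C.Γ f g) = - I (h * g) := hfh.2.2 g hg
    rw [sub_mul, I_sub (mem_mul_22 hf2 hg2) (mem_mul_22 (mem_smul _ hfh.2.1) hg2),
      smul_mul_assoc, I_smul, e1]
    ring
  have h2 := hC.J_eq hl h1
  rw [hC.J_sub hl hf2 (mem_smul _ hfh.2.1), hC.J_smul hl _ hfh.2.1] at h2
  rw [eq_comm, ← sub_eq_zero] at h2 ⊢
  have e : C.J lam f - f - lam • C.J lam h = -(f - (C.J lam f - lam • C.J lam h)) := by abel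
  rw [← neg_sub, e, h2]
  simp

theorem J_sub_self_bdd (hl : 0 < lam) (hfh : C.IsLap f h) {R : ℝ}
    (hR : ∀ᵐ x ∂m, |h x| ≤ R) : ∀ᵐ x ∂m, |C.J lam f x - f x| ≤ lam * R := by
  have h1 := hC.J_sub_self hl hfh
  filter_upwards [hC.J_bdd hl hfh.2.1 hR, eq_iff_ae.1 h1, sub_ae (C.J lam f) f,
    smul_ae (C.J lam h) lam] with x a1 a2 a3 a4
  rw [a3, a4] at a2
  rw [a2, abs_mul, abs_of_pos hl]
  exact mul_le_mul_of_nonneg_left a1 hl.le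

theorem J2_sub_self_bdd (hl : 0 < lam) (hfh : C.IsLap f h) {R : ℝ}
    (hR : ∀ᵐ x ∂m, |h x| ≤ R) :
    ∀ᵐ x ∂m, |C.J lam (C.J lam f) x - f x| ≤ 2 * lam * R := by
  have h1 := hC.J_sub_self_bdd hl hfh hR
  have hf2 := hC.memLp f hfh.1
  have hJ2 := hC.J_mem2 hl hf2
  have h2 : ∀ᵐ x ∂m, |(C.J lam f - f : M →ₘ[m] ℝ) x| ≤ lam * R := by
    filter_upwards [h1, sub_ae (C.J lam f) f] with x a1 a2
    rwa [a2]
  have h3 := hC.J_bdd hl (mem_sub hJ2 hf2) h2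
  rw [hC.J_sub hl hJ2 hf2] at h3
  filter_upwards [h1, h3, sub_ae (C.J lam (C.J lam f)) (C.J lam f)] with x a1 a2 a3
  rw [a3] at a2
  have e : C.J lam (C.J lam f) x - f x =
      (C.J lam (C.J lam f) x - C.J lam f x) + (C.J lam f x - f x) := by ring
  rw [e]
  refine (abs_add_le _ _).trans ?_
  linarith

/-- the step inequality is preserved by the resolvent -/
theorem J_step (hl : 0 < lam) (hf : MemLp f 2 m) (hg : MemLp g 2 m) (hh : MemLp h 2 m) {t c : ℝ}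
    (hc : 0 ≤ c) (hs : ∀ᵐ x ∂m, f x - g x + t * h x ≤ c) :
    ∀ᵐ x ∂m, C.J lam f x - C.J lam g x + t * C.J lam h x ≤ c := by
  have h1 := hC.J_le_add hl (f := f + t • h) (g := g) (mem_add hf (mem_smul _ hh)) hg hc (by
    filter_upwards [hs, add_ae f (t • h), smul_ae h t] with x a1 a2 a3
    rw [a2, a3]; linarith)
  rw [hC.J_add hl hf (mem_smul _ hh), hC.J_smul hl t hh] at h1
  filter_upwards [h1, add_ae (C.J lam f) (t • C.J lam h), smul_ae (C.J lam h) t] with x a1 a2 a3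
  rw [a2, a3] at a1
  linarith

theorem J2_step (hl : 0 < lam) (hf : MemLp f 2 m) (hg : MemLp g 2 m) (hh : MemLp h 2 m) {t c : ℝ}
    (hc : 0 ≤ c) (hs : ∀ᵐ x ∂m, f x - g x + t * h x ≤ c) :
    ∀ᵐ x ∂m, C.J lam (C.J lam f) x - C.J lam (C.J lam g) x + t * C.J lam (C.J lam h) x ≤ c :=
  hC.J_step hl (hC.J_mem2 hl hf) (hC.J_mem2 hl hg) (hC.J_mem2 hl hh) hc
    (hC.J_step hl hf hg hh hc hs)

/-- Caccioppoli type inequality for `w = J f`, with `φ = J_{1/μ} ψ` -/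
theorem key1 (hr : 0 < r) (hμ : 0 < μ) (hμr : μ ≤ 3 / 2 * r⁻¹) (hf : MemLp f 2 m) {B : ℝ}
    (hB : ∀ᵐ x ∂m, |f x| ≤ B) (h0 : 0 ≤ ψ) (h1 : MemLp ψ 1 m) (h2 : MemLp ψ 2 m)
    (ht : MemLp ψ ∞ m) :
    I (C.J μ⁻¹ ψ * C.Γ (C.J r f) (C.J r f)) ≤ r⁻¹ * B ^ 2 * I ψ := by
  have hμi : 0 < μ⁻¹ := inv_pos.2 hμ
  have hri : 0 < r⁻¹ := inv_pos.2 hr
  have hwL := hC.J_isLap hr hf
  have hφL := hC.J_isLap hμi h2
  have hφ0 := hC.J_nonneg hμi h2 h0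
  have hφ1 := hC.J_L1 hμi h2 h1 h0
  obtain ⟨K, hK⟩ := mem_top_iff.1 ht
  have hφt : MemLp (C.J μ⁻¹ ψ) ∞ m := mem_top_iff.2 ⟨K, hC.J_bdd hμi h2 hK⟩
  have hwb := hC.J_bdd hr hf hB
  have hwt : MemLp (C.J r f) ∞ m := mem_top_iff.2 ⟨B, hwb⟩
  rw [inv_inv] at hφL
  set w := C.J r f with hw
  set φ := C.J μ⁻¹ ψ with hφ
  have hwA : w ∈ C.A := ⟨hwL.1, hwt⟩
  have hφA : φ ∈ C.A := ⟨hφL.1, hφt⟩
  have hw2 := hC.memLp w hwL.1
  have hφ2 := hC.memLp φ hφL.1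
  have hft : MemLp f ∞ m := mem_top_iff.2 ⟨B, hB⟩
  have e1 : I (C.Γ w (w * φ)) = - I (r⁻¹ • (w - f) * (w * φ)) :=
    hwL.2.2 _ (hC.mul_mem_A hwA hφA).1
  have e2 : I (C.Γ φ (w * w)) = - I (μ • (φ - ψ) * (w * w)) :=
    hφL.2.2 _ (hC.mul_mem_A hwA hwA).1
  rw [hC.Γ_mul_right hwA hφA hwL.1] at e1
  rw [hC.Γ_mul_right hwA hwA hφL.1, hC.symm φ hφL.1 w hwL.1] at e2
  have m1 : MemLp (w * C.Γ w φ : M →ₘ[m] ℝ) 1 m := mem_mul_top hwt (hC.Γ_mem1 hwL.1 hφL.1)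
  have m2 : MemLp (φ * C.Γ w w : M →ₘ[m] ℝ) 1 m := mem_mul_top hφt (hC.Γ_mem1 hwL.1 hwL.1)
  rw [I_add m1 m2] at e1
  rw [I_add m1 m1] at e2
  have m3 : MemLp (r⁻¹ • (w - f) * (w * φ) : M →ₘ[m] ℝ) 1 m := by
    refine mem_mul_top (mem_smul _ (mem_sub hwt hft)) (mem_mul_22 hw2 hφ2)
  have m4 : MemLp (μ • (φ - ψ) * (w * w) : M →ₘ[m] ℝ) 1 m :=
    mem_mul_top (mem_smul _ (mem_sub hφt ht)) (mem_mul_22 hw2 hw2)
  have e3 : I (φ * C.Γ w w) = I (-(r⁻¹ • (w - f) * (w * φ)) +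
      (2 : ℝ)⁻¹ • (μ • (φ - ψ) * (w * w))) := by
    rw [I_add (mem_neg m3) (mem_smul _ m4), I_neg, I_smul]
    linarith
  rw [e3]
  calc I (-(r⁻¹ • (w - f) * (w * φ)) + (2 : ℝ)⁻¹ • (μ • (φ - ψ) * (w * w)))
      ≤ I ((r⁻¹ * B ^ 2) • φ) := by
        refine I_mono (mem_add (mem_neg m3) (mem_smul _ m4)) (mem_smul _ hφ1.1) ?_
        rw [le_iff_ae]
        filter_upwards [add_ae (-(r⁻¹ • (w - f) * (w * φ))) ((2 : ℝ)⁻¹ • (μ • (φ - ψ) * (w * w))),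
          neg_ae (r⁻¹ • (w - f) * (w * φ)), mul_ae (r⁻¹ • (w - f)) (w * φ),
          smul_ae (w - f) r⁻¹, sub_ae w f, mul_ae w φ,
          smul_ae (μ • (φ - ψ) * (w * w)) (2 : ℝ)⁻¹, mul_ae (μ • (φ - ψ)) (w * w),
          smul_ae (φ - ψ) μ, sub_ae φ ψ, mul_ae w w, smul_ae φ (r⁻¹ * B ^ 2), hB,
          nonneg_iff_ae.1 h0, nonneg_iff_ae.1 hφ0]
          with x a1 a2 a3 a4 a5 a6 a7 a8 a9 a10 a11 a12 a13 a14 a15
        rw [a1, a2, a3, a4, a5, a6, a7, a8, a9, a10, a11, a12]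
        have b1 : f x ^ 2 ≤ B ^ 2 := sq_le_sq' (by linarith only [neg_abs_le (f x), a13])
          ((le_abs_self _).trans a13)
        have b2 : 0 ≤ μ * ψ x * (w x * w x) :=
          mul_nonneg (mul_nonneg hμ.le a14) (mul_self_nonneg _)
        have b3 : 0 ≤ φ x * (r⁻¹ * (f x - w x / 2) ^ 2) :=
          mul_nonneg a15 (mul_nonneg hri.le (sq_nonneg _))
        have b4 : 0 ≤ φ x * ((3 / 2 * r⁻¹ - μ) * (w x * w x)) :=
          mul_nonneg a15 (mul_nonneg (by linarith only [hμr]) (mul_self_nonneg _))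
        have b5 : 0 ≤ φ x * (r⁻¹ * (B ^ 2 - f x ^ 2)) :=
          mul_nonneg a15 (mul_nonneg hri.le (by linarith only [b1]))
        linarith only [b5, b4, b3, b2]
    _ = r⁻¹ * B ^ 2 * I φ := I_smul _
    _ ≤ r⁻¹ * B ^ 2 * I ψ := mul_le_mul_of_nonneg_left hφ1.2 (by positivity)

end IsDir

namespace IsGamma

variable {κ r μ : ℝ} (hC : IsGamma C) (hB : C.BEi κ) {f ψ : M →ₘ[m] ℝ}
include hC hB

/-- the basic inequality -/
theorem key0 (hr : 0 < r) (hμ : 0 < μ) (hf : f ∈ C.W) (h0 : 0 ≤ ψ) (h2 : MemLp ψ 2 m)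
    (ht : MemLp ψ ∞ m) :
    μ * I (C.Γ (C.J r f) (C.J r f) * ψ) ≤ r⁻¹ * I (C.J μ⁻¹ ψ * C.Γ f f) +
      (μ - r⁻¹ - 2 * κ) * I (C.J μ⁻¹ ψ * C.Γ (C.J r f) (C.J r f)) := by
  have hD := hC.toIsDir
  have hf2 := hC.memLp f hf
  have hLap := hD.J_isLap hr hf2
  have hμi : 0 < μ⁻¹ := inv_pos.2 hμ
  have hri : 0 < r⁻¹ := inv_pos.2 hr
  have hwLap := hD.J_isLap hμi h2
  have hw0 := hD.J_nonneg hμi h2 h0
  obtain ⟨B, hB0⟩ := mem_top_iff.1 ht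
  have hwb := hD.J_bdd hμi h2 hB0
  rw [inv_inv] at hwLap
  set u := C.J r f with hu
  set h := r⁻¹ • (u - f) with hh
  have huW : u ∈ C.W := hLap.1
  have hhW : h ∈ C.W := hD.smul_mem _ _ (hD.sub_mem huW hf)
  set w := C.J μ⁻¹ ψ with hw
  have hwt : MemLp w ∞ m := mem_top_iff.2 ⟨B, hwb⟩
  have hbe := be hB hLap hhW hwLap hw0 hwt (mem_smul _ (mem_sub hwt ht))
  have hΓuu := hC.mem1 u huW
  have hΓff := hC.mem1 f hf
  have hlow : I (w * ((r⁻¹ / 2 + κ) • C.Γ u u - (r⁻¹ / 2) • C.Γ f f)) ≤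
      I (w * (C.Γ u h + κ • C.Γ u u)) := by
    refine I_mono (mem_mul_top hwt (mem_sub (mem_smul _ hΓuu) (mem_smul _ hΓff)))
      (mem_mul_top hwt (hC.bracket_mem κ huW hhW)) ?_
    refine mul_le_mul_of_nonneg_left ?_ hw0
    have e2 : C.Γ u h = r⁻¹ • (C.Γ u u - C.Γ u f) := by
      rw [hh, hD.Γ_smul_right _ huW (hD.sub_mem huW hf), hD.Γ_sub_right huW huW hf]
    rw [le_iff_ae, e2]
    have hnn := hC.nonneg _ (hD.sub_mem huW hf)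
    rw [hD.Γ_sub_left huW hf (hD.sub_mem huW hf), hD.Γ_sub_right huW huW hf,
      hD.Γ_sub_right hf huW hf, hD.symm f hf u huW, nonneg_iff_ae] at hnn
    filter_upwards [hnn, sub_ae (C.Γ u u - C.Γ u f) (C.Γ u f - C.Γ f f),
      sub_ae (C.Γ u u) (C.Γ u f), sub_ae (C.Γ u f) (C.Γ f f),
      sub_ae ((r⁻¹ / 2 + κ) • C.Γ u u) ((r⁻¹ / 2) • C.Γ f f), smul_ae (C.Γ u u) (r⁻¹ / 2 + κ),
      smul_ae (C.Γ f f) (r⁻¹ / 2),
      add_ae (r⁻¹ • (C.Γ u u - C.Γ u f)) (κ • C.Γ u u),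
      smul_ae (C.Γ u u - C.Γ u f) r⁻¹, smul_ae (C.Γ u u) κ]
        with x a1 a2 a3 a4 a5 a6 a7 a9 a10 a11
    rw [a2, a3, a4] at a1
    rw [a5, a6, a7, a9, a10, a11, a3]
    linarith only [mul_nonneg hri.le a1]
  have hlow2 : I (w * ((r⁻¹ / 2 + κ) • C.Γ u u - (r⁻¹ / 2) • C.Γ f f)) =
      (r⁻¹ / 2 + κ) * I (w * C.Γ u u) - (r⁻¹ / 2) * I (w * C.Γ f f) := by
    rw [mul_sub, mul_smul_comm, mul_smul_comm,
      I_sub (mem_smul _ (mem_mul_top hwt hΓuu)) (mem_smul _ (mem_mul_top hwt hΓff)),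
      I_smul, I_smul]
  have hR : I (C.Γ u u * (μ • (w - ψ))) = μ * (I (w * C.Γ u u) - I (C.Γ u u * ψ)) := by
    rw [mul_smul_comm, I_smul, mul_sub, mul_comm (C.Γ u u) w,
      I_sub (mem_mul_top hwt hΓuu) (mem_top_mul hΓuu ht)]
  rw [hlow2] at hlow
  rw [hR] at hbe
  linarith only [hlow, hbe]

/-- `Γ(J f) ≤ 2 L` if `Γ f ≤ L` -/
theorem J_Γ_bdd (hr : 0 < r) (hr4 : 4 * |κ| * r ≤ 1) (hf : f ∈ C.W) {L : ℝ} (hL0 : 0 ≤ L)
    (hL : ∀ᵐ x ∂m, C.Γ f f x ≤ L) : ∀ᵐ x ∂m, C.Γ (C.J r f) (C.J r f) x ≤ 2 * L := by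
  have hD := hC.toIsDir
  have hf2 := hC.memLp f hf
  have huW := hD.J_mem hr hf2
  have hri : 0 < r⁻¹ := inv_pos.2 hr
  have hκ1 : -(4 * |κ| * r) ≤ 4 * κ * r := by linarith only [mul_nonneg (le_of_lt (sub_pos.2 hr)) (sub_nonneg.2 (neg_abs_le κ))]
  set μ : ℝ := r⁻¹ + 2 * κ with hμd
  have hμr : r * μ = 1 + 2 * r * κ := by rw [hμd]; field_simp
  have hμ2 : 1 / 2 ≤ r * μ := by rw [hμr]; linarith only [hκ1, hr4]
  have hμ : 0 < μ := by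
    by_contra hcon
    push Not at hcon
    linarith only [mul_nonneg (le_of_lt (sub_pos.2 hr)) (sub_nonneg.2 hcon), mul_nonneg (mul_self_nonneg (1 : ℝ)) (sub_nonneg.2 hμ2)]
  refine le_const_of_forall (hC.mem1 _ huW) (by positivity) fun ψ h0 h2 h1 ht => ?_
  have hμi : 0 < μ⁻¹ := inv_pos.2 hμ
  have k0 := hC.key0 hB hr hμ hf h0 h2 ht
  have e0 : μ - r⁻¹ - 2 * κ = 0 := by rw [hμd]; ring
  rw [e0, zero_mul, add_zero] at k0
  obtain ⟨B, hB0⟩ := mem_top_iff.1 ht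
  have hwb := hD.J_bdd hμi h2 hB0
  have hw1 := hD.J_L1 hμi h2 h1 h0
  have hw0 := hD.J_nonneg hμi h2 h0
  have hwt : MemLp (C.J μ⁻¹ ψ) ∞ m := mem_top_iff.2 ⟨B, hwb⟩
  have h3 : I (C.J μ⁻¹ ψ * C.Γ f f) ≤ L * I ψ := by
    calc I (C.J μ⁻¹ ψ * C.Γ f f) ≤ I (L • C.J μ⁻¹ ψ) := by
          refine I_mono (mem_mul_top hwt (hC.mem1 f hf)) (mem_smul _ hw1.1) ?_
          rw [le_iff_ae]
          filter_upwards [mul_ae (C.J μ⁻¹ ψ) (C.Γ f f), smul_ae (C.J μ⁻¹ ψ) L,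
            nonneg_iff_ae.1 hw0, hL] with x a1 a2 a3 a4
          rw [a1, a2, mul_comm L]
          exact mul_le_mul_of_nonneg_left a4 a3
      _ = L * I (C.J μ⁻¹ ψ) := I_smul _
      _ ≤ L * I ψ := mul_le_mul_of_nonneg_left hw1.2 hL0
  have hψ0 : 0 ≤ I ψ := I_nonneg h0
  have h4 : r * μ * I (C.Γ (C.J r f) (C.J r f) * ψ) ≤ L * I ψ := by
    calc r * μ * I (C.Γ (C.J r f) (C.J r f) * ψ) = r * (μ * I (C.Γ (C.J r f) (C.J r f) * ψ)) := by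
          ring
      _ ≤ r * (r⁻¹ * I (C.J μ⁻¹ ψ * C.Γ f f)) := mul_le_mul_of_nonneg_left k0 hr.le
      _ = I (C.J μ⁻¹ ψ * C.Γ f f) := by field_simp
      _ ≤ L * I ψ := h3
  have h5 : 0 ≤ I (C.Γ (C.J r f) (C.J r f) * ψ) := I_nonneg (mul_nonneg (hC.nonneg _ huW) h0)
  linarith only [mul_nonneg (sub_nonneg.2 hμ2) (sub_nonneg.2 h5), mul_nonneg (mul_self_nonneg (1 : ℝ)) (sub_nonneg.2 h4)]

/-- `Γ(J f) ≤ J(Γ f) + 4 r |κ| L` if `Γ f ≤ L` -/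
theorem J_Γ_le (hr : 0 < r) (hr4 : 4 * |κ| * r ≤ 1) (hf : f ∈ C.W) {L : ℝ} (hL0 : 0 ≤ L)
    (hL : ∀ᵐ x ∂m, C.Γ f f x ≤ L) :
    ∀ᵐ x ∂m, C.Γ (C.J r f) (C.J r f) x ≤ C.J r (C.Γ f f) x + 4 * r * |κ| * L := by
  have hD := hC.toIsDir
  have hf2 := hC.memLp f hf
  have huW := hD.J_mem hr hf2
  have hri : 0 < r⁻¹ := inv_pos.2 hr
  have hΓt : MemLp (C.Γ f f) ∞ m := mem_top_iff.2 ⟨L, by
    filter_upwards [hL, hD.Γ_nonneg_ae hf] with x a1 a2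
    rwa [abs_of_nonneg a2]⟩
  have hΓ2 : MemLp (C.Γ f f) 2 m := hD.Γ_mem2 hf hΓt hf
  have hΓ0 : 0 ≤ C.Γ f f := hC.nonneg f hf
  have hJ1 := hD.J_L1 hr hΓ2 (hC.mem1 f hf) hΓ0
  have hbd := hC.J_Γ_bdd hB hr hr4 hf hL0 hL
  have key := le_const_of_forall (F := C.Γ (C.J r f) (C.J r f) - C.J r (C.Γ f f))
    (K := 4 * r * |κ| * L) (mem_sub (hC.mem1 _ huW) hJ1.1) (by positivity)
    fun ψ h0 h2 h1 ht => by
      have k0 := hC.key0 hB hr hri hf h0 h2 ht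
      rw [inv_inv] at k0
      obtain ⟨B, hB0⟩ := mem_top_iff.1 ht
      have hwb := hD.J_bdd hr h2 hB0
      have hw1 := hD.J_L1 hr h2 h1 h0
      have hw0 := hD.J_nonneg hr h2 h0
      have hwt : MemLp (C.J r ψ) ∞ m := mem_top_iff.2 ⟨B, hwb⟩
      have hs := hD.J_symm hr hΓ2 h2
      have h3 : I (C.J r ψ * C.Γ (C.J r f) (C.J r f)) ≤ 2 * L * I ψ := by
        calc I (C.J r ψ * C.Γ (C.J r f) (C.J r f)) ≤ I ((2 * L) • C.J r ψ) := by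
              refine I_mono (mem_mul_top hwt (hC.mem1 _ huW)) (mem_smul _ hw1.1) ?_
              rw [le_iff_ae]
              filter_upwards [mul_ae (C.J r ψ) (C.Γ (C.J r f) (C.J r f)),
                smul_ae (C.J r ψ) (2 * L), nonneg_iff_ae.1 hw0, hbd] with x a1 a2 a3 a4
              rw [a1, a2, mul_comm (2 * L)]
              exact mul_le_mul_of_nonneg_left a4 a3
          _ = 2 * L * I (C.J r ψ) := I_smul _
          _ ≤ 2 * L * I ψ := mul_le_mul_of_nonneg_left hw1.2 (by positivity)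
      have h4 : 0 ≤ I (C.J r ψ * C.Γ (C.J r f) (C.J r f)) :=
        I_nonneg (mul_nonneg hw0 (hC.nonneg _ huW))
      rw [sub_mul, I_sub (mem_top_mul (hC.mem1 _ huW) ht) (mem_top_mul hJ1.1 ht), hs,
        mul_comm (C.Γ f f) (C.J r ψ)]
      set a := I (C.Γ (C.J r f) (C.J r f) * ψ)
      set b := I (C.J r ψ * C.Γ f f)
      set d := I (C.J r ψ * C.Γ (C.J r f) (C.J r f))
      have k1 : a ≤ b + (-2 * κ * r) * d := by
        have := mul_le_mul_of_nonneg_left k0 hr.le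
        have e1 : r * (r⁻¹ * a) = a := by field_simp
        have e2 : r * (r⁻¹ * b + (r⁻¹ - r⁻¹ - 2 * κ) * d) = b + (-2 * κ * r) * d := by
          field_simp
          ring
        rwa [e1, e2] at this
      have k2 : (-2 * κ * r) * d ≤ (2 * |κ| * r) * d := by
        refine mul_le_mul_of_nonneg_right ?_ h4
        linarith only [mul_nonneg (le_of_lt (sub_pos.2 hr)) (sub_nonneg.2 (neg_abs_le κ))]
      have k3 : (2 * |κ| * r) * d ≤ (2 * |κ| * r) * (2 * L * I ψ) :=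
        mul_le_mul_of_nonneg_left h3 (by (clear * - hr; positivity))
      linarith only [k3, k2, k1]
  filter_upwards [key, sub_ae (C.Γ (C.J r f) (C.J r f)) (C.J r (C.Γ f f))] with x a1 a2
  rw [a2] at a1
  linarith

/-- `Γ(J J f) ≤ J J (Γ f) + 12 r |κ| L` if `Γ f ≤ L` -/
theorem J2_Γ_le (hr : 0 < r) (hr4 : 4 * |κ| * r ≤ 1) (hf : f ∈ C.W) {L : ℝ} (hL0 : 0 ≤ L)
    (hL : ∀ᵐ x ∂m, C.Γ f f x ≤ L) :
    ∀ᵐ x ∂m, C.Γ (C.J r (C.J r f)) (C.J r (C.J r f)) x ≤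
      C.J r (C.J r (C.Γ f f)) x + 12 * r * |κ| * L := by
  have hD := hC.toIsDir
  have hf2 := hC.memLp f hf
  have huW := hD.J_mem hr hf2
  have h1 := hC.J_Γ_bdd hB hr hr4 hf hL0 hL
  have h2 := hC.J_Γ_le hB hr hr4 hf hL0 hL
  have h3 := hC.J_Γ_le hB hr hr4 huW (by positivity) h1
  have ht : ∀ {g : M →ₘ[m] ℝ} {K : ℝ}, g ∈ C.W → (∀ᵐ x ∂m, C.Γ g g x ≤ K) →
      MemLp (C.Γ g g) 2 m := by
    intro g K hg hK
    refine hD.Γ_mem2 hg (mem_top_iff.2 ⟨K, ?_⟩) hg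
    filter_upwards [hK, hD.Γ_nonneg_ae hg] with x a1 a2
    rwa [abs_of_nonneg a2]
  have h4 := hD.J_le_add hr (ht huW h1) (hD.J_mem2 hr (ht hf hL)) (c := 4 * r * |κ| * L)
    (by (clear * - hr hL0; positivity)) h2
  filter_upwards [h3, h4] with x a1 a2
  linarith only [a2, a1]

/-- `J J` maps bounded functions to Lipschitz functions -/
theorem J2_Γ_bdd (hr : 0 < r) (hr4 : 4 * |κ| * r ≤ 1) (hf : MemLp f 2 m) {B : ℝ}
    (hfB : ∀ᵐ x ∂m, |f x| ≤ B) :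
    ∀ᵐ x ∂m, C.Γ (C.J r (C.J r f)) (C.J r (C.J r f)) x ≤ 2 * r⁻¹ * B ^ 2 := by
  have hD := hC.toIsDir
  have hwW := hD.J_mem hr hf
  have hw2 := hC.memLp _ hwW
  have huW := hD.J_mem hr hw2
  have hri : 0 < r⁻¹ := inv_pos.2 hr
  have hκ1 : -(4 * |κ| * r) ≤ 4 * κ * r := by linarith only [mul_nonneg (le_of_lt (sub_pos.2 hr)) (sub_nonneg.2 (neg_abs_le κ))]
  have hκ2 : 4 * κ * r ≤ 4 * |κ| * r := by linarith only [mul_nonneg (le_of_lt (sub_pos.2 hr)) (sub_nonneg.2 (le_abs_self κ))]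
  set μ : ℝ := r⁻¹ + 2 * κ with hμd
  have hμr : r * μ = 1 + 2 * r * κ := by rw [hμd]; field_simp
  have hμ2 : 1 / 2 ≤ r * μ := by rw [hμr]; linarith
  have hμ3 : r * μ ≤ 3 / 2 := by rw [hμr]; linarith
  have hμ : 0 < μ := by
    by_contra hcon
    push Not at hcon
    linarith only [mul_nonneg (sub_nonneg.2 hμ2) (sub_nonneg.2 hμ3), mul_nonneg (sub_nonneg.2 hμ2) (sub_nonneg.2 hμ2), mul_nonneg (le_of_lt (sub_pos.2 hr)) (sub_nonneg.2 hcon)]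
  have hμ4 : μ ≤ 3 / 2 * r⁻¹ := by
    have : μ = (r * μ) * r⁻¹ := by field_simp
    rw [this]
    exact mul_le_mul_of_nonneg_right hμ3 hri.le
  refine le_const_of_forall (hC.mem1 _ huW) (by positivity) fun ψ h0 h2 h1 ht => ?_
  have k0 := hC.key0 hB hr hμ hwW h0 h2 ht
  have e0 : μ - r⁻¹ - 2 * κ = 0 := by rw [hμd]; ring
  rw [e0, zero_mul, add_zero] at k0
  have k1 := hD.key1 hr hμ hμ4 hf hfB h0 h1 h2 ht
  have hψ0 : 0 ≤ I ψ := I_nonneg h0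
  have h5 : 0 ≤ I (C.Γ (C.J r (C.J r f)) (C.J r (C.J r f)) * ψ) :=
    I_nonneg (mul_nonneg (hC.nonneg _ huW) h0)
  set a := I (C.Γ (C.J r (C.J r f)) (C.J r (C.J r f)) * ψ)
  have h4 : r * μ * a ≤ r⁻¹ * B ^ 2 * I ψ := by
    calc r * μ * a = r * (μ * a) := by ring
      _ ≤ r * (r⁻¹ * I (C.J μ⁻¹ ψ * C.Γ (C.J r f) (C.J r f))) := mul_le_mul_of_nonneg_left k0 hr.le
      _ = I (C.J μ⁻¹ ψ * C.Γ (C.J r f) (C.J r f)) := by field_simp
      _ ≤ r⁻¹ * B ^ 2 * I ψ := k1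
  linarith only [mul_nonneg (sub_nonneg.2 hμ3) (sub_nonneg.2 h4), mul_nonneg (sub_nonneg.2 hμ2) (sub_nonneg.2 h4), mul_nonneg (sub_nonneg.2 hμ2) (sub_nonneg.2 h5)]

end IsGamma

end Vale.Agent.P233
end

section

/-! P233 AB, block 3: maximum principle, logarithm and exponential of test functions, the
resolvent commutes with the Laplacian. -/

open MeasureTheory Filter Topology
open scoped ENNReal NNReal

namespace Vale.Agent.P233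

variable {M : Type*} [MeasurableSpace M] {m : Measure M} {C : Calc m}

/-- Maximum principle. -/
theorem IsDir.hc_max (hC : IsDir C) {w X : M →ₘ[m] ℝ} (hw : w ∈ C.A) (hX : MemLp X 2 m)
    {lam B θ : ℝ} (hl : 0 < lam) (hB : 0 ≤ B) (hθ : 0 < θ)
    (h : ∀ φ ∈ C.A, 0 ≤ φ → lam * I (C.Γ w φ) ≤ I (φ * X))
    (hX2 : ∀ᵐ x ∂m, B < w x → X x ≤ -(θ * (w x - B))) : ∀ᵐ x ∂m, w x ≤ B := by
  set φ' : ℝ → ℝ := fun t => max (t - B) 0 with hφ'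
  have hφ'c : Continuous φ' := (continuous_id.sub continuous_const).max continuous_const
  set φ : ℝ → ℝ := fun t => ∫ s in (0 : ℝ)..t, φ' s with hφ
  have hφd : ∀ t, HasDerivAt φ (φ' t) t := fun t =>
    (hφ'c.integral_hasStrictDerivAt 0 t).hasDerivAt
  have hφc : Continuous φ := continuous_iff_continuousAt.2 fun t => (hφd t).continuousAt
  have hφ0 : φ 0 = 0 := by simp [hφ]
  have hz : ∀ t, t ≤ B → φ t = 0 := by
    intro t ht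
    have h1 : Set.EqOn φ' (fun _ => (0 : ℝ)) (Set.uIcc 0 t) := by
      intro s hs
      have h2 : s ≤ max 0 t := hs.2
      have h3 : s ≤ B := h2.trans (max_le hB ht)
      simp only [hφ']
      exact max_eq_right (by linarith)
    simp only [hφ]
    rw [intervalIntegral.integral_congr h1]
    simp
  have hp : ∀ t, B < t → 0 < φ t := by
    intro t ht
    have h1 : φ t = φ B + ∫ s in B..t, φ' s := by
      simp only [hφ]
      rw [intervalIntegral.integral_add_adjacent_intervals (hφ'c.intervalIntegrable _ _)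
        (hφ'c.intervalIntegrable _ _)]
    rw [h1, hz B le_rfl, zero_add]
    refine intervalIntegral.intervalIntegral_pos_of_pos_on (hφ'c.intervalIntegrable _ _) ?_ ht
    intro x hx
    simp only [hφ']
    exact lt_of_lt_of_le (by linarith [hx.1]) (le_max_left _ _)
  have hnn : ∀ t, 0 ≤ φ t := by
    intro t
    rcases le_or_gt t B with ht | ht
    · exact (hz t ht).ge
    · exact (hp t ht).le
  have hφ'0 : ∀ t, 0 ≤ φ' t := fun t => le_max_right _ _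
  obtain ⟨K, hK⟩ := mem_top_iff.1 hw.2
  obtain ⟨c1, c2⟩ := hC.chain_bdd hw.1 hK hφc hφ'c (fun t _ => (hφd t).hasDerivWithinAt) hφ0
  have ae1 : ∀ᵐ x ∂m, AEEqFun.comp φ hφc w x = φ (w x) := AEEqFun.coeFn_comp φ hφc w
  have ae2 : ∀ᵐ x ∂m, AEEqFun.comp φ' hφ'c w x = φ' (w x) := AEEqFun.coeFn_comp φ' hφ'c w
  have hWr : ∀ᵐ x ∂m, -K ≤ w x ∧ w x ≤ K := by
    filter_upwards [hK] with x hx
    exact abs_le.1 hx
  have hΦA : AEEqFun.comp φ hφc w ∈ C.A := ⟨c1, hc_comp_top hWr hφc⟩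
  have hΦ0 : 0 ≤ AEEqFun.comp φ hφc w := by
    rw [nonneg_iff_ae]
    filter_upwards [ae1] with x hx
    rw [hx]; exact hnn _
  have h1 := h _ hΦA hΦ0
  have h2 : 0 ≤ I (C.Γ w (AEEqFun.comp φ hφc w)) := by
    rw [hC.symm _ hw.1 _ c1, c2 _ hw.1]
    refine I_nonneg (mul_nonneg ?_ (hC.nonneg _ hw.1))
    rw [nonneg_iff_ae]
    filter_upwards [ae2] with x hx
    rw [hx]; exact hφ'0 _
  have h3 : 0 ≤ I (AEEqFun.comp φ hφc w * X) := le_trans (mul_nonneg hl.le h2) h1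
  have hw2 := hC.memLp _ hw.1
  have hφ'2 : MemLp (AEEqFun.comp φ' hφ'c w) 2 m := by
    refine mem_of_le hw2 ?_
    filter_upwards [ae2] with x hx
    rw [hx, abs_of_nonneg (hφ'0 _)]
    simp only [hφ']
    exact max_le (by linarith [le_abs_self (w x)]) (abs_nonneg _)
  have hY1 : MemLp (AEEqFun.comp φ hφc w * AEEqFun.comp φ' hφ'c w) 1 m :=
    mem_mul_22 (hC.memLp _ c1) hφ'2
  have h4 : I (AEEqFun.comp φ hφc w * X) ≤
      I ((-θ) • (AEEqFun.comp φ hφc w * AEEqFun.comp φ' hφ'c w)) := by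
    refine I_mono (mem_mul_22 (hC.memLp _ c1) hX) (mem_smul _ hY1) ?_
    rw [le_iff_ae]
    filter_upwards [mul_ae (AEEqFun.comp φ hφc w) X,
      smul_ae (AEEqFun.comp φ hφc w * AEEqFun.comp φ' hφ'c w) (-θ),
      mul_ae (AEEqFun.comp φ hφc w) (AEEqFun.comp φ' hφ'c w), ae1, ae2, hX2]
      with x a1 a2 a3 a4 a5 a6
    rw [a1, a2, a3, a4, a5]
    rcases le_or_gt (w x) B with hx | hx
    · rw [hz _ hx]; simp
    · have h5 := a6 hx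
      have h6 : φ' (w x) = w x - B := max_eq_left (by linarith)
      rw [h6]
      linarith only [mul_nonneg (sub_nonneg.2 h5) (sub_nonneg.2 (hnn (w x)))]
  rw [I_smul] at h4
  have hY0 : 0 ≤ AEEqFun.comp φ hφc w * AEEqFun.comp φ' hφ'c w := by
    refine mul_nonneg hΦ0 ?_
    rw [nonneg_iff_ae]
    filter_upwards [ae2] with x hx
    rw [hx]; exact hφ'0 _
  have h5 := I_nonneg hY0
  have h6 : I (AEEqFun.comp φ hφc w * AEEqFun.comp φ' hφ'c w) = 0 := by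
    refine le_antisymm ?_ h5
    by_contra hcon
    push Not at hcon
    linarith only [mul_pos (sub_pos.2 hθ) (sub_pos.2 hcon), h4, h3]
  have h7 := I_eq_zero_of_nonneg hY1 hY0 h6
  rw [eq_iff_ae] at h7
  filter_upwards [h7, zero_ae (M := M) (m := m),
    mul_ae (AEEqFun.comp φ hφc w) (AEEqFun.comp φ' hφ'c w), ae1, ae2] with x a1 a2 a3 a4 a5
  by_contra hx
  push Not at hx
  rw [a2, a3, a4, a5] at a1
  have h8 : φ' (w x) = w x - B := max_eq_left (by linarith)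
  rw [h8] at a1
  have := mul_pos (hp _ hx) (sub_pos.2 hx)
  linarith

/-- The resolvent commutes with the Laplacian. -/
theorem IsDir.hc_J_lap (hC : IsDir C) {lam : ℝ} (hl : 0 < lam) {f h : M →ₘ[m] ℝ} (hf : C.IsLap f h) :
    C.J lam h = lam⁻¹ • (C.J lam f - f) := by
  have hf2 := hC.memLp f hf.1
  refine hC.J_eq hl ⟨hC.smul_mem _ _ (hC.sub_mem (hC.J_mem hl hf2) hf.1), fun g hg => ?_⟩
  have a1 := (hC.J_spec hl hf2).2 g hg
  have a2 : I (C.Γ f g) = -I (h * g) := hf.2.2 g hg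
  have hg2 := hC.memLp g hg
  have hJW := hC.J_mem hl hf2
  rw [smul_mul_assoc, I_smul, sub_mul, I_sub (mem_mul_22 (hC.J_mem2 hl hf2) hg2)
    (mem_mul_22 hf2 hg2), hC.smul_left _ _ (hC.sub_mem hJW hf.1) g hg, I_smul,
    hC.Γ_sub_left hJW hf.1 hg, I_sub (hC.Γ_mem1 hJW hg) (hC.Γ_mem1 hf.1 hg)]
  rw [a2]
  field_simp
  linarith

/-- `1 + χ = exp f`, with the chain rule for both functions. -/
structure Lg (C : Calc m) (χ f : M →ₘ[m] ℝ) : Prop where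
  tχ : χ ∈ C.Test
  tf : f ∈ C.Test
  exp_eq : ∀ᵐ x ∂m, 1 + χ x = Real.exp (f x)
  grad : ∀ g ∈ C.W, C.Γ χ g = (1 + χ) * C.Γ f g
  lap : C.lap χ = (1 + χ) * (C.lap f + C.Γ f f)

theorem hc_one_add (χ : M →ₘ[m] ℝ) : ∀ᵐ x ∂m, (1 + χ : M →ₘ[m] ℝ) x = 1 + χ x := by
  filter_upwards [add_ae (1 : M →ₘ[m] ℝ) χ, one_ae (M := M) (m := m)] with x a1 a2
  rw [a1, a2]

theorem Lg.pos {χ f : M →ₘ[m] ℝ} (h : Lg C χ f) : 0 ≤ 1 + χ := by
  rw [nonneg_iff_ae]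
  filter_upwards [hc_one_add χ, h.exp_eq] with x a1 a2
  rw [a1, a2]; exact (Real.exp_pos _).le

namespace IsGamma

variable (hC : IsGamma C)
include hC

/-- The exponential. -/
theorem hc_exp {φ : M →ₘ[m] ℝ} (hφ : φ ∈ C.Test) (hφφ : C.Γ φ φ ∈ C.W) :
    ∃ χ, Lg C χ φ := by
  have hD := hC.toIsDir
  have hA := hC.test_A hφ
  obtain ⟨K, hK⟩ := mem_top_iff.1 hA.2
  have hKr : ∀ᵐ x ∂m, -(max K 0) ≤ φ x ∧ φ x ≤ max K 0 := by
    filter_upwards [hK] with x hx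
    exact abs_le.1 (hx.trans (le_max_left _ _))
  have c0 : Continuous fun t : ℝ => Real.exp t - 1 := Real.continuous_exp.sub continuous_const
  have c1 : Continuous fun t : ℝ => Real.exp t := Real.continuous_exp
  have d1 : ∀ t : ℝ, HasDerivAt (fun t : ℝ => Real.exp t) (Real.exp t) t := Real.hasDerivAt_exp
  have d0 : ∀ t : ℝ, HasDerivAt (fun t : ℝ => Real.exp t - 1) (Real.exp t) t := fun t =>
    (d1 t).sub_const 1
  obtain ⟨h1, h2, h3⟩ := hC.hc_comp hφ hφφ (neg_nonpos.2 (le_max_right K 0)) (le_max_right K 0)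
    hKr c0 c1 c1 c1 (fun t _ => (d0 t).hasDerivWithinAt) (fun t _ => (d1 t).hasDerivWithinAt)
    (fun t _ => (d1 t).hasDerivWithinAt) (by simp)
  set χ := AEEqFun.comp (fun t : ℝ => Real.exp t - 1) c0 φ with hχ
  have e1 : AEEqFun.comp (fun t : ℝ => Real.exp t) c1 φ = 1 + χ := by
    rw [eq_iff_ae]
    filter_upwards [AEEqFun.coeFn_comp (fun t : ℝ => Real.exp t) c1 φ, hc_one_add χ,
      AEEqFun.coeFn_comp (fun t : ℝ => Real.exp t - 1) c0 φ] with x a1 a2 a3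
    rw [a1, a2, hχ, a3]
    simp
  rw [e1] at h2 h3
  refine ⟨χ, h1, hφ, ?_, h3, ?_⟩
  · filter_upwards [AEEqFun.coeFn_comp (fun t : ℝ => Real.exp t - 1) c0 φ] with x a3
    rw [hχ, a3]
    simp
  · rw [h2]; ring

/-- The logarithm. -/
theorem hc_log {χ : M →ₘ[m] ℝ} (hχ : χ ∈ C.Test) (hχχ : C.Γ χ χ ∈ C.W) {c : ℝ} (hc : 0 < c)
    (hc1 : c ≤ 1) (hlow : ∀ᵐ x ∂m, c - 1 ≤ χ x) : ∃ f, Lg C χ f := by
  have hD := hC.toIsDir
  have hA := hC.test_A hχ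
  obtain ⟨K, hK⟩ := mem_top_iff.1 hA.2
  have hKr : ∀ᵐ x ∂m, c - 1 ≤ χ x ∧ χ x ≤ max K 0 := by
    filter_upwards [hK, hlow] with x hx hx'
    exact ⟨hx', ((le_abs_self _).trans hx).trans (le_max_left _ _)⟩
  set mx : ℝ → ℝ := fun t => max (1 + t) c with hmx
  have hmxc : Continuous mx := (continuous_const.add continuous_id).max continuous_const
  have hmx0 : ∀ t, 0 < mx t := fun t => lt_of_lt_of_le hc (le_max_right _ _)
  have hmxe : ∀ t ∈ Set.Icc (c - 1) (max K 0), mx t = 1 + t := fun t ht =>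
    max_eq_left (by linarith [ht.1])
  have c0 : Continuous fun t : ℝ => Real.log (mx t) := hmxc.log fun t => (hmx0 t).ne'
  have c1 : Continuous fun t : ℝ => (mx t)⁻¹ := hmxc.inv₀ fun t => (hmx0 t).ne'
  have c2 : Continuous fun t : ℝ => -((mx t) ^ 2)⁻¹ :=
    ((hmxc.pow 2).inv₀ fun t => (pow_pos (hmx0 t) 2).ne').neg
  have c3 : Continuous fun t : ℝ => 2 * ((mx t) ^ 3)⁻¹ :=
    ((hmxc.pow 3).inv₀ fun t => (pow_pos (hmx0 t) 3).ne').const_mul 2 |>.congr fun t => rfl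
  have hb : ∀ t : ℝ, HasDerivAt (fun t : ℝ => 1 + t) 1 t := fun t => by
    simpa using (hasDerivAt_id' t).const_add 1
  have hpos : ∀ t ∈ Set.Icc (c - 1) (max K 0), 0 < 1 + t := fun t ht => by linarith [ht.1]
  have d0 : ∀ t ∈ Set.Icc (c - 1) (max K 0),
      HasDerivWithinAt (fun t : ℝ => Real.log (mx t)) (mx t)⁻¹ (Set.Icc (c - 1) (max K 0)) t := by
    intro t ht
    have h1 : HasDerivAt (fun t : ℝ => Real.log (1 + t)) (1 + t)⁻¹ t := by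
      have := (hb t).log (hpos t ht).ne'
      simpa using this
    rw [hmxe t ht]
    exact h1.hasDerivWithinAt.congr (fun y hy => by simp only [hmxe y hy]) (by simp only [hmxe t ht])
  have d1 : ∀ t ∈ Set.Icc (c - 1) (max K 0),
      HasDerivWithinAt (fun t : ℝ => (mx t)⁻¹) (-((mx t) ^ 2)⁻¹) (Set.Icc (c - 1) (max K 0)) t := by
    intro t ht
    have h1 : HasDerivAt (fun t : ℝ => (1 + t)⁻¹) (-((1 + t) ^ 2)⁻¹) t := by
      have := (hb t).fun_inv (hpos t ht).ne'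
      refine this.congr_deriv ?_
      rw [neg_div, one_div]
    rw [hmxe t ht]
    exact h1.hasDerivWithinAt.congr (fun y hy => by simp only [hmxe y hy]) (by simp only [hmxe t ht])
  have d2 : ∀ t ∈ Set.Icc (c - 1) (max K 0),
      HasDerivWithinAt (fun t : ℝ => -((mx t) ^ 2)⁻¹) (2 * ((mx t) ^ 3)⁻¹)
        (Set.Icc (c - 1) (max K 0)) t := by
    intro t ht
    have hp := hpos t ht
    have h1 : HasDerivAt (fun t : ℝ => -((1 + t) ^ 2)⁻¹) (2 * ((1 + t) ^ 3)⁻¹) t := by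
      have := (((hb t).fun_pow 2).fun_inv (pow_pos hp 2).ne').fun_neg
      refine this.congr_deriv ?_
      field_simp
      norm_num
      ring
    rw [hmxe t ht]
    exact h1.hasDerivWithinAt.congr (fun y hy => by simp only [hmxe y hy]) (by simp only [hmxe t ht])
  obtain ⟨h1, h2, h3⟩ := hC.hc_comp hχ hχχ (by linarith) (le_max_right K 0) hKr c0 c1 c2 c3 d0
    d1 d2 (by simp only [hmx]; rw [max_eq_left (by linarith)]; simp)
  set f := AEEqFun.comp (fun t : ℝ => Real.log (mx t)) c0 χ with hf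
  set i := AEEqFun.comp (fun t : ℝ => (mx t)⁻¹) c1 χ with hi
  have ei : (1 + χ) * i = 1 := by
    rw [eq_iff_ae]
    filter_upwards [mul_ae (1 + χ) i, hc_one_add χ, AEEqFun.coeFn_comp (fun t : ℝ => (mx t)⁻¹) c1 χ,
      one_ae (M := M) (m := m), hKr] with x a1 a2 a3 a4 a5
    rw [a1, a2, a4, hi, a3, Function.comp_apply, hmxe _ a5]
    exact mul_inv_cancel₀ (hpos _ a5).ne'
  have ei2 : AEEqFun.comp (fun t : ℝ => -((mx t) ^ 2)⁻¹) c2 χ = -(i * i) := by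
    rw [eq_iff_ae]
    filter_upwards [AEEqFun.coeFn_comp (fun t : ℝ => -((mx t) ^ 2)⁻¹) c2 χ, neg_ae (i * i),
      mul_ae i i, AEEqFun.coeFn_comp (fun t : ℝ => (mx t)⁻¹) c1 χ] with x a1 a2 a3 a4
    rw [a1, a2, a3, hi, a4, Function.comp_apply, Function.comp_apply]
    have := (hmx0 (χ x)).ne'
    field_simp
  rw [ei2] at h2
  refine ⟨f, hχ, h1, ?_, fun g hg => ?_, ?_⟩
  · filter_upwards [AEEqFun.coeFn_comp (fun t : ℝ => Real.log (mx t)) c0 χ, hKr] with x a1 a2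
    rw [hf, a1, Function.comp_apply, hmxe _ a2, Real.exp_log (hpos _ a2)]
  · rw [h3 g hg, ← mul_assoc, ei, one_mul]
  · have e3 : C.Γ f f = i * (i * C.Γ χ χ) := by
      rw [h3 f (hC.test_A h1).1, hD.symm _ hA.1 _ (hC.test_A h1).1, h3 χ hA.1]
    rw [h2, e3]
    calc C.lap χ = ((1 + χ) * i) * C.lap χ := by rw [ei, one_mul]
      _ = _ := by ring

end IsGamma

end Vale.Agent.P233
end

section

/-! P233 AB, block 3: one step of the resolvent scheme, weak inequalities. -/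

open MeasureTheory Filter Topology
open scoped ENNReal NNReal

namespace Vale.Agent.P233

variable {M : Type*} [MeasurableSpace M] {m : Measure M} {C : Calc m}

namespace IsGamma

variable (hC : IsGamma C) {κ : ℝ} (hB : C.BEi κ) [SigmaFinite m]
include hC hB

omit [SigmaFinite m] in
/-- `ψ Γ(log ψ)`. -/
theorem hc_q_mem {χ f : M →ₘ[m] ℝ} (h : Lg C χ f) : (1 + χ) * C.Γ f f ∈ C.A := by
  have hD := hC.toIsDir
  have hG := hC.Γ_mem hB h.tf h.tf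
  rw [add_mul, one_mul]
  exact hD.A_add hG (hD.mul_mem_A (hC.test_A h.tχ) hG)

/-- The weak inequality `(1 + 2 κ lam) q' - lam Δ q' ≤ q`. -/
theorem hc_step_q {χ f χ' f' : M →ₘ[m] ℝ} (h : Lg C χ f) (h' : Lg C χ' f') {lam : ℝ}
    (hl : 0 < lam) (hJ : C.lap χ' = lam⁻¹ • (χ' - χ)) {φ : M →ₘ[m] ℝ} (hφ : φ ∈ C.A)
    (h0 : 0 ≤ φ) :
    lam * I (C.Γ ((1 + χ') * C.Γ f' f') φ) ≤
      I (φ * ((1 + χ) * C.Γ f f - (1 + 2 * κ * lam) • ((1 + χ') * C.Γ f' f'))) := by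
  have hD := hC.toIsDir
  have hgA := hC.test_A h'.tχ
  have hfA := hC.test_A h'.tf
  have hgΓ := hC.test_Γ_top h'.tχ
  have hfΓ := hC.test_Γ_top h'.tf
  have hχA := hC.test_A h.tχ
  have hf0A := hC.test_A h.tf
  have hGA := hC.Γ_mem hB h'.tf h'.tf
  have hG0A := hC.Γ_mem hB h.tf h.tf
  have hlfW := hC.test_lap_mem h'.tf
  have hlgW := hC.test_lap_mem h'.tχ
  set g := χ' with hg
  set G := C.Γ f' f' with hG
  set S := C.lap f' + G with hS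
  have hSW : S ∈ C.W := hD.add_mem _ hlfW _ hGA.1
  have hφ2 := hC.memLp _ hφ.1
  have hG2 := hC.memLp _ hGA.1
  -- first order identities
  have e1 : C.Γ f' g = (1 + g) * G := by
    rw [hD.symm _ hfA.1 _ hgA.1, h'.grad _ hfA.1]
  have e2 : C.Γ f' χ = (1 + χ) * C.Γ f f' := by
    rw [hD.symm _ hfA.1 _ hχA.1, h.grad _ hfA.1]
  have e3 : C.Γ g G = (1 + g) * C.Γ f' G := h'.grad _ hGA.1
  have e4 : C.lap g = S + g * S := by rw [h'.lap]; ring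
  have hgS : g * S ∈ C.W := hD.mul_mem_lip hgA hgΓ hSW
  have e5 : C.Γ f' (C.lap g) = (1 + g) * C.Γ f' S + S * ((1 + g) * G) := by
    rw [e4, hD.Γ_add_right hfA.1 hSW hgS, hD.symm _ hfA.1 _ hgS,
      hD.Γ_mul_left_lip hgA hgΓ hSW hfA.1, hD.symm _ hSW _ hfA.1, hD.symm _ hgA.1 _ hfA.1, e1]
    ring
  have e6 : C.Γ f' S = C.Γ f' (C.lap f') + C.Γ f' G := hD.Γ_add_right hfA.1 hlfW hGA.1
  have e7 : (1 + g) * C.Γ f' (C.lap f') = C.Γ f' (C.lap g) - C.lap g * G - C.Γ g G := by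
    rw [e5, e6, e3, e4]; ring
  have e8 : lam • C.Γ f' (C.lap g) = (1 + g) * G - C.Γ f' χ := by
    rw [hJ, hD.Γ_smul_right _ hfA.1 (hD.sub_mem hgA.1 hχA.1), hD.Γ_sub_right hfA.1 hgA.1 hχA.1,
      smul_smul, mul_inv_cancel₀ hl.ne', one_smul, e1]
  have e9 : lam • C.lap g = g - χ := by
    rw [hJ, smul_smul, mul_inv_cancel₀ hl.ne', one_smul]
  -- the test function
  have hgφA : g * φ ∈ C.A := hD.mul_mem_A hgA hφ
  have hφ'A : φ + g * φ ∈ C.A := hD.A_add hφ hgφA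
  have hφ'0 : 0 ≤ φ + g * φ := by
    have : φ + g * φ = (1 + g) * φ := by ring
    rw [this]
    exact mul_nonneg h'.pos h0
  have hb := hC.bochner_weak hB h'.tf hφ'A hφ'0
  -- integrability
  have i1 : MemLp (C.Γ G φ) 1 m := hD.Γ_mem1 hGA.1 hφ.1
  have i2 : MemLp (g * C.Γ G φ) 1 m := mem_mul_top hgA.2 i1
  have i3 : MemLp (G * C.Γ g φ) 1 m := mem_mul_top hGA.2 (hD.Γ_mem1 hgA.1 hφ.1)
  have i4 : MemLp (φ * C.Γ g G) 1 m := mem_mul_top hφ.2 (hD.Γ_mem1 hgA.1 hGA.1)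
  have i5 : MemLp (φ * C.Γ f' (C.lap g)) 1 m :=
    mem_mul_22 hφ2 (hD.Γ_mem2 hfA.1 hfΓ hlgW)
  have hlg2 := hC.memLp _ hlgW
  have i6 : MemLp (φ * (C.lap g * G)) 1 m := mem_mul_22 hφ2 (mem_top_mul hlg2 hGA.2)
  have hq2 : MemLp ((1 + g) * G : M →ₘ[m] ℝ) 2 m := hC.memLp _ (hC.hc_q_mem hB h').1
  have hq02 : MemLp ((1 + χ) * C.Γ f f : M →ₘ[m] ℝ) 2 m := hC.memLp _ (hC.hc_q_mem hB h).1
  have i7 : MemLp (φ * ((1 + g) * G) : M →ₘ[m] ℝ) 1 m := mem_mul_22 hφ2 hq2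
  -- the gradient of `q'`
  have k1 : C.Γ ((1 + g) * G) φ = C.Γ G φ + g * C.Γ G φ + G * C.Γ g φ := by
    have : (1 + g) * G = G + g * G := by ring
    rw [this, hD.add_left _ hGA.1 _ (hD.mul_mem_A hgA hGA).1 _ hφ.1, hD.Γ_mul_left hgA hGA hφ.1]
    ring
  have k2 : C.Γ G (φ + g * φ) = C.Γ G φ + g * C.Γ G φ + φ * C.Γ g G := by
    rw [hD.Γ_add_right hGA.1 hφ.1 hgφA.1, hD.Γ_mul_right hgA hφ hGA.1, hD.symm _ hGA.1 _ hgA.1]
    ring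
  -- integration by parts
  have k3 : I (G * C.Γ g φ) + I (φ * C.Γ g G) = -I (φ * (C.lap g * G)) := by
    have hGφ : G * φ ∈ C.A := hD.mul_mem_A hGA hφ
    have a1 : I (C.Γ g (G * φ)) = -I (C.lap g * (G * φ)) := (hC.test_isLap h'.tχ).2.2 _ hGφ.1
    rw [hD.Γ_mul_right hGA hφ hgA.1, I_add i3 i4] at a1
    rw [a1]
    congr 2
    ring
  -- Bochner
  have k4 : (φ + g * φ) * (C.Γ f' (C.lap f') + κ • C.Γ f' f') =
      φ * C.Γ f' (C.lap g) - φ * (C.lap g * G) - φ * C.Γ g G + κ • (φ * ((1 + g) * G)) := by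
    have a1 : (φ + g * φ) * (C.Γ f' (C.lap f') + κ • C.Γ f' f') =
        φ * ((1 + g) * C.Γ f' (C.lap f')) + κ • (φ * ((1 + g) * G)) := by
      rw [mul_add, mul_smul_comm, ← hG]
      congr 1
      · ring
      · congr 1
        ring
    rw [a1, e7]
    ring
  rw [k4, k2, I_add (mem_sub (mem_sub i5 i6) i4) (mem_smul _ i7), I_sub (mem_sub i5 i6) i4,
    I_sub i5 i6, I_smul, I_add (mem_add i1 i2) i4, I_add i1 i2] at hb
  rw [k1, I_add (mem_add i1 i2) i3, I_add i1 i2]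
  -- right hand side
  have r1 : lam * I (φ * C.Γ f' (C.lap g)) = I (φ * ((1 + g) * G)) - I (φ * C.Γ f' χ) := by
    have hΓχ2 : MemLp (C.Γ f' χ) 2 m := hD.Γ_mem2 hfA.1 hfΓ hχA.1
    rw [← I_smul, ← mul_smul_comm, e8, mul_sub, I_sub i7 (mem_mul_22 hφ2 hΓχ2)]
  have r2 : lam * I (φ * (C.lap g * G)) = I (φ * ((g - χ) * G)) := by
    rw [← I_smul, ← mul_smul_comm, ← smul_mul_assoc, e9]
  have hΓχ2 : MemLp (C.Γ f' χ) 2 m := hD.Γ_mem2 hfA.1 hfΓ hχA.1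
  have j1 : MemLp (φ * C.Γ f' χ) 1 m := mem_mul_22 hφ2 hΓχ2
  have j2 : MemLp (φ * ((g - χ) * G)) 1 m :=
    mem_mul_22 hφ2 (mem_mul_top (mem_sub hgA.2 hχA.2) hG2)
  have j3 : MemLp (φ * ((1 + χ) * C.Γ f f) : M →ₘ[m] ℝ) 1 m := mem_mul_22 hφ2 hq02
  have key : (2 : ℝ) • (φ * C.Γ f' χ) + φ * ((g - χ) * G) ≤
      φ * ((1 + χ) * C.Γ f f) + φ * ((1 + g) * G) := by
    have a1 : 0 ≤ C.Γ f f - C.Γ f f' - (C.Γ f f' - G) := by
      have := hC.nonneg _ (hD.sub_mem hf0A.1 hfA.1)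
      rwa [hD.Γ_sub_left hf0A.1 hfA.1 (hD.sub_mem hf0A.1 hfA.1),
        hD.Γ_sub_right hf0A.1 hf0A.1 hfA.1, hD.Γ_sub_right hfA.1 hf0A.1 hfA.1,
        hD.symm _ hfA.1 _ hf0A.1] at this
    have a2 := mul_nonneg h0 (mul_nonneg h.pos a1)
    rw [e2, ← sub_nonneg]
    have a3 : φ * ((1 + χ) * C.Γ f f) + φ * ((1 + g) * G) -
        ((2 : ℝ) • (φ * ((1 + χ) * C.Γ f f')) + φ * ((g - χ) * G)) =
        φ * ((1 + χ) * (C.Γ f f - C.Γ f f' - (C.Γ f f' - G))) := by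
      rw [two_smul]
      ring
    rw [a3]
    exact a2
  have key2 := I_mono (mem_add (mem_smul _ j1) j2) (mem_add j3 i7) key
  rw [I_add (mem_smul _ j1) j2, I_add j3 i7, I_smul] at key2
  rw [mul_sub, mul_smul_comm, I_sub j3 (mem_smul _ i7), I_smul]
  linarith only [mul_eq_zero_of_left (sub_eq_zero.2 k3) (lam - (0)), mul_nonneg (le_of_lt (sub_pos.2 hl)) (sub_nonneg.2 hb), mul_nonneg (mul_self_nonneg (1 : ℝ)) (sub_nonneg.2 key2), mul_eq_zero_of_left (sub_eq_zero.2 r2) (0 - (0 - 1 * 1)), mul_eq_zero_of_left (sub_eq_zero.2 r1) (0 - (0 - 1 * 1))]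

end IsGamma

end Vale.Agent.P233
end

section

/-! P233 AB, block 3: one step of the resolvent scheme, propagation of the bounds. -/

open MeasureTheory Filter Topology
open scoped ENNReal NNReal

namespace Vale.Agent.P233

variable {M : Type*} [MeasurableSpace M] {m : Measure M} {C : Calc m}

/-- The bounds that are propagated by the scheme. -/
structure HSt (C : Calc m) (c A B D : ℝ) (χ f : M →ₘ[m] ℝ) : Prop where
  lg : Lg C χ f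
  low : ∀ᵐ x ∂m, c - 1 ≤ χ x
  gr : ∀ᵐ x ∂m, C.Γ f f x ≤ A
  lp : ∀ᵐ x ∂m, -B ≤ C.lap f x
  bd : ∀ᵐ x ∂m, |C.lap χ x| ≤ D * (1 + χ x)

/-- `J_le` in pointwise form. -/
theorem IsDir.hc_J_le (hC : IsDir C) {lam : ℝ} (hl : 0 < lam) {f : M →ₘ[m] ℝ} (hf : MemLp f 2 m)
    {K : ℝ} (hK : 0 ≤ K) (h0 : ∀ᵐ x ∂m, f x ≤ K) : ∀ᵐ x ∂m, C.J lam f x ≤ K := by
  have h1 := hC.J_le hl hf hK (by
    rw [le_iff_ae]
    filter_upwards [h0, smul_ae (1 : M →ₘ[m] ℝ) K, one_ae (M := M) (m := m)] with x a1 a2 a3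
    rw [a2, a3, mul_one]
    exact a1)
  rw [le_iff_ae] at h1
  filter_upwards [h1, smul_ae (1 : M →ₘ[m] ℝ) K, one_ae (M := M) (m := m)] with x a1 a2 a3
  rwa [a2, a3, mul_one] at a1

/-- pointwise inequality for the gradient bound -/
theorem hc_pt1 {A k K ψ ψ' q q' : ℝ} (hA : 0 ≤ A) (hψ' : 0 < ψ') (hh : ψ' ≤ 2 * ψ) (hK : 0 ≤ K)
    (hk : -K ≤ k) (hK8 : 8 * K ≤ 1) (hq : q ≤ A * ψ) :
    q - (1 + 2 * k) * q' + A * (1 + 8 * K) * (ψ' - ψ) ≤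
      -((1 + 2 * k) * (q' - A * (1 + 8 * K) * ψ')) := by
  have h1 : A * (1 + 8 * K) ≤ 2 * A := by linarith only [mul_nonneg (sub_nonneg.2 hA) (sub_nonneg.2 hK8)]
  have h0 : 0 ≤ A * (1 + 8 * K) := mul_nonneg hA (by linarith)
  have h2 : A * (1 + 8 * K) * ψ' ≤ (2 * A) * (2 * ψ) := mul_le_mul h1 hh hψ'.le (by linarith)
  have h3 : K * (A * (1 + 8 * K) * ψ') ≤ K * ((2 * A) * (2 * ψ)) :=
    mul_le_mul_of_nonneg_left h2 hK
  have h4 : -(K * (A * (1 + 8 * K) * ψ')) ≤ k * (A * (1 + 8 * K) * ψ') := by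
    have := mul_le_mul_of_nonneg_right hk (mul_nonneg h0 hψ'.le)
    linarith
  linarith only [h4, h3, hq]

/-- pointwise inequality for the bound of the Laplacian -/
theorem hc_pt2 {A B k K ψ ψ' q q' l f' : ℝ} (hA : 0 ≤ A) (hψ : 0 < ψ) (hh : ψ' ≤ 2 * ψ) (hK : 0 ≤ K)
    (hk : -K ≤ k) (hK8 : 8 * K ≤ 1) (hq0 : 0 ≤ q') (hq' : q' ≤ A * (1 + 8 * K) * ψ')
    (hl : -B ≤ l) :
    q - (1 + 2 * k) * q' - (ψ * l + q) + f' + (B + 8 * K * A) * (ψ' - ψ) ≤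
      -(1 * (q' - f' - (B + 8 * K * A) * ψ')) := by
  have h1 : A * (1 + 8 * K) ≤ 2 * A := by linarith only [mul_nonneg (sub_nonneg.2 hA) (sub_nonneg.2 hK8)]
  have h2 : q' ≤ 4 * A * ψ := by
    have h3 : A * (1 + 8 * K) * ψ' ≤ (2 * A) * (2 * ψ) := by
      rcases le_or_gt ψ' 0 with h | h
      · have h4 : A * (1 + 8 * K) * ψ' ≤ 0 :=
          mul_nonpos_of_nonneg_of_nonpos (mul_nonneg hA (by linarith)) h
        have h5 : 0 ≤ (2 * A) * (2 * ψ) := by positivity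
        linarith
      · exact mul_le_mul h1 hh h.le (by linarith)
    linarith
  have h3 : -(K * q') ≤ k * q' := by
    have := mul_le_mul_of_nonneg_right hk hq0
    linarith
  have h4 : K * q' ≤ K * (4 * A * ψ) := mul_le_mul_of_nonneg_left h2 hK
  have h5 := mul_le_mul_of_nonneg_right hl hψ.le
  linarith only [h5, h4, h3]

namespace IsGamma

variable (hC : IsGamma C) {κ : ℝ} (hB : C.BEi κ) [SigmaFinite m]
include hC

/-- integration by parts for the resolvent -/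
theorem hc_ibp {χ χ' φ : M →ₘ[m] ℝ} {lam : ℝ} (hl : 0 < lam) (hT' : χ' ∈ C.Test)
    (hlap' : C.lap χ' = lam⁻¹ • (χ' - χ)) (hφ : φ ∈ C.W) :
    lam * I (C.Γ χ' φ) = -I ((χ' - χ) * φ) := by
  have a1 : I (C.Γ χ' φ) = -I (C.lap χ' * φ) := (hC.test_isLap hT').2.2 _ hφ
  rw [a1, hlap', smul_mul_assoc, I_smul]
  field_simp

include hB

/-- propagation of the gradient bound -/
theorem hc_step_gr {χ f χ' f' : M →ₘ[m] ℝ} {lam A : ℝ} (hg : Lg C χ f) (hf' : Lg C χ' f')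
    (hl : 0 < lam) (hlap' : C.lap χ' = lam⁻¹ • (χ' - χ)) (hA : 0 ≤ A)
    (hgr : ∀ᵐ x ∂m, C.Γ f f x ≤ A) (hk : 8 * (|κ| * lam) ≤ 1)
    (hhar : ∀ᵐ x ∂m, 1 + χ' x ≤ 2 * (1 + χ x)) :
    ∀ᵐ x ∂m, C.Γ f' f' x ≤ A * (1 + 8 * (|κ| * lam)) := by
  have hD := hC.toIsDir
  have hχA := hC.test_A hg.tχ
  have hχ2 := hC.memLp _ hχA.1
  have hχ'A := hC.test_A hf'.tχ
  have hχ'2 := hC.memLp _ hχ'A.1
  have hqA := hC.hc_q_mem hB hg
  have hq'A := hC.hc_q_mem hB hf'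
  have hK0 : 0 ≤ |κ| * lam := mul_nonneg (abs_nonneg κ) hl.le
  have hκ1 : -(|κ| * lam) ≤ κ * lam := by
    have := mul_le_mul_of_nonneg_right (neg_abs_le κ) hl.le
    linarith
  set A' := A * (1 + 8 * (|κ| * lam)) with hA'def
  have hA' : 0 ≤ A' := mul_nonneg hA (by linarith)
  set q := (1 + χ) * C.Γ f f with hq
  set q' := (1 + χ') * C.Γ f' f' with hq'
  have hX1 : MemLp (q - (1 + 2 * (κ * lam)) • q' : M →ₘ[m] ℝ) 2 m :=
    mem_sub (hC.memLp _ hqA.1) (mem_smul _ (hC.memLp _ hq'A.1))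
  have hX2 : MemLp (q - (1 + 2 * (κ * lam)) • q' + A' • (χ' - χ) : M →ₘ[m] ℝ) 2 m :=
    mem_add hX1 (mem_smul _ (mem_sub hχ'2 hχ2))
  have hθ : 0 < 1 + 2 * (κ * lam) := by linarith
  have hw : q' - A' • χ' ∈ C.A := hD.A_sub hq'A (hD.A_smul _ hχ'A)
  have hmp := hD.hc_max hw hX2 hl hA' hθ (fun φ hφ h0 => by
    have h1 := hC.hc_step_q hB hg hf' hl hlap' hφ h0
    rw [mul_assoc 2 κ lam] at h1
    have h2 := hC.hc_ibp hl hf'.tχ hlap' hφ.1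
    have hφ2 := hC.memLp _ hφ.1
    rw [hD.Γ_sub_left hq'A.1 (hD.smul_mem _ _ hχ'A.1) hφ.1, hD.smul_left _ _ hχ'A.1 _ hφ.1,
      I_sub (hD.Γ_mem1 hq'A.1 hφ.1) (mem_smul _ (hD.Γ_mem1 hχ'A.1 hφ.1)), I_smul, mul_sub,
      mul_add, mul_smul_comm, I_add (mem_mul_22 hφ2 hX1)
      (mem_smul _ (mem_mul_22 hφ2 (mem_sub hχ'2 hχ2))), I_smul, mul_comm φ (χ' - χ)]
    have h3 : lam * (A' * I (C.Γ χ' φ)) = A' * (lam * I (C.Γ χ' φ)) := by ring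
    rw [h3, h2]
    linarith) (by
    filter_upwards [add_ae (q - (1 + 2 * (κ * lam)) • q') (A' • (χ' - χ)),
      sub_ae q ((1 + 2 * (κ * lam)) • q'), smul_ae q' (1 + 2 * (κ * lam)),
      smul_ae (χ' - χ) A', sub_ae χ' χ, sub_ae q' (A' • χ'), smul_ae χ' A',
      mul_ae (1 + χ) (C.Γ f f), hc_one_add χ, hgr, hhar, hg.exp_eq, hf'.exp_eq]
      with x b1 b2 b3 b4 b5 b6 b7 b8 b9 b10 b11 b12 b13 _
    have hp : 0 < 1 + χ x := by rw [b12]; exact Real.exp_pos _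
    have hp' : 0 < 1 + χ' x := by rw [b13]; exact Real.exp_pos _
    have hqx : q x ≤ A * (1 + χ x) := by
      rw [hq, b8, b9, mul_comm]
      exact mul_le_mul_of_nonneg_right b10 hp.le
    have h1 := hc_pt1 (q' := q' x) hA hp' b11 hK0 hκ1 hk hqx
    rw [b1, b2, b3, b4, b5, b6, b7]
    have e1 : (1 + χ' x) - (1 + χ x) = χ' x - χ x := by ring
    rw [e1] at h1
    refine h1.trans (le_of_eq ?_)
    rw [hA'def]; ring)
  filter_upwards [hmp, sub_ae q' (A' • χ'), smul_ae χ' A', mul_ae (1 + χ') (C.Γ f' f'),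
    hc_one_add χ', hf'.exp_eq] with x b1 b2 b3 b4 b5 b6
  rw [b2, b3, hq', b4, b5] at b1
  have hp' : 0 < 1 + χ' x := by rw [b6]; exact Real.exp_pos _
  have h1 : (1 + χ' x) * C.Γ f' f' x ≤ (1 + χ' x) * A' := by linarith
  exact le_of_mul_le_mul_left h1 hp'

/-- propagation of the bound of the Laplacian -/
theorem hc_step_lp {χ f χ' f' : M →ₘ[m] ℝ} {lam A B : ℝ} (hg : Lg C χ f) (hf' : Lg C χ' f')
    (hl : 0 < lam) (hlap' : C.lap χ' = lam⁻¹ • (χ' - χ)) (hA : 0 ≤ A) (hB0 : 0 ≤ B)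
    (hk : 8 * (|κ| * lam) ≤ 1) (hhar : ∀ᵐ x ∂m, 1 + χ' x ≤ 2 * (1 + χ x))
    (hgr' : ∀ᵐ x ∂m, C.Γ f' f' x ≤ A * (1 + 8 * (|κ| * lam)))
    (hlp : ∀ᵐ x ∂m, -B ≤ C.lap f x)
    (hres : ∀ φ ∈ C.W, lam * I (C.Γ (C.lap χ') φ) = I (C.lap χ * φ) - I (C.lap χ' * φ)) :
    ∀ᵐ x ∂m, -(B + 8 * (|κ| * lam) * A) ≤ C.lap f' x := by
  have hD := hC.toIsDir
  have hχA := hC.test_A hg.tχ
  have hχ2 := hC.memLp _ hχA.1
  have hχ'A := hC.test_A hf'.tχ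
  have hχ'2 := hC.memLp _ hχ'A.1
  have hqA := hC.hc_q_mem hB hg
  have hq'A := hC.hc_q_mem hB hf'
  have hK0 : 0 ≤ |κ| * lam := mul_nonneg (abs_nonneg κ) hl.le
  have hκ1 : -(|κ| * lam) ≤ κ * lam := by
    have := mul_le_mul_of_nonneg_right (neg_abs_le κ) hl.le
    linarith
  set B' := B + 8 * (|κ| * lam) * A with hB'def
  have hB'0 : 0 ≤ B' := by
    have : 0 ≤ |κ| * lam * A := mul_nonneg hK0 hA
    rw [hB'def]; linarith
  set q := (1 + χ) * C.Γ f f with hq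
  set q' := (1 + χ') * C.Γ f' f' with hq'
  have hlχ'A : C.lap χ' ∈ C.A := by
    rw [hlap']; exact hD.A_smul _ (hD.A_sub hχ'A hχA)
  have hlχ'2 := hC.memLp _ hlχ'A.1
  have hlχ2 := hC.memLp _ (hC.test_lap_mem hg.tχ)
  have hX1 : MemLp (q - (1 + 2 * (κ * lam)) • q' : M →ₘ[m] ℝ) 2 m :=
    mem_sub (hC.memLp _ hqA.1) (mem_smul _ (hC.memLp _ hq'A.1))
  have hX2 : MemLp (q - (1 + 2 * (κ * lam)) • q' - C.lap χ + C.lap χ' + B' • (χ' - χ) :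
      M →ₘ[m] ℝ) 2 m :=
    mem_add (mem_add (mem_sub hX1 hlχ2) hlχ'2) (mem_smul _ (mem_sub hχ'2 hχ2))
  have hw : q' - C.lap χ' - B' • χ' ∈ C.A :=
    hD.A_sub (hD.A_sub hq'A hlχ'A) (hD.A_smul _ hχ'A)
  have hmp := hD.hc_max hw hX2 hl hB'0 one_pos (fun φ hφ h0 => by
    have h1 := hC.hc_step_q hB hg hf' hl hlap' hφ h0
    rw [mul_assoc 2 κ lam] at h1
    have h2 := hC.hc_ibp hl hf'.tχ hlap' hφ.1
    have h4 := hres _ hφ.1
    have hφ2 := hC.memLp _ hφ.1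
    rw [hD.Γ_sub_left (hD.sub_mem hq'A.1 hlχ'A.1) (hD.smul_mem _ _ hχ'A.1) hφ.1,
      hD.Γ_sub_left hq'A.1 hlχ'A.1 hφ.1, hD.smul_left _ _ hχ'A.1 _ hφ.1,
      I_sub (mem_sub (hD.Γ_mem1 hq'A.1 hφ.1) (hD.Γ_mem1 hlχ'A.1 hφ.1))
        (mem_smul _ (hD.Γ_mem1 hχ'A.1 hφ.1)),
      I_sub (hD.Γ_mem1 hq'A.1 hφ.1) (hD.Γ_mem1 hlχ'A.1 hφ.1), I_smul]
    have n1 := mem_mul_22 hφ2 hX1
    have n2 : MemLp (C.lap χ * φ) 1 m := mem_mul_22 hlχ2 hφ2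
    have n3 : MemLp (C.lap χ' * φ) 1 m := mem_mul_22 hlχ'2 hφ2
    have n4 : MemLp ((χ' - χ) * φ) 1 m := mem_mul_22 (mem_sub hχ'2 hχ2) hφ2
    have e1 : φ * (q - (1 + 2 * (κ * lam)) • q' - C.lap χ + C.lap χ' + B' • (χ' - χ)) =
        φ * (q - (1 + 2 * (κ * lam)) • q') - C.lap χ * φ + C.lap χ' * φ +
          B' • ((χ' - χ) * φ) := by
      rw [mul_add, mul_smul_comm, mul_comm φ (χ' - χ)]
      ring
    rw [e1, I_add (mem_add (mem_sub n1 n2) n3) (mem_smul _ n4), I_add (mem_sub n1 n2) n3,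
      I_sub n1 n2, I_smul]
    have h3 : lam * (I (C.Γ q' φ) - I (C.Γ (C.lap χ') φ) - B' * I (C.Γ χ' φ)) =
      lam * I (C.Γ q' φ) - lam * I (C.Γ (C.lap χ') φ) - B' * (lam * I (C.Γ χ' φ)) := by ring
    rw [h3, h2, h4]
    linarith) (by
    filter_upwards [add_ae (q - (1 + 2 * (κ * lam)) • q' - C.lap χ + C.lap χ') (B' • (χ' - χ)),
      add_ae (q - (1 + 2 * (κ * lam)) • q' - C.lap χ) (C.lap χ'),
      sub_ae (q - (1 + 2 * (κ * lam)) • q') (C.lap χ),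
      sub_ae q ((1 + 2 * (κ * lam)) • q'), smul_ae q' (1 + 2 * (κ * lam)), smul_ae (χ' - χ) B',
      sub_ae χ' χ, sub_ae (q' - C.lap χ') (B' • χ'), sub_ae q' (C.lap χ'), smul_ae χ' B',
      mul_ae (1 + χ) (C.Γ f f), mul_ae (1 + χ') (C.Γ f' f'), hc_one_add χ, hc_one_add χ', hgr',
      hhar, hg.exp_eq, hf'.exp_eq, hlp, mul_ae (1 + χ) (C.lap f + C.Γ f f),
      add_ae (C.lap f) (C.Γ f f), nonneg_iff_ae.1 (hC.nonneg _ (hC.test_A hf'.tf).1)]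
      with x b1 b2 b3 b4 b5 b6 b7 b8 b9 b10 b11 b12 b13 b14 b15 b16 b17 b18 b19 b20 b21 b22 _
    have hp : 0 < 1 + χ x := by rw [b17]; exact Real.exp_pos _
    have hp' : 0 < 1 + χ' x := by rw [b18]; exact Real.exp_pos _
    have hp1 : C.lap χ x = (1 + χ x) * C.lap f x + q x := by
      rw [hg.lap, b20, b21, b13, hq, b11, b13]; ring
    have hq'x : q' x ≤ A * (1 + 8 * (|κ| * lam)) * (1 + χ' x) := by
      rw [hq', b12, b14, mul_comm]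
      exact mul_le_mul_of_nonneg_right b15 hp'.le
    have hq'0 : 0 ≤ q' x := by
      rw [hq', b12, b14]
      exact mul_nonneg hp'.le b22
    have h1 := hc_pt2 (q := q x) (f' := C.lap χ' x) hA hp b16 hK0 hκ1 hk hq'0 hq'x b19
    rw [b1, b2, b3, b4, b5, b6, b7, b8, b9, b10, hp1]
    have e1 : (1 + χ' x) - (1 + χ x) = χ' x - χ x := by ring
    rw [e1] at h1
    refine h1.trans (le_of_eq ?_)
    rw [hB'def]; ring)
  filter_upwards [hmp, sub_ae (q' - C.lap χ') (B' • χ'), sub_ae q' (C.lap χ'), smul_ae χ' B',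
    mul_ae (1 + χ') (C.Γ f' f'), hc_one_add χ', hf'.exp_eq,
    mul_ae (1 + χ') (C.lap f' + C.Γ f' f'), add_ae (C.lap f') (C.Γ f' f')]
    with x b1 b2 b3 b4 b5 b6 b7 b8 b9
  rw [b2, b3, b4, hf'.lap, b8, b9, hq', b5, b6] at b1
  have hp' : 0 < 1 + χ' x := by rw [b7]; exact Real.exp_pos _
  have h1 : (1 + χ' x) * -B' ≤ (1 + χ' x) * C.lap f' x := by linarith
  exact le_of_mul_le_mul_left h1 hp'

/-- One step of the scheme. -/
theorem hc_step {c A B D lam : ℝ} {χ f : M →ₘ[m] ℝ} (h : HSt C c A B D χ f) (hl : 0 < lam)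
    (hc : 0 < c) (hc1 : c ≤ 1) (hA : 0 ≤ A) (hBB : 0 ≤ B) (hD0 : 0 ≤ D) (hlD : lam * D ≤ 1 / 2)
    (hk : 8 * (|κ| * lam) ≤ 1) :
    C.lap (C.J lam χ) = lam⁻¹ • (C.J lam χ - χ) ∧
    ∃ f', HSt C c (A * (1 + 8 * (|κ| * lam))) (B + 8 * (|κ| * lam) * A) D (C.J lam χ) f' := by
  have hD := hC.toIsDir
  obtain ⟨hg, hlow, hgr, hlp, hbd⟩ := h
  have hχA := hC.test_A hg.tχ
  have hχ2 := hC.memLp _ hχA.1
  have hlχW := hC.test_lap_mem hg.tχ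
  have hκ1 : -(|κ| * lam) ≤ κ * lam := by
    have := mul_le_mul_of_nonneg_right (neg_abs_le κ) hl.le
    linarith
  have hT' : C.J lam χ ∈ C.Test :=
    hC.J_test hB hl (by linarith only [hκ1, hk]) hχA (hC.test_Γ_top hg.tχ)
  have hlap' : C.lap (C.J lam χ) = lam⁻¹ • (C.J lam χ - χ) := hD.lap_eq (hD.J_isLap hl hχ2)
  have hlapJ : C.J lam (C.lap χ) = C.lap (C.J lam χ) := by
    rw [hlap']; exact hD.hc_J_lap hl (hC.test_isLap hg.tχ)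
  refine ⟨hlap', ?_⟩
  set χ' := C.J lam χ with hχ'
  have hχ'A := hC.test_A hT'
  have hχ'2 := hC.memLp _ hχ'A.1
  -- lower bound
  have hlow' : ∀ᵐ x ∂m, c - 1 ≤ χ' x := by
    have h1 := hD.hc_J_le hl (mem_neg hχ2) (K := 1 - c) (by linarith) (by
      filter_upwards [neg_ae χ, hlow] with x a1 a2
      rw [a1]; linarith)
    rw [hD.J_neg hl hχ2] at h1
    filter_upwards [h1, neg_ae (C.J lam χ)] with x a1 a2
    rw [a2] at a1
    linarith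
  -- bound of the Laplacian of `χ'`
  have hl2 := hC.memLp _ hlχW
  have hbd' : ∀ᵐ x ∂m, |C.lap χ' x| ≤ D * (1 + χ' x) := by
    have h1 := hD.hc_J_le hl (mem_sub hl2 (mem_smul D hχ2)) hD0 (by
      filter_upwards [sub_ae (C.lap χ) (D • χ), smul_ae χ D, hbd] with x a1 a2 a3
      rw [a1, a2]
      have := (le_abs_self _).trans a3
      linarith)
    have h2 := hD.hc_J_le hl (mem_sub (mem_neg hl2) (mem_smul D hχ2)) hD0 (by
      filter_upwards [sub_ae (-C.lap χ) (D • χ), smul_ae χ D, neg_ae (C.lap χ), hbd]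
        with x a1 a2 a3 a4
      rw [a1, a2, a3]
      have := (neg_le_abs _).trans a4
      linarith)
    rw [hD.J_sub hl hl2 (mem_smul D hχ2), hD.J_smul hl D hχ2, hlapJ] at h1
    rw [hD.J_sub hl (mem_neg hl2) (mem_smul D hχ2), hD.J_smul hl D hχ2, hD.J_neg hl hl2,
      hlapJ] at h2
    filter_upwards [h1, h2, sub_ae (C.lap χ') (D • χ'), sub_ae (-C.lap χ') (D • χ'),
      smul_ae χ' D, neg_ae (C.lap χ')] with x a1 a2 a3 a4 a5 a6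
    rw [a3, a5] at a1
    rw [a4, a5, a6] at a2
    exact abs_le.2 ⟨by linarith, by linarith⟩
  -- the logarithm
  have hχχ' : C.Γ χ' χ' ∈ C.W := (hC.Γ_mem hB hT' hT').1
  obtain ⟨f', hf'⟩ := hC.hc_log hT' hχχ' hc hc1 hlow'
  -- one step Harnack inequality
  have hhar : ∀ᵐ x ∂m, 1 + χ' x ≤ 2 * (1 + χ x) := by
    filter_upwards [hbd', hf'.exp_eq, smul_ae (χ' - χ) lam⁻¹, sub_ae χ' χ] with x a1 a2 a3 a4
    rw [hlap', a3, a4] at a1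
    have hp : 0 < 1 + χ' x := by rw [a2]; exact Real.exp_pos _
    have h1 := (le_abs_self _).trans a1
    have h2 : χ' x - χ x ≤ lam * D * (1 + χ' x) := by
      have h3 := mul_le_mul_of_nonneg_left h1 hl.le
      rw [← mul_assoc, mul_inv_cancel₀ hl.ne', one_mul] at h3
      linarith
    have h3 : lam * D * (1 + χ' x) ≤ 1 / 2 * (1 + χ' x) :=
      mul_le_mul_of_nonneg_right hlD hp.le
    linarith
  have hgr' := hC.hc_step_gr hB hg hf' hl hlap' hA hgr hk hhar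
  have hlp' := hC.hc_step_lp hB hg hf' hl hlap' hA hBB hk hhar hgr' hlp (fun φ hφ => by
    have a1 := (hD.J_spec hl hl2).2 φ hφ
    rw [hlapJ] at a1
    linarith)
  exact ⟨f', hf', hlow', hgr', hlp', hbd'⟩

end IsGamma

end Vale.Agent.P233
end

section

/-! P233 AB, block 3: the resolvent scheme for the viscous Hamilton-Jacobi equation. -/

open MeasureTheory Filter Topology
open scoped ENNReal NNReal

namespace Vale.Agent.P233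

variable {M : Type*} [MeasurableSpace M] {m : Measure M} {C : Calc m}

theorem hc_pow_le {K : ℝ} (hK : 0 ≤ K) {n k : ℕ} (hkn : k ≤ n) (h : K * n ≤ 1) :
    (1 + K) ^ k ≤ 1 + 2 * (K * n) := by
  have h1 : (1 + K) ^ k ≤ Real.exp (K * k) := by
    have h2 := pow_le_pow_left₀ (by linarith : (0 : ℝ) ≤ 1 + K)
      (by linarith [Real.add_one_le_exp K] : 1 + K ≤ Real.exp K) k
    rwa [← Real.exp_nat_mul, mul_comm] at h2
  have hkn' : (k : ℝ) ≤ n := by exact_mod_cast hkn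
  have h3 : K * k ≤ K * n := mul_le_mul_of_nonneg_left hkn' hK
  have h4 : 0 ≤ K * n := mul_nonneg hK (Nat.cast_nonneg n)
  have h5 := Real.abs_exp_sub_one_le (x := K * n) (by rwa [abs_of_nonneg h4])
  rw [abs_of_nonneg h4] at h5
  have h6 := (le_abs_self _).trans h5
  have h7 := Real.exp_le_exp.2 h3
  linarith

theorem hc_log_ge {y : ℝ} (hy : |y| ≤ 1 / 2) : y - 2 * y ^ 2 ≤ Real.log (1 + y) := by
  have h1 := abs_le.1 hy
  have hp : 0 < 1 + y := by linarith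
  have h2 : -(Real.log (1 + y)) = Real.log ((1 + y)⁻¹) := (Real.log_inv _).symm
  have h3 : Real.log ((1 + y)⁻¹) ≤ (1 + y)⁻¹ - 1 := Real.log_le_sub_one_of_pos (inv_pos.2 hp)
  have h4 : (1 + y)⁻¹ - 1 ≤ -(y - 2 * y ^ 2) := by
    have h5 : (1 + y)⁻¹ - 1 = -y / (1 + y) := by field_simp; ring
    rw [h5, div_le_iff₀ hp]
    nlinarith [mul_nonneg (sq_nonneg y) (by linarith : (0 : ℝ) ≤ 1 + 2 * y)]
  linarith

/-- The value at a point: the exact form of one step. -/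
theorem hc_pt3 {a b χ χ' l G lam : ℝ} (ha : 1 + χ = Real.exp a) (hb : 1 + χ' = Real.exp b)
    (h : χ' - χ = lam * ((1 + χ') * (l + G))) :
    Real.log (1 + -(lam * (l + G))) = a - b := by
  have h1 : 1 + -(lam * (l + G)) = Real.exp (a - b) := by
    rw [Real.exp_sub, ← ha, ← hb]
    have hp : (1 + χ') ≠ 0 := by rw [hb]; exact (Real.exp_pos _).ne'
    rw [eq_div_iff hp]
    linear_combination h
  rw [h1, Real.log_exp]

namespace IsGamma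

variable (hC : IsGamma C) {κ : ℝ} (hB : C.BEi κ) [SigmaFinite m]
include hC

omit [SigmaFinite m] in
theorem hc_smul {f : M →ₘ[m] ℝ} (hf : f ∈ C.Test) (c : ℝ) :
    c • f ∈ C.Test ∧ C.lap (c • f) = c • C.lap f ∧ C.Γ (c • f) (c • f) = (c * c) • C.Γ f f := by
  have hD := hC.toIsDir
  have hA := hC.test_A hf
  refine ⟨hC.test_smul' c hf, hD.lap_eq (hD.isLap_smul c (hC.test_isLap hf)), ?_⟩
  rw [hD.smul_left _ _ hA.1 _ (hD.smul_mem _ _ hA.1), hD.Γ_smul_right _ hA.1 hA.1, smul_smul]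

include hB

omit hB in
/-- The two inequalities of one step. -/
theorem hc_onestep {χ f χ' f' : M →ₘ[m] ℝ} {σ τ D₀ E₀ c : ℝ} (hσ : 0 < σ) (hτ : 0 < τ)
    (hg : Lg C χ f) (hg' : Lg C χ' f') (hlap' : C.lap χ' = (σ * τ)⁻¹ • (χ' - χ))
    (hbd : ∀ᵐ x ∂m, |C.lap χ' x| ≤ D₀ * (1 + χ' x)) (hlow : ∀ᵐ x ∂m, c - 1 ≤ χ' x) (hc0 : 0 < c)
    (hE : I (C.lap χ' ^ 2) ≤ E₀) (hlD : σ * τ * D₀ ≤ 1 / 2)
    (hW : C.lap f' + C.Γ f' f' ∈ C.W) :
    (∀ᵐ x ∂m, -(2 * σ) * f' x - -(2 * σ) * f x ≤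
      τ * (σ * (-(2 * σ) * C.lap f' x) - (-(2 * σ) * -(2 * σ) * C.Γ f' f' x) / 2)) ∧
    ∃ R : M →ₘ[m] ℝ, MemLp R 1 m ∧ I R ≤ (4 * σ ^ 3 * (c ^ 2)⁻¹ * E₀) * τ ^ 2 ∧
      ∀ᵐ x ∂m, 0 ≤ R x ∧ R x ≤ (4 * σ ^ 3 * D₀ ^ 2) * τ ^ 2 ∧
        τ * (σ * (-(2 * σ) * C.lap f' x) - (-(2 * σ) * -(2 * σ) * C.Γ f' f' x) / 2) - R x ≤
          -(2 * σ) * f' x - -(2 * σ) * f x := by
  have hl : 0 < σ * τ := by positivity
  set lam := σ * τ with hlam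
  set S := C.lap f' + C.Γ f' f' with hS
  have hbase : ∀ᵐ x ∂m, Real.log (1 + -(lam * S x)) = f x - f' x ∧ |S x| ≤ D₀ ∧
      S x = C.lap f' x + C.Γ f' f' x ∧ C.lap χ' x = (1 + χ' x) * S x := by
    filter_upwards [hg.exp_eq, hg'.exp_eq, mul_ae (1 + χ') S, hc_one_add χ',
      add_ae (C.lap f') (C.Γ f' f'), smul_ae (χ' - χ) lam⁻¹, sub_ae χ' χ, hbd]
      with x a1 a2 a7 a8 a9 a10 a11 a12
    have hp : 0 < 1 + χ' x := by rw [a2]; exact Real.exp_pos _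
    have hlx : C.lap χ' x = lam⁻¹ * (χ' x - χ x) := by rw [hlap', a10, a11]
    have hly : C.lap χ' x = (1 + χ' x) * S x := by rw [hg'.lap, a7, a8]
    have hrel : χ' x - χ x = lam * ((1 + χ' x) * (S x + 0)) := by
      rw [add_zero, ← hly, hlx]; field_simp
    have h5 := hc_pt3 a1 a2 hrel
    rw [add_zero] at h5
    refine ⟨h5, ?_, a9, hly⟩
    rw [hly, abs_mul, abs_of_pos hp, mul_comm] at a12
    exact le_of_mul_le_mul_right a12 hp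
  constructor
  · filter_upwards [hbase] with x a
    obtain ⟨a1, a2, a3, -⟩ := a
    have h6 : 0 < 1 + -(lam * S x) := by
      have h8 := mul_le_mul_of_nonneg_left ((le_abs_self _).trans a2) hl.le
      linarith only [h8, hlD]
    have h7 := Real.log_le_sub_one_of_pos h6
    rw [a1, a3] at h7
    have h8 := mul_le_mul_of_nonneg_left h7 (by positivity : (0 : ℝ) ≤ 2 * σ)
    have h9 : 2 * σ * (1 + -(lam * (C.lap f' x + C.Γ f' f' x)) - 1) =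
      τ * (σ * (-(2 * σ) * C.lap f' x) - (-(2 * σ) * -(2 * σ) * C.Γ f' f' x) / 2) := by
      rw [hlam]; ring
    rw [h9] at h8
    linarith only [h8]
  · have hS2 : MemLp S 2 m := hC.memLp _ hW
    refine ⟨(4 * σ * lam ^ 2) • S ^ 2, mem_smul _ (mem_sq hS2), ?_, ?_⟩
    · have h5 : I (S ^ 2) ≤ I ((c ^ 2)⁻¹ • C.lap χ' ^ 2) := by
        refine I_mono (mem_sq hS2) (mem_smul _ (mem_sq (hC.memLp _
          (hC.test_lap_mem hg'.tχ)))) ?_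
        rw [le_iff_ae]
        filter_upwards [sq_ae S, smul_ae (C.lap χ' ^ 2) (c ^ 2)⁻¹, sq_ae (C.lap χ'), hbase, hlow]
          with x a1 a2 a3 a4 a5
        rw [a1, a2, a3, a4.2.2.2]
        have h6 : c ≤ 1 + χ' x := by linarith
        have h7 : c ^ 2 ≤ (1 + χ' x) ^ 2 := pow_le_pow_left₀ hc0.le h6 2
        have h8 : (1 : ℝ) ≤ (c ^ 2)⁻¹ * (1 + χ' x) ^ 2 := by
          have h9 := mul_le_mul_of_nonneg_left h7 (inv_nonneg.2 (sq_nonneg c))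
          rwa [inv_mul_cancel₀ (pow_pos hc0 2).ne'] at h9
        have h10 := mul_le_mul_of_nonneg_right h8 (sq_nonneg (S x))
        calc S x ^ 2 = 1 * S x ^ 2 := (one_mul _).symm
          _ ≤ _ := h10
          _ = _ := by ring
      rw [I_smul] at h5 ⊢
      have h6 := mul_le_mul_of_nonneg_left hE (inv_nonneg.2 (sq_nonneg c))
      have h7 := mul_le_mul_of_nonneg_left (h5.trans h6)
        (by positivity : (0 : ℝ) ≤ 4 * σ * lam ^ 2)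
      refine h7.trans (le_of_eq ?_)
      rw [hlam]; ring
    · filter_upwards [hbase, smul_ae (S ^ 2) (4 * σ * lam ^ 2), sq_ae S] with x a a4 a5
      obtain ⟨a1, a2, a3, -⟩ := a
      have h12 : |-(lam * S x)| ≤ lam * D₀ := by
        rw [abs_neg, abs_mul, abs_of_pos hl]
        exact mul_le_mul_of_nonneg_left a2 hl.le
      have h6 := hc_log_ge (h12.trans hlD)
      rw [a1] at h6
      have h7 : S x ^ 2 ≤ D₀ ^ 2 := by
        rw [← sq_abs]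
        exact pow_le_pow_left₀ (abs_nonneg _) a2 2
      rw [a4, a5]
      refine ⟨by positivity, ?_, ?_⟩
      · have h8 := mul_le_mul_of_nonneg_left h7 (by positivity : (0 : ℝ) ≤ 4 * σ * lam ^ 2)
        refine h8.trans (le_of_eq ?_)
        rw [hlam]; ring
      · have h8 := mul_le_mul_of_nonneg_left h6 (by positivity : (0 : ℝ) ≤ 2 * σ)
        have h9 : 2 * σ * (-(lam * S x) - 2 * (-(lam * S x)) ^ 2) =
          τ * (σ * (-(2 * σ) * C.lap f' x) - (-(2 * σ) * -(2 * σ) * C.Γ f' f' x) / 2) -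
            4 * σ * lam ^ 2 * S x ^ 2 := by
          rw [a3, hlam]; ring
        rw [h9] at h8
        linarith

/-- **The resolvent scheme.** -/
theorem exists_vhj {φ₀ : M →ₘ[m] ℝ} (hφ : φ₀ ∈ C.Test) {L Λ : ℝ}
    (hL : ∀ᵐ x ∂m, C.Γ φ₀ φ₀ x ≤ L) (hΛ : ∀ᵐ x ∂m, |C.lap φ₀ x| ≤ Λ) {σ ε : ℝ} (hσ : 0 < σ)
    (hε : 0 < ε) (h8 : 8 * |κ| * σ * ε ≤ 1) :
    ∃ (D : ℝ) (N : ℕ), ∀ n : ℕ, N ≤ n → 0 < n → ∃ u : ℕ → M →ₘ[m] ℝ, u 0 = φ₀ ∧
      C.VHJ σ (ε / n) (4 * L) (Λ + 8 * |κ| * ε * L) D n u := by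
  have hD := hC.toIsDir
  have hφA := hC.test_A hφ
  by_cases hm : ∀ᵐ x ∂m, False
  · -- trivial measure
    have hall : ∀ P : M → Prop, ∀ᵐ x ∂m, P x := fun P => by
      filter_upwards [hm] with x hx
      exact hx.elim
    refine ⟨0, 0, fun n _ _ => ⟨fun _ => φ₀, rfl, fun _ => hφ, fun _ _ => hall _, fun _ _ => hall _,
      fun _ _ => hall _, fun _ _ => hall _, fun _ _ => ⟨0, mem_zero, ?_, hall _⟩⟩⟩
    rw [I_zero, zero_mul]
  have hfr : ∃ᶠ x in ae m, True := by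
    rw [Filter.Frequently]
    simpa using hm
  have hL0 : 0 ≤ L := by
    obtain ⟨x, -, hx1, hx2⟩ := (hfr.and_eventually
      ((nonneg_iff_ae.1 (hC.nonneg _ hφA.1)).and hL)).exists
    exact hx1.trans hx2
  have hΛ0 : 0 ≤ Λ := by
    obtain ⟨x, -, hx⟩ := (hfr.and_eventually hΛ).exists
    exact (abs_nonneg _).trans hx
  -- initial data
  obtain ⟨b0, hb0⟩ := mem_top_iff.1 hφA.2
  set s : ℝ := (2 * σ)⁻¹ with hs
  have hs0 : 0 < s := by positivity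
  have hsσ : 2 * σ * s = 1 := by rw [hs]; field_simp
  obtain ⟨t1, t2, t3⟩ := hC.hc_smul hφ (-s)
  obtain ⟨χ₀, hχ₀⟩ := hC.hc_exp t1 (hC.Γ_mem hB t1 t1).1
  set c : ℝ := Real.exp (-(s * max b0 0)) with hc
  have hc0 : 0 < c := Real.exp_pos _
  have hc1 : c ≤ 1 := by
    rw [hc, Real.exp_le_one_iff]
    exact neg_nonpos.2 (mul_nonneg hs0.le (le_max_right _ _))
  set A₀ : ℝ := s ^ 2 * L with hA₀
  have hA0 : 0 ≤ A₀ := by positivity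
  set B₀ : ℝ := s * Λ with hB₀
  have hB0 : 0 ≤ B₀ := by positivity
  set D₀ : ℝ := B₀ + A₀ with hD₀
  have hD0 : 0 ≤ D₀ := by (clear * - hσ hΛ0 hL0; positivity)
  have hst0 : HSt C c A₀ B₀ D₀ χ₀ ((-s) • φ₀) := by
    have g1 : ∀ᵐ x ∂m, C.Γ ((-s) • φ₀) ((-s) • φ₀) x ≤ A₀ := by
      filter_upwards [hL, smul_ae (C.Γ φ₀ φ₀) (-s * -s)] with x a1 a2
      rw [t3, a2, hA₀]
      linarith only [mul_le_mul_of_nonneg_left a1 (sq_nonneg s)]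
    have g2 : ∀ᵐ x ∂m, |C.lap ((-s) • φ₀) x| ≤ B₀ := by
      filter_upwards [hΛ, smul_ae (C.lap φ₀) (-s)] with x a1 a2
      rw [t2, a2, hB₀, abs_mul, abs_neg, abs_of_pos hs0]
      exact mul_le_mul_of_nonneg_left a1 hs0.le
    refine ⟨hχ₀, ?_, g1, ?_, ?_⟩
    · filter_upwards [hχ₀.exp_eq, hb0, smul_ae φ₀ (-s)] with x a1 a2 a3
      have h1 : c ≤ 1 + χ₀ x := by
        rw [a1, a3, hc]
        apply Real.exp_le_exp.2
        have h2 : φ₀ x ≤ max b0 0 := ((le_abs_self _).trans a2).trans (le_max_left _ _)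
        (by_contra nlg; linarith only [nlg, mul_nonneg (le_of_lt (sub_pos.2 hs0)) (sub_nonneg.2 h2), mul_nonneg (le_of_lt (sub_pos.2 (not_le.1 nlg))) (sub_nonneg.2 hc1), mul_pos (sub_pos.2 (not_le.1 nlg)) (sub_pos.2 hc0)])
      linarith
    · filter_upwards [g2] with x a1
      exact (abs_le.1 a1).1
    · filter_upwards [g1, g2, mul_ae (1 + χ₀) (C.lap ((-s) • φ₀) + C.Γ ((-s) • φ₀) ((-s) • φ₀)),
        hc_one_add χ₀, add_ae (C.lap ((-s) • φ₀)) (C.Γ ((-s) • φ₀) ((-s) • φ₀)), hχ₀.exp_eq,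
        nonneg_iff_ae.1 (hC.nonneg _ (hC.test_A t1).1)] with x a1 a2 a3 a4 a5 a6 a7
      have hp : 0 < 1 + χ₀ x := by rw [a6]; exact Real.exp_pos _
      rw [hχ₀.lap, a3, a4, a5, abs_mul, abs_of_pos hp, mul_comm]
      refine mul_le_mul_of_nonneg_right ?_ hp.le
      refine (abs_add_le _ _).trans ?_
      rw [abs_of_nonneg a7]
      exact add_le_add a2 a1
  set E₀ : ℝ := I (C.lap χ₀ ^ 2) with hE₀
  have hE0 : 0 ≤ E₀ := I_sq_nonneg _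
  refine ⟨2 * σ * (D₀ + 4 * A₀) + 4 * σ ^ 3 * (c ^ 2)⁻¹ * E₀ + 4 * σ ^ 3 * D₀ ^ 2,
    ⌈2 * σ * ε * D₀⌉₊, fun n hn hn0 => ?_⟩
  have hnr : (0 : ℝ) < n := by exact_mod_cast hn0
  set τ : ℝ := ε / n with hτ
  have hτ0 : 0 < τ := by positivity
  set lam : ℝ := σ * τ with hlam
  have hl : 0 < lam := by positivity
  have hlD : lam * D₀ ≤ 1 / 2 := by
    have h1 : 2 * σ * ε * D₀ ≤ n := (Nat.le_ceil _).trans (by exact_mod_cast hn)
    have h2 : lam * D₀ = σ * ε * D₀ / n := by rw [hlam, hτ]; field_simp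
    rw [h2, div_le_iff₀ hnr]
    linarith only [h1]
  have hKn : 8 * (|κ| * lam) * n ≤ 1 := by
    have h1 : 8 * (|κ| * lam) * n = 8 * |κ| * σ * ε := by rw [hlam, hτ]; field_simp
    rw [h1]; exact h8
  have hK0 : 0 ≤ |κ| * lam := mul_nonneg (abs_nonneg κ) hl.le
  have hn1 : (1 : ℝ) ≤ n := by exact_mod_cast hn0
  have hk : 8 * (|κ| * lam) ≤ 1 := by (by_contra nlg; linarith only [nlg, mul_nonneg (sub_nonneg.2 hc1) (sub_nonneg.2 hn1), mul_nonneg (sub_nonneg.2 hc1) (sub_nonneg.2 hKn), mul_nonneg (le_of_lt (sub_pos.2 hc0)) (sub_nonneg.2 hn1), mul_nonneg (le_of_lt (sub_pos.2 hc0)) (sub_nonneg.2 hKn), mul_pos (sub_pos.2 (not_le.1 nlg)) (sub_pos.2 hnr)])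
  have hK8 : 0 ≤ 8 * (|κ| * lam) := by (clear * - hσ hε hn0; positivity)
  -- the sequence
  set χ : ℕ → M →ₘ[m] ℝ := fun k => (C.J lam)^[k] χ₀ with hχ
  have hχs : ∀ k, χ (k + 1) = C.J lam (χ k) := fun k => by
    simp only [hχ]
    rw [Function.iterate_succ_apply']
  have hp1 : ∀ k : ℕ, 1 ≤ (1 + 8 * (|κ| * lam)) ^ k := fun k => one_le_pow₀ (by linarith only [hK8])
  have hind : ∀ k, ∃ f, HSt C c (A₀ * (1 + 8 * (|κ| * lam)) ^ k)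
      (B₀ + A₀ * ((1 + 8 * (|κ| * lam)) ^ k - 1)) D₀ (χ k) f := by
    intro k
    induction k with
    | zero =>
      refine ⟨(-s) • φ₀, ?_⟩
      simpa [hχ] using hst0
    | succ k ih =>
      obtain ⟨f, hf⟩ := ih
      have hBk : 0 ≤ B₀ + A₀ * ((1 + 8 * (|κ| * lam)) ^ k - 1) :=
        add_nonneg hB0 (mul_nonneg hA0 (by linarith only [hp1 k]))
      obtain ⟨-, f', hf'⟩ := hC.hc_step hB hf hl hc0 hc1
        (mul_nonneg hA0 (by linarith only [hp1 k])) hBk hD0 hlD hk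
      refine ⟨f', ?_⟩
      rw [hχs]
      have e1 : A₀ * (1 + 8 * (|κ| * lam)) ^ (k + 1) =
          A₀ * (1 + 8 * (|κ| * lam)) ^ k * (1 + 8 * (|κ| * lam)) := by ring
      have e2 : B₀ + A₀ * ((1 + 8 * (|κ| * lam)) ^ (k + 1) - 1) =
          B₀ + A₀ * ((1 + 8 * (|κ| * lam)) ^ k - 1) +
            8 * (|κ| * lam) * (A₀ * (1 + 8 * (|κ| * lam)) ^ k) := by ring
      rw [e1, e2]
      exact hf'
  choose f hf using hind
  have hlapχ : ∀ k, C.lap (χ (k + 1)) = lam⁻¹ • (χ (k + 1) - χ k) := by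
    intro k
    have h2 := hC.memLp _ (hC.test_A (hf k).lg.tχ).1
    rw [hχs]
    exact hD.lap_eq (hD.J_isLap hl h2)
  have hEk : ∀ k, I (C.lap (χ k) ^ 2) ≤ E₀ := by
    intro k
    induction k with
    | zero => exact le_rfl
    | succ k ih =>
      have h1 : C.lap (χ (k + 1)) = C.J lam (C.lap (χ k)) := by
        rw [hlapχ, hχs]
        exact (hD.hc_J_lap hl (hC.test_isLap (hf k).lg.tχ)).symm
      rw [h1]
      exact (hD.J_sq_le hl (hC.memLp _ (hC.test_lap_mem (hf k).lg.tχ))).trans ih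
  have hpn : ∀ k ≤ n, (1 + 8 * (|κ| * lam)) ^ k ≤ 1 + 2 * (8 * (|κ| * lam) * n) := fun k hk' =>
    hc_pow_le hK8 hk' hKn
  have hp4 : ∀ k ≤ n, (1 + 8 * (|κ| * lam)) ^ k ≤ 4 := fun k hk' => by
    linarith only [hpn k hk', hKn]
  have hu := fun k => hC.hc_smul (hf k).lg.tf (-(2 * σ))
  have h4 : ∀ k ≤ n, ∀ᵐ x ∂m, C.Γ (f k) (f k) x ≤ 4 * A₀ := by
    intro k hk'
    filter_upwards [(hf k).gr] with x a1
    refine a1.trans ?_
    have := mul_le_mul_of_nonneg_left (hp4 k hk') hA0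
    linarith only [this]
  refine ⟨fun k => (-(2 * σ)) • f k, ?_, fun k => (hu k).1, fun k hk' => ?_, fun k hk' => ?_,
    fun k hk' => ?_, fun k hk' => ?_, fun k hk' => ?_⟩
  · -- initial value
    have h1 : f 0 = (-s) • φ₀ := by
      rw [eq_iff_ae]
      filter_upwards [(hf 0).lg.exp_eq, hχ₀.exp_eq] with x a1 a2
      apply Real.exp_injective
      rw [← a1, ← a2]
      simp [hχ]
    show (-(2 * σ)) • f 0 = φ₀
    rw [h1, smul_smul]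
    have : -(2 * σ) * -s = 1 := by linarith
    rw [this, one_smul]
  · show ∀ᵐ x ∂m, C.Γ ((-(2 * σ)) • f k) ((-(2 * σ)) • f k) x ≤ 4 * L
    filter_upwards [h4 k hk', smul_ae (C.Γ (f k) (f k)) (-(2 * σ) * -(2 * σ))] with x a1 a2
    rw [(hu k).2.2, a2]
    have h5 := mul_le_mul_of_nonneg_left a1 (sq_nonneg (2 * σ))
    have h6 : (2 * σ) ^ 2 * (4 * A₀) = 4 * L * (2 * σ * s) ^ 2 := by rw [hA₀]; ring
    rw [h6, hsσ] at h5
    linarith only [h5]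
  · show ∀ᵐ x ∂m, C.lap ((-(2 * σ)) • f k) x ≤ Λ + 8 * |κ| * ε * L
    filter_upwards [(hf k).lp, smul_ae (C.lap (f k)) (-(2 * σ))] with x a1 a2
    rw [(hu k).2.1, a2]
    have h5 : A₀ * ((1 + 8 * (|κ| * lam)) ^ k - 1) ≤ A₀ * (2 * (8 * (|κ| * lam) * n)) :=
      mul_le_mul_of_nonneg_left (by linarith only [hpn k hk']) hA0
    have h6 : -(2 * σ) * C.lap (f k) x ≤ 2 * σ * (B₀ + A₀ * (2 * (8 * (|κ| * lam) * n))) := by
      have h7 : -(C.lap (f k) x) ≤ B₀ + A₀ * (2 * (8 * (|κ| * lam) * n)) := by linarith only [h5, a1]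
      have := mul_le_mul_of_nonneg_left h7 (by positivity : (0 : ℝ) ≤ 2 * σ)
      linarith only [this]
    refine h6.trans (le_of_eq ?_)
    have h7 : 2 * σ * (B₀ + A₀ * (2 * (8 * (|κ| * lam) * n))) =
        (2 * σ * s) * Λ + (2 * σ * s) ^ 2 * (8 * |κ| * L) * (τ * n) := by
      rw [hB₀, hA₀, hlam]; ring
    rw [h7, hsσ, hτ, div_mul_cancel₀ _ hnr.ne']
    ring
  · show ∀ᵐ x ∂m, |C.lap ((-(2 * σ)) • f k) x| ≤ _
    filter_upwards [(hf k).bd, smul_ae (C.lap (f k)) (-(2 * σ)), h4 k hk', (hf k).lg.exp_eq,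
      mul_ae (1 + χ k) (C.lap (f k) + C.Γ (f k) (f k)), hc_one_add (χ k),
      add_ae (C.lap (f k)) (C.Γ (f k) (f k)),
      nonneg_iff_ae.1 (hC.nonneg _ (hC.test_A (hf k).lg.tf).1)] with x a1 a2 a3 a4 a5 a6 a7 a8
    have hp : 0 < 1 + χ k x := by rw [a4]; exact Real.exp_pos _
    rw [(hf k).lg.lap, a5, a6, a7, abs_mul, abs_of_pos hp, mul_comm] at a1
    have h5 : |C.lap (f k) x + C.Γ (f k) (f k) x| ≤ D₀ := le_of_mul_le_mul_right a1 hp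
    have h6 : |C.lap (f k) x| ≤ D₀ + 4 * A₀ := by
      have h7 : C.lap (f k) x = (C.lap (f k) x + C.Γ (f k) (f k) x) - C.Γ (f k) (f k) x := by ring
      rw [h7]
      refine (abs_sub _ _).trans ?_
      rw [abs_of_nonneg a8]
      linarith
    rw [(hu k).2.1, a2, abs_mul, abs_neg, abs_of_pos (by positivity : 0 < 2 * σ)]
    have h7 := mul_le_mul_of_nonneg_left h6 (by positivity : (0 : ℝ) ≤ 2 * σ)
    have h8 : 0 ≤ 4 * σ ^ 3 * (c ^ 2)⁻¹ * E₀ := by (clear * - hσ hE0; positivity)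
    have h9 : 0 ≤ 4 * σ ^ 3 * D₀ ^ 2 := by (clear * - hσ; positivity)
    linarith only [h9, h8, h7]
  · -- upper inequality
    have hg := hf (k + 1)
    have hW : C.lap (f (k + 1)) + C.Γ (f (k + 1)) (f (k + 1)) ∈ C.W :=
      hD.add_mem _ (hC.test_lap_mem hg.lg.tf) _ (hC.Γ_mem hB hg.lg.tf hg.lg.tf).1
    have h1 := (hC.hc_onestep hσ hτ0 (hf k).lg hg.lg (hlapχ k) hg.bd hg.low hc0 (hEk (k + 1))
      hlD hW).1
    show ∀ᵐ x ∂m, ((-(2 * σ)) • f (k + 1) : M →ₘ[m] ℝ) x - ((-(2 * σ)) • f k : M →ₘ[m] ℝ) x ≤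
      τ * (σ * C.lap ((-(2 * σ)) • f (k + 1)) x
        - C.Γ ((-(2 * σ)) • f (k + 1)) ((-(2 * σ)) • f (k + 1)) x / 2)
    filter_upwards [h1, smul_ae (f (k + 1)) (-(2 * σ)),
      smul_ae (f k) (-(2 * σ)), smul_ae (C.lap (f (k + 1))) (-(2 * σ)),
      smul_ae (C.Γ (f (k + 1)) (f (k + 1))) (-(2 * σ) * -(2 * σ))] with x a1 a3 a4 a5 a6
    rw [a3, a4, (hu (k + 1)).2.1, (hu (k + 1)).2.2, a5, a6]
    exact a1
  · -- lower inequality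
    have hg := hf (k + 1)
    have hW : C.lap (f (k + 1)) + C.Γ (f (k + 1)) (f (k + 1)) ∈ C.W :=
      hD.add_mem _ (hC.test_lap_mem hg.lg.tf) _ (hC.Γ_mem hB hg.lg.tf hg.lg.tf).1
    obtain ⟨R, hR1, hR2, hR3⟩ := (hC.hc_onestep hσ hτ0 (hf k).lg hg.lg (hlapχ k) hg.bd hg.low hc0
      (hEk (k + 1)) hlD hW).2
    have p1 : 0 ≤ 2 * σ * (D₀ + 4 * A₀) := by (clear * - hσ hΛ0 hL0; positivity)
    have p2 : 0 ≤ 4 * σ ^ 3 * (c ^ 2)⁻¹ * E₀ := by (clear * - hσ hE0; positivity)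
    have p3 : 0 ≤ 4 * σ ^ 3 * D₀ ^ 2 := by (clear * - hσ; positivity)
    refine ⟨R, hR1, hR2.trans (mul_le_mul_of_nonneg_right (by linarith only [p3, p1]) (sq_nonneg τ)), ?_⟩
    show ∀ᵐ x ∂m, _ ∧ _ ∧ _ - _ ≤
        ((-(2 * σ)) • f (k + 1) : M →ₘ[m] ℝ) x - ((-(2 * σ)) • f k : M →ₘ[m] ℝ) x
    filter_upwards [hR3, smul_ae (f (k + 1)) (-(2 * σ)),
      smul_ae (f k) (-(2 * σ)), smul_ae (C.lap (f (k + 1))) (-(2 * σ)),
      smul_ae (C.Γ (f (k + 1)) (f (k + 1))) (-(2 * σ) * -(2 * σ))] with x a1 a3 a4 a5 a6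
    rw [a3, a4, (hu (k + 1)).2.1, (hu (k + 1)).2.2, a5, a6]
    exact ⟨a1.1, a1.2.1.trans (mul_le_mul_of_nonneg_right (by linarith only [p2, p1]) (sq_nonneg τ)), a1.2.2⟩

end IsGamma

end Vale.Agent.P233
end

section

open MeasureTheory Filter Topology
open scoped ENNReal NNReal

namespace Vale.Agent.P233

variable {M : Type*} [MeasurableSpace M] {m : Measure M} {C : Calc m}

namespace IsGamma

variable (hC : IsGamma C) {κ : ℝ} (hB : C.BEi κ)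
variable {u v w φ G r : M →ₘ[m] ℝ}

include hC hB

theorem en_sub (hf : u ∈ C.Test) (hg : v ∈ C.Test) : u - v ∈ C.Test := by
  have h := hC.test_add hB hf (hC.test_smul hB (-1) hg)
  rwa [neg_one_smul, ← sub_eq_add_neg] at h

theorem en_lap_sub (hf : u ∈ C.Test) (hg : v ∈ C.Test) : C.lap (u - v) = C.lap u - C.lap v := by
  have h := hC.lap_add hB hf (hC.test_smul hB (-1) hg)
  rw [hC.lap_smul hB (-1) hg, neg_one_smul, neg_one_smul, ← sub_eq_add_neg, ← sub_eq_add_neg] at h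
  exact h

/-- `∫ Δw Γ(φ,w) = -∫ Hess φ(∇w,∇w) + ½ ∫ Δφ Γ(w,w)` -/
theorem en_cross (hw : w ∈ C.Test) (hφ : φ ∈ C.Test) :
    I (C.lap w * C.Γ φ w) = -I (C.hess φ w w) + (2 : ℝ)⁻¹ * I (C.lap φ * C.Γ w w) := by
  have wA := hC.test_A hw
  have φA := hC.test_A hφ
  have g1 := hC.Γ_mem hB hφ hw
  have g2 := hC.Γ_mem hB hw hw
  have e1 : I (C.Γ w (C.Γ φ w)) = -I (C.lap w * C.Γ φ w) := (hC.test_isLap hw).2.2 _ g1.1
  have e2 : I (C.Γ φ (C.Γ w w)) = -I (C.lap φ * C.Γ w w) := (hC.test_isLap hφ).2.2 _ g2.1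
  have m1 := hC.Γ_mem1 wA.1 g1.1
  have m2 := hC.Γ_mem1 φA.1 g2.1
  unfold Calc.hess
  rw [I_smul, I_sub (mem_add m1 m1) m2, I_add m1 m1]
  linarith

/-- the energy dissipation identity, with `-σ a² - σ a b ≤ σ b²/4` -/
theorem en_main {σ : ℝ} (hσ : 0 ≤ σ) (hw : w ∈ C.Test) (hφ : φ ∈ C.Test) (hG : G ∈ C.Test) :
    -I (C.lap w * (σ • C.lap (φ + w) - (2 : ℝ)⁻¹ • C.Γ (φ + w) (φ + w) + G))
      ≤ σ / 4 * I (C.lap φ ^ 2) - I (C.hess φ w w) + (2 : ℝ)⁻¹ * I (C.lap φ * C.Γ w w)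
        + (2 : ℝ)⁻¹ * I (C.lap w * C.Γ w w) + I (C.Γ w (G - (2 : ℝ)⁻¹ • C.Γ φ φ)) := by
  have wA := hC.test_A hw
  have φA := hC.test_A hφ
  have GA := hC.test_A hG
  have a2 : MemLp (C.lap w) 2 m := (hC.test_isLap hw).2.1
  have b2 : MemLp (C.lap φ) 2 m := (hC.test_isLap hφ).2.1
  have g1 := hC.Γ_mem hB hφ hφ
  have g2 := hC.Γ_mem hB hφ hw
  have g3 := hC.Γ_mem hB hw hw
  have k1 := mem_mul_22 a2 a2
  have k2 := mem_mul_22 a2 b2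
  have k3 := mem_mul_22 a2 (hC.memLp _ g1.1)
  have k4 := mem_mul_22 a2 (hC.memLp _ g2.1)
  have k5 := mem_mul_22 a2 (hC.memLp _ g3.1)
  have k6 := mem_mul_22 a2 (hC.memLp _ GA.1)
  have k7 := mem_mul_22 b2 b2
  have e1 := hC.en_cross hB hw hφ
  have e2 : I (C.Γ w (G - (2 : ℝ)⁻¹ • C.Γ φ φ))
      = -I (C.lap w * (G - (2 : ℝ)⁻¹ • C.Γ φ φ)) :=
    (hC.test_isLap hw).2.2 _ (hC.sub_mem GA.1 (hC.smul_mem _ _ g1.1))
  have e3 : C.lap w * (G - (2 : ℝ)⁻¹ • C.Γ φ φ)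
      = C.lap w * G - (2 : ℝ)⁻¹ • (C.lap w * C.Γ φ φ) := by algebra
  rw [e3, I_sub k6 (mem_smul _ k3), I_smul] at e2
  have e4 : C.Γ (φ + w) (φ + w) = C.Γ φ φ + (2 : ℝ) • C.Γ φ w + C.Γ w w := by
    have h := hC.Γ_expand 1 φA.1 wA.1
    rw [one_smul, mul_one, one_pow, one_smul] at h
    exact h
  have e5 : C.lap w * (σ • C.lap (φ + w) - (2 : ℝ)⁻¹ • C.Γ (φ + w) (φ + w) + G)
      = σ • (C.lap w * C.lap w) + σ • (C.lap w * C.lap φ)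
        - (2 : ℝ)⁻¹ • (C.lap w * C.Γ φ φ) - C.lap w * C.Γ φ w
        - (2 : ℝ)⁻¹ • (C.lap w * C.Γ w w) + C.lap w * G := by
    rw [e4, hC.lap_add hB hφ hw]
    algebra
  have e6 : I (C.lap w * (σ • C.lap (φ + w) - (2 : ℝ)⁻¹ • C.Γ (φ + w) (φ + w) + G))
      = σ * I (C.lap w * C.lap w) + σ * I (C.lap w * C.lap φ)
        - (2 : ℝ)⁻¹ * I (C.lap w * C.Γ φ φ) - I (C.lap w * C.Γ φ w)
        - (2 : ℝ)⁻¹ * I (C.lap w * C.Γ w w) + I (C.lap w * G) := by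
    rw [e5, I_add (mem_sub (mem_sub (mem_sub (mem_add (mem_smul _ k1) (mem_smul _ k2))
      (mem_smul _ k3)) k4) (mem_smul _ k5)) k6,
      I_sub (mem_sub (mem_sub (mem_add (mem_smul _ k1) (mem_smul _ k2))
      (mem_smul _ k3)) k4) (mem_smul _ k5),
      I_sub (mem_sub (mem_add (mem_smul _ k1) (mem_smul _ k2)) (mem_smul _ k3)) k4,
      I_sub (mem_add (mem_smul _ k1) (mem_smul _ k2)) (mem_smul _ k3),
      I_add (mem_smul _ k1) (mem_smul _ k2), I_smul, I_smul, I_smul, I_smul]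
  have e7 : 0 ≤ I (C.lap w * C.lap w) + I (C.lap w * C.lap φ) + 4⁻¹ * I (C.lap φ * C.lap φ) := by
    have h := I_sq_nonneg (C.lap w + (2 : ℝ)⁻¹ • C.lap φ)
    have h2 : (C.lap w + (2 : ℝ)⁻¹ • C.lap φ) ^ 2
        = C.lap w * C.lap w + C.lap w * C.lap φ + (4 : ℝ)⁻¹ • (C.lap φ * C.lap φ) := by algebra
    rw [h2, I_add (mem_add k1 k2) (mem_smul _ k7), I_add k1 k2, I_smul] at h
    exact h
  rw [e6, sq]
  linarith only [mul_nonneg hσ e7, e2, e1]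

/-- the energy is convex -/
theorem en_convex (hw : w ∈ C.Test) (hv : v ∈ C.Test) :
    (2 : ℝ)⁻¹ * I (C.Γ v v) - (2 : ℝ)⁻¹ * I (C.Γ w w) ≤ -I (C.lap v * (v - w)) := by
  have wA := hC.test_A hw
  have vA := hC.test_A hv
  have e1 : I (C.Γ v (v - w)) = -I (C.lap v * (v - w)) :=
    (hC.test_isLap hv).2.2 _ (hC.sub_mem vA.1 wA.1)
  rw [← e1, hC.Γ_sub_right vA.1 vA.1 wA.1, I_sub (hC.Γ_mem1 vA.1 vA.1) (hC.Γ_mem1 vA.1 wA.1)]
  have h1 : 0 ≤ I (C.Γ (v - w) (v - w)) := I_nonneg (hC.nonneg _ (hC.sub_mem vA.1 wA.1))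
  rw [hC.E_sub vA.1 wA.1] at h1
  linarith

end IsGamma

end Vale.Agent.P233
end

section

open MeasureTheory Filter Topology
open scoped ENNReal NNReal

namespace Vale.Agent.P233

variable {M : Type*} [MeasurableSpace M] {m : Measure M} {C : Calc m}

/-- discrete Gronwall -/
theorem en_gronwall {x : ℕ → ℝ} {a b : ℝ} (ha : 0 ≤ a) (ha2 : a ≤ 1 / 2) (hb : 0 ≤ b)
    (h0 : x 0 ≤ 0) {n : ℕ} (h : ∀ k < n, (1 - a) * x (k + 1) ≤ x k + b) :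
    ∀ k ≤ n, x k ≤ k * b * Real.exp (2 * a * k) := by
  intro k
  induction k with
  | zero => intro _; simpa using h0
  | succ k ih =>
    intro hk
    have h1 := ih (by omega)
    have h2 := h k (by omega)
    have h3 : 1 ≤ (1 - a) * Real.exp (2 * a) := by
      linarith only [mul_nonneg (sub_nonneg.2 ha2) (sub_nonneg.2 (Real.add_one_le_exp (2 * a))), mul_nonneg (sub_nonneg.2 ha) (sub_nonneg.2 (Real.add_one_le_exp (2 * a))), mul_nonneg (sub_nonneg.2 ha) (sub_nonneg.2 ha2)]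
    have h4 : (1 : ℝ) ≤ Real.exp (2 * a * k) := Real.one_le_exp (by positivity)
    have h5 : x k + b ≤ (k + 1) * b * Real.exp (2 * a * k) := by linarith only [mul_nonneg (sub_nonneg.2 hb) (sub_nonneg.2 h4), mul_nonneg (sub_nonneg.2 ha2) (sub_nonneg.2 h1), mul_nonneg (sub_nonneg.2 ha) (sub_nonneg.2 h1)]
    have h6 : (0 : ℝ) ≤ (k + 1) * b * Real.exp (2 * a * k) := by positivity
    have h7 : (1 - a) * x (k + 1) ≤ (1 - a) * (((k + 1 : ℕ) : ℝ) * b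
        * Real.exp (2 * a * ((k + 1 : ℕ) : ℝ))) := by
      have h8 : Real.exp (2 * a * ((k + 1 : ℕ) : ℝ)) = Real.exp (2 * a * k) * Real.exp (2 * a) := by
        rw [← Real.exp_add]; push_cast; ring_nf
      rw [h8]
      push_cast
      linarith only [mul_nonneg (sub_nonneg.2 h3) (sub_nonneg.2 h6), mul_nonneg (sub_nonneg.2 ha2) (sub_nonneg.2 h5), mul_nonneg (sub_nonneg.2 ha2) (sub_nonneg.2 h2), mul_nonneg (sub_nonneg.2 ha) (sub_nonneg.2 h5), mul_nonneg (sub_nonneg.2 ha) (sub_nonneg.2 h2)]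
    exact le_of_mul_le_mul_left h7 (by linarith)

theorem en_sqrt_le {B X ε : ℝ} (hX : 0 ≤ X) (hε : 0 < ε) :
    B * Real.sqrt X ≤ X / ε + B ^ 2 * ε / 4 := by
  have h1 := Real.sq_sqrt hX
  set y := Real.sqrt X
  rw [← h1]
  have h2 : 0 ≤ (y - B * ε / 2) ^ 2 / ε := by positivity
  have h3 : (y - B * ε / 2) ^ 2 / ε = y ^ 2 / ε + B ^ 2 * ε / 4 - B * y := by
    field_simp
    ring
  linarith

namespace IsGamma

variable (hC : IsGamma C) {κ : ℝ} (hB : C.BEi κ)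
variable {u v w φ G r : M →ₘ[m] ℝ}

include hC hB

/-- the energy inequality for one step -/
theorem en_one {σ τ D P Λ δ γ Q ρ : ℝ} (hσ : 0 ≤ σ) (hτ : 0 ≤ τ)
    (hu : u ∈ C.Test) (hv : v ∈ C.Test) (hφ : φ ∈ C.Test) (hG : G ∈ C.Test)
    (hr0 : 0 ≤ r) (hr1 : MemLp r 1 m) (hrI : I r ≤ ρ) (hD : 0 ≤ D) (hP0 : 0 ≤ P)
    (hlu : ∀ᵐ x ∂m, C.lap v x ≤ D) (hlb : MemLp (C.lap v) ∞ m)
    (hlφ : ∀ᵐ x ∂m, |C.lap (φ - τ • G) x| ≤ P)
    (hstep : v - u = τ • (σ • C.lap v - (2 : ℝ)⁻¹ • C.Γ v v) - r)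
    (hh : |I (C.hess (φ - τ • G) (v - (φ - τ • G)) (v - (φ - τ • G)))|
      ≤ Λ * I (C.Γ (v - (φ - τ • G)) (v - (φ - τ • G)))
        + δ * Real.sqrt (I (C.Γ (v - (φ - τ • G)) (v - (φ - τ • G)))))
    (hγ : Real.sqrt (I (C.Γ (G - (2 : ℝ)⁻¹ • C.Γ (φ - τ • G) (φ - τ • G))
      (G - (2 : ℝ)⁻¹ • C.Γ (φ - τ • G) (φ - τ • G)))) ≤ γ)
    (hQ : I (C.lap (φ - τ • G) ^ 2) ≤ Q) :
    I (C.Γ (v - (φ - τ • G)) (v - (φ - τ • G)))
      ≤ I (C.Γ (u - φ) (u - φ))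
        + τ * ((2 * Λ + 2 * P + D) * I (C.Γ (v - (φ - τ • G)) (v - (φ - τ • G)))
          + 2 * (δ + γ) * Real.sqrt (I (C.Γ (v - (φ - τ • G)) (v - (φ - τ • G))))
          + σ / 2 * Q) + 2 * (D + P) * ρ := by
  set ψ := φ - τ • G with hψ
  set w := v - ψ with hw
  have hψT : ψ ∈ C.Test := hC.en_sub hB hφ (hC.test_smul hB τ hG)
  have hwT : w ∈ C.Test := hC.en_sub hB hv hψT
  have hw0T : u - φ ∈ C.Test := hC.en_sub hB hu hφ
  have wA := hC.test_A hwT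
  have e1 := hC.en_convex hB hw0T hwT
  have hvw : v = ψ + w := by rw [hw]; abel
  have e2 : w - (u - φ) = τ • (σ • C.lap (ψ + w) - (2 : ℝ)⁻¹ • C.Γ (ψ + w) (ψ + w) + G) - r := by
    rw [← hvw, hw, hψ]
    have : v - (φ - τ • G) - (u - φ) = (v - u) + τ • G := by abel
    rw [this, hstep, smul_add]
    abel
  have e3 := hC.en_main hB hσ hwT hψT hG
  have lwlap : C.lap w = C.lap v - C.lap ψ := hC.en_lap_sub hB hv hψT
  have lψtop : MemLp (C.lap ψ) ∞ m := mem_top_iff.2 ⟨P, hlφ⟩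
  have lwtop : MemLp (C.lap w) ∞ m := by rw [lwlap]; exact mem_sub hlb lψtop
  have g1 := hC.Γ_mem hB hψT hψT
  have g2 := hC.Γ_mem hB hv hv
  have GA := hC.test_A hG
  have hlw : ∀ᵐ x ∂m, C.lap w x ≤ D + P := by
    filter_upwards [hlu, hlφ, eq_iff_ae.1 lwlap, sub_ae (C.lap v) (C.lap ψ)] with x h1 h2 h3 h4
    rw [h3, h4]
    linarith only [neg_abs_le (C.lap ψ x), h2, h1]
  have a2 : MemLp (C.lap w) 2 m := (hC.test_isLap hwT).2.1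
  have b2 : MemLp (σ • C.lap (ψ + w) - (2 : ℝ)⁻¹ • C.Γ (ψ + w) (ψ + w) + G : M →ₘ[m] ℝ) 2 m := by
    rw [← hvw]
    exact mem_add (mem_sub (mem_smul _ (hC.test_isLap hv).2.1)
      (mem_smul _ (hC.memLp _ g2.1))) (hC.memLp _ GA.1)
  have e4 : I (C.lap w * (w - (u - φ)))
      = τ * I (C.lap w * (σ • C.lap (ψ + w) - (2 : ℝ)⁻¹ • C.Γ (ψ + w) (ψ + w) + G))
        - I (C.lap w * r) := by
    rw [e2, mul_sub, I_sub (mem_mul_22 a2 (mem_smul _ b2)) (mem_mul_top lwtop hr1),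
      mul_smul_comm, I_smul]
  have e5 : I (C.lap w * r) ≤ (D + P) * ρ := by
    have hP : 0 ≤ D + P := by linarith only [hP0, hD]
    have h1 : I (C.lap w * r) ≤ I ((D + P) • r) := by
      refine I_mono (mem_mul_top lwtop hr1) (mem_smul _ hr1) ?_
      rw [le_iff_ae]
      filter_upwards [hlw, nonneg_iff_ae.1 hr0, mul_ae (C.lap w) r, smul_ae r (D + P)]
        with x h1 h2 h3 h4
      rw [h3, h4]
      exact mul_le_mul_of_nonneg_right h1 h2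
    rw [I_smul] at h1
    exact h1.trans (mul_le_mul_of_nonneg_left hrI hP)
  have wm1 : MemLp (C.Γ w w) 1 m := hC.mem1 w wA.1
  have wnn := hC.nonneg w wA.1
  have hX : 0 ≤ I (C.Γ w w) := I_nonneg wnn
  have f1 : I (C.lap ψ * C.Γ w w) ≤ P * I (C.Γ w w) := by
    rw [← I_smul]
    refine I_mono (mem_mul_top lψtop wm1) (mem_smul _ wm1) ?_
    rw [le_iff_ae]
    filter_upwards [hlφ, nonneg_iff_ae.1 wnn, mul_ae (C.lap ψ) (C.Γ w w), smul_ae (C.Γ w w) P]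
      with x h1 h2 h3 h4
    rw [h3, h4]
    exact mul_le_mul_of_nonneg_right ((le_abs_self _).trans h1) h2
  have f2 : I (C.lap w * C.Γ w w) ≤ (D + P) * I (C.Γ w w) := by
    rw [← I_smul]
    refine I_mono (mem_mul_top lwtop wm1) (mem_smul _ wm1) ?_
    rw [le_iff_ae]
    filter_upwards [hlw, nonneg_iff_ae.1 wnn, mul_ae (C.lap w) (C.Γ w w), smul_ae (C.Γ w w) (D + P)]
      with x h1 h2 h3 h4
    rw [h3, h4]
    exact mul_le_mul_of_nonneg_right h1 h2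
  have f3 : I (C.Γ w (G - (2 : ℝ)⁻¹ • C.Γ ψ ψ)) ≤ Real.sqrt (I (C.Γ w w)) * γ :=
    ((le_abs_self _).trans (hC.E_abs_le wA.1 (hC.sub_mem GA.1 (hC.smul_mem _ _ g1.1)))).trans
      (mul_le_mul_of_nonneg_left hγ (Real.sqrt_nonneg _))
  have f4 := (neg_abs_le (I (C.hess ψ w w)))
  have f5 : -I (C.lap w * (σ • C.lap (ψ + w) - (2 : ℝ)⁻¹ • C.Γ (ψ + w) (ψ + w) + G))
      ≤ σ / 4 * Q + (Λ + P + D / 2) * I (C.Γ w w) + (δ + γ) * Real.sqrt (I (C.Γ w w)) := by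
    have h7 := mul_le_mul_of_nonneg_left hQ (show 0 ≤ σ / 4 by positivity)
    linarith only [h7, f4, f3, f2, f1, e3, hh]
  have f6 := mul_le_mul_of_nonneg_left f5 hτ
  linarith only [f6, e5, e4, e1]

/-- the remainder of one step of the scheme -/
theorem vhj_step {σ τ L Λ D : ℝ} {n : ℕ} {U : ℕ → M →ₘ[m] ℝ} (hU : C.VHJ σ τ L Λ D n U)
    {k : ℕ} (hk : k < n) : ∃ r : M →ₘ[m] ℝ, 0 ≤ r ∧ MemLp r 1 m ∧ I r ≤ D * τ ^ 2 ∧
      (∀ᵐ x ∂m, r x ≤ D * τ ^ 2) ∧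
      U (k + 1) - U k
        = τ • (σ • C.lap (U (k + 1)) - (2 : ℝ)⁻¹ • C.Γ (U (k + 1)) (U (k + 1))) - r := by
  obtain ⟨R, hR1, hRI, hR⟩ := hU.step_ge k hk
  set r := τ • (σ • C.lap (U (k + 1)) - (2 : ℝ)⁻¹ • C.Γ (U (k + 1)) (U (k + 1)))
    - (U (k + 1) - U k) with hr
  have hae : ∀ᵐ x ∂m, 0 ≤ r x ∧ r x ≤ R x := by
    filter_upwards [hR, hU.step_le k hk,
      sub_ae (τ • (σ • C.lap (U (k + 1)) - (2 : ℝ)⁻¹ • C.Γ (U (k + 1)) (U (k + 1))))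
        (U (k + 1) - U k), sub_ae (U (k + 1)) (U k),
      smul_ae (σ • C.lap (U (k + 1)) - (2 : ℝ)⁻¹ • C.Γ (U (k + 1)) (U (k + 1))) τ,
      sub_ae (σ • C.lap (U (k + 1))) ((2 : ℝ)⁻¹ • C.Γ (U (k + 1)) (U (k + 1))),
      smul_ae (C.lap (U (k + 1))) σ, smul_ae (C.Γ (U (k + 1)) (U (k + 1))) (2 : ℝ)⁻¹]
      with x h1 h2 h3 h4 h5 h6 h7 h8
    rw [hr, h3, h4, h5, h6, h7, h8]
    constructor <;> linarith [h1.2.2]
  have hr0 : 0 ≤ r := nonneg_iff_ae.2 (hae.mono fun x hx => hx.1)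
  have hr1 : MemLp r 1 m := by
    refine mem_of_le hR1 ?_
    filter_upwards [hae] with x hx
    rw [abs_of_nonneg hx.1, abs_of_nonneg (hx.1.trans hx.2)]
    exact hx.2
  refine ⟨r, hr0, hr1, ?_, ?_, ?_⟩
  · exact (I_mono hr1 hR1 (le_iff_ae.2 (hae.mono fun x hx => hx.2))).trans hRI
  · filter_upwards [hae, hR] with x hx h2
    exact hx.2.trans h2.2.1
  · rw [hr]; abel

/-- THE ENERGY ESTIMATE -/
theorem en_iter {σ ε L Λ D P Λh δ γ Q Lφ : ℝ} {n : ℕ} {U : ℕ → M →ₘ[m] ℝ}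
    (hσ : 0 ≤ σ) (hε : 0 < ε) (hn : 0 < n)
    (hΛ : 0 ≤ Λ) (hD : 0 ≤ D) (hP0 : 0 ≤ P) (hΛh : 0 ≤ Λh) (hQ0 : 0 ≤ Q)
    (hφ : φ ∈ C.Test) (hG : G ∈ C.Test)
    (hU : C.VHJ σ (ε / n) L Λ D n U) (hU0 : U 0 = φ)
    (hP : ∀ s, 0 ≤ s → s ≤ ε → ∀ᵐ x ∂m, |C.lap (φ - s • G) x| ≤ P)
    (hLφ : ∀ s, 0 ≤ s → s ≤ ε → ∀ᵐ x ∂m, C.Γ (φ - s • G) (φ - s • G) x ≤ Lφ)
    (hh : ∀ s, 0 ≤ s → s ≤ ε → ∀ w ∈ C.Test, (∀ᵐ x ∂m, C.Γ w w x ≤ 2 * (L + Lφ)) →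
      |I (C.hess (φ - s • G) w w)| ≤ Λh * I (C.Γ w w) + δ * Real.sqrt (I (C.Γ w w)))
    (hγ : ∀ s, 0 ≤ s → s ≤ ε → Real.sqrt (I (C.Γ (G - (2 : ℝ)⁻¹ • C.Γ (φ - s • G) (φ - s • G))
      (G - (2 : ℝ)⁻¹ • C.Γ (φ - s • G) (φ - s • G)))) ≤ γ)
    (hQ : ∀ s, 0 ≤ s → s ≤ ε → I (C.lap (φ - s • G) ^ 2) ≤ Q)
    (hnb : 2 * ((2 * Λh + 2 * P + Λ) * ε + 1) ≤ n) :
    ∀ k ≤ n, I (C.Γ (U k - (φ - ((k : ℝ) * (ε / n)) • G)) (U k - (φ - ((k : ℝ) * (ε / n)) • G)))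
      ≤ (ε ^ 2 * (δ + γ) ^ 2 + ε * σ * Q / 2 + 2 * (Λ + P) * D * ε ^ 2 / n)
        * Real.exp (2 * ((2 * Λh + 2 * P + Λ) * ε + 1)) := by
  have hn0 : (0 : ℝ) < n := by exact_mod_cast hn
  set τ := ε / n with hτ
  have hτ0 : 0 < τ := by positivity
  set A := 2 * Λh + 2 * P + Λ with hA
  have hA0 : 0 ≤ A := by positivity
  set a := τ * (A + 1 / ε) with ha
  set b := τ * ((2 * (δ + γ)) ^ 2 * ε / 4 + σ / 2 * Q) + 2 * (Λ + P) * (D * τ ^ 2) with hb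
  have ha0 : 0 ≤ a := by (clear * - hε hn hΛh hP0 hΛ; positivity)
  have hb0 : 0 ≤ b := by (clear * - hε hn hσ hQ0 hΛ hP0 hD; positivity)
  have han : a * n = A * ε + 1 := by
    rw [ha, hτ]; field_simp
  have ha2 : a ≤ 1 / 2 := by
    have : a * n ≤ 1 / 2 * n := by rw [han]; linarith only [hnb]
    exact le_of_mul_le_mul_right this hn0
  set x : ℕ → ℝ := fun k => I (C.Γ (U k - (φ - ((k : ℝ) * τ) • G)) (U k - (φ - ((k : ℝ) * τ) • G)))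
    with hx
  have hx0 : x 0 ≤ 0 := by
    simp only [hx, Nat.cast_zero, zero_mul, zero_smul, sub_zero, hU0, sub_self]
    rw [hC.Γ_zero_left hC.zero_mem, I_zero]
  have hTs : ∀ s : ℝ, φ - s • G ∈ C.Test := fun s => hC.en_sub hB hφ (hC.test_smul hB s hG)
  have hkτ : ∀ k ≤ n, 0 ≤ (k : ℝ) * τ ∧ (k : ℝ) * τ ≤ ε := by
    intro k hk
    refine ⟨by positivity, ?_⟩
    have hk' : (k : ℝ) ≤ n := by exact_mod_cast hk
    calc (k : ℝ) * τ ≤ n * τ := mul_le_mul_of_nonneg_right hk' hτ0.le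
      _ = ε := by rw [hτ]; field_simp
  have key : ∀ k < n, (1 - a) * x (k + 1) ≤ x k + b := by
    intro k hk
    obtain ⟨r, hr0, hr1, hrI, -, hstep⟩ := hC.vhj_step hB hU hk
    have hs := hkτ (k + 1) hk
    have e1 : φ - ((k : ℝ) * τ) • G - τ • G = φ - (((k + 1 : ℕ) : ℝ) * τ) • G := by
      push_cast; rw [add_mul, one_mul, add_smul]; abel
    have hlip : ∀ᵐ y ∂m, C.Γ (U (k + 1) - (φ - (((k + 1 : ℕ) : ℝ) * τ) • G))
        (U (k + 1) - (φ - (((k + 1 : ℕ) : ℝ) * τ) • G)) y ≤ 2 * (L + Lφ) := by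
      have vA := (hC.test_A (hU.test (k + 1))).1
      have pA := (hC.test_A (hTs (((k + 1 : ℕ) : ℝ) * τ))).1
      have h1 : C.Γ (U (k + 1) - (φ - (((k + 1 : ℕ) : ℝ) * τ) • G))
          (U (k + 1) - (φ - (((k + 1 : ℕ) : ℝ) * τ) • G))
          + C.Γ (U (k + 1) + (φ - (((k + 1 : ℕ) : ℝ) * τ) • G))
          (U (k + 1) + (φ - (((k + 1 : ℕ) : ℝ) * τ) • G))
          = (2 : ℝ) • C.Γ (U (k + 1)) (U (k + 1))
            + (2 : ℝ) • C.Γ (φ - (((k + 1 : ℕ) : ℝ) * τ) • G)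
              (φ - (((k + 1 : ℕ) : ℝ) * τ) • G) := by
        have h2 := hC.Γ_expand 1 vA pA
        have h3 := hC.Γ_expand (-1) vA pA
        rw [one_smul, mul_one, one_pow, one_smul] at h2
        rw [neg_one_smul, ← sub_eq_add_neg] at h3
        rw [h2, h3]
        module
      filter_upwards [eq_iff_ae.1 h1, hU.grad (k + 1) hk, hLφ _ hs.1 hs.2,
        add_ae (C.Γ (U (k + 1) - (φ - (((k + 1 : ℕ) : ℝ) * τ) • G))
          (U (k + 1) - (φ - (((k + 1 : ℕ) : ℝ) * τ) • G)))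
          (C.Γ (U (k + 1) + (φ - (((k + 1 : ℕ) : ℝ) * τ) • G))
          (U (k + 1) + (φ - (((k + 1 : ℕ) : ℝ) * τ) • G))),
        add_ae ((2 : ℝ) • C.Γ (U (k + 1)) (U (k + 1)))
          ((2 : ℝ) • C.Γ (φ - (((k + 1 : ℕ) : ℝ) * τ) • G) (φ - (((k + 1 : ℕ) : ℝ) * τ) • G)),
        smul_ae (C.Γ (U (k + 1)) (U (k + 1))) (2 : ℝ),
        smul_ae (C.Γ (φ - (((k + 1 : ℕ) : ℝ) * τ) • G) (φ - (((k + 1 : ℕ) : ℝ) * τ) • G)) (2 : ℝ),
        hC.Γ_nonneg_ae (hC.add_mem _ vA _ pA)] with y q1 q2 q3 q4 q5 q6 q7 q8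
      rw [q4, q5, q6, q7] at q1
      linarith only [q8, q3, q2, q1]
    have hwT : U (k + 1) - (φ - (((k + 1 : ℕ) : ℝ) * τ) • G) ∈ C.Test :=
      hC.en_sub hB (hU.test _) (hTs _)
    have h1 := hC.en_one hB (φ := φ - ((k : ℝ) * τ) • G) (G := G) (τ := τ) (P := P) (D := Λ)
      (Λ := Λh) (δ := δ) (γ := γ) (Q := Q) (ρ := D * τ ^ 2) hσ hτ0.le (hU.test k) (hU.test (k + 1))
      (hTs _) hG hr0 hr1 hrI hΛ hP0 (hU.lap_le (k + 1) hk)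
      (mem_top_iff.2 ⟨D, hU.lap_abs (k + 1) hk⟩) (by rw [e1]; exact hP _ hs.1 hs.2) hstep
      (by rw [e1]; exact hh _ hs.1 hs.2 _ hwT hlip) (by rw [e1]; exact hγ _ hs.1 hs.2)
      (by rw [e1]; exact hQ _ hs.1 hs.2)
    rw [e1] at h1
    change x (k + 1) ≤ x k + τ * (A * x (k + 1) + 2 * (δ + γ) * Real.sqrt (x (k + 1)) + σ / 2 * Q)
      + 2 * (Λ + P) * (D * τ ^ 2) at h1
    have hxn : 0 ≤ x (k + 1) := I_nonneg (hC.nonneg _ (hC.test_A hwT).1)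
    have h2 := en_sqrt_le (B := 2 * (δ + γ)) hxn hε
    have h3 := mul_le_mul_of_nonneg_left h2 hτ0.le
    have h4 : a * x (k + 1) = τ * (A * x (k + 1)) + τ * (x (k + 1) / ε) := by
      rw [ha]; ring
    rw [hb]
    linarith only [h4, h3, h1]
  intro k hk
  have h1 := en_gronwall ha0 ha2 hb0 hx0 key k hk
  have hk' : (k : ℝ) ≤ n := by exact_mod_cast hk
  refine h1.trans ?_
  have h2 : Real.exp (2 * a * k) ≤ Real.exp (2 * (A * ε + 1)) := by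
    apply Real.exp_le_exp.2
    rw [← han]
    linarith only [mul_nonneg (sub_nonneg.2 ha0) (sub_nonneg.2 hk')]
  have h3 : (k : ℝ) * b ≤ ε ^ 2 * (δ + γ) ^ 2 + ε * σ * Q / 2 + 2 * (Λ + P) * D * ε ^ 2 / n := by
    have h4 : (n : ℝ) * b
        = ε ^ 2 * (δ + γ) ^ 2 + ε * σ * Q / 2 + 2 * (Λ + P) * D * ε ^ 2 / n := by
      rw [hb, hτ]; field_simp; ring
    rw [← h4]
    exact mul_le_mul_of_nonneg_right hk' hb0
  have h5 : 0 ≤ (k : ℝ) * b := by (clear * - hε hn hσ hQ0 hΛ hP0 hD; positivity)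
  exact mul_le_mul h3 h2 (Real.exp_pos _).le (h5.trans h3)

end IsGamma

end Vale.Agent.P233
end

section

open MeasureTheory Filter Topology
open scoped ENNReal NNReal

namespace Vale.Agent.P233

variable {M : Type*} [MeasurableSpace M] {m : Measure M} {C : Calc m}

theorem ac_arith {τ K x N1 P Q R A1 A2 A3 A4 A5 B1 B2 ρr σ : ℝ} (hτ : 0 ≤ τ)
    (g1 : -(σ * P) ≤ σ * A1) (g2 : A3 - τ / 2 * Q - τ * R - N1 * x ≤ B2)
    (e7 : A4 ≤ K * x ^ 2) (e8 : A5 ≤ K * ρr) :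
    τ * (B1 - (2 : ℝ)⁻¹ * A2) - τ * (N1 * x + (2 : ℝ)⁻¹ * K * x ^ 2 + σ * P)
      - τ ^ 2 * (R + (2 : ℝ)⁻¹ * Q) - K * ρr
      ≤ τ * (σ * A1 - (2 : ℝ)⁻¹ * (A2 + 2 * A3 + A4)) - A5 + τ * (B1 + B2) := by
  have h1 : 0 ≤ τ * ((σ * A1 + σ * P) + (B2 - (A3 - τ / 2 * Q - τ * R - N1 * x))
      + (2 : ℝ)⁻¹ * (K * x ^ 2 - A4)) :=
    mul_nonneg hτ (by linarith only [e7, g2, g1])
  linarith only [h1, e8]

namespace IsGamma

variable (hC : IsGamma C) {κ : ℝ} (hB : C.BEi κ)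
variable {u v w φ G r f a b : M →ₘ[m] ℝ}

include hC

theorem ac_mul_Γ_le {K : ℝ} (hf : ∀ᵐ x ∂m, |f x| ≤ K) (ha : a ∈ C.W) (hb : b ∈ C.W)
    (hK : 0 ≤ K) :
    |I (f * C.Γ a b)| ≤ K * (Real.sqrt (I (C.Γ a a)) * Real.sqrt (I (C.Γ b b))) := by
  have h1 := hC.int_abs_Γ_le ha hb
  have h2 := hC.Γ_mem1 ha hb
  have h3 : |I (f * C.Γ a b)| ≤ ∫ x, K * |C.Γ a b x| ∂m := by
    unfold I
    refine (abs_integral_le_integral_abs).trans ?_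
    refine integral_mono_ae (int_of_mem (mem_mul_top (mem_top_iff.2 ⟨K, hf⟩) h2)).abs
      ((int_of_mem h2).abs.const_mul K) ?_
    filter_upwards [hf, mul_ae f (C.Γ a b)] with x h4 h5
    rw [h5, abs_mul]
    exact mul_le_mul_of_nonneg_right h4 (abs_nonneg _)
  rw [integral_const_mul] at h3
  exact h3.trans (mul_le_mul_of_nonneg_left h1 hK)

include hB

/-- one step of the action lower bound -/
theorem ac_one {σ τ K K' N1 x gφ gρ gm gG ρr : ℝ} {ψ ρ0 ρ1 ρm ρm' φm E : M →ₘ[m] ℝ}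
    (hσ : 0 ≤ σ) (hτ : 0 ≤ τ) (hK : 0 ≤ K) (hK' : 0 ≤ K')
    (hu : u ∈ C.Test) (hv : v ∈ C.Test) (hψ : ψ ∈ C.Test) (hG : G ∈ C.Test)
    (hρ0 : ρ0 ∈ C.A) (hρm' : ρm' ∈ C.A) (hE : E ∈ C.A)
    (hρK : ∀ᵐ x ∂m, |ρ0 x| ≤ K) (hEK : ∀ᵐ x ∂m, |E x| ≤ K')
    (hr0 : 0 ≤ r) (hr1 : MemLp r 1 m) (hrI : I r ≤ ρr)
    (hstep : v - u = τ • (σ • C.lap v - (2 : ℝ)⁻¹ • C.Γ v v) - r)
    (h1 : ρ1 = ρ0 + τ • ρm') (h2 : ρm = ρ0 + τ • E) (h3 : φm = ψ + (τ / 2) • G)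
    (hx : Real.sqrt (I (C.Γ (v - ψ) (v - ψ))) ≤ x)
    (hgφ : Real.sqrt (I (C.Γ ψ ψ)) ≤ gφ) (hgρ : Real.sqrt (I (C.Γ ρ0 ρ0)) ≤ gρ)
    (hgm : Real.sqrt (I (C.Γ φm φm)) ≤ gm) (hgG : Real.sqrt (I (C.Γ G G)) ≤ gG)
    (hN : |I ((v - ψ) * ρm') - I (ρm * C.Γ φm (v - ψ))| ≤ N1 * x) :
    τ * (I (ψ * ρm') - (2 : ℝ)⁻¹ * I (ρ0 * C.Γ ψ ψ))
      - τ * (N1 * x + (2 : ℝ)⁻¹ * K * x ^ 2 + σ * ((gφ + x) * gρ))
      - τ ^ 2 * (K' * (gm * x) + (2 : ℝ)⁻¹ * (K * (gG * x))) - K * ρr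
      ≤ I (v * ρ1) - I (u * ρ0) := by
  set w := v - ψ with hw
  have hwT : w ∈ C.Test := hC.en_sub hB hv hψ
  have hvw : v = ψ + w := by rw [hw]; abel
  have uA := hC.test_A hu
  have vA := hC.test_A hv
  have ψA := hC.test_A hψ
  have wA := hC.test_A hwT
  have GA := hC.test_A hG
  have hφmA : φm ∈ C.A := by rw [h3]; exact hC.A_add ψA (hC.A_smul _ GA)
  have L2 : ∀ {z : M →ₘ[m] ℝ}, z ∈ C.A → MemLp z 2 m := fun h => hC.memLp _ h.1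
  have hx0 : 0 ≤ x := (Real.sqrt_nonneg _).trans hx
  have hgφ0 : 0 ≤ gφ := (Real.sqrt_nonneg _).trans hgφ
  have hgρ0 : 0 ≤ gρ := (Real.sqrt_nonneg _).trans hgρ
  have hgm0 : 0 ≤ gm := (Real.sqrt_nonneg _).trans hgm
  have hgG0 : 0 ≤ gG := (Real.sqrt_nonneg _).trans hgG
  have lv2 : MemLp (C.lap v) 2 m := (hC.test_isLap hv).2.1
  have gv := hC.Γ_mem hB hv hv
  -- the algebra
  have e1 : v * ρ1 - u * ρ0 = (v - u) * ρ0 + τ • (v * ρm') := by rw [h1]; algebra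
  have e2 : I (v * ρ1) - I (u * ρ0) = I ((v - u) * ρ0) + τ * I (v * ρm') := by
    have hρ1 : ρ1 ∈ C.A := by rw [h1]; exact hC.A_add hρ0 (hC.A_smul _ hρm')
    rw [← I_sub (mem_mul_22 (L2 vA) (L2 hρ1)) (mem_mul_22 (L2 uA) (L2 hρ0)), e1,
      I_add (mem_mul_22 (mem_sub (L2 vA) (L2 uA)) (L2 hρ0)) (mem_smul _ (mem_mul_22 (L2 vA)
      (L2 hρm'))), I_smul]
  have e3 : I ((v - u) * ρ0)
      = τ * (σ * I (C.lap v * ρ0) - (2 : ℝ)⁻¹ * I (ρ0 * C.Γ v v)) - I (ρ0 * r) := by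
    have : (v - u) * ρ0 = τ • (σ • (C.lap v * ρ0) - (2 : ℝ)⁻¹ • (ρ0 * C.Γ v v)) - ρ0 * r := by
      rw [hstep]; algebra
    have k1 := mem_mul_22 lv2 (L2 hρ0)
    have k2 := mem_mul_22 (L2 hρ0) (L2 gv)
    rw [this, I_sub (mem_smul _ (mem_sub (mem_smul _ k1) (mem_smul _ k2)))
      (mem_mul_top hρ0.2 hr1), I_smul, I_sub (mem_smul _ k1) (mem_smul _ k2), I_smul, I_smul]
  have e4 : I (C.Γ v ρ0) = -I (C.lap v * ρ0) := (hC.test_isLap hv).2.2 _ hρ0.1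
  have e5 : |I (C.Γ v ρ0)| ≤ (gφ + x) * gρ := by
    refine (hC.E_abs_le vA.1 hρ0.1).trans (mul_le_mul ?_ hgρ (Real.sqrt_nonneg _) (by linarith only [hgφ0, hx0]))
    rw [hvw]
    exact (hC.sqrt_E_add_le ψA.1 wA.1).trans (add_le_add hgφ hx)
  have p1 : MemLp (ρ0 * C.Γ ψ ψ) 1 m := mem_mul_top hρ0.2 (hC.Γ_mem1 ψA.1 ψA.1)
  have p2 : MemLp (ρ0 * C.Γ ψ w) 1 m := mem_mul_top hρ0.2 (hC.Γ_mem1 ψA.1 wA.1)
  have p3 : MemLp (ρ0 * C.Γ w w) 1 m := mem_mul_top hρ0.2 (hC.Γ_mem1 wA.1 wA.1)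
  have e6 : I (ρ0 * C.Γ v v) = I (ρ0 * C.Γ ψ ψ) + 2 * I (ρ0 * C.Γ ψ w) + I (ρ0 * C.Γ w w) := by
    have h := hC.Γ_expand 1 ψA.1 wA.1
    rw [one_smul, mul_one, one_pow, one_smul, ← hvw] at h
    have : ρ0 * C.Γ v v = ρ0 * C.Γ ψ ψ + (2 : ℝ) • (ρ0 * C.Γ ψ w) + ρ0 * C.Γ w w := by
      rw [h]; algebra
    rw [this, I_add (mem_add p1 (mem_smul _ p2)) p3, I_add p1 (mem_smul _ p2), I_smul]
  have hsq : I (C.Γ w w) ≤ x ^ 2 := by
    have := Real.sq_sqrt (hC.E_nonneg wA.1)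
    linarith only [mul_nonneg (sub_nonneg.2 hx) (sub_nonneg.2 (Real.sqrt_nonneg (I (C.Γ w w)))), mul_nonneg (sub_nonneg.2 hx) (sub_nonneg.2 hx0), mul_eq_zero_of_left (sub_eq_zero.2 this) (0 - (0 - 1 * 1))]
  have e7 : I (ρ0 * C.Γ w w) ≤ K * x ^ 2 := by
    have h := (le_abs_self _).trans (hC.ac_mul_Γ_le hρK wA.1 wA.1 hK)
    rw [Real.mul_self_sqrt (hC.E_nonneg wA.1)] at h
    exact h.trans (mul_le_mul_of_nonneg_left hsq hK)
  have e8 : I (ρ0 * r) ≤ K * ρr := by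
    have h : I (ρ0 * r) ≤ I (K • r) := by
      refine I_mono (mem_mul_top hρ0.2 hr1) (mem_smul _ hr1) ?_
      rw [le_iff_ae]
      filter_upwards [hρK, nonneg_iff_ae.1 hr0, mul_ae ρ0 r, smul_ae r K] with y q1 q2 q3 q4
      rw [q3, q4]
      exact mul_le_mul_of_nonneg_right ((le_abs_self _).trans q1) q2
    rw [I_smul] at h
    exact h.trans (mul_le_mul_of_nonneg_left hrI hK)
  have e9 : I (v * ρm') = I (ψ * ρm') + I (w * ρm') := by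
    rw [← I_add (mem_mul_22 (L2 ψA) (L2 hρm')) (mem_mul_22 (L2 wA) (L2 hρm')), ← add_mul, ← hvw]
  have e10 : I (ρm * C.Γ φm w)
      = I (ρ0 * C.Γ ψ w) + τ / 2 * I (ρ0 * C.Γ G w) + τ * I (E * C.Γ φm w) := by
    have q1 : MemLp (ρ0 * C.Γ G w) 1 m := mem_mul_top hρ0.2 (hC.Γ_mem1 GA.1 wA.1)
    have q2 : MemLp (E * C.Γ φm w) 1 m := mem_mul_top hE.2 (hC.Γ_mem1 hφmA.1 wA.1)
    have q3 : C.Γ φm w = C.Γ ψ w + (τ / 2) • C.Γ G w := by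
      rw [h3, hC.add_left _ ψA.1 _ (hC.smul_mem _ _ GA.1) _ wA.1, hC.smul_left _ _ GA.1 _ wA.1]
    have q4 : ρm * C.Γ φm w
        = ρ0 * C.Γ ψ w + (τ / 2) • (ρ0 * C.Γ G w) + τ • (E * C.Γ φm w) := by
      have : ρm * C.Γ φm w = ρ0 * C.Γ φm w + τ • (E * C.Γ φm w) := by rw [h2]; algebra
      rw [this]
      nth_rewrite 1 [q3]
      algebra
    rw [q4, I_add (mem_add p2 (mem_smul _ q1)) (mem_smul _ q2), I_add p2 (mem_smul _ q1), I_smul,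
      I_smul]
  have e11 : |I (ρ0 * C.Γ G w)| ≤ K * (gG * x) :=
    (hC.ac_mul_Γ_le hρK GA.1 wA.1 hK).trans (mul_le_mul_of_nonneg_left
      (mul_le_mul hgG hx (Real.sqrt_nonneg _) hgG0) hK)
  have e12 : |I (E * C.Γ φm w)| ≤ K' * (gm * x) :=
    (hC.ac_mul_Γ_le hEK hφmA.1 wA.1 hK').trans (mul_le_mul_of_nonneg_left
      (mul_le_mul hgm hx (Real.sqrt_nonneg _) hgm0) hK')
  have f1 := (abs_le.1 hN).1
  have f2 := (abs_le.1 e11).1
  have f3 := (abs_le.1 e12).1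
  have f4 := (abs_le.1 e5).2
  rw [e2, e3, e6, e9]
  rw [e4] at f4
  have t0 := mul_le_mul_of_nonneg_left (show -((gφ + x) * gρ) ≤ I (C.lap v * ρ0) by linarith) hσ
  have t1 := mul_le_mul_of_nonneg_left f2 (show 0 ≤ τ / 2 by (clear * - hτ; positivity))
  have t2 := mul_le_mul_of_nonneg_left f3 hτ
  exact ac_arith hτ (by linarith only [t0]) (by linarith only [t2, t1, f1, e10]) e7 e8

end IsGamma

end Vale.Agent.P233
end

section

open MeasureTheory Filter Topology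
open scoped ENNReal NNReal

namespace Vale.Agent.P233

variable {M : Type*} [MeasurableSpace M] {m : Measure M} {C : Calc m}

namespace IsGamma

variable (hC : IsGamma C) {κ : ℝ} (hB : C.BEi κ)
variable {u v w φ G r f a b F R1 R2 : M →ₘ[m] ℝ}

section first
include hC

theorem sE_smul (c : ℝ) (hf : f ∈ C.W) :
    √(I (C.Γ (c • f) (c • f))) = |c| * √(I (C.Γ f f)) := by
  rw [hC.E_smul c hf, Real.sqrt_mul (sq_nonneg c), Real.sqrt_sq_eq_abs]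

theorem sE_sub_le (hf : f ∈ C.W) (hg : a ∈ C.W) :
    √(I (C.Γ (f - a) (f - a))) ≤ √(I (C.Γ f f)) + √(I (C.Γ a a)) := by
  have h := hC.sqrt_E_add_le hf (hC.neg_mem hg)
  rwa [hC.E_neg hg, ← sub_eq_add_neg] at h

end first

include hC hB

/-- the sum of the steps of the action lower bound -/
theorem ac_sum {σ ε L Λ D K K' N1 x gφ gρ gG : ℝ} {n : ℕ} {U : ℕ → M →ₘ[m] ℝ}
    (hσ : 0 ≤ σ) (hε : 0 < ε) (hn : 0 < n) (hK : 0 ≤ K) (hK' : 0 ≤ K')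
    (hφ : φ ∈ C.Test) (hG : G ∈ C.Test) (hF : F ∈ C.A) (hR1 : R1 ∈ C.A) (hR2 : R2 ∈ C.A)
    (hU : C.VHJ σ (ε / n) L Λ D n U)
    (hρK : ∀ t, 0 ≤ t → t ≤ ε → ∀ᵐ y ∂m, |(F + t • R1 + (t ^ 2 / 2) • R2) y| ≤ K)
    (hEK : ∀ t, 0 ≤ t → t ≤ ε → ∀ᵐ y ∂m, |((2 : ℝ)⁻¹ • R1 + (t / 2) • R2) y| ≤ K')
    (hgφ : ∀ t, 0 ≤ t → t ≤ ε → √(I (C.Γ (φ - t • G) (φ - t • G))) ≤ gφ)
    (hgρ : ∀ t, 0 ≤ t → t ≤ ε → √(I (C.Γ (F + t • R1 + (t ^ 2 / 2) • R2)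
      (F + t • R1 + (t ^ 2 / 2) • R2))) ≤ gρ)
    (hgG : √(I (C.Γ G G)) ≤ gG)
    (hx : ∀ k ≤ n, √(I (C.Γ (U k - (φ - ((k : ℝ) * (ε / n)) • G))
      (U k - (φ - ((k : ℝ) * (ε / n)) • G)))) ≤ x)
    (hN : ∀ t, 0 ≤ t → t ≤ ε → ∀ w ∈ C.Test, √(I (C.Γ w w)) ≤ x →
      |I (w * (R1 + t • R2)) - I ((F + t • R1 + (t ^ 2 / 2) • R2) * C.Γ (φ - t • G) w)| ≤ N1 * x) :
    (∑ k ∈ Finset.range n, (ε / n) *
      (I ((φ - (((k : ℝ) + 1) * (ε / n)) • G) * (R1 + (((k : ℝ) + 1 / 2) * (ε / n)) • R2))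
        - (2 : ℝ)⁻¹ * I ((F + ((k : ℝ) * (ε / n)) • R1 + (((k : ℝ) * (ε / n)) ^ 2 / 2) • R2)
          * C.Γ (φ - (((k : ℝ) + 1) * (ε / n)) • G) (φ - (((k : ℝ) + 1) * (ε / n)) • G))))
      - ε * (N1 * x + (2 : ℝ)⁻¹ * K * x ^ 2 + σ * ((gφ + x) * gρ))
      - ε ^ 2 / n * (K' * (gφ * x) + (2 : ℝ)⁻¹ * (K * (gG * x))) - K * D * ε ^ 2 / n
      ≤ I (U n * (F + ε • R1 + (ε ^ 2 / 2) • R2)) - I (U 0 * F) := by
  have hn0 : (0 : ℝ) < n := by exact_mod_cast hn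
  set τ := ε / n with hτ
  have hτ0 : 0 < τ := by positivity
  have hnτ : (n : ℝ) * τ = ε := by rw [hτ]; field_simp
  have hTs : ∀ s : ℝ, φ - s • G ∈ C.Test := fun s => hC.en_sub hB hφ (hC.test_smul hB s hG)
  have hρA : ∀ t : ℝ, F + t • R1 + (t ^ 2 / 2) • R2 ∈ C.A := fun t =>
    hC.A_add (hC.A_add hF (hC.A_smul _ hR1)) (hC.A_smul _ hR2)
  have key : ∀ k ∈ Finset.range n,
      τ * (I ((φ - (((k : ℝ) + 1) * τ) • G) * (R1 + (((k : ℝ) + 1 / 2) * τ) • R2))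
        - (2 : ℝ)⁻¹ * I ((F + ((k : ℝ) * τ) • R1 + (((k : ℝ) * τ) ^ 2 / 2) • R2)
          * C.Γ (φ - (((k : ℝ) + 1) * τ) • G) (φ - (((k : ℝ) + 1) * τ) • G)))
        - τ * (N1 * x + (2 : ℝ)⁻¹ * K * x ^ 2 + σ * ((gφ + x) * gρ))
        - τ ^ 2 * (K' * (gφ * x) + (2 : ℝ)⁻¹ * (K * (gG * x))) - K * (D * τ ^ 2)
      ≤ I (U (k + 1) * (F + (((k + 1 : ℕ) : ℝ) * τ) • R1
          + ((((k + 1 : ℕ) : ℝ) * τ) ^ 2 / 2) • R2))
        - I (U k * (F + ((k : ℝ) * τ) • R1 + (((k : ℝ) * τ) ^ 2 / 2) • R2)) := by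
    intro k hk
    have hk' := Finset.mem_range.1 hk
    have hkn : ((k : ℝ) + 1) ≤ n := by exact_mod_cast hk'
    have hk0 : (0 : ℝ) ≤ k := by positivity
    have hb : ((k : ℝ) + 1) * τ ≤ ε := by rw [← hnτ]; exact mul_le_mul_of_nonneg_right hkn hτ0.le
    obtain ⟨r, hr0, hr1, hrI, -, hstep⟩ := hC.vhj_step hB hU hk'
    have hxk := hx (k + 1) hk'
    push_cast at hxk ⊢
    have b1 : 0 ≤ (k : ℝ) * τ := by (clear * - hε hn; positivity)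
    have b2 : (k : ℝ) * τ ≤ ε := by linarith only [hb, hτ0]
    have b3 : 0 ≤ ((k : ℝ) + 1 / 2) * τ := by (clear * - hε hn; positivity)
    have b4 : ((k : ℝ) + 1 / 2) * τ ≤ ε := by linarith only [hb, hτ0]
    have b5 : 0 ≤ ((k : ℝ) + 1) * τ := by positivity
    have b6 : 0 ≤ ((k : ℝ) + 1 / 4) * τ := by (clear * - hε hn; positivity)
    have b7 : ((k : ℝ) + 1 / 4) * τ ≤ ε := by linarith only [hb, hτ0]
    exact hC.ac_one hB (E := (2 : ℝ)⁻¹ • R1 + ((((k : ℝ) + 1 / 4) * τ) / 2) • R2)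
      (ρm := F + (((k : ℝ) + 1 / 2) * τ) • R1 + ((((k : ℝ) + 1 / 2) * τ) ^ 2 / 2) • R2)
      (φm := φ - (((k : ℝ) + 1 / 2) * τ) • G) hσ hτ0.le hK hK' (hU.test k) (hU.test (k + 1))
      (hTs _) hG (hρA _) (hC.A_add hR1 (hC.A_smul _ hR2))
      (hC.A_add (hC.A_smul _ hR1) (hC.A_smul _ hR2)) (hρK _ b1 b2) (hEK _ b6 b7) hr0 hr1 hrI hstep
      (by module) (by module) (by module) hxk (hgφ _ b5 hb) (hgρ _ b1 b2) (hgφ _ b3 b4) hgG
      (hN _ b3 b4 _ (hC.en_sub hB (hU.test _) (hTs _)) hxk)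
  have h1 := Finset.sum_le_sum key
  rw [Finset.sum_range_sub (fun k : ℕ => I (U k * (F + ((k : ℝ) * τ) • R1
    + (((k : ℝ) * τ) ^ 2 / 2) • R2)))] at h1
  rw [Finset.sum_sub_distrib, Finset.sum_sub_distrib, Finset.sum_sub_distrib] at h1
  simp only [Finset.sum_const, Finset.card_range, nsmul_eq_mul, Nat.cast_zero, zero_mul,
    zero_smul, add_zero, hnτ] at h1
  have h2 : F + (0 ^ 2 / 2 : ℝ) • R2 = F := by simp
  rw [h2] at h1
  have h3 : (n : ℝ) * (τ * (N1 * x + (2 : ℝ)⁻¹ * K * x ^ 2 + σ * ((gφ + x) * gρ)))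
      = ε * (N1 * x + (2 : ℝ)⁻¹ * K * x ^ 2 + σ * ((gφ + x) * gρ)) := by
    rw [← mul_assoc, hnτ]
  have h4 : (n : ℝ) * (τ ^ 2 * (K' * (gφ * x) + (2 : ℝ)⁻¹ * (K * (gG * x))))
      = ε ^ 2 / n * (K' * (gφ * x) + (2 : ℝ)⁻¹ * (K * (gG * x))) := by
    rw [hτ]; field_simp
  have h5 : (n : ℝ) * (K * (D * τ ^ 2)) = K * D * ε ^ 2 / n := by
    rw [hτ]; field_simp
  rw [h3, h4, h5] at h1
  exact h1

end IsGamma

end Vale.Agent.P233
end
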