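import Vale.Agent.P233.MathlibUsed2
import Vale.Agent.P233.Bd3.B2
import Vale.Agent.P233.Bd3.B1

set_option linter.all false

section

end

section

namespace Vale.Agent.P233.AB

open Real

/-- The comparison inequality in the model plane of curvature `κ`: `a, b` are the distances from
`p` to the end points `x, y` of a geodesic, `w` is the point of this geodesic with
`|xw| = s`, `|wy| = t`, and the inequality says `r = |pw| ≥` the distance of the corresponding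
points of the comparison triangle. -/
noncomputable def Cmp (κ a b s t r : ℝ) : Prop :=
  (κ = 0 → t * a ^ 2 + s * b ^ 2 - s * t * (s + t) ≤ (s + t) * r ^ 2) ∧
  (0 < κ → sin (√κ * (s + t)) * cos (√κ * r)
    ≤ sin (√κ * t) * cos (√κ * a) + sin (√κ * s) * cos (√κ * b)) ∧
  (κ < 0 → sinh (√(-κ) * t) * cosh (√(-κ) * a) + sinh (√(-κ) * s) * cosh (√(-κ) * b)
    ≤ sinh (√(-κ) * (s + t)) * cosh (√(-κ) * r))

/-- A geodesic space with curvature `≥ κ` in the sense of Alexandrov: lower triangle comparison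
for all geodesic triangles (of perimeter `< 2π/√κ` when `κ > 0`). -/
structure IsAlexandrov (M : Type*) [MetricSpace M] (κ : ℝ) : Prop where
  geodesic : ∀ x y : M, ∀ s t : ℝ, 0 ≤ s → 0 ≤ t → s + t = dist x y →
    ∃ w, dist x w = s ∧ dist w y = t
  comparison : ∀ p x y w : M, dist x w + dist w y = dist x y →
    (0 < κ → dist p x + dist p y + dist x y < 2 * π / √κ) →
    Cmp κ (dist p x) (dist p y) (dist x w) (dist w y) (dist p w)

end Vale.Agent.P233.AB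
end

section

namespace Vale.Agent.P233.AB

open Real Filter Topology

/-- the cosine of the comparison angle -/
noncomputable def cvA (κ a b c : ℝ) : ℝ :=
  if κ = 0 then (a ^ 2 + b ^ 2 - c ^ 2) / (2 * a * b)
  else if 0 < κ then
    (cos (√κ * c) - cos (√κ * a) * cos (√κ * b)) / (sin (√κ * a) * sin (√κ * b))
  else (cosh (√(-κ) * a) * cosh (√(-κ) * b) - cosh (√(-κ) * c)) /
    (sinh (√(-κ) * a) * sinh (√(-κ) * b))

lemma cang_eq_arccos (κ a b c : ℝ) : cang κ a b c = arccos (cvA κ a b c) := by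
  unfold cang cvA
  split_ifs <;> rfl

lemma cvA_comm (κ a b c : ℝ) : cvA κ a b c = cvA κ b a c := by
  unfold cvA
  split_ifs
  · congr 1 <;> ring
  · congr 1 <;> ring
  · congr 1 <;> ring

lemma cang_comm (κ a b c : ℝ) : cang κ a b c = cang κ b a c := by
  rw [cang_eq_arccos, cang_eq_arccos, cvA_comm]

/-- smallness of a length -/
def Sml (κ R : ℝ) : Prop := 0 < κ → √κ * R ≤ π / 8

lemma Sml.sin_pos {κ R a : ℝ} (h : Sml κ R) (hκ : 0 < κ) (ha : 0 < a) (haR : a ≤ 2 * R) :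
    0 < sin (√κ * a) := by
  have h1 : 0 < √κ := Real.sqrt_pos.2 hκ
  have h2 := h hκ
  have h3 : √κ * a ≤ √κ * (2 * R) := mul_le_mul_of_nonneg_left haR h1.le
  apply Real.sin_pos_of_pos_of_lt_pi (by positivity)
  linarith only [Real.pi_pos, h3, h2]

lemma sinh_pos' {κ a : ℝ} (h0 : κ ≠ 0) (hκ : ¬ 0 < κ) (ha : 0 < a) :
    0 < sinh (√(-κ) * a) := by
  have : κ < 0 := lt_of_le_of_ne (not_lt.1 hκ) h0
  have h1 : 0 < √(-κ) := Real.sqrt_pos.2 (by linarith)
  exact Real.sinh_pos_iff.2 (by positivity)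

lemma cvA_mono {κ R s t q b r : ℝ} (hR : Sml κ R) (hs : 0 < s) (ht : 0 ≤ t) (hq : 0 < q)
    (hst : s + t ≤ 2 * R) (hqR : q ≤ 2 * R) (hC : Cmp κ q b s t r) :
    cvA κ s q r ≤ cvA κ (s + t) q b := by
  obtain ⟨h0, hp, hn⟩ := hC
  unfold cvA
  have hst' : 0 < s + t := by linarith
  split_ifs with h1 h2
  · have := h0 h1
    rw [div_le_div_iff₀ (by positivity) (by positivity)]
    have h3 : (s + t) * (s ^ 2 + q ^ 2 - r ^ 2) ≤ s * ((s + t) ^ 2 + q ^ 2 - b ^ 2) := by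
      linarith only [this]
    have h4 := mul_le_mul_of_nonneg_left h3 (show (0:ℝ) ≤ 2 * q by positivity)
    linarith only [h4]
  · have hC := hp h2
    have e1 := hR.sin_pos h2 hs (by linarith)
    have e2 := hR.sin_pos h2 hst' hst
    have e3 := hR.sin_pos h2 hq hqR
    rw [div_le_div_iff₀ (by positivity) (by positivity)]
    have k1 : sin (√κ * t) = sin (√κ * (s + t)) * cos (√κ * s) - cos (√κ * (s + t)) * sin (√κ * s) := by
      rw [← sin_sub]; congr 1; ring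
    rw [k1] at hC
    have h3 : (cos (√κ * r) - cos (√κ * s) * cos (√κ * q)) * sin (√κ * (s + t)) ≤
        (cos (√κ * b) - cos (√κ * (s + t)) * cos (√κ * q)) * sin (√κ * s) := by
      linarith only [hC]
    have h4 := mul_le_mul_of_nonneg_left h3 e3.le
    linarith only [h4]
  · have hκ : κ < 0 := lt_of_le_of_ne (not_lt.1 h2) h1
    have hC := hn hκ
    have e1 := sinh_pos' h1 h2 hs
    have e2 := sinh_pos' h1 h2 hst'
    have e3 := sinh_pos' h1 h2 hq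
    rw [div_le_div_iff₀ (by (clear * - e1 e3; positivity)) (by (clear * - e2 e3; positivity))]
    have k1 : sinh (√(-κ) * t) = sinh (√(-κ) * (s + t)) * cosh (√(-κ) * s)
        - cosh (√(-κ) * (s + t)) * sinh (√(-κ) * s) := by
      rw [← Real.sinh_sub]; congr 1; ring
    rw [k1] at hC
    have h3 : (cosh (√(-κ) * s) * cosh (√(-κ) * q) - cosh (√(-κ) * r)) * sinh (√(-κ) * (s + t)) ≤
        (cosh (√(-κ) * (s + t)) * cosh (√(-κ) * q) - cosh (√(-κ) * b)) * sinh (√(-κ) * s) := by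
      linarith only [hC]
    have h4 := mul_le_mul_of_nonneg_left h3 e3.le
    linarith only [h4]

lemma cvA_adj {κ R s t a b r : ℝ} (hR : Sml κ R) (hs : 0 < s) (ht : 0 < t) (hr : 0 < r)
    (hsR : s ≤ 2 * R) (htR : t ≤ 2 * R) (hrR : r ≤ 2 * R) (hC : Cmp κ a b s t r) :
    0 ≤ cvA κ s r a + cvA κ t r b := by
  obtain ⟨h0, hp, hn⟩ := hC
  unfold cvA
  split_ifs with h1 h2
  · have := h0 h1
    rw [div_add_div _ _ (by positivity) (by positivity)]
    apply div_nonneg _ (by positivity)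
    have h3 : 0 ≤ t * (s ^ 2 + r ^ 2 - a ^ 2) + s * (t ^ 2 + r ^ 2 - b ^ 2) := by linarith only [this]
    have h4 := mul_nonneg (show (0:ℝ) ≤ 2 * r by positivity) h3
    linarith only [h4]
  · have hC := hp h2
    have e1 := hR.sin_pos h2 hs hsR
    have e2 := hR.sin_pos h2 ht htR
    have e3 := hR.sin_pos h2 hr hrR
    rw [div_add_div _ _ (by positivity) (by positivity)]
    apply div_nonneg _ (by positivity)
    have k1 : sin (√κ * (s + t)) = sin (√κ * s) * cos (√κ * t) + cos (√κ * s) * sin (√κ * t) := by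
      rw [← sin_add]; congr 1; ring
    rw [k1] at hC
    have h3 : 0 ≤ sin (√κ * t) * (cos (√κ * a) - cos (√κ * s) * cos (√κ * r)) +
        sin (√κ * s) * (cos (√κ * b) - cos (√κ * t) * cos (√κ * r)) := by linarith only [hC]
    have h4 := mul_nonneg e3.le h3
    linarith only [h4]
  · have hκ : κ < 0 := lt_of_le_of_ne (not_lt.1 h2) h1
    have hC := hn hκ
    have e1 := sinh_pos' h1 h2 hs
    have e2 := sinh_pos' h1 h2 ht
    have e3 := sinh_pos' h1 h2 hr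
    rw [div_add_div _ _ (by (clear * - e1 e3; positivity)) (by positivity)]
    apply div_nonneg _ (by (clear * - e1 e3 e2; positivity))
    have k1 : sinh (√(-κ) * (s + t)) = sinh (√(-κ) * s) * cosh (√(-κ) * t)
        + cosh (√(-κ) * s) * sinh (√(-κ) * t) := by
      rw [← Real.sinh_add]; congr 1; ring
    rw [k1] at hC
    have h3 : 0 ≤ sinh (√(-κ) * t) * (cosh (√(-κ) * s) * cosh (√(-κ) * r) - cosh (√(-κ) * a)) +
        sinh (√(-κ) * s) * (cosh (√(-κ) * t) * cosh (√(-κ) * r) - cosh (√(-κ) * b)) := by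
      linarith only [hC]
    have h4 := mul_nonneg e3.le h3
    linarith only [h4]

lemma cvA_ge {κ R a b c : ℝ} (hR : Sml κ R) (ha : 0 < a) (hb : 0 < b) (hc : 0 ≤ c)
    (hcab : c ≤ a + b) (haR : a ≤ 2 * R) (hbR : b ≤ 2 * R) : -1 ≤ cvA κ a b c := by
  unfold cvA
  split_ifs with h1 h2
  · rw [le_div_iff₀ (by positivity)]
    linarith only [mul_nonneg (sub_nonneg.2 hcab) (sub_nonneg.2 hcab), mul_nonneg (sub_nonneg.2 hc) (sub_nonneg.2 hcab)]
  · have e1 := hR.sin_pos h2 ha haR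
    have e2 := hR.sin_pos h2 hb hbR
    rw [le_div_iff₀ (by positivity)]
    have h0 : 0 < √κ := Real.sqrt_pos.2 h2
    have h3 := hR h2
    have h4 : cos (√κ * (a + b)) ≤ cos (√κ * c) := by
      apply Real.cos_le_cos_of_nonneg_of_le_pi (by positivity)
      · have : √κ * (a + b) ≤ √κ * (4 * R) := mul_le_mul_of_nonneg_left (by linarith) h0.le
        linarith only [Real.pi_pos, this, h3]
      · exact mul_le_mul_of_nonneg_left hcab h0.le
    rw [mul_add, cos_add] at h4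
    linarith
  · have e1 := sinh_pos' h1 h2 ha
    have e2 := sinh_pos' h1 h2 hb
    rw [le_div_iff₀ (by positivity)]
    have h4 : cosh (√(-κ) * c) ≤ cosh (√(-κ) * (a + b)) := by
      apply Real.cosh_le_cosh.2
      have h0 : 0 ≤ √(-κ) := Real.sqrt_nonneg _
      rw [abs_of_nonneg (by positivity), abs_of_nonneg (by positivity)]
      exact mul_le_mul_of_nonneg_left hcab h0
    rw [mul_add, Real.cosh_add] at h4
    linarith

/-- `sin (w ρ) / ρ → w` and the like -/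
lemma tendsto_div_of_deriv {f : ℝ → ℝ} (hf : HasDerivAt f 1 0) (hf0 : f 0 = 0)
    {ρ w : ℕ → ℝ} {w₀ : ℝ} (hρ : Tendsto ρ atTop (𝓝 0)) (hρ0 : ∀ n, ρ n ≠ 0)
    (hw : Tendsto w atTop (𝓝 w₀)) : Tendsto (fun n => f (w n * ρ n) / ρ n) atTop (𝓝 w₀) := by
  have h1 : ∀ n, f (w n * ρ n) / ρ n = w n * dslope f 0 (w n * ρ n) := by
    intro n
    have := sub_smul_dslope f 0 (w n * ρ n)
    rw [hf0, sub_zero, sub_zero, smul_eq_mul] at this
    rw [← this]
    field_simp [hρ0 n]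
  have h2 : ContinuousAt (dslope f 0) 0 := continuousAt_dslope_same.2 hf.differentiableAt
  have h3 : dslope f 0 0 = 1 := by rw [dslope_same, hf.deriv]
  have h4 : Tendsto (fun n => w n * ρ n) atTop (𝓝 0) := by
    have := hw.mul hρ
    rwa [mul_zero] at this
  have h5 := hw.mul (h2.tendsto.comp h4)
  rw [h3, mul_one] at h5
  exact h5.congr fun n => (h1 n).symm

lemma tendsto_one_sub_cos {k : ℝ} {ρ w : ℕ → ℝ} {w₀ : ℝ} (hρ : Tendsto ρ atTop (𝓝 0))
    (hρ0 : ∀ n, ρ n ≠ 0) (hw : Tendsto w atTop (𝓝 w₀)) :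
    Tendsto (fun n => (1 - cos (k * (w n * ρ n))) / ρ n ^ 2) atTop (𝓝 (k ^ 2 * w₀ ^ 2 / 2)) := by
  have h1 := tendsto_div_of_deriv (f := sin) (by simpa using Real.hasDerivAt_sin 0) Real.sin_zero
    hρ hρ0 (hw.const_mul (k / 2))
  have h2 := (h1.pow 2).const_mul 2
  have h3 : 2 * (k / 2 * w₀) ^ 2 = k ^ 2 * w₀ ^ 2 / 2 := by ring
  rw [h3] at h2
  refine h2.congr fun n => ?_
  have h4 : cos (k * (w n * ρ n)) = 1 - 2 * sin (k / 2 * w n * ρ n) ^ 2 := by
    have : k * (w n * ρ n) = 2 * (k / 2 * w n * ρ n) := by ring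
    rw [this, Real.cos_two_mul, Real.cos_sq']; ring
  rw [h4]
  field_simp [hρ0 n]
  ring

lemma tendsto_cosh_sub_one {k : ℝ} {ρ w : ℕ → ℝ} {w₀ : ℝ} (hρ : Tendsto ρ atTop (𝓝 0))
    (hρ0 : ∀ n, ρ n ≠ 0) (hw : Tendsto w atTop (𝓝 w₀)) :
    Tendsto (fun n => (cosh (k * (w n * ρ n)) - 1) / ρ n ^ 2) atTop (𝓝 (k ^ 2 * w₀ ^ 2 / 2)) := by
  have h1 := tendsto_div_of_deriv (f := sinh) (by simpa using Real.hasDerivAt_sinh 0) Real.sinh_zero
    hρ hρ0 (hw.const_mul (k / 2))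
  have h2 := (h1.pow 2).const_mul 2
  have h3 : 2 * (k / 2 * w₀) ^ 2 = k ^ 2 * w₀ ^ 2 / 2 := by ring
  rw [h3] at h2
  refine h2.congr fun n => ?_
  have h4 : cosh (k * (w n * ρ n)) = 1 + 2 * sinh (k / 2 * w n * ρ n) ^ 2 := by
    have : k * (w n * ρ n) = 2 * (k / 2 * w n * ρ n) := by ring
    rw [this, Real.cosh_two_mul, Real.cosh_sq]; ring
  rw [h4]
  field_simp [hρ0 n]
  ring

lemma tendsto_cvA {κ a b c₀ : ℝ} {ρ c : ℕ → ℝ} (ha : 0 < a) (hb : 0 < b)
    (hρ : Tendsto ρ atTop (𝓝 0)) (hρ0 : ∀ n, ρ n ≠ 0) (hc : Tendsto c atTop (𝓝 c₀)) :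
    Tendsto (fun n => cvA κ (a * ρ n) (b * ρ n) (c n * ρ n)) atTop
      (𝓝 ((a ^ 2 + b ^ 2 - c₀ ^ 2) / (2 * a * b))) := by
  unfold cvA
  split_ifs with h1 h2
  · have h3 : Tendsto (fun n => (a ^ 2 + b ^ 2 - c n ^ 2) / (2 * a * b)) atTop
      (𝓝 ((a ^ 2 + b ^ 2 - c₀ ^ 2) / (2 * a * b))) :=
      ((tendsto_const_nhds (x := a ^ 2 + b ^ 2)).sub (hc.pow 2)).div_const _
    refine h3.congr fun n => ?_
    have := hρ0 n
    field_simp
  · have h0 : 0 < √κ := Real.sqrt_pos.2 h2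
    have ca : Tendsto (fun _ : ℕ => a) atTop (𝓝 a) := tendsto_const_nhds
    have cb : Tendsto (fun _ : ℕ => b) atTop (𝓝 b) := tendsto_const_nhds
    have ta := tendsto_one_sub_cos (k := √κ) hρ hρ0 ca
    have tb := tendsto_one_sub_cos (k := √κ) hρ hρ0 cb
    have tc := tendsto_one_sub_cos (k := √κ) hρ hρ0 hc
    have sa := tendsto_div_of_deriv (f := sin) (by simpa using Real.hasDerivAt_sin 0)
      Real.sin_zero hρ hρ0 (ca.const_mul (√κ))
    have sb := tendsto_div_of_deriv (f := sin) (by simpa using Real.hasDerivAt_sin 0)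
      Real.sin_zero hρ hρ0 (cb.const_mul (√κ))
    have t1 := ((ta.add tb).sub ((ta.mul tb).mul (hρ.pow 2))).sub tc
    have t2 := t1.div (sa.mul sb) (by positivity)
    have e : (√κ ^ 2 * a ^ 2 / 2 + √κ ^ 2 * b ^ 2 / 2 -
        √κ ^ 2 * a ^ 2 / 2 * (√κ ^ 2 * b ^ 2 / 2) * 0 ^ 2 - √κ ^ 2 * c₀ ^ 2 / 2) /
        (√κ * a * (√κ * b)) = (a ^ 2 + b ^ 2 - c₀ ^ 2) / (2 * a * b) := by
      field_simp
      ring
    rw [e] at t2
    refine t2.congr fun n => ?_
    have hn := hρ0 n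
    have e1 : √κ * a * ρ n = √κ * (a * ρ n) := by ring
    have e2 : √κ * b * ρ n = √κ * (b * ρ n) := by ring
    simp only [Pi.div_apply, e1, e2]
    have e3 : (1 - cos (√κ * (a * ρ n))) / ρ n ^ 2 + (1 - cos (√κ * (b * ρ n))) / ρ n ^ 2 -
        (1 - cos (√κ * (a * ρ n))) / ρ n ^ 2 * ((1 - cos (√κ * (b * ρ n))) / ρ n ^ 2) * ρ n ^ 2 -
        (1 - cos (√κ * (c n * ρ n))) / ρ n ^ 2 =
        (cos (√κ * (c n * ρ n)) - cos (√κ * (a * ρ n)) * cos (√κ * (b * ρ n))) / ρ n ^ 2 := by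
      field_simp
      ring
    rw [e3, div_mul_div_comm, ← pow_two, div_div_div_cancel_right₀ (by positivity)]
  · have hκ : κ < 0 := lt_of_le_of_ne (not_lt.1 h2) h1
    have h0 : 0 < √(-κ) := Real.sqrt_pos.2 (by linarith)
    have ca : Tendsto (fun _ : ℕ => a) atTop (𝓝 a) := tendsto_const_nhds
    have cb : Tendsto (fun _ : ℕ => b) atTop (𝓝 b) := tendsto_const_nhds
    have ta := tendsto_cosh_sub_one (k := √(-κ)) hρ hρ0 ca
    have tb := tendsto_cosh_sub_one (k := √(-κ)) hρ hρ0 cb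
    have tc := tendsto_cosh_sub_one (k := √(-κ)) hρ hρ0 hc
    have sa := tendsto_div_of_deriv (f := sinh) (by simpa using Real.hasDerivAt_sinh 0)
      Real.sinh_zero hρ hρ0 (ca.const_mul (√(-κ)))
    have sb := tendsto_div_of_deriv (f := sinh) (by simpa using Real.hasDerivAt_sinh 0)
      Real.sinh_zero hρ hρ0 (cb.const_mul (√(-κ)))
    have t1 := ((ta.add tb).add ((ta.mul tb).mul (hρ.pow 2))).sub tc
    have t2 := t1.div (sa.mul sb) (by positivity)
    have e : (√(-κ) ^ 2 * a ^ 2 / 2 + √(-κ) ^ 2 * b ^ 2 / 2 +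
        √(-κ) ^ 2 * a ^ 2 / 2 * (√(-κ) ^ 2 * b ^ 2 / 2) * 0 ^ 2 - √(-κ) ^ 2 * c₀ ^ 2 / 2) /
        (√(-κ) * a * (√(-κ) * b)) = (a ^ 2 + b ^ 2 - c₀ ^ 2) / (2 * a * b) := by
      field_simp
      ring
    rw [e] at t2
    refine t2.congr fun n => ?_
    have hn := hρ0 n
    have e1 : √(-κ) * a * ρ n = √(-κ) * (a * ρ n) := by ring
    have e2 : √(-κ) * b * ρ n = √(-κ) * (b * ρ n) := by ring
    simp only [Pi.div_apply, e1, e2]
    have e3 : (cosh (√(-κ) * (a * ρ n)) - 1) / ρ n ^ 2 + (cosh (√(-κ) * (b * ρ n)) - 1) / ρ n ^ 2 +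
        (cosh (√(-κ) * (a * ρ n)) - 1) / ρ n ^ 2 * ((cosh (√(-κ) * (b * ρ n)) - 1) / ρ n ^ 2) * ρ n ^ 2 -
        (cosh (√(-κ) * (c n * ρ n)) - 1) / ρ n ^ 2 =
        (cosh (√(-κ) * (a * ρ n)) * cosh (√(-κ) * (b * ρ n)) - cosh (√(-κ) * (c n * ρ n))) / ρ n ^ 2 := by
      field_simp
      ring
    rw [e3, div_mul_div_comm, ← pow_two, div_div_div_cancel_right₀ (by positivity)]

lemma arccos_add_le_pi {u v : ℝ} (h : 0 ≤ u + v) : arccos u + arccos v ≤ π := by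
  have h1 : arccos v ≤ arccos (-u) := Real.antitone_arccos (by linarith)
  rw [Real.arccos_neg] at h1
  linarith

lemma cos_le_of_arccos_le {u α : ℝ} (hu : -1 ≤ u) (hα : α ≤ π) (h : arccos u ≤ α) :
    cos α ≤ u := by
  rcases le_or_gt u 1 with h1 | h1
  · rw [← Real.cos_arccos hu h1]
    exact Real.cos_le_cos_of_nonneg_of_le_pi (Real.arccos_nonneg _) hα h
  · linarith [Real.cos_le_one α]

lemma planar_split {α β : ℝ} (hα : 0 ≤ α) (hβ : 0 ≤ β) (h : α + β < π) :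
    ∃ l D₂ D₃ : ℝ, 0 < l ∧ 0 ≤ D₂ ∧ 0 ≤ D₃ ∧ D₂ ^ 2 = 1 + l ^ 2 - 2 * l * cos α ∧
      D₃ ^ 2 = 1 + l ^ 2 - 2 * l * cos β ∧ D₂ + D₃ = 2 * sin ((α + β) / 2) := by
  obtain ⟨σ, hσ⟩ : ∃ σ, σ = (α + β) / 2 := ⟨_, rfl⟩
  obtain ⟨δ, hδ⟩ : ∃ δ, δ = (α - β) / 2 := ⟨_, rfl⟩
  have eα : α = σ + δ := by rw [hσ, hδ]; ring
  have eβ : β = σ - δ := by rw [hσ, hδ]; ring
  have hcσ : 0 < cos σ := Real.cos_pos_of_mem_Ioo ⟨by linarith [Real.pi_pos], by linarith⟩
  have hcδ : 0 < cos δ := Real.cos_pos_of_mem_Ioo ⟨by linarith, by linarith⟩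
  have hsα : 0 ≤ sin α := Real.sin_nonneg_of_nonneg_of_le_pi hα (by linarith)
  have hsβ : 0 ≤ sin β := Real.sin_nonneg_of_nonneg_of_le_pi hβ (by linarith)
  refine ⟨cos σ / cos δ, sin α / cos δ, sin β / cos δ, by positivity, by positivity,
    by positivity, ?_, ?_, ?_⟩
  · rw [eα, sin_add, cos_add]
    field_simp
    have h1 := Real.sin_sq_add_cos_sq σ
    have h2 := Real.sin_sq_add_cos_sq δ
    nlinarith [h1, h2]
  · rw [eβ, sin_sub, cos_sub]
    field_simp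
    have h1 := Real.sin_sq_add_cos_sq σ
    have h2 := Real.sin_sq_add_cos_sq δ
    nlinarith [h1, h2]
  · rw [← hσ, eα, eβ, sin_add, sin_sub]
    field_simp
    ring

section Geo

variable {M : Type*} [MetricSpace M] {κ R : ℝ}

lemma perim_lt (hR : Sml κ R) (_hR0 : 0 < R) {u : ℝ} (hu : u ≤ 6 * R) :
    0 < κ → u < 2 * π / √κ := by
  intro hκ
  have h0 : 0 < √κ := Real.sqrt_pos.2 hκ
  have h1 := hR hκ
  rw [lt_div_iff₀ h0]
  linarith only [mul_le_mul_of_nonneg_left hu h0.le, Real.pi_pos, h1]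

lemma IsAlexandrov.mono_cv (h : IsAlexandrov M κ) (hR : Sml κ R) {o p x w : M}
    (hw : dist o w + dist w x = dist o x) (how : 0 < dist o w) (hop : 0 < dist o p)
    (hox : dist o x ≤ R) (hopR : dist o p ≤ R) :
    cvA κ (dist o w) (dist o p) (dist w p) ≤ cvA κ (dist o x) (dist o p) (dist x p) := by
  have hR0 : 0 < R := lt_of_lt_of_le hop hopR
  have hpx : dist p x ≤ 2 * R := by
    have := dist_triangle p o x
    rw [dist_comm p o] at this
    linarith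
  have hC := h.comparison p o x w hw (perim_lt hR hR0 (by rw [dist_comm p o]; linarith))
  have h1 := cvA_mono hR how dist_nonneg (q := dist p o) (by rw [dist_comm]; exact hop)
    (by rw [hw]; linarith) (by rw [dist_comm]; linarith) hC
  rw [hw, dist_comm p o, dist_comm p x, dist_comm p w] at h1
  exact h1

lemma IsAlexandrov.adj_ang (h : IsAlexandrov M κ) (hR : Sml κ R) {o p x y : M}
    (hxy : dist x o + dist o y = dist x y) (hox : 0 < dist o x) (hoy : 0 < dist o y)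
    (hop : 0 < dist o p) (hoxR : dist o x ≤ R) (hoyR : dist o y ≤ R) (hopR : dist o p ≤ R) :
    cang κ (dist o x) (dist o p) (dist x p) + cang κ (dist o y) (dist o p) (dist y p) ≤ π := by
  have hR0 : 0 < R := lt_of_lt_of_le hop hopR
  have hpx : dist p x ≤ 2 * R := by
    have := dist_triangle p o x
    rw [dist_comm p o] at this
    linarith
  have hpy : dist p y ≤ 2 * R := by
    have := dist_triangle p o y
    rw [dist_comm p o] at this
    linarith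
  have hC := h.comparison p x y o hxy (perim_lt hR hR0 (by rw [← hxy, dist_comm x o]; linarith))
  have h1 := cvA_adj hR (s := dist x o) (t := dist o y) (r := dist p o)
    (by rw [dist_comm]; exact hox) hoy (by rw [dist_comm]; exact hop)
    (by rw [dist_comm]; linarith) (by linarith) (by rw [dist_comm]; linarith) hC
  rw [cang_eq_arccos, cang_eq_arccos]
  apply arccos_add_le_pi
  rw [dist_comm x o, dist_comm p o, dist_comm p x, dist_comm p y] at h1
  exact h1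

lemma IsAlexandrov.tri (h : IsAlexandrov M κ) (hR : Sml κ R) {o z x y : M} {α β : ℝ}
    (hoz : 0 < dist o z) (hox : 0 < dist o x) (hoy : 0 < dist o y)
    (hozR : dist o z ≤ R) (hoxR : dist o x ≤ R) (hoyR : dist o y ≤ R)
    (hα : ∀ c b, dist o c + dist c z = dist o z → dist o b + dist b x = dist o x →
      0 < dist o c → 0 < dist o b → cang κ (dist o c) (dist o b) (dist c b) ≤ α)
    (hβ : ∀ c b, dist o c + dist c z = dist o z → dist o b + dist b y = dist o y →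
      0 < dist o c → 0 < dist o b → cang κ (dist o c) (dist o b) (dist c b) ≤ β) :
    cang κ (dist o x) (dist o y) (dist x y) ≤ α + β := by
  have cnn : ∀ a b c, 0 ≤ cang κ a b c := by
    intro a b c; rw [cang_eq_arccos]; exact Real.arccos_nonneg _
  have hα0 : 0 ≤ α := (cnn _ _ _).trans (hα z x (by simp) (by simp) hoz hox)
  have hβ0 : 0 ≤ β := (cnn _ _ _).trans (hβ z y (by simp) (by simp) hoz hoy)
  rcases le_or_gt π (α + β) with hπ | hπ
  · rw [cang_eq_arccos]; exact (Real.arccos_le_pi _).trans hπ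
  obtain ⟨l, D₂, D₃, hl, hD₂, hD₃, e₂, e₃, e₂₃⟩ := planar_split hα0 hβ0 hπ
  have hRp : 0 < R := lt_of_lt_of_le hoz hozR
  obtain ⟨m, hm⟩ : ∃ m, m = min (dist o z / l) (min (dist o x) (dist o y)) := ⟨_, rfl⟩
  have hm0 : 0 < m := by rw [hm]; exact lt_min (by positivity) (lt_min hox hoy)
  have hmz : l * m ≤ dist o z := by
    have : m ≤ dist o z / l := by rw [hm]; exact min_le_left _ _
    rw [le_div_iff₀ hl] at this; linarith
  have hmx : m ≤ dist o x := by rw [hm]; exact (min_le_right _ _).trans (min_le_left _ _)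
  have hmy : m ≤ dist o y := by rw [hm]; exact (min_le_right _ _).trans (min_le_right _ _)
  let ρ : ℕ → ℝ := fun n => m * (1 / ((n : ℝ) + 1))
  have hρ0 : ∀ n, 0 < ρ n := fun n => by positivity
  have hρm : ∀ n, ρ n ≤ m := by
    intro n
    have : 1 / ((n : ℝ) + 1) ≤ 1 := by
      rw [div_le_one (by positivity)]; linarith [Nat.cast_nonneg (α := ℝ) n]
    calc m * (1 / ((n : ℝ) + 1)) ≤ m * 1 := mul_le_mul_of_nonneg_left this hm0.le
      _ = m := mul_one m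
  have hρt : Tendsto ρ atTop (𝓝 0) := by
    have := (tendsto_one_div_add_atTop_nhds_zero_nat (𝕜 := ℝ)).const_mul m
    rwa [mul_zero] at this
  have ex1 : ∀ n, ∃ c, dist o c = l * ρ n ∧ dist c z = dist o z - l * ρ n := fun n =>
    h.geodesic o z _ _ (by have := hρ0 n; positivity)
      (by linarith only [mul_le_mul_of_nonneg_left (hρm n) hl.le, hmz]) (by ring)
  have ex2 : ∀ n, ∃ b, dist o b = ρ n ∧ dist b x = dist o x - ρ n := fun n =>
    h.geodesic o x _ _ (hρ0 n).le (by linarith [hρm n]) (by ring)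
  have ex3 : ∀ n, ∃ b, dist o b = ρ n ∧ dist b y = dist o y - ρ n := fun n =>
    h.geodesic o y _ _ (hρ0 n).le (by linarith [hρm n]) (by ring)
  choose c hc1 hc2 using ex1
  choose b hb1 hb2 using ex2
  choose d hd1 hd2 using ex3
  let F : ℕ → ℝ × ℝ × ℝ := fun n => (dist (c n) (b n) / ρ n, dist (c n) (d n) / ρ n,
    dist (b n) (d n) / ρ n)
  have hF : ∀ n, F n ∈ Set.Icc (0:ℝ) (l + 1) ×ˢ (Set.Icc (0:ℝ) (l + 1) ×ˢ Set.Icc (0:ℝ) 2) := by
    intro n
    have hρn := hρ0 n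
    refine ⟨⟨by positivity, ?_⟩, ⟨by positivity, ?_⟩, ⟨by positivity, ?_⟩⟩
    · show dist (c n) (b n) / ρ n ≤ l + 1
      rw [div_le_iff₀ hρn]
      have := dist_triangle (c n) o (b n)
      rw [dist_comm (c n) o, hc1, hb1] at this; linarith
    · show dist (c n) (d n) / ρ n ≤ l + 1
      rw [div_le_iff₀ hρn]
      have := dist_triangle (c n) o (d n)
      rw [dist_comm (c n) o, hc1, hd1] at this; linarith
    · show dist (b n) (d n) / ρ n ≤ 2
      rw [div_le_iff₀ hρn]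
      have := dist_triangle (b n) o (d n)
      rw [dist_comm (b n) o, hb1, hd1] at this; linarith
  obtain ⟨⟨ξ, η, ζ⟩, -, φ, hφ, hlim⟩ :=
    (isCompact_Icc.prod (isCompact_Icc.prod isCompact_Icc)).tendsto_subseq hF
  have hl1 : Tendsto (fun n => dist (c (φ n)) (b (φ n)) / ρ (φ n)) atTop (𝓝 ξ) :=
    (continuous_fst.tendsto _).comp hlim
  have hl2 : Tendsto (fun n => dist (c (φ n)) (d (φ n)) / ρ (φ n)) atTop (𝓝 η) :=
    ((continuous_fst.comp continuous_snd).tendsto _).comp hlim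
  have hl3 : Tendsto (fun n => dist (b (φ n)) (d (φ n)) / ρ (φ n)) atTop (𝓝 ζ) :=
    ((continuous_snd.comp continuous_snd).tendsto _).comp hlim
  have hρφ : Tendsto (fun n => ρ (φ n)) atTop (𝓝 0) := hρt.comp hφ.tendsto_atTop
  have hρne : ∀ n, ρ (φ n) ≠ 0 := fun n => (hρ0 _).ne'
  have q1 : cos α ≤ (l ^ 2 + 1 ^ 2 - ξ ^ 2) / (2 * l * 1) := by
    refine ge_of_tendsto (tendsto_cvA (κ := κ) hl one_pos hρφ hρne hl1) (Eventually.of_forall ?_)
    intro n
    have h1 := hα (c (φ n)) (b (φ n)) (by rw [hc1, hc2]; ring) (by rw [hb1, hb2]; ring)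
      (by rw [hc1]; have := hρ0 (φ n); positivity) (by rw [hb1]; exact hρ0 _)
    rw [hc1, hb1, cang_eq_arccos] at h1
    rw [one_mul, div_mul_cancel₀ _ (hρne n)]
    have hρn := hρ0 (φ n)
    refine cos_le_of_arccos_le ?_ (by linarith) h1
    refine cvA_ge hR (by positivity) hρn dist_nonneg ?_ ?_ ?_
    · have := dist_triangle (c (φ n)) o (b (φ n))
      rw [dist_comm (c (φ n)) o, hc1, hb1] at this; exact this
    · linarith only [mul_le_mul_of_nonneg_left (hρm (φ n)) hl.le, hmz, hRp, hozR]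
    · linarith [hρm (φ n)]
  have q2 : cos β ≤ (l ^ 2 + 1 ^ 2 - η ^ 2) / (2 * l * 1) := by
    refine ge_of_tendsto (tendsto_cvA (κ := κ) hl one_pos hρφ hρne hl2) (Eventually.of_forall ?_)
    intro n
    have h1 := hβ (c (φ n)) (d (φ n)) (by rw [hc1, hc2]; ring) (by rw [hd1, hd2]; ring)
      (by rw [hc1]; have := hρ0 (φ n); positivity) (by rw [hd1]; exact hρ0 _)
    rw [hc1, hd1, cang_eq_arccos] at h1
    rw [one_mul, div_mul_cancel₀ _ (hρne n)]
    have hρn := hρ0 (φ n)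
    refine cos_le_of_arccos_le ?_ (by linarith) h1
    refine cvA_ge hR (by positivity) hρn dist_nonneg ?_ ?_ ?_
    · have := dist_triangle (c (φ n)) o (d (φ n))
      rw [dist_comm (c (φ n)) o, hc1, hd1] at this; exact this
    · linarith only [mul_le_mul_of_nonneg_left (hρm (φ n)) hl.le, hmz, hRp, hozR]
    · linarith [hρm (φ n)]
  have q3 : (1 ^ 2 + 1 ^ 2 - ζ ^ 2) / (2 * 1 * 1) ≤ cvA κ (dist o x) (dist o y) (dist x y) := by
    refine le_of_tendsto (tendsto_cvA (κ := κ) one_pos one_pos hρφ hρne hl3)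
      (Eventually.of_forall ?_)
    intro n
    have hρn := hρ0 (φ n)
    rw [one_mul, div_mul_cancel₀ _ (hρne n)]
    have m1 := h.mono_cv hR (o := o) (p := y) (x := x) (w := b (φ n))
      (by rw [hb1, hb2]; ring) (by rw [hb1]; exact hρn) hoy hoxR hoyR
    have m2 := h.mono_cv hR (o := o) (p := b (φ n)) (x := y) (w := d (φ n))
      (by rw [hd1, hd2]; ring) (by rw [hd1]; exact hρn) (by rw [hb1]; exact hρn) hoyR
      (by rw [hb1]; linarith [hρm (φ n)])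
    rw [hb1] at m1 m2
    rw [hd1, dist_comm (d (φ n)), dist_comm y (b (φ n)), cvA_comm κ (dist o y)] at m2
    exact m2.trans m1
  have q4 : ζ ≤ ξ + η := by
    refine le_of_tendsto_of_tendsto' hl3 (hl1.add hl2) ?_
    intro n
    have hρn := hρ0 (φ n)
    rw [← add_div]
    apply div_le_div_of_nonneg_right _ hρn.le
    have := dist_triangle (b (φ n)) (c (φ n)) (d (φ n))
    rw [dist_comm (b (φ n)) (c (φ n))] at this
    exact this
  have hξ0 : 0 ≤ ξ := ge_of_tendsto' hl1 fun n => by have := hρ0 (φ n); positivity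
  have hη0 : 0 ≤ η := ge_of_tendsto' hl2 fun n => by have := hρ0 (φ n); positivity
  have hζ0 : 0 ≤ ζ := ge_of_tendsto' hl3 fun n => by have := hρ0 (φ n); positivity
  have r1 : ξ ≤ D₂ := by
    rw [le_div_iff₀ (by positivity)] at q1
    apply abs_le_of_sq_le_sq' _ hD₂ |>.2
    linarith only [q1, e₂]
  have r2 : η ≤ D₃ := by
    rw [le_div_iff₀ (by positivity)] at q2
    apply abs_le_of_sq_le_sq' _ hD₃ |>.2
    linarith only [q2, e₃]
  have r3 : ζ ≤ 2 * sin ((α + β) / 2) := by linarith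
  have r4 : cos (α + β) ≤ cvA κ (dist o x) (dist o y) (dist x y) := by
    refine le_trans ?_ q3
    have e : cos (α + β) = 1 - 2 * sin ((α + β) / 2) ^ 2 := by
      have : α + β = 2 * ((α + β) / 2) := by ring
      rw [this, Real.cos_two_mul, Real.cos_sq']
      have : 2 * ((α + β) / 2) / 2 = (α + β) / 2 := by ring
      rw [this]; ring
    rw [e]
    have : ζ ^ 2 ≤ (2 * sin ((α + β) / 2)) ^ 2 := pow_le_pow_left₀ hζ0 r3 2
    linarith only [this]
  rw [cang_eq_arccos]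
  have := Real.antitone_arccos r4
  rwa [Real.arccos_cos (by linarith) hπ.le] at this

lemma IsAlexandrov.sum_at (h : IsAlexandrov M κ) (hR : Sml κ R) {o z x₁ x₂ x₃ : M}
    (hb : dist z o + dist o x₁ = dist z x₁)
    (hoz : 0 < dist o z) (ho1 : 0 < dist o x₁) (ho2 : 0 < dist o x₂) (ho3 : 0 < dist o x₃)
    (hozR : dist o z ≤ R) (ho1R : dist o x₁ ≤ R) (ho2R : dist o x₂ ≤ R) (ho3R : dist o x₃ ≤ R) :
    cang κ (dist o x₁) (dist o x₂) (dist x₁ x₂) + cang κ (dist o x₂) (dist o x₃) (dist x₂ x₃)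
      + cang κ (dist o x₁) (dist o x₃) (dist x₁ x₃) ≤ 2 * π := by
  have key : ∀ x, 0 < dist o x → dist o x ≤ R → ∃ α,
      (∀ c b, dist o c + dist c z = dist o z → dist o b + dist b x = dist o x →
        0 < dist o c → 0 < dist o b → cang κ (dist o c) (dist o b) (dist c b) ≤ α) ∧
      cang κ (dist o x₁) (dist o x) (dist x₁ x) ≤ π - α := by
    intro x hx hxR
    let S : Set ℝ := {θ | ∃ c b, dist o c + dist c z = dist o z ∧ dist o b + dist b x = dist o x ∧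
        0 < dist o c ∧ 0 < dist o b ∧ θ = cang κ (dist o c) (dist o b) (dist c b)}
    have hne : S.Nonempty := ⟨_, z, x, by simp, by simp, hoz, hx, rfl⟩
    have hub : ∀ θ ∈ S, θ ≤ π - cang κ (dist o x₁) (dist o x) (dist x₁ x) := by
      rintro θ ⟨c, b, hc, hbx, hc0, hb0, rfl⟩
      have hcz : dist o c ≤ dist o z := by linarith [dist_nonneg (x := c) (y := z)]
      have hbx' : dist o b ≤ dist o x := by linarith [dist_nonneg (x := b) (y := x)]
      have h1 : dist c o + dist o x₁ = dist c x₁ := by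
        apply le_antisymm
        · have := dist_triangle z c x₁
          rw [dist_comm z c] at this
          rw [dist_comm z o] at hb
          rw [dist_comm c o]
          linarith
        · exact dist_triangle c o x₁
      have h2 := h.adj_ang hR (o := o) (p := b) (x := c) (y := x₁) h1 hc0 ho1 hb0
        (by linarith) ho1R (by linarith)
      have h3 := h.mono_cv hR (o := o) (p := x₁) (x := x) (w := b) hbx hb0 ho1 hxR ho1R
      have h4 := Real.antitone_arccos h3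
      rw [← cang_eq_arccos, ← cang_eq_arccos, cang_comm κ (dist o x), cang_comm κ (dist o b),
        dist_comm x x₁, dist_comm b x₁] at h4
      linarith
    have hbdd : BddAbove S := ⟨_, hub⟩
    refine ⟨sSup S, ?_, ?_⟩
    · intro c b hc hbx hc0 hb0
      exact le_csSup hbdd ⟨c, b, hc, hbx, hc0, hb0, rfl⟩
    · have := csSup_le hne hub
      linarith
  obtain ⟨α, hα, hα'⟩ := key x₂ ho2 ho2R
  obtain ⟨β, hβ, hβ'⟩ := key x₃ ho3 ho3R
  have := h.tri hR hoz ho2 ho3 hozR ho2R ho3R hα hβ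
  linarith

lemma tendsto_cang {a b c : ℝ} {u v : ℕ → ℝ} (hR : Sml κ R) (ha : 0 < a) (hb : 0 < b)
    (haR : a ≤ 2 * R) (hbR : b ≤ 2 * R) (hu : Tendsto u atTop (𝓝 a)) (hv : Tendsto v atTop (𝓝 b)) :
    Tendsto (fun n => cang κ (u n) (v n) c) atTop (𝓝 (cang κ a b c)) := by
  simp only [cang_eq_arccos]
  refine (Real.continuous_arccos.tendsto _).comp ?_
  unfold cvA
  split_ifs with h1 h2
  · refine Tendsto.div (((hu.pow 2).add (hv.pow 2)).sub tendsto_const_nhds) ((hu.const_mul 2).mul hv)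
      (by positivity)
  · have e1 := hR.sin_pos h2 ha haR
    have e2 := hR.sin_pos h2 hb hbR
    have cu : Tendsto (fun n => cos (√κ * u n)) atTop (𝓝 (cos (√κ * a))) :=
      (Real.continuous_cos.tendsto _).comp (hu.const_mul _)
    have cv : Tendsto (fun n => cos (√κ * v n)) atTop (𝓝 (cos (√κ * b))) :=
      (Real.continuous_cos.tendsto _).comp (hv.const_mul _)
    have su : Tendsto (fun n => sin (√κ * u n)) atTop (𝓝 (sin (√κ * a))) :=
      (Real.continuous_sin.tendsto _).comp (hu.const_mul _)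
    have sv : Tendsto (fun n => sin (√κ * v n)) atTop (𝓝 (sin (√κ * b))) :=
      (Real.continuous_sin.tendsto _).comp (hv.const_mul _)
    exact Tendsto.div (tendsto_const_nhds.sub (cu.mul cv)) (su.mul sv) (by positivity)
  · have e1 := sinh_pos' h1 h2 ha
    have e2 := sinh_pos' h1 h2 hb
    have cu : Tendsto (fun n => cosh (√(-κ) * u n)) atTop (𝓝 (cosh (√(-κ) * a))) :=
      (Real.continuous_cosh.tendsto _).comp (hu.const_mul _)
    have cv : Tendsto (fun n => cosh (√(-κ) * v n)) atTop (𝓝 (cosh (√(-κ) * b))) :=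
      (Real.continuous_cosh.tendsto _).comp (hv.const_mul _)
    have su : Tendsto (fun n => sinh (√(-κ) * u n)) atTop (𝓝 (sinh (√(-κ) * a))) :=
      (Real.continuous_sinh.tendsto _).comp (hu.const_mul _)
    have sv : Tendsto (fun n => sinh (√(-κ) * v n)) atTop (𝓝 (sinh (√(-κ) * b))) :=
      (Real.continuous_sinh.tendsto _).comp (hv.const_mul _)
    exact Tendsto.div ((cu.mul cv).sub tendsto_const_nhds) (su.mul sv) (by positivity)

end Geo

theorem IsAlexandrov.angle_sum {M : Type*} [MetricSpace M] [CompleteSpace M] {κ : ℝ}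
    (h : IsAlexandrov M κ) :
    ∃ r₀ > 0, ∀ z x₁ x₂ x₃ : M, z ≠ x₁ → z ≠ x₂ → z ≠ x₃ → dist z x₁ ≤ r₀ → dist z x₂ ≤ r₀ →
      dist z x₃ ≤ r₀ →
      cang κ (dist z x₁) (dist z x₂) (dist x₁ x₂) + cang κ (dist z x₂) (dist z x₃) (dist x₂ x₃)
        + cang κ (dist z x₁) (dist z x₃) (dist x₁ x₃) ≤ 2 * π := by
  obtain ⟨r₀, hr0, hr⟩ : ∃ r₀ > 0, Sml κ (2 * r₀) := by
    rcases lt_or_ge 0 κ with hκ | hκ
    · have h0 : 0 < √κ := Real.sqrt_pos.2 hκ
      refine ⟨π / (16 * √κ), by positivity, fun _ => ?_⟩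
      field_simp
      norm_num
    · exact ⟨1, one_pos, fun h' => absurd h' (not_lt.2 hκ)⟩
  refine ⟨r₀, hr0, ?_⟩
  intro z x₁ x₂ x₃ n1 n2 n3 d1 d2 d3
  have p1 : 0 < dist z x₁ := dist_pos.2 n1
  have p2 : 0 < dist z x₂ := dist_pos.2 n2
  have p3 : 0 < dist z x₃ := dist_pos.2 n3
  have ex : ∀ n : ℕ, ∃ w, dist z w = dist z x₁ * (1 / ((n : ℝ) + 1 + 1)) ∧
      dist w x₁ = dist z x₁ - dist z x₁ * (1 / ((n : ℝ) + 1 + 1)) := by
    intro n
    have : 1 / ((n : ℝ) + 1 + 1) ≤ 1 := by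
      rw [div_le_one (by positivity)]; linarith [Nat.cast_nonneg (α := ℝ) n]
    exact h.geodesic z x₁ _ _ (by positivity)
      (by linarith only [mul_le_mul_of_nonneg_left this p1.le]) (by ring)
  choose w hw1 hw2 using ex
  have hε : Tendsto (fun n : ℕ => dist z x₁ * (1 / ((n : ℝ) + 1 + 1))) atTop (𝓝 0) := by
    have h1 := (tendsto_one_div_add_atTop_nhds_zero_nat (𝕜 := ℝ)).comp (tendsto_add_atTop_nat 1)
    have h2 := h1.const_mul (dist z x₁)
    rw [mul_zero] at h2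
    refine h2.congr fun n => ?_
    simp [Function.comp]
  have hwz : Tendsto (fun n => dist z (w n)) atTop (𝓝 0) := by
    simpa only [hw1] using hε
  have hwt : Tendsto w atTop (𝓝 z) := by
    rw [tendsto_iff_dist_tendsto_zero]
    simpa only [dist_comm] using hwz
  have t1 : Tendsto (fun n => dist (w n) x₁) atTop (𝓝 (dist z x₁)) :=
    hwt.dist tendsto_const_nhds
  have t2 : Tendsto (fun n => dist (w n) x₂) atTop (𝓝 (dist z x₂)) :=
    hwt.dist tendsto_const_nhds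
  have t3 : Tendsto (fun n => dist (w n) x₃) atTop (𝓝 (dist z x₃)) :=
    hwt.dist tendsto_const_nhds
  have T := ((tendsto_cang (κ := κ) (c := dist x₁ x₂) hr p1 p2 (by linarith) (by linarith) t1 t2).add
    (tendsto_cang (κ := κ) (c := dist x₂ x₃) hr p2 p3 (by linarith) (by linarith) t2 t3)).add
    (tendsto_cang (κ := κ) (c := dist x₁ x₃) hr p1 p3 (by linarith) (by linarith) t1 t3)
  refine le_of_tendsto T ?_
  filter_upwards [t2.eventually (lt_mem_nhds p2), t3.eventually (lt_mem_nhds p3)] with n e2 e3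
  have hlt : 1 / ((n : ℝ) + 1 + 1) < 1 := by
    rw [div_lt_one (by positivity)]; linarith [Nat.cast_nonneg (α := ℝ) n]
  have hlt0 : 0 < 1 / ((n : ℝ) + 1 + 1) := by positivity
  have hzw : dist z (w n) ≤ dist z x₁ := by rw [hw1]; (by_contra nlg; linarith only [nlg, mul_pos (sub_pos.2 p1) (sub_pos.2 hlt), mul_pos (sub_pos.2 (not_le.1 nlg)) (sub_pos.2 hlt0), mul_pos (sub_pos.2 (not_le.1 nlg)) (sub_pos.2 hlt)])
  have hzw0 : 0 < dist z (w n) := by rw [hw1]; positivity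
  have tr : ∀ x, dist z x ≤ r₀ → dist (w n) x ≤ 2 * r₀ := by
    intro x hx
    have := dist_triangle (w n) z x
    rw [dist_comm (w n) z] at this
    linarith
  refine h.sum_at hr (o := w n) (z := z) (by rw [hw1, hw2]; ring) (by rw [dist_comm]; exact hzw0)
    (by rw [hw2]; (by_contra nlg; linarith only [nlg, mul_pos (sub_pos.2 hlt) (sub_pos.2 hzw0), mul_nonneg (le_of_lt (sub_pos.2 hlt)) (sub_nonneg.2 hzw), mul_nonneg (sub_nonneg.2 (not_lt.1 nlg)) (le_of_lt (sub_pos.2 hlt0)), mul_nonneg (sub_nonneg.2 (not_lt.1 nlg)) (le_of_lt (sub_pos.2 hlt))])) e2 e3 (by rw [dist_comm]; linarith) (tr _ d1) (tr _ d2) (tr _ d3)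

end Vale.Agent.P233.AB
end

section

open MeasureTheory
open scoped ENNReal

namespace Vale.Agent.P233

/-- balls have finite measure -/
theorem ball_lt_top_of_growth {M : Type*} [MetricSpace M] [MeasurableSpace M] {m : Measure M}
    (h : ∃ (x₀ : M) (c : ℝ), ∀ r > 0,
      m (Metric.ball x₀ r) ≤ ENNReal.ofReal (c * Real.exp (c * r ^ 2))) (x : M) (r : ℝ) :
    m (Metric.ball x r) < ∞ := by
  obtain ⟨x₀, c, hc⟩ := h
  have h1 : Metric.ball x r ⊆ Metric.ball x₀ (|r| + dist x x₀ + 1) := by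
    intro y hy
    rw [Metric.mem_ball] at hy ⊢
    linarith [dist_triangle y x x₀, le_abs_self r]
  exact (measure_mono h1).trans_lt ((hc _ (by positivity)).trans_lt ENNReal.ofReal_lt_top)

end Vale.Agent.P233
end

section

set_option linter.all false

open MeasureTheory Filter Topology
open scoped ENNReal NNReal

namespace Vale.Agent.P233

variable {M : Type*} [MeasurableSpace M] {m : Measure M} {C : Calc m}

namespace IsGamma

variable (hC : IsGamma C) {κ : ℝ} (hB : C.BEi κ)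
variable {a b f g h φ ψ v w χ : M →ₘ[m] ℝ}

include hC hB

theorem QT_cons2 {n : ℕ} (hb : b ∈ C.Test) {F H s : Fin n → M →ₘ[m] ℝ}
    (hF : ∀ i, F i ∈ C.Test) (hH : ∀ i, H i ∈ C.Test) (hw : w ∈ C.Test) (hv : v ∈ C.Test) (t : ℝ) :
    C.QT κ b (Fin.cons w F : Fin (n + 1) → M →ₘ[m] ℝ) (Fin.cons v H) (Fin.cons (t • χ) s)
      = C.QT κ b F H s + 2 * t * I (χ * C.KK b w v)
        + 4 * t * ∑ i, I (χ * (s i * C.MM w v (F i) (H i)))
        + 2 * t ^ 2 * I (χ * (χ * C.MM w v w v)) := by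
  unfold Calc.QT
  simp only [Fin.sum_univ_succ, Fin.cons_zero, Fin.cons_succ]
  have e1 : I (t • χ * C.KK b w v) = t * I (χ * C.KK b w v) := by
    rw [← I_smul]; congr 1; algebra
  have e2 : I (t • χ * t • χ * C.MM w v w v) = t ^ 2 * I (χ * (χ * C.MM w v w v)) := by
    rw [← I_smul]; congr 1; algebra
  have e3 : ∀ i, I (t • χ * s i * C.MM w v (F i) (H i)) = t * I (χ * (s i * C.MM w v (F i) (H i))) := by
    intro i
    rw [← I_smul]; congr 1; algebra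
  have e4 : ∀ i, I (s i * t • χ * C.MM (F i) (H i) w v) = t * I (χ * (s i * C.MM w v (F i) (H i))) := by
    intro i
    rw [← I_smul]; congr 1
    have : C.MM (F i) (H i) w v = C.MM w v (F i) (H i) := by
      unfold Calc.MM
      rw [hC.symm _ (hC.test_A hw).1 _ (hC.test_A (hF i)).1,
        hC.symm _ (hC.test_A hv).1 _ (hC.test_A (hH i)).1,
        hC.symm _ (hC.test_A hw).1 _ (hC.test_A (hH i)).1,
        hC.symm _ (hC.test_A hv).1 _ (hC.test_A (hF i)).1]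
      ring
    rw [this]
    algebra
  rw [e1, e2]
  simp only [e3, e4, Finset.sum_add_distrib, ← Finset.mul_sum]
  ring

/-- basic Cauchy-Schwarz inequality for the Hessian, relative to a lower bound `q` of the
functional `QT` -/
theorem kk_cs [SigmaFinite m] {n : ℕ} (hb : b ∈ C.Test) {F H s : Fin n → M →ₘ[m] ℝ}
    (hF : ∀ i, F i ∈ C.Test) (hH : ∀ i, H i ∈ C.Test) (hs : ∀ i, MemLp (s i) ∞ m)
    (hs2 : ∀ i, MemLp (s i) 2 m) {q : ℝ}
    (hq : ∀ (F' H' s' : Fin (n + 1) → M →ₘ[m] ℝ), (∀ i, F' i ∈ C.Test) → (∀ i, H' i ∈ C.Test) →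
      (∀ i, MemLp (s' i) ∞ m) → (∀ i, MemLp (s' i) 2 m) → q ≤ C.QT κ b F' H' s')
    (hw : w ∈ C.Test) (hv : v ∈ C.Test) :
    (I (C.KK b w v) + 2 * ∑ i, I (s i * C.MM w v (F i) (H i))) ^ 2 ≤
      (C.QT κ b F H s - q) * (2 * I (C.MM w v w v)) := by
  obtain ⟨χ, Λ, hT, h0, hb1, hconv, -⟩ := hC.exists_cut hB
  have hconv' : ∀ᵐ x ∂m, Tendsto (fun k => χ k x) atTop (𝓝 ((1 : M →ₘ[m] ℝ) x)) := by
    filter_upwards [hconv, one_ae (M := M) (m := m)] with x b1 b2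
    rw [b2]; exact b1
  have wA := hC.test_A hw
  have vA := hC.test_A hv
  have bA := hC.test_A hb
  have nKK : MemLp (C.KK b w v) 1 m := by
    unfold Calc.KK Calc.hess
    exact mem_smul _ (mem_smul _ (mem_sub (mem_add (hC.Γ_mem1 wA.1 (hC.Γ_mem hB hb hv).1)
      (hC.Γ_mem1 vA.1 (hC.Γ_mem hB hb hw).1)) (hC.Γ_mem1 bA.1 (hC.Γ_mem hB hw hv).1)))
  have key : ∀ (t : ℝ) (k : ℕ), 0 ≤ (C.QT κ b F H s - q) + 2 * t * I (χ k * C.KK b w v)
        + 4 * t * ∑ i, I (χ k * (s i * C.MM w v (F i) (H i)))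
        + 2 * t ^ 2 * I (χ k * (χ k * C.MM w v w v)) := by
    intro t k
    have kA := hC.test_A (hT k)
    have h1 := hq (Fin.cons w F : Fin (n + 1) → M →ₘ[m] ℝ) (Fin.cons v H)
        (Fin.cons (t • χ k) s) (by
        intro i
        refine Fin.cases ?_ (fun j => ?_) i
        · simpa using hw
        · simpa using hF j) (by
        intro i
        refine Fin.cases ?_ (fun j => ?_) i
        · simpa using hv
        · simpa using hH j) (by
        intro i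
        refine Fin.cases ?_ (fun j => ?_) i
        · rw [Fin.cons_zero]; exact mem_smul _ kA.2
        · rw [Fin.cons_succ]; exact hs j) (by
        intro i
        refine Fin.cases ?_ (fun j => ?_) i
        · rw [Fin.cons_zero]; exact mem_smul _ (hC.memLp _ kA.1)
        · rw [Fin.cons_succ]; exact hs2 j)
    rw [hC.QT_cons2 hB hb hF hH hw hv t] at h1
    linarith
  have key2 : ∀ t : ℝ, 0 ≤ (C.QT κ b F H s - q) + 2 * t * (I (C.KK b w v)
      + 2 * ∑ i, I (s i * C.MM w v (F i) (H i))) + t ^ 2 * (2 * I (C.MM w v w v)) := by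
    intro t
    have t1 : Tendsto (fun k => I (χ k * C.KK b w v)) atTop (𝓝 (I (C.KK b w v))) := by
      have := I_tendsto_of_bdd hb1 hconv' nKK
      rwa [one_mul] at this
    have t2 : ∀ i, Tendsto (fun k => I (χ k * (s i * C.MM w v (F i) (H i)))) atTop
        (𝓝 (I (s i * C.MM w v (F i) (H i)))) := by
      intro i
      have := I_tendsto_of_bdd hb1 hconv' (mem_mul_top (hs i) (hC.MM_mem1 hB hw hv (hF i) (hH i)))
      rwa [one_mul] at this
    have t3 : Tendsto (fun k => I (χ k * (χ k * C.MM w v w v))) atTop (𝓝 (I (C.MM w v w v))) := by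
      have h1 : ∀ k, ∀ᵐ x ∂m, |(χ k * χ k) x| ≤ 1 := by
        intro k
        filter_upwards [mul_ae (χ k) (χ k), hb1 k] with x b1 b2
        rw [b1, abs_mul]
        linarith only [mul_nonneg (sub_nonneg.2 b2) (sub_nonneg.2 (abs_nonneg (χ k x))), mul_nonneg (sub_nonneg.2 b2) (sub_nonneg.2 b2)]
      have h2 : ∀ᵐ x ∂m, Tendsto (fun k => (χ k * χ k) x) atTop (𝓝 ((1 : M →ₘ[m] ℝ) x)) := by
        have h3 : ∀ᵐ x ∂m, ∀ k, (χ k * χ k) x = χ k x * χ k x := by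
          rw [ae_all_iff]; exact fun k => mul_ae _ _
        filter_upwards [h3, hconv, one_ae (M := M) (m := m)] with x b1 b2 b3
        rw [b3]
        simp only [b1]
        simpa using b2.mul b2
      have := I_tendsto_of_bdd h1 h2 (hC.MM_mem1 hB hw hv hw hv)
      rw [one_mul] at this
      refine this.congr fun k => ?_
      rw [mul_assoc]
    have hlim := (((tendsto_const_nhds (x := C.QT κ b F H s - q)).add (t1.const_mul (2 * t))).add
      ((tendsto_finset_sum Finset.univ fun i _ => t2 i).const_mul (4 * t))).add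
      (t3.const_mul (2 * t ^ 2))
    have h1 := ge_of_tendsto hlim (Eventually.of_forall (key t))
    have e : (C.QT κ b F H s - q) + 2 * t * (I (C.KK b w v)
      + 2 * ∑ i, I (s i * C.MM w v (F i) (H i))) + t ^ 2 * (2 * I (C.MM w v w v))
      = (C.QT κ b F H s - q) + 2 * t * I (C.KK b w v) + 4 * t * ∑ i, I (s i * C.MM w v (F i) (H i))
        + 2 * t ^ 2 * I (C.MM w v w v) := by ring
    rw [e]; exact h1
  exact disc_of_forall key2

theorem MM_le (hw : w ∈ C.Test) (hv : v ∈ C.Test) :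
    I (C.MM w v w v) ≤ 2 * I (C.Γ w w * C.Γ v v) := by
  have hD := hC.toIsDir
  have wA := hC.test_A hw
  have vA := hC.test_A hv
  have n1 : MemLp (C.Γ w w * C.Γ v v) 1 m := mem_mul_top (hC.test_Γ_top hw) (hC.mem1 _ vA.1)
  rw [← I_smul]
  refine I_mono (hC.MM_mem1 hB hw hv hw hv) (mem_smul _ n1) ?_
  rw [le_iff_ae]
  unfold Calc.MM
  rw [hC.symm _ vA.1 _ wA.1]
  filter_upwards [add_ae (C.Γ w w * C.Γ v v) (C.Γ w v * C.Γ w v), mul_ae (C.Γ w w) (C.Γ v v),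
    mul_ae (C.Γ w v) (C.Γ w v), smul_ae (C.Γ w w * C.Γ v v) (2 : ℝ), hD.Γ_cs_ae wA.1 vA.1]
    with x b1 b2 b3 b4 b5
  rw [b1, b4, b2, b3]
  linarith only [b5]

/-- the Bochner constant `∫ (Δb)² - κ ∫ Γ(b,b)` -/
theorem h2_nonneg [SigmaFinite m] (hb : b ∈ C.Test) :
    0 ≤ I (C.lap b ^ 2) - κ * I (C.Γ b b) := by
  have := hC.tensor_ineq_one hB hb (n := 0) (F := Fin.elim0) (H := Fin.elim0) (s := Fin.elim0)
    (fun i => i.elim0) (fun i => i.elim0) (fun i => i.elim0) (fun i => i.elim0)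
  simpa using this

/-- the Hessian is bounded in `L²` by the Laplacian -/
theorem kk_le [SigmaFinite m] (hb : b ∈ C.Test) (hw : w ∈ C.Test) (hv : v ∈ C.Test) :
    |I (C.KK b w v)| ≤
      2 * √(I (C.lap b ^ 2) - κ * I (C.Γ b b)) * √(I (C.Γ w w * C.Γ v v)) := by
  have h1 := hC.kk_cs hB hb (n := 0) (F := Fin.elim0) (H := Fin.elim0) (s := Fin.elim0)
    (fun i => i.elim0) (fun i => i.elim0) (fun i => i.elim0) (fun i => i.elim0) (q := 0)
    (fun F' H' s' h1 h2 h3 h4 => hC.tensor_ineq_one hB hb h1 h2 h3 h4) hw hv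
  have e : C.QT κ b (Fin.elim0 : Fin 0 → M →ₘ[m] ℝ) Fin.elim0 Fin.elim0
      = I (C.lap b ^ 2) - κ * I (C.Γ b b) := by
    unfold Calc.QT; simp
  rw [e] at h1
  simp only [Finset.univ_eq_empty, Finset.sum_empty, mul_zero, add_zero, sub_zero] at h1
  have h2 := hC.h2_nonneg hB hb
  have h3 := hC.MM_le hB hw hv
  have h4 : 0 ≤ I (C.Γ w w * C.Γ v v) := I_nonneg (mul_nonneg (hC.nonneg _ (hC.test_A hw).1)
    (hC.nonneg _ (hC.test_A hv).1))
  refine abs_le_of_sq_le_sq ?_ (by positivity)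
  rw [mul_pow, mul_pow, Real.sq_sqrt h2, Real.sq_sqrt h4]
  refine h1.trans ?_
  linarith only [mul_nonneg (sub_nonneg.2 h2) (sub_nonneg.2 h3)]

/-- bilinear version of `hess_approx` -/
theorem hess_approx2 [SigmaFinite m] (hb : b ∈ C.Test) {δ : ℝ} (hδ : 0 < δ) :
    ∃ Λ ≥ 0, ∀ w ∈ C.Test, ∀ v ∈ C.Test, |I (C.KK b w v)| ≤
      Λ * (√(I (C.Γ w w)) * √(I (C.Γ v v))) + δ * √(I (C.Γ w w * C.Γ v v)) := by
  classical
  have hD := hC.toIsDir
  set S : Set ℝ := {q | ∃ (n : ℕ) (F H s : Fin n → M →ₘ[m] ℝ), (∀ i, F i ∈ C.Test) ∧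
    (∀ i, H i ∈ C.Test) ∧ (∀ i, MemLp (s i) ∞ m) ∧ (∀ i, MemLp (s i) 2 m) ∧
    q = C.QT κ b F H s} with hS
  have hne : S.Nonempty := ⟨_, 0, Fin.elim0, Fin.elim0, Fin.elim0, fun i => i.elim0,
    fun i => i.elim0, fun i => i.elim0, fun i => i.elim0, rfl⟩
  have hbd : BddBelow S := by
    refine ⟨0, ?_⟩
    rintro q ⟨n, F, H, s, h1, h2, h3, h4, rfl⟩
    exact hC.tensor_ineq_one hB hb h1 h2 h3 h4
  obtain ⟨q, hq, hq2⟩ := exists_lt_of_csInf_lt hne
    (show sInf S < sInf S + (δ / 2) ^ 2 by linarith [pow_pos (half_pos hδ) 2])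
  obtain ⟨n, F, H, s, hF, hH, hs, hs2, rfl⟩ := hq
  choose A hA using fun i => mem_top_iff.1 (hs i)
  choose B1 hB1 using fun i => mem_top_iff.1 (hC.test_Γ_top (hF i))
  choose B2 hB2 using fun i => mem_top_iff.1 (hC.test_Γ_top (hH i))
  refine ⟨2 * ∑ i, |A i| * (2 * (√|B1 i| * √|B2 i|)), by (clear * -; positivity), fun w hw v hv => ?_⟩
  have wA := hC.test_A hw
  have vA := hC.test_A hv
  have h1 := hC.kk_cs hB hb hF hH hs hs2 (q := sInf S)
    (fun F' H' s' h1 h2 h3 h4 => csInf_le hbd ⟨n + 1, F', H', s', h1, h2, h3, h4, rfl⟩) hw hv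
  have h3 := hC.MM_le hB hw hv
  have h4 : 0 ≤ I (C.Γ w w * C.Γ v v) := I_nonneg (mul_nonneg (hC.nonneg _ wA.1)
    (hC.nonneg _ vA.1))
  have h5 : |I (C.KK b w v) + 2 * ∑ i, I (s i * C.MM w v (F i) (H i))|
      ≤ δ * √(I (C.Γ w w * C.Γ v v)) := by
    refine abs_le_of_sq_le_sq ?_ (by positivity)
    rw [mul_pow, Real.sq_sqrt h4]
    refine h1.trans ?_
    have h6 : C.QT κ b F H s - sInf S ≤ (δ / 2) ^ 2 := by linarith
    have h7 : (0 : ℝ) ≤ I (C.MM w v w v) := by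
      refine I_nonneg ?_
      unfold Calc.MM
      rw [hC.symm _ vA.1 _ wA.1]
      have := mul_nonneg (hC.nonneg _ wA.1) (hC.nonneg _ vA.1)
      have h8 : 0 ≤ C.Γ w v * C.Γ w v := by rw [← sq]; exact sq_nonneg' _
      exact add_nonneg this h8
    calc (C.QT κ b F H s - sInf S) * (2 * I (C.MM w v w v))
        ≤ (δ / 2) ^ 2 * (2 * I (C.MM w v w v)) := by
          exact mul_le_mul_of_nonneg_right h6 (by positivity)
      _ ≤ (δ / 2) ^ 2 * (2 * (2 * I (C.Γ w w * C.Γ v v))) := by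
          refine mul_le_mul_of_nonneg_left ?_ (by positivity)
          linarith
      _ = δ ^ 2 * I (C.Γ w w * C.Γ v v) := by ring
  have h8 : ∀ i, |I (s i * C.MM w v (F i) (H i))| ≤
      |A i| * (2 * (√|B1 i| * √|B2 i|)) * (√(I (C.Γ w w)) * √(I (C.Γ v v))) := by
    intro i
    have FA := hC.test_A (hF i)
    have HA := hC.test_A (hH i)
    have k1 : ∀ᵐ x ∂m, |(s i * C.MM w v (F i) (H i) : M →ₘ[m] ℝ) x| ≤
        |A i| * (2 * (√|B1 i| * √|B2 i|)) * (√(C.Γ w w x) * √(C.Γ v v x)) := by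
      unfold Calc.MM
      filter_upwards [mul_ae (s i) (C.Γ (F i) w * C.Γ (H i) v + C.Γ (F i) v * C.Γ (H i) w),
        add_ae (C.Γ (F i) w * C.Γ (H i) v) (C.Γ (F i) v * C.Γ (H i) w),
        mul_ae (C.Γ (F i) w) (C.Γ (H i) v), mul_ae (C.Γ (F i) v) (C.Γ (H i) w),
        hA i, hB1 i, hB2 i, hD.Γ_cs_ae FA.1 wA.1, hD.Γ_cs_ae FA.1 vA.1, hD.Γ_cs_ae HA.1 wA.1,
        hD.Γ_cs_ae HA.1 vA.1, hD.Γ_nonneg_ae wA.1, hD.Γ_nonneg_ae vA.1, hD.Γ_nonneg_ae FA.1,
        hD.Γ_nonneg_ae HA.1] with x b1 b2 b3 b4 b5 b6 b7 c1 c2 c3 c4 c5 c6 c7 c8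
      have d1 : ∀ {p q r B : ℝ}, p ^ 2 ≤ q * r → 0 ≤ q → |q| ≤ B → 0 ≤ r → |p| ≤ √|B| * √r := by
        intro p q r B e1 e0 e2 e3
        refine abs_le_of_sq_le_sq ?_ (by positivity)
        rw [mul_pow, Real.sq_sqrt (abs_nonneg _), Real.sq_sqrt e3]
        refine e1.trans (mul_le_mul_of_nonneg_right ?_ e3)
        exact (le_abs_self _).trans (e2.trans (le_abs_self _))
      have f1 := d1 c1 c7 b6 c5
      have f2 := d1 c2 c7 b6 c6
      have f3 := d1 c3 c8 b7 c5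
      have f4 := d1 c4 c8 b7 c6
      rw [b1, b2, b3, b4, abs_mul]
      have g1 : |C.Γ (F i) w x * C.Γ (H i) v x + C.Γ (F i) v x * C.Γ (H i) w x| ≤
          2 * (√|B1 i| * √|B2 i|) * (√(C.Γ w w x) * √(C.Γ v v x)) := by
        refine (abs_add_le _ _).trans ?_
        rw [abs_mul, abs_mul]
        have g2 := mul_le_mul f1 f4 (abs_nonneg _) (by positivity)
        have g3 := mul_le_mul f2 f3 (abs_nonneg _) (by positivity)
        calc _ ≤ _ := add_le_add g2 g3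
          _ = _ := by ring
      rw [mul_assoc |A i|]
      refine mul_le_mul (b5.trans (le_abs_self _)) g1 (abs_nonneg _) (abs_nonneg _)
    -- integrate
    have hw2 : MemLp (fun x => √(C.Γ w w x)) 2 m := by
      rw [memLp_two_iff_integrable_sq
        (Real.continuous_sqrt.comp_aestronglyMeasurable (C.Γ w w).aestronglyMeasurable)]
      refine (int_of_mem (hC.mem1 _ wA.1)).congr ?_
      filter_upwards [hD.Γ_nonneg_ae wA.1] with x hx
      rw [Real.sq_sqrt hx]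
    have hv2 : MemLp (fun x => √(C.Γ v v x)) 2 m := by
      rw [memLp_two_iff_integrable_sq
        (Real.continuous_sqrt.comp_aestronglyMeasurable (C.Γ v v).aestronglyMeasurable)]
      refine (int_of_mem (hC.mem1 _ vA.1)).congr ?_
      filter_upwards [hD.Γ_nonneg_ae vA.1] with x hx
      rw [Real.sq_sqrt hx]
    have k2 : ∫ x, √(C.Γ w w x) * √(C.Γ v v x) ∂m ≤ √(I (C.Γ w w)) * √(I (C.Γ v v)) := by
      have := integral_mul_le_Lp_mul_Lq_of_nonneg (μ := m) (p := 2) (q := 2)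
        (f := fun x => √(C.Γ w w x)) (g := fun x => √(C.Γ v v x))
        (by norm_num [Real.holderConjugate_iff]) (Eventually.of_forall fun x => Real.sqrt_nonneg _)
        (Eventually.of_forall fun x => Real.sqrt_nonneg _) (by simpa using hw2) (by simpa using hv2)
      refine this.trans (le_of_eq ?_)
      unfold I
      rw [Real.sqrt_eq_rpow, Real.sqrt_eq_rpow]
      congr 2
      · refine integral_congr_ae ?_
        filter_upwards [hD.Γ_nonneg_ae wA.1] with x hx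
        rw [Real.rpow_two, Real.sq_sqrt hx]
      · refine integral_congr_ae ?_
        filter_upwards [hD.Γ_nonneg_ae vA.1] with x hx
        rw [Real.rpow_two, Real.sq_sqrt hx]
    have k3 : Integrable (fun x => √(C.Γ w w x) * √(C.Γ v v x)) m := hw2.integrable_mul hv2
    calc |I (s i * C.MM w v (F i) (H i))|
        ≤ ∫ x, |(s i * C.MM w v (F i) (H i) : M →ₘ[m] ℝ) x| ∂m := abs_integral_le_integral_abs
      _ ≤ ∫ x, |A i| * (2 * (√|B1 i| * √|B2 i|)) * (√(C.Γ w w x) * √(C.Γ v v x)) ∂m := by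
          refine integral_mono_ae ?_ (k3.const_mul _) k1
          exact (int_of_mem (mem_mul_top (hs i) (hC.MM_mem1 hB hw hv (hF i) (hH i)))).abs
      _ ≤ _ := by
          rw [integral_const_mul]
          exact mul_le_mul_of_nonneg_left k2 (by (clear * -; positivity))
  have h9 : |∑ i, I (s i * C.MM w v (F i) (H i))| ≤
      (∑ i, |A i| * (2 * (√|B1 i| * √|B2 i|))) * (√(I (C.Γ w w)) * √(I (C.Γ v v))) := by
    refine (Finset.abs_sum_le_sum_abs _ _).trans ?_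
    rw [Finset.sum_mul]
    exact Finset.sum_le_sum fun i _ => h8 i
  have h10 := abs_le.1 h5
  have h11 := abs_le.1 h9
  rw [abs_le]
  constructor <;> linarith [h10.1, h10.2, h11.1, h11.2]

end IsGamma

end Vale.Agent.P233
end

section

set_option linter.all false

open MeasureTheory Filter Topology
open scoped ENNReal NNReal

namespace Vale.Agent.P233

variable {M : Type*} [MeasurableSpace M] {m : Measure M} {C : Calc m}

/-! ### modes of convergence -/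

/-- convergence in `L²` -/
structure T2 (X : ℕ → M →ₘ[m] ℝ) (x : M →ₘ[m] ℝ) : Prop where
  mem : ∀ n, MemLp (X n) 2 m
  mem' : MemLp x 2 m
  lim : Tendsto (fun n => I ((X n - x) ^ 2)) atTop (𝓝 0)

/-- bounded convergence a.e. -/
structure Tb (X : ℕ → M →ₘ[m] ℝ) (x : M →ₘ[m] ℝ) : Prop where
  bd : ∃ K : ℝ, ∀ n, ∀ᵐ y ∂m, |X n y| ≤ K
  lim : ∀ᵐ y ∂m, Tendsto (fun n => X n y) atTop (𝓝 (x y))

/-- convergence in the Sobolev norm -/
structure Calc.TW (C : Calc m) (X : ℕ → M →ₘ[m] ℝ) (x : M →ₘ[m] ℝ) : Prop where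
  mem : ∀ n, X n ∈ C.W
  mem' : x ∈ C.W
  lim : Tendsto (fun n => C.nrm2 (X n - x)) atTop (𝓝 0)

/-- convergence of test functions -/
structure Calc.Cv (C : Calc m) (u : ℕ → M →ₘ[m] ℝ) (a : M →ₘ[m] ℝ) : Prop where
  test : ∀ n, u n ∈ C.Test
  lim : a ∈ C.Test
  W : Tendsto (fun n => C.nrm2 (u n - a)) atTop (𝓝 0)
  lap : Tendsto (fun n => I ((C.lap (u n) - C.lap a) ^ 2)) atTop (𝓝 0)
  bd : ∃ K : ℝ, ∀ n, ∀ᵐ x ∂m, C.Γ (u n - a) (u n - a) x ≤ K
  ae : ∀ᵐ x ∂m, Tendsto (fun n => C.Γ (u n - a) (u n - a) x) atTop (𝓝 0)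

section basic

variable {X Y : ℕ → M →ₘ[m] ℝ} {x y : M →ₘ[m] ℝ}

theorem Tb.mem (h : Tb X x) (n : ℕ) : MemLp (X n) ∞ m := by
  obtain ⟨K, hK⟩ := h.bd
  exact mem_top_iff.2 ⟨K, hK n⟩

theorem Tb.bd' (h : Tb X x) {K : ℝ} (hK : ∀ n, ∀ᵐ y ∂m, |X n y| ≤ K) : ∀ᵐ y ∂m, |x y| ≤ K := by
  filter_upwards [h.lim, ae_all_iff.2 hK] with y h1 h2
  exact le_of_tendsto' h1.abs h2

theorem Tb.mem' (h : Tb X x) : MemLp x ∞ m := by
  obtain ⟨K, hK⟩ := h.bd
  exact mem_top_iff.2 ⟨K, h.bd' hK⟩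

theorem Tb.const (hx : MemLp x ∞ m) : Tb (fun _ => x) x := by
  obtain ⟨K, hK⟩ := mem_top_iff.1 hx
  exact ⟨⟨K, fun _ => hK⟩, by filter_upwards with y; exact tendsto_const_nhds⟩

theorem T2.const (hx : MemLp x 2 m) : T2 (fun _ => x) x := by
  refine ⟨fun _ => hx, hx, ?_⟩
  have : (x - x) ^ 2 = 0 := by ring
  simp only [this, I_zero]
  exact tendsto_const_nhds

theorem T2.add (h1 : T2 X x) (h2 : T2 Y y) : T2 (fun n => X n + Y n) (x + y) := by
  refine ⟨fun n => mem_add (h1.mem n) (h2.mem n), mem_add h1.mem' h2.mem', ?_⟩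
  refine squeeze_zero (fun n => I_sq_nonneg _) (fun n => ?_)
    (by simpa using (h1.lim.const_mul 2).add (h2.lim.const_mul 2))
  have := I_sq_add_le (mem_sub (h1.mem n) h1.mem') (mem_sub (h2.mem n) h2.mem')
  have e : X n - x + (Y n - y) = X n + Y n - (x + y) := by ring
  rwa [e] at this

theorem T2.smul (c : ℝ) (h1 : T2 X x) : T2 (fun n => c • X n) (c • x) := by
  refine ⟨fun n => mem_smul _ (h1.mem n), mem_smul _ h1.mem', ?_⟩
  have e : ∀ n, I ((c • X n - c • x) ^ 2) = c ^ 2 * I ((X n - x) ^ 2) := by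
    intro n; rw [← I_smul]; congr 1; algebra
  simp only [e]
  simpa using h1.lim.const_mul (c ^ 2)

theorem T2.neg (h1 : T2 X x) : T2 (fun n => -X n) (-x) := by
  have := h1.smul (-1)
  simpa using this

theorem T2.sub (h1 : T2 X x) (h2 : T2 Y y) : T2 (fun n => X n - Y n) (x - y) := by
  simpa [sub_eq_add_neg] using h1.add h2.neg

/-- the integral of a product -/
theorem T2.mul_lim (h1 : T2 X x) (h2 : T2 Y y) :
    Tendsto (fun n => I (X n * Y n)) atTop (𝓝 (I (x * y))) := by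
  rw [tendsto_iff_dist_tendsto_zero]
  have l1 := (Real.continuous_sqrt.tendsto 0).comp h1.lim
  have l2 := (Real.continuous_sqrt.tendsto 0).comp h2.lim
  simp only [Real.sqrt_zero, Function.comp_def] at l1 l2
  have hlim : Tendsto (fun n => √(I ((X n - x) ^ 2)) * √(I ((Y n - y) ^ 2))
      + √(I ((X n - x) ^ 2)) * √(I (y ^ 2)) + √(I (x ^ 2)) * √(I ((Y n - y) ^ 2))) atTop (𝓝 0) := by
    have := ((l1.mul l2).add (l1.mul_const (√(I (y ^ 2))))).add (l2.const_mul (√(I (x ^ 2))))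
    simpa using this
  refine squeeze_zero (fun n => dist_nonneg) (fun n => ?_) hlim
  have a1 := mem_sub (h1.mem n) h1.mem'
  have a2 := mem_sub (h2.mem n) h2.mem'
  have e : X n * Y n = (X n - x) * (Y n - y) + (X n - x) * y + x * (Y n - y) + x * y := by ring
  rw [Real.dist_eq, e, I_add (mem_add (mem_add (mem_mul_22 a1 a2) (mem_mul_22 a1 h2.mem'))
    (mem_mul_22 h1.mem' a2)) (mem_mul_22 h1.mem' h2.mem'),
    I_add (mem_add (mem_mul_22 a1 a2) (mem_mul_22 a1 h2.mem')) (mem_mul_22 h1.mem' a2),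
    I_add (mem_mul_22 a1 a2) (mem_mul_22 a1 h2.mem'), add_sub_cancel_right]
  refine (abs_add_le _ _).trans (add_le_add ((abs_add_le _ _).trans (add_le_add ?_ ?_)) ?_)
  · exact I_abs_le a1 a2
  · exact I_abs_le a1 h2.mem'
  · exact I_abs_le h1.mem' a2

/-- bounded multipliers -/
theorem Tb.mul (h1 : Tb X x) (h2 : T2 Y y) : T2 (fun n => X n * Y n) (x * y) := by
  refine ⟨fun n => mem_mul_top (h1.mem n) (h2.mem n), mem_mul_top h1.mem' h2.mem', ?_⟩
  obtain ⟨K, hK⟩ := h1.bd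
  have hx := h1.bd' hK
  have l1 : Tendsto (fun n => I ((X n - x) ^ 2 * y ^ 2)) atTop (𝓝 0) := by
    have := I_tendsto_of_bdd (u := fun n => (X n - x) ^ 2) (v := 0) (G := y ^ 2) (K := (2 * |K|) ^ 2)
      (fun n => ?_) ?_ (mem_sq h2.mem')
    · rwa [zero_mul, I_zero] at this
    · filter_upwards [sq_ae (X n - x), sub_ae (X n) x, hK n, hx] with z b1 b2 b3 b4
      rw [b1, b2, abs_of_nonneg (sq_nonneg _)]
      have : |X n z - x z| ≤ 2 * |K| := (abs_sub _ _).trans (by linarith [le_abs_self K])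
      exact sq_le_sq' (by linarith [neg_abs_le (X n z - x z)]) ((le_abs_self _).trans this)
    · filter_upwards [ae_all_iff.2 fun n => sq_ae (X n - x), ae_all_iff.2 fun n => sub_ae (X n) x,
        h1.lim, zero_ae (M := M) (m := m)] with z b1 b2 b3 b4
      rw [b4]
      simp only [b1, b2]
      have := (b3.sub_const (x z)).pow 2
      simpa using this
  refine squeeze_zero (fun n => I_sq_nonneg _) (fun n => ?_)
    (by simpa using (h2.lim.const_mul (2 * |K| ^ 2)).add (l1.const_mul 2))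
  have a2 := mem_sub (h2.mem n) h2.mem'
  have m1 : MemLp (X n * (Y n - y) : M →ₘ[m] ℝ) 2 m := mem_mul_top (h1.mem n) a2
  have m2 : MemLp ((X n - x) * y : M →ₘ[m] ℝ) 2 m :=
    mem_mul_top (mem_sub (h1.mem n) h1.mem') h2.mem'
  have h3 := I_sq_add_le m1 m2
  have e1 : X n * (Y n - y) + (X n - x) * y = X n * Y n - x * y := by ring
  have e2 : ((X n - x) * y) ^ 2 = (X n - x) ^ 2 * y ^ 2 := by ring
  rw [e1, e2] at h3
  have h4 : I ((X n * (Y n - y)) ^ 2) ≤ |K| ^ 2 * I ((Y n - y) ^ 2) := by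
    rw [← I_smul]
    refine I_mono (mem_sq m1) (mem_smul _ (mem_sq a2)) ?_
    rw [le_iff_ae]
    filter_upwards [sq_ae (X n * (Y n - y)), mul_ae (X n) (Y n - y), sq_ae (Y n - y),
      smul_ae ((Y n - y) ^ 2) (|K| ^ 2), hK n] with z b1 b2 b3 b4 b5
    rw [b1, b2, b4, b3, mul_pow]
    refine mul_le_mul_of_nonneg_right ?_ (sq_nonneg _)
    exact sq_le_sq' (by linarith [neg_abs_le (X n z), le_abs_self K])
      ((le_abs_self _).trans (b5.trans (le_abs_self _)))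
  linarith only [h4, h3]

end basic

namespace IsDir

variable (hC : IsDir C)
include hC
variable {X Y : ℕ → M →ₘ[m] ℝ} {x y : M →ₘ[m] ℝ}

theorem TW_const (hx : x ∈ C.W) : C.TW (fun _ => x) x := by
  refine ⟨fun _ => hx, hx, ?_⟩
  have : x - x = 0 := by ring
  simp only [this]
  have e : C.nrm2 (0 : M →ₘ[m] ℝ) = 0 := by
    unfold Calc.nrm2
    rw [hC.Γ_zero_left hC.zero_mem]
    have : (0 : M →ₘ[m] ℝ) ^ 2 = 0 := by ring
    rw [this, I_zero, add_zero]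
  rw [e]
  exact tendsto_const_nhds

theorem TW_T2 (h : C.TW X x) : T2 X x :=
  ⟨fun n => hC.memLp _ (h.mem n), hC.memLp _ h.mem', hC.tendsto_I_sq_of_nrm2 h.mem h.mem' h.lim⟩

theorem TW_E (h : C.TW X x) : Tendsto (fun n => I (C.Γ (X n - x) (X n - x))) atTop (𝓝 0) :=
  hC.tendsto_E_of_nrm2 h.mem h.mem' h.lim

/-- convergence of `∫ f Γ(X,Y)` -/
theorem TW_Γ {f : ℕ → M →ₘ[m] ℝ} {f' : M →ₘ[m] ℝ} (hf : Tb f f') (h1 : C.TW X x)
    (h2 : C.TW Y y) : Tendsto (fun n => I (f n * C.Γ (X n) (Y n))) atTop (𝓝 (I (f' * C.Γ x y))) := by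
  obtain ⟨K, hK⟩ := hf.bd
  have l0 : Tendsto (fun n => I (f n * C.Γ x y)) atTop (𝓝 (I (f' * C.Γ x y))) :=
    I_tendsto_of_bdd hK hf.lim (hC.Γ_mem1 h1.mem' h2.mem')
  have bound : ∀ (n : ℕ) {p q : M →ₘ[m] ℝ}, p ∈ C.W → q ∈ C.W →
      |I (f n * C.Γ p q)| ≤ |K| * (√(I (C.Γ p p)) * √(I (C.Γ q q))) := by
    intro n p q hp hq
    refine le_trans ?_ (mul_le_mul_of_nonneg_left (hC.int_abs_Γ_le hp hq) (abs_nonneg K))
    unfold I
    refine abs_integral_le_integral_abs.trans ?_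
    rw [← integral_const_mul]
    refine integral_mono_ae (int_of_mem (mem_mul_top (hf.mem n) (hC.Γ_mem1 hp hq))).abs
      ((int_of_mem (hC.Γ_mem1 hp hq)).abs.const_mul _) ?_
    filter_upwards [mul_ae (f n) (C.Γ p q), hK n] with z b1 b2
    simp only [b1, abs_mul]
    exact mul_le_mul_of_nonneg_right (b2.trans (le_abs_self _)) (abs_nonneg _)
  have l1 := (Real.continuous_sqrt.tendsto 0).comp (hC.TW_E h1)
  have l2 := (Real.continuous_sqrt.tendsto 0).comp (hC.TW_E h2)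
  simp only [Real.sqrt_zero, Function.comp_def] at l1 l2
  have hlim : Tendsto (fun n => |K| * (√(I (C.Γ (X n - x) (X n - x))) * √(I (C.Γ (Y n - y) (Y n - y))))
      + |K| * (√(I (C.Γ (X n - x) (X n - x))) * √(I (C.Γ y y)))
      + |K| * (√(I (C.Γ x x)) * √(I (C.Γ (Y n - y) (Y n - y))))) atTop (𝓝 0) := by
    have := (((l1.mul l2).const_mul |K|).add ((l1.mul_const (√(I (C.Γ y y)))).const_mul |K|)).add
      ((l2.const_mul (√(I (C.Γ x x)))).const_mul |K|)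
    simpa using this
  have l3 : Tendsto (fun n => I (f n * C.Γ (X n) (Y n)) - I (f n * C.Γ x y)) atTop (𝓝 0) := by
    refine squeeze_zero_norm (fun n => ?_) hlim
    have p1 := hC.sub_mem (h1.mem n) h1.mem'
    have p2 := hC.sub_mem (h2.mem n) h2.mem'
    have e : f n * C.Γ (X n) (Y n) = f n * C.Γ (X n - x) (Y n - y) + f n * C.Γ (X n - x) y
        + f n * C.Γ x (Y n - y) + f n * C.Γ x y := by
      rw [hC.Γ_sub_left (h1.mem n) h1.mem' p2, hC.Γ_sub_left (h1.mem n) h1.mem' h2.mem',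
        hC.Γ_sub_right (h1.mem n) (h2.mem n) h2.mem', hC.Γ_sub_right h1.mem' (h2.mem n) h2.mem']
      ring
    have q : ∀ {p q : M →ₘ[m] ℝ}, p ∈ C.W → q ∈ C.W → MemLp (f n * C.Γ p q) 1 m := fun hp hq =>
      mem_mul_top (hf.mem n) (hC.Γ_mem1 hp hq)
    rw [e, I_add (mem_add (mem_add (q p1 p2) (q p1 h2.mem')) (q h1.mem' p2)) (q h1.mem' h2.mem'),
      I_add (mem_add (q p1 p2) (q p1 h2.mem')) (q h1.mem' p2), I_add (q p1 p2) (q p1 h2.mem'),
      add_sub_cancel_right, Real.norm_eq_abs]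
    exact (abs_add_le _ _).trans (add_le_add ((abs_add_le _ _).trans
      (add_le_add (bound n p1 p2) (bound n p1 h2.mem'))) (bound n h1.mem' p2))
  have := l3.add l0
  simpa using this

end IsDir

namespace IsGamma

variable (hC : IsGamma C) {κ : ℝ} (hB : C.BEi κ)
variable {a b f g h φ ψ v w χ : M →ₘ[m] ℝ}

include hC hB

/-- the energy by duality with test functions -/
theorem E_dual [SigmaFinite m] {G : M →ₘ[m] ℝ} (hG : G ∈ C.W) {B : ℝ} (hB0 : 0 ≤ B)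
    (h : ∀ v ∈ C.Test, |I (C.Γ v G)| ≤ B * √(I (C.Γ v v))) : I (C.Γ G G) ≤ B ^ 2 := by
  have hD := hC.toIsDir
  choose v hv1 hv2 using fun n : ℕ => hC.test_dense hB hG
    (show (0 : ℝ) < ((n : ℝ) + 1)⁻¹ by positivity)
  have hvW := fun n => (hC.test_A (hv1 n)).1
  have hT : C.TW v G := by
    refine ⟨hvW, hG, squeeze_zero (fun n => hD.nrm2_nonneg (hD.sub_mem (hvW n) hG))
      (fun n => (hv2 n).le) tendsto_inv_succ⟩
  have l1 : Tendsto (fun n => I (C.Γ (v n) G)) atTop (𝓝 (I (C.Γ G G))) := by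
    have := hD.TW_Γ (Tb.const (x := (1 : M →ₘ[m] ℝ)) mem_top_one) hT (hD.TW_const hG)
    simpa using this
  have l2 : Tendsto (fun n => I (C.Γ (v n) (v n))) atTop (𝓝 (I (C.Γ G G))) := by
    have := hD.TW_Γ (Tb.const (x := (1 : M →ₘ[m] ℝ)) mem_top_one) hT hT
    simpa using this
  have l3 := ((Real.continuous_sqrt.tendsto _).comp l2).const_mul B
  have h1 : |I (C.Γ G G)| ≤ B * √(I (C.Γ G G)) := le_of_tendsto_of_tendsto' l1.abs l3
    fun n => h _ (hv1 n)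
  have h0 := hD.E_nonneg hG
  rw [abs_of_nonneg h0] at h1
  have h2 : √(I (C.Γ G G)) ≤ B := by
    by_contra hcon
    push Not at hcon
    have h3 := Real.mul_self_sqrt h0
    have h4 : 0 < √(I (C.Γ G G)) := lt_of_le_of_lt hB0 hcon
    linarith only [mul_pos (sub_pos.2 hcon) (sub_pos.2 h4), h3, h1]
  calc I (C.Γ G G) = √(I (C.Γ G G)) ^ 2 := (Real.sq_sqrt h0).symm
    _ ≤ B ^ 2 := pow_le_pow_left₀ (Real.sqrt_nonneg _) h2 2

theorem two_Γ (ha : a ∈ C.Test) (hw : w ∈ C.Test) (hv : v ∈ C.Test) :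
    2 * I (C.Γ v (C.Γ a w)) = I (C.KK a w v) + I (C.KK w a v) := by
  have aA := hC.test_A ha
  have wA := hC.test_A hw
  have vA := hC.test_A hv
  have n1 := hC.Γ_mem1 wA.1 (hC.Γ_mem hB ha hv).1
  have n2 := hC.Γ_mem1 vA.1 (hC.Γ_mem hB ha hw).1
  have n3 := hC.Γ_mem1 aA.1 (hC.Γ_mem hB hw hv).1
  have e1 : C.KK a w v = C.Γ w (C.Γ a v) + C.Γ v (C.Γ a w) - C.Γ a (C.Γ w v) := by
    unfold Calc.KK Calc.hess; algebra
  have e2 : C.KK w a v = C.Γ a (C.Γ w v) + C.Γ v (C.Γ a w) - C.Γ w (C.Γ a v) := by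
    unfold Calc.KK Calc.hess
    rw [hC.symm _ wA.1 _ aA.1]
    algebra
  rw [e1, e2, I_sub (mem_add n1 n2) n3, I_add n1 n2, I_sub (mem_add n3 n2) n1, I_add n3 n2]
  ring

/-- an `L^∞` bound for one factor -/
theorem sqrt_mul_le {K : ℝ} (hw : w ∈ C.Test) (hv : v ∈ C.Test)
    (hK : ∀ᵐ x ∂m, C.Γ w w x ≤ K) : √(I (C.Γ w w * C.Γ v v)) ≤ √|K| * √(I (C.Γ v v)) := by
  have hD := hC.toIsDir
  have wA := hC.test_A hw
  have vA := hC.test_A hv
  rw [← Real.sqrt_mul (abs_nonneg _)]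
  refine Real.sqrt_le_sqrt ?_
  rw [← I_smul]
  refine I_mono (mem_mul_top (hC.test_Γ_top hw) (hC.mem1 _ vA.1)) (mem_smul _ (hC.mem1 _ vA.1)) ?_
  rw [le_iff_ae]
  filter_upwards [mul_ae (C.Γ w w) (C.Γ v v), smul_ae (C.Γ v v) |K|, hK, hD.Γ_nonneg_ae vA.1]
    with x b1 b2 b3 b4
  rw [b1, b2]
  exact mul_le_mul_of_nonneg_right (b3.trans (le_abs_self _)) b4

/-- the energy of `Γ(w,w')` -/
theorem EΓ_le [SigmaFinite m] {w' : M →ₘ[m] ℝ} {K K' : ℝ} (hw : w ∈ C.Test) (hw' : w' ∈ C.Test)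
    (hK : ∀ᵐ x ∂m, C.Γ w w x ≤ K) (hK' : ∀ᵐ x ∂m, C.Γ w' w' x ≤ K') :
    I (C.Γ (C.Γ w w') (C.Γ w w')) ≤
      (√(I (C.lap w ^ 2) - κ * I (C.Γ w w)) * √|K'|
        + √(I (C.lap w' ^ 2) - κ * I (C.Γ w' w')) * √|K|) ^ 2 := by
  refine hC.E_dual hB (hC.Γ_mem hB hw hw').1 (by positivity) fun v hv => ?_
  have h1 := hC.two_Γ hB hw hw' hv
  have h2 := hC.kk_le hB hw hw' hv
  have h3 := hC.kk_le hB hw' hw hv
  have h4 := hC.sqrt_mul_le hB hw hv hK
  have h5 := hC.sqrt_mul_le hB hw' hv hK'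
  have h6 := mul_le_mul_of_nonneg_left h5
    (show 0 ≤ 2 * √(I (C.lap w ^ 2) - κ * I (C.Γ w w)) by positivity)
  have h7 := mul_le_mul_of_nonneg_left h4
    (show 0 ≤ 2 * √(I (C.lap w' ^ 2) - κ * I (C.Γ w' w')) by positivity)
  have h8 : |2 * I (C.Γ v (C.Γ w w'))| ≤ |I (C.KK w w' v)| + |I (C.KK w' w v)| := by
    rw [h1]; exact abs_add_le _ _
  rw [abs_mul, abs_two] at h8
  linarith only [h8, h7, h6, h3, h2]

end IsGamma

end Vale.Agent.P233
end

section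

set_option linter.all false

open MeasureTheory Filter Topology
open scoped ENNReal NNReal

namespace Vale.Agent.P233

variable {M : Type*} [MeasurableSpace M] {m : Measure M} {C : Calc m}

namespace IsGamma

variable (hC : IsGamma C) {κ : ℝ} (hB : C.BEi κ)
variable {a b f k : M →ₘ[m] ℝ} {u v F : ℕ → M →ₘ[m] ℝ}

include hC

theorem Cv_TW (h : C.Cv u a) : C.TW u a :=
  ⟨fun n => (hC.test_A (h.test n)).1, (hC.test_A h.lim).1, h.W⟩

include hB

theorem Cv_sub_test (h : C.Cv u a) (n : ℕ) : u n - a ∈ C.Test := by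
  have := hC.test_add hB (h.test n) (hC.test_smul hB (-1) h.lim)
  have e : u n + (-1 : ℝ) • a = u n - a := by
    rw [neg_one_smul, sub_eq_add_neg]
  rwa [e] at this

theorem Cv_lap_sub (h : C.Cv u a) (n : ℕ) : C.lap (u n - a) = C.lap (u n) - C.lap a := by
  have e : u n - a = u n + (-1 : ℝ) • a := by rw [neg_one_smul, sub_eq_add_neg]
  rw [e, hC.lap_add hB (h.test n) (hC.test_smul hB (-1) h.lim), hC.lap_smul hB _ h.lim,
    neg_one_smul, sub_eq_add_neg]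

/-- the Bochner constant tends to `0` -/
theorem Cv_h2 (h : C.Cv u a) : Tendsto (fun n =>
    √(I (C.lap (u n - a) ^ 2) - κ * I (C.Γ (u n - a) (u n - a)))) atTop (𝓝 0) := by
  have hD := hC.toIsDir
  simp only [hC.Cv_lap_sub hB h]
  have h1 := h.lap.sub ((hD.TW_E (hC.Cv_TW h)).const_mul κ)
  simp only [mul_zero, sub_zero] at h1
  have := (Real.continuous_sqrt.tendsto 0).comp h1
  simpa [Function.comp_def] using this

/-- `Γ(u,u) → Γ(a,a)` is bounded -/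
theorem Cv_bd (h : C.Cv u a) : ∃ K : ℝ, ∀ n, ∀ᵐ x ∂m, C.Γ (u n) (u n) x ≤ K := by
  have hD := hC.toIsDir
  obtain ⟨K, hK⟩ := h.bd
  obtain ⟨L, hL⟩ := mem_top_iff.1 (hC.test_Γ_top h.lim)
  refine ⟨2 * K + 2 * L, fun n => ?_⟩
  have uW := (hC.test_A (h.test n)).1
  have aW := (hC.test_A h.lim).1
  have wW := hD.sub_mem uW aW
  have e := hD.Γ_expand (1 : ℝ) wW aW
  rw [one_smul, mul_one, one_pow, one_smul, sub_add_cancel] at e
  rw [e]
  filter_upwards [hK n, hL, add_ae (C.Γ (u n - a) (u n - a) + (2 : ℝ) • C.Γ (u n - a) a) (C.Γ a a),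
    add_ae (C.Γ (u n - a) (u n - a)) ((2 : ℝ) • C.Γ (u n - a) a), smul_ae (C.Γ (u n - a) a) (2 : ℝ),
    hD.Γ_cs_ae wW aW, hD.Γ_nonneg_ae wW, hD.Γ_nonneg_ae aW] with x b1 b2 b3 b4 b5 b6 b7 b8
  rw [b3, b4, b5]
  have b9 := (le_abs_self _).trans b2
  have b10 : C.Γ (u n - a) a x ≤ (C.Γ (u n - a) (u n - a) x + C.Γ a a x) / 2 := by
    (by_contra nlg; linarith only [nlg, mul_nonneg (le_of_lt (sub_pos.2 (not_le.1 nlg))) (sub_nonneg.2 b8), mul_nonneg (le_of_lt (sub_pos.2 (not_le.1 nlg))) (sub_nonneg.2 b7), mul_pos (sub_pos.2 (not_le.1 nlg)) (sub_pos.2 (not_le.1 nlg)), sq_nonneg (C.Γ (u n - a) (u n - a) x - C.Γ a a x), b6])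
  linarith

/-- one of the factors tends to `0` -/
theorem Cv_Γ_zero [SigmaFinite m] (h : C.Cv u a) (hb : b ∈ C.Test) :
    Tendsto (fun n => I (C.Γ (C.Γ b (u n - a)) (C.Γ b (u n - a)))) atTop (𝓝 0) := by
  have hD := hC.toIsDir
  have bA := hC.test_A hb
  obtain ⟨K, hK⟩ := h.bd
  obtain ⟨L, hL⟩ := mem_top_iff.1 (hC.test_Γ_top hb)
  have hw := hC.Cv_sub_test hB h
  have hwA := fun n => hC.test_A (hw n)
  have lE := (Real.continuous_sqrt.tendsto 0).comp (hD.TW_E (hC.Cv_TW h))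
  simp only [Real.sqrt_zero, Function.comp_def] at lE
  have lh := hC.Cv_h2 hB h
  rw [Metric.tendsto_atTop']
  intro ε hε
  set δ : ℝ := √ε / (√|K| + 1) with hδ
  have hδ0 : 0 < δ := by positivity
  obtain ⟨Λ, hΛ0, hΛ⟩ := hC.hess_approx2 hB hb hδ0
  -- the bound
  have key : ∀ n, I (C.Γ (C.Γ b (u n - a)) (C.Γ b (u n - a))) ≤
      ((Λ * √(I (C.Γ (u n - a) (u n - a))) + δ * √|K|
        + 2 * √(I (C.lap (u n - a) ^ 2) - κ * I (C.Γ (u n - a) (u n - a))) * √|L|) / 2) ^ 2 := by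
    intro n
    refine hC.E_dual hB (hC.Γ_mem hB hb (hw n)).1 (by (clear * - hΛ0 hε; positivity)) fun v hv => ?_
    have h1 := hC.two_Γ hB hb (hw n) hv
    have h2 := hΛ _ (hw n) v hv
    have h3 := hC.kk_le hB (hw n) hb hv
    have h4 := hC.sqrt_mul_le hB (hw n) hv (hK n)
    have h5 := hC.sqrt_mul_le hB hb hv (by filter_upwards [hL] with x hx; exact (le_abs_self _).trans hx)
    have h6 := mul_le_mul_of_nonneg_left h5
      (show 0 ≤ 2 * √(I (C.lap (u n - a) ^ 2) - κ * I (C.Γ (u n - a) (u n - a))) by positivity)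
    have h7 := mul_le_mul_of_nonneg_left h4 hδ0.le
    have h8 : |2 * I (C.Γ v (C.Γ b (u n - a)))| ≤ |I (C.KK b (u n - a) v)| + |I (C.KK (u n - a) b v)| := by
      rw [h1]; exact abs_add_le _ _
    rw [abs_mul, abs_two] at h8
    linarith only [h8, h7, h6, h3, h2]
  have hlim : Tendsto (fun n => (Λ * √(I (C.Γ (u n - a) (u n - a))) + δ * √|K|
        + 2 * √(I (C.lap (u n - a) ^ 2) - κ * I (C.Γ (u n - a) (u n - a))) * √|L|) / 2) atTop
        (𝓝 ((Λ * 0 + δ * √|K| + 2 * 0 * √|L|) / 2)) :=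
    (((lE.const_mul Λ).add_const _).add ((lh.const_mul 2).mul_const _)).div_const 2
  have hlt : (Λ * 0 + δ * √|K| + 2 * 0 * √|L|) / 2 < √ε := by
    have h1 : δ * √|K| < √ε := by
      rw [hδ, div_mul_eq_mul_div, div_lt_iff₀ (by positivity)]
      have : 0 < √ε := Real.sqrt_pos.2 hε
      linarith only [this]
    have : 0 < √ε := Real.sqrt_pos.2 hε
    linarith
  obtain ⟨N, hN⟩ := eventually_atTop.1 (hlim.eventually (gt_mem_nhds hlt))
  refine ⟨N, fun n hn => ?_⟩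
  have h1 := hN n hn.le
  have h0 := hD.E_nonneg (hC.Γ_mem hB hb (hw n)).1
  rw [Real.dist_eq, sub_zero, abs_of_nonneg h0]
  refine (key n).trans_lt ?_
  have h2 : 0 ≤ (Λ * √(I (C.Γ (u n - a) (u n - a))) + δ * √|K|
        + 2 * √(I (C.lap (u n - a) ^ 2) - κ * I (C.Γ (u n - a) (u n - a))) * √|L|) / 2 := by
    (clear * - hΛ0 hε; positivity)
  calc _ < √ε ^ 2 := pow_lt_pow_left₀ h1 h2 two_ne_zero
    _ = ε := Real.sq_sqrt hε.le

/-- an `L^∞` bound for one factor -/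
theorem I_Γsq_le {K : ℝ} {w : M →ₘ[m] ℝ} (ha : a ∈ C.Test) (hw : w ∈ C.W)
    (hK : ∀ᵐ x ∂m, C.Γ a a x ≤ K) : I (C.Γ a w ^ 2) ≤ |K| * I (C.Γ w w) := by
  have hD := hC.toIsDir
  have aA := hC.test_A ha
  rw [← I_smul]
  refine I_mono (mem_sq (hD.Γ_mem2 aA.1 (hC.test_Γ_top ha) hw)) (mem_smul _ (hC.mem1 _ hw)) ?_
  rw [le_iff_ae]
  filter_upwards [sq_ae (C.Γ a w), smul_ae (C.Γ w w) |K|, hK, hD.Γ_nonneg_ae hw,
    hD.Γ_cs_ae aA.1 hw] with x b1 b2 b3 b4 b5
  rw [b1, b2]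
  exact b5.trans (mul_le_mul_of_nonneg_right (b3.trans (le_abs_self _)) b4)

/-- `Γ(u_n,v_n) → Γ(a,b)` in the Sobolev norm -/
theorem Cv_Γ [SigmaFinite m] (h1 : C.Cv u a) (h2 : C.Cv v b) :
    C.TW (fun n => C.Γ (u n) (v n)) (C.Γ a b) := by
  have hD := hC.toIsDir
  have aA := hC.test_A h1.lim
  have bA := hC.test_A h2.lim
  have hu := hC.Cv_sub_test hB h1
  have hv := hC.Cv_sub_test hB h2
  have uA := fun n => hC.test_A (h1.test n)
  have vA := fun n => hC.test_A (h2.test n)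
  have huW := fun n => (hC.test_A (hu n)).1
  have hvW := fun n => (hC.test_A (hv n)).1
  obtain ⟨K, hK⟩ := h1.bd
  obtain ⟨L, hL⟩ := h2.bd
  obtain ⟨Ka, hKa'⟩ := mem_top_iff.1 (hC.test_Γ_top h1.lim)
  obtain ⟨Kb, hKb'⟩ := mem_top_iff.1 (hC.test_Γ_top h2.lim)
  have hKa : ∀ᵐ x ∂m, C.Γ a a x ≤ Ka := by
    filter_upwards [hKa'] with x hx; exact (le_abs_self _).trans hx
  have hKb : ∀ᵐ x ∂m, C.Γ b b x ≤ Kb := by
    filter_upwards [hKb'] with x hx; exact (le_abs_self _).trans hx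
  have e : ∀ n, C.Γ (u n) (v n) - C.Γ a b = (C.Γ (u n - a) (v n - b) + C.Γ a (v n - b))
      + C.Γ b (u n - a) := by
    intro n
    rw [hC.symm _ bA.1 _ (huW n), hC.Γ_sub_left (uA n).1 aA.1 (hvW n),
      hC.Γ_sub_left (uA n).1 aA.1 bA.1,
      hC.Γ_sub_right (uA n).1 (vA n).1 bA.1, hC.Γ_sub_right aA.1 (vA n).1 bA.1]
    ring
  refine ⟨fun n => (hC.Γ_mem hB (h1.test n) (h2.test n)).1, (hC.Γ_mem hB h1.lim h2.lim).1, ?_⟩
  simp only [e]
  have m1 := fun n => (hC.Γ_mem hB (hu n) (hv n)).1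
  have m2 := fun n => (hC.Γ_mem hB h1.lim (hv n)).1
  have m3 := fun n => (hC.Γ_mem hB h2.lim (hu n)).1
  have E1 := hD.TW_E (hC.Cv_TW h1)
  have E2 := hD.TW_E (hC.Cv_TW h2)
  -- first term
  have l1 : Tendsto (fun n => C.nrm2 (C.Γ (u n - a) (v n - b))) atTop (𝓝 0) := by
    have t1 : Tendsto (fun n => |K| * I (C.Γ (v n - b) (v n - b))) atTop (𝓝 0) := by
      simpa using E2.const_mul |K|
    have t2 : Tendsto (fun n => (√(I (C.lap (u n - a) ^ 2) - κ * I (C.Γ (u n - a) (u n - a))) * √|L|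
        + √(I (C.lap (v n - b) ^ 2) - κ * I (C.Γ (v n - b) (v n - b))) * √|K|) ^ 2) atTop (𝓝 0) := by
      have := (((hC.Cv_h2 hB h1).mul_const √|L|).add ((hC.Cv_h2 hB h2).mul_const √|K|)).pow 2
      simpa using this
    refine squeeze_zero (fun n => hD.nrm2_nonneg (m1 n)) (fun n => ?_) (by simpa using t1.add t2)
    exact add_le_add (hC.I_Γsq_le hB (hu n) (hvW n) (hK n))
      (hC.EΓ_le hB (hu n) (hv n) (hK n) (hL n))
  have l2 : Tendsto (fun n => C.nrm2 (C.Γ a (v n - b))) atTop (𝓝 0) := by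
    have t1 : Tendsto (fun n => |Ka| * I (C.Γ (v n - b) (v n - b))) atTop (𝓝 0) := by
      simpa using E2.const_mul |Ka|
    refine squeeze_zero (fun n => hD.nrm2_nonneg (m2 n)) (fun n => ?_)
      (by simpa using t1.add (hC.Cv_Γ_zero hB h2 h1.lim))
    exact add_le_add (hC.I_Γsq_le hB h1.lim (hvW n) hKa) le_rfl
  have l3 : Tendsto (fun n => C.nrm2 (C.Γ b (u n - a))) atTop (𝓝 0) := by
    have t1 : Tendsto (fun n => |Kb| * I (C.Γ (u n - a) (u n - a))) atTop (𝓝 0) := by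
      simpa using E1.const_mul |Kb|
    refine squeeze_zero (fun n => hD.nrm2_nonneg (m3 n)) (fun n => ?_)
      (by simpa using t1.add (hC.Cv_Γ_zero hB h1 h2.lim))
    exact add_le_add (hC.I_Γsq_le hB h2.lim (huW n) hKb) le_rfl
  refine squeeze_zero (fun n => hD.nrm2_nonneg (hD.add_mem _ (hD.add_mem _ (m1 n) _ (m2 n)) _ (m3 n)))
    (fun n => ?_) (by simpa using (((l1.const_mul 2).add (l2.const_mul 2)).const_mul 2).add (l3.const_mul 2))
  have q1 := hD.nrm2_add_le (hD.add_mem _ (m1 n) _ (m2 n)) (m3 n)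
  have q2 := hD.nrm2_add_le (m1 n) (m2 n)
  linarith

/-- `Γ(u_n,G_n) → Γ(a,G)` in `L²` -/
theorem Cv_Γ2 [SigmaFinite m] {G : ℕ → M →ₘ[m] ℝ} {G' : M →ₘ[m] ℝ} (h1 : C.Cv u a)
    (h2 : C.TW G G') : T2 (fun n => C.Γ (u n) (G n)) (C.Γ a G') := by
  have hD := hC.toIsDir
  have aA := hC.test_A h1.lim
  have uA := fun n => hC.test_A (h1.test n)
  have hu := hC.Cv_sub_test hB h1
  have huW := fun n => (hC.test_A (hu n)).1
  obtain ⟨K, hK⟩ := hC.Cv_bd hB h1
  obtain ⟨L, hL⟩ := h1.bd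
  have dW := fun n => hD.sub_mem (h2.mem n) h2.mem'
  have n1 := fun n => hD.Γ_mem2 (uA n).1 (hC.test_Γ_top (h1.test n)) (dW n)
  have n2 := fun n => hD.Γ_mem2 (huW n) (hC.test_Γ_top (hu n)) h2.mem'
  refine ⟨fun n => hD.Γ_mem2 (uA n).1 (hC.test_Γ_top (h1.test n)) (h2.mem n),
    hD.Γ_mem2 aA.1 (hC.test_Γ_top h1.lim) h2.mem', ?_⟩
  have t1 : Tendsto (fun n => |K| * I (C.Γ (G n - G') (G n - G'))) atTop (𝓝 0) := by
    simpa using (hD.TW_E h2).const_mul |K|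
  have t2 : Tendsto (fun n => I (C.Γ (u n - a) (u n - a) * C.Γ G' G')) atTop (𝓝 0) := by
    have := I_tendsto_of_bdd (u := fun n => C.Γ (u n - a) (u n - a)) (v := 0) (G := C.Γ G' G')
      (K := L) (fun n => ?_) ?_ (hC.mem1 _ h2.mem')
    · rwa [zero_mul, I_zero] at this
    · filter_upwards [hL n, hD.Γ_nonneg_ae (huW n)] with x b1 b2
      rwa [abs_of_nonneg b2]
    · filter_upwards [h1.ae, zero_ae (M := M) (m := m)] with x b1 b2
      rw [b2]; exact b1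
  refine squeeze_zero (fun n => I_sq_nonneg _) (fun n => ?_)
    (by simpa using (t1.const_mul 2).add (t2.const_mul 2))
  have e : C.Γ (u n) (G n) - C.Γ a G' = C.Γ (u n) (G n - G') + C.Γ (u n - a) G' := by
    rw [hC.Γ_sub_right (uA n).1 (h2.mem n) h2.mem', hC.Γ_sub_left (uA n).1 aA.1 h2.mem']
    ring
  rw [e]
  have q1 := I_sq_add_le (n1 n) (n2 n)
  have q2 := hC.I_Γsq_le hB (h1.test n) (dW n) (hK n)
  have q3 : I (C.Γ (u n - a) G' ^ 2) ≤ I (C.Γ (u n - a) (u n - a) * C.Γ G' G') := by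
    refine I_mono (mem_sq (n2 n)) (mem_mul_top (hC.test_Γ_top (hu n)) (hC.mem1 _ h2.mem')) ?_
    rw [le_iff_ae]
    filter_upwards [sq_ae (C.Γ (u n - a) G'), mul_ae (C.Γ (u n - a) (u n - a)) (C.Γ G' G'),
      hD.Γ_cs_ae (huW n) h2.mem'] with x b1 b2 b3
    rw [b1, b2]; exact b3
  linarith

omit hB in
theorem Cv_lap2 (h : C.Cv u a) : T2 (fun n => C.lap (u n)) (C.lap a) :=
  ⟨fun n => (hC.test_isLap (h.test n)).2.1, (hC.test_isLap h.lim).2.1, h.lap⟩

/-- `div (f ∇a)` converges in `L²` -/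
theorem Cv_De [SigmaFinite m] (hF : C.Cv F f) (hFb : Tb F f) (h : C.Cv u a) :
    T2 (fun n => C.De (F n) (u n)) (C.De f a) :=
  (hC.Cv_Γ2 hB hF (hC.Cv_TW h)).add (hFb.mul (hC.Cv_lap2 h))

theorem Cv_hess [SigmaFinite m] {p q r : ℕ → M →ₘ[m] ℝ} {p' q' r' : M →ₘ[m] ℝ} (h1 : C.Cv p p')
    (h2 : C.Cv q q') (h3 : C.Cv r r') :
    T2 (fun n => C.hess (p n) (q n) (r n)) (C.hess p' q' r') :=
  (((hC.Cv_Γ2 hB h2 (hC.Cv_Γ hB h1 h3)).add (hC.Cv_Γ2 hB h3 (hC.Cv_Γ hB h1 h2))).sub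
    (hC.Cv_Γ2 hB h1 (hC.Cv_Γ hB h2 h3))).smul _

end IsGamma

end Vale.Agent.P233
end

section

set_option linter.all false

open MeasureTheory Filter Topology
open scoped ENNReal NNReal

namespace Vale.Agent.P233

variable {M : Type*} [MeasurableSpace M] {m : Measure M} {C : Calc m}

/-- a subsequence converging a.e. to `0` -/
theorem exists_subseq_of_I {g : ℕ → M →ₘ[m] ℝ} (hg : ∀ n, MemLp (g n) 1 m) (h0 : ∀ n, 0 ≤ g n)
    (h : Tendsto (fun n => I (g n)) atTop (𝓝 0)) :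
    ∃ ns : ℕ → ℕ, StrictMono ns ∧ ∀ᵐ x ∂m, Tendsto (fun n => g (ns n) x) atTop (𝓝 0) := by
  have h1 : Tendsto (fun n => eLpNorm ((⇑(g n) : M → ℝ) - fun _ => (0 : ℝ)) 1 m) atTop (𝓝 0) := by
    have e : ∀ n, eLpNorm ((⇑(g n) : M → ℝ) - fun _ => (0 : ℝ)) 1 m = ENNReal.ofReal (I (g n)) := by
      intro n
      have : ((⇑(g n) : M → ℝ) - fun _ => (0 : ℝ)) = ⇑(g n) := by funext x; simp
      rw [this, eLpNorm_one_eq_lintegral_enorm]
      unfold I
      rw [ofReal_integral_eq_lintegral_ofReal (int_of_mem (hg n)) (nonneg_iff_ae.1 (h0 n))]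
      refine lintegral_congr_ae ?_
      filter_upwards [nonneg_iff_ae.1 (h0 n)] with x hx
      rw [Real.enorm_eq_ofReal hx]
    simp only [e]
    have := ENNReal.tendsto_ofReal h
    simpa using this
  exact (tendstoInMeasure_of_tendsto_eLpNorm (by norm_num) (fun n => (hg n).1)
    aestronglyMeasurable_const h1).exists_seq_tendsto_ae

namespace IsGamma

variable (hC : IsGamma C) {κ : ℝ} (hB : C.BEi κ)
variable {a b f k : M →ₘ[m] ℝ} {u v F : ℕ → M →ₘ[m] ℝ}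

include hC hB

/-- the cut-off sequence of a test function converges -/
theorem Cv_cut [SigmaFinite m] {χ : ℕ → M →ₘ[m] ℝ} {Λ : ℝ} (hT : ∀ k, χ k ∈ C.TestI)
    (hb : ∀ k, ∀ᵐ x ∂m, |χ k x| ≤ 1)
    (hlim : ∀ᵐ x ∂m, Tendsto (fun k => χ k x) atTop (𝓝 1))
    (hlap : ∀ k, ∀ᵐ x ∂m, |C.lap (χ k) x| ≤ Λ)
    (hlap0 : ∀ᵐ x ∂m, Tendsto (fun k => C.lap (χ k) x) atTop (𝓝 0))
    (hΓ : ∀ k, ∀ᵐ x ∂m, |C.Γ (χ k) (χ k) x| ≤ Λ * ((k : ℝ) + 1)⁻¹) (ha : a ∈ C.Test) :
    C.Cv (fun k => χ k * a) a := by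
  have hD := hC.toIsDir
  have aA := hC.test_A ha
  obtain ⟨A, hA⟩ := mem_top_iff.1 aA.2
  obtain ⟨L, hL⟩ := mem_top_iff.1 (hC.test_Γ_top ha)
  have a2 := hC.memLp _ aA.1
  have cA := fun k => hC.test_A (hT k).1
  have hT' := fun k => hC.test_mul hB (hT k).1 ha
  have TA := fun k => hC.test_A (hT' k)
  have hbT : Tb χ (1 : M →ₘ[m] ℝ) := ⟨⟨1, hb⟩, by
    filter_upwards [hlim, one_ae (M := M) (m := m)] with x h1 h2
    rw [h2]; exact h1⟩
  have hlT : Tb (fun k => C.lap (χ k)) (0 : M →ₘ[m] ℝ) := ⟨⟨Λ, hlap⟩, by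
    filter_upwards [hlap0, zero_ae (M := M) (m := m)] with x h1 h2
    rw [h2]; exact h1⟩
  have hΛ0 : ∀ᵐ x ∂m, 0 ≤ Λ := by
    filter_upwards [hlap 0] with x hx
    exact (abs_nonneg _).trans hx
  -- pointwise control of the gradient of the difference
  have key : ∀ k, ∀ᵐ x ∂m, C.Γ (χ k * a - a) (χ k * a - a) x ≤
      2 * ((χ k x - 1) ^ 2 * C.Γ a a x) + 2 * (a x ^ 2 * C.Γ (χ k) (χ k) x) := by
    intro k
    have cW := (cA k).1
    have n1 := (TA k).1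
    have e : C.Γ (χ k * a - a) (χ k * a - a) = (χ k - 1) ^ 2 * C.Γ a a
        + (2 : ℝ) • ((χ k - 1) * a * C.Γ (χ k) a) + a ^ 2 * C.Γ (χ k) (χ k) := by
      have e1 : ∀ g ∈ C.W, C.Γ (χ k * a - a) g = (χ k - 1) * C.Γ a g + a * C.Γ (χ k) g := by
        intro g hg
        rw [hC.Γ_sub_left n1 aA.1 hg, hC.Γ_mul_left (cA k) aA hg]
        ring
      have n2 := hD.sub_mem n1 aA.1
      rw [e1 _ n2, hC.symm _ aA.1 _ n2, hC.symm _ cW _ n2, e1 _ aA.1, e1 _ cW, hC.symm _ aA.1 _ cW]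
      algebra
    rw [e]
    filter_upwards [add_ae ((χ k - 1) ^ 2 * C.Γ a a + (2 : ℝ) • ((χ k - 1) * a * C.Γ (χ k) a))
      (a ^ 2 * C.Γ (χ k) (χ k)), add_ae ((χ k - 1) ^ 2 * C.Γ a a)
      ((2 : ℝ) • ((χ k - 1) * a * C.Γ (χ k) a)), mul_ae ((χ k - 1) ^ 2) (C.Γ a a),
      sq_ae (χ k - 1), sub_ae (χ k) 1, smul_ae ((χ k - 1) * a * C.Γ (χ k) a) (2 : ℝ),
      mul_ae ((χ k - 1) * a) (C.Γ (χ k) a), mul_ae (χ k - 1) a, mul_ae (a ^ 2) (C.Γ (χ k) (χ k)),
      sq_ae a, one_ae (M := M) (m := m), hD.Γ_cs_ae cW aA.1, hD.Γ_nonneg_ae cW,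
      hD.Γ_nonneg_ae aA.1] with x b1 b2 b3 b4 b5 b6 b7 b8 b9 b10 b11 b12 b13 b14
    rw [b1, b2, b3, b4, b5, b6, b7, b8, b9, b10, b5, b11]
    -- 2 p q Γ(χ,a) ≤ p² Γ(a,a) + q² Γ(χ,χ)
    have h1 : (2 * ((χ k x - 1) * a x * C.Γ (χ k) a x)) ^ 2 ≤
        ((χ k x - 1) ^ 2 * C.Γ a a x + a x ^ 2 * C.Γ (χ k) (χ k) x) ^ 2 := by
      have h2 : (2 * ((χ k x - 1) * a x * C.Γ (χ k) a x)) ^ 2 =
          4 * ((χ k x - 1) ^ 2 * a x ^ 2 * C.Γ (χ k) a x ^ 2) := by ring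
      have h3 : (χ k x - 1) ^ 2 * a x ^ 2 * C.Γ (χ k) a x ^ 2 ≤
          (χ k x - 1) ^ 2 * a x ^ 2 * (C.Γ (χ k) (χ k) x * C.Γ a a x) :=
        mul_le_mul_of_nonneg_left b12 (by (clear * -; positivity))
      rw [h2]
      linarith only [sq_nonneg ((χ k x - 1) ^ 2 * C.Γ a a x - a x ^ 2 * C.Γ (χ k) (χ k) x), h3]
    have h4 : 0 ≤ (χ k x - 1) ^ 2 * C.Γ a a x + a x ^ 2 * C.Γ (χ k) (χ k) x := by (clear * - b14 b13; positivity)
    have h5 := abs_le_of_sq_le_sq h1 h4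
    have h6 := (le_abs_self _).trans h5
    linarith
  refine ⟨hT', ha, ?_, ?_, ?_, ?_⟩
  · -- convergence in W
    have l1 := (hbT.mul (T2.const a2)).lim
    rw [one_mul] at l1
    have hg : ∀ k, MemLp ((χ k - 1) ^ 2 * C.Γ a a : M →ₘ[m] ℝ) 1 m ∧
        MemLp (a ^ 2 * C.Γ (χ k) (χ k) : M →ₘ[m] ℝ) 1 m := by
      intro k
      refine ⟨mem_mul_top ?_ (hC.mem1 _ aA.1), mem_mul_top ?_ (hC.mem1 _ (cA k).1)⟩
      · rw [sq]; exact mem_mul_top (mem_sub (cA k).2 mem_top_one) (mem_sub (cA k).2 mem_top_one)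
      · rw [sq]; exact mem_mul_top aA.2 aA.2
    have l2 : Tendsto (fun k => I ((χ k - 1) ^ 2 * C.Γ a a)) atTop (𝓝 0) := by
      have := I_tendsto_of_bdd (u := fun k => (χ k - 1) ^ 2) (v := 0) (G := C.Γ a a) (K := 4)
        (fun k => ?_) ?_ (hC.mem1 _ aA.1)
      · rwa [zero_mul, I_zero] at this
      · filter_upwards [sq_ae (χ k - 1), sub_ae (χ k) 1, one_ae (M := M) (m := m), hb k]
          with x b1 b2 b3 b4
        rw [b1, b2, b3, abs_of_nonneg (sq_nonneg _)]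
        have := abs_le.1 b4
        nlinarith
      · filter_upwards [ae_all_iff.2 fun k => sq_ae (χ k - 1), ae_all_iff.2 fun k => sub_ae (χ k) 1,
          one_ae (M := M) (m := m), hlim, zero_ae (M := M) (m := m)] with x b1 b2 b3 b4 b5
        rw [b5]
        simp only [b1, b2, b3]
        simpa using (b4.sub_const 1).pow 2
    have l3 : Tendsto (fun k : ℕ => I (a ^ 2 * C.Γ (χ k) (χ k))) atTop (𝓝 0) := by
      have c1 : Tendsto (fun k : ℕ => (Λ * ((k : ℝ) + 1)⁻¹) * I (a ^ 2)) atTop (𝓝 0) := by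
        simpa using (tendsto_inv_succ.const_mul Λ).mul_const (I (a ^ 2))
      refine squeeze_zero (fun k => I_nonneg (mul_nonneg (sq_nonneg' _) (hC.nonneg _ (cA k).1)))
        (fun k => ?_) c1
      rw [← I_smul]
      refine I_mono (hg k).2 (mem_smul _ (mem_sq a2)) ?_
      rw [le_iff_ae]
      filter_upwards [mul_ae (a ^ 2) (C.Γ (χ k) (χ k)), smul_ae (a ^ 2) (Λ * ((k : ℝ) + 1)⁻¹),
        sq_ae a, hΓ k] with x b1 b2 b3 b4
      rw [b1, b2, b3, mul_comm]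
      exact mul_le_mul_of_nonneg_right ((le_abs_self _).trans b4) (sq_nonneg _)
    have l4 : Tendsto (fun k => I (C.Γ (χ k * a - a) (χ k * a - a))) atTop (𝓝 0) := by
      refine squeeze_zero (fun k => hD.E_nonneg (hD.sub_mem (TA k).1 aA.1)) (fun k => ?_)
        (by simpa using (l2.const_mul 2).add (l3.const_mul 2))
      rw [← I_smul, ← I_smul, ← I_add (mem_smul _ (hg k).1) (mem_smul _ (hg k).2)]
      refine I_mono (hC.mem1 _ (hD.sub_mem (TA k).1 aA.1))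
        (mem_add (mem_smul _ (hg k).1) (mem_smul _ (hg k).2)) ?_
      rw [le_iff_ae]
      filter_upwards [key k, add_ae ((2 : ℝ) • ((χ k - 1) ^ 2 * C.Γ a a))
        ((2 : ℝ) • (a ^ 2 * C.Γ (χ k) (χ k))), smul_ae ((χ k - 1) ^ 2 * C.Γ a a) (2 : ℝ),
        smul_ae (a ^ 2 * C.Γ (χ k) (χ k)) (2 : ℝ), mul_ae ((χ k - 1) ^ 2) (C.Γ a a),
        mul_ae (a ^ 2) (C.Γ (χ k) (χ k)), sq_ae (χ k - 1), sub_ae (χ k) 1, sq_ae a,
        one_ae (M := M) (m := m)] with x b0 b1 b2 b3 b4 b5 b6 b7 b8 b9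
      rw [b1, b2, b3, b4, b5, b6, b7, b8, b9]
      exact b0
    have := l1.add l4
    simpa [Calc.nrm2] using this
  · -- Laplacian
    have e : ∀ k, C.lap (χ k * a) = χ k * C.lap a + C.lap (χ k) * a + (2 : ℝ) • C.Γ (χ k) a := by
      intro k
      rw [hC.lap_mul hB (hT k).1 ha]
      ring
    have t1 := hbT.mul (T2.const (hC.test_isLap ha).2.1)
    have t2 := hlT.mul (T2.const a2)
    have t3 : T2 (fun k => C.Γ (χ k) a) 0 := by
      refine ⟨fun k => hD.Γ_mem2 (cA k).1 (hC.test_Γ_top (hT k).1) aA.1, mem_zero, ?_⟩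
      have c1 : Tendsto (fun k : ℕ => |Λ * ((k : ℝ) + 1)⁻¹| * I (C.Γ a a)) atTop (𝓝 0) := by
        have := ((tendsto_inv_succ.const_mul Λ).abs).mul_const (I (C.Γ a a))
        simpa using this
      refine squeeze_zero (fun n => I_sq_nonneg _) (fun n => ?_) c1
      rw [sub_zero]
      exact hC.I_Γsq_le hB (hT n).1 aA.1 (by
        filter_upwards [hΓ n] with x hx; exact (le_abs_self _).trans hx)
    have := ((t1.add t2).add (t3.smul 2)).lim
    simp only [one_mul, zero_mul, smul_zero, add_zero] at this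
    simp only [e]
    exact this
  · obtain ⟨A', hA'⟩ : ∃ A' : ℝ, A' = A := ⟨_, rfl⟩
    refine ⟨8 * |L| + 2 * (A ^ 2 * Λ), fun k => ?_⟩
    filter_upwards [key k, hb k, hL, hA, hΓ k, hΛ0] with x b1 b2 b3 b4 b5 b6
    refine b1.trans ?_
    have c1 : (χ k x - 1) ^ 2 ≤ 4 := by
      have := abs_le.1 b2
      nlinarith
    have c2 : a x ^ 2 ≤ A ^ 2 := sq_le_sq' (by linarith [neg_abs_le (a x)])
      ((le_abs_self _).trans b4)
    have c3 : C.Γ (χ k) (χ k) x ≤ Λ := by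
      refine ((le_abs_self _).trans b5).trans ?_
      have h1 : ((k : ℝ) + 1)⁻¹ ≤ 1 := inv_le_one_of_one_le₀ (by
        have : (0 : ℝ) ≤ k := Nat.cast_nonneg k
        linarith)
      linarith only [mul_nonneg (sub_nonneg.2 b6) (sub_nonneg.2 h1)]
    have c4 : C.Γ a a x ≤ |L| := (le_abs_self _).trans (b3.trans (le_abs_self _))
    have c5 : (χ k x - 1) ^ 2 * C.Γ a a x ≤ 4 * |L| := by
      calc _ ≤ (χ k x - 1) ^ 2 * |L| := mul_le_mul_of_nonneg_left c4 (sq_nonneg _)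
        _ ≤ _ := mul_le_mul_of_nonneg_right c1 (abs_nonneg _)
    have c6 : a x ^ 2 * C.Γ (χ k) (χ k) x ≤ A ^ 2 * Λ := by
      calc _ ≤ a x ^ 2 * Λ := mul_le_mul_of_nonneg_left c3 (sq_nonneg _)
        _ ≤ _ := mul_le_mul_of_nonneg_right c2 b6
    linarith
  · filter_upwards [ae_all_iff.2 key, hlim, ae_all_iff.2 hΓ,
      ae_all_iff.2 fun k => hD.Γ_nonneg_ae (hD.sub_mem (TA k).1 aA.1)] with x b1 b2 b3 b4
    have c3 : Tendsto (fun k => C.Γ (χ k) (χ k) x) atTop (𝓝 0) :=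
      squeeze_zero_norm (a := fun n : ℕ => Λ * ((n : ℝ) + 1)⁻¹) (fun n => by
        rw [Real.norm_eq_abs]; exact b3 n) (by simpa using tendsto_inv_succ.const_mul Λ)
    have c1 := ((b2.sub_const 1).pow 2).mul_const (C.Γ a a x)
    have c2 := c3.const_mul (a x ^ 2)
    exact squeeze_zero b4 b1 (by simpa using (c1.const_mul 2).add (c2.const_mul 2))

end IsGamma

end Vale.Agent.P233
end

section

open MeasureTheory Filter Topology Finset

namespace Vale.Agent.P233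

/-- Riemann sums with three different nodes -/
theorem riem_sum {P : ℝ × ℝ × ℝ → ℝ} (hP : Continuous P) {ε η : ℝ} (hε : 0 < ε) (hη : 0 < η) :
    ∃ N : ℕ, ∀ n ≥ N, 0 < n → (∫ s in (0 : ℝ)..ε, P (s, s, s)) - η
      ≤ ∑ k ∈ range n, (ε / n) * P (((k : ℝ) + 1) * (ε / n), ((k : ℝ) + 1 / 2) * (ε / n),
        (k : ℝ) * (ε / n)) := by
  have hK : IsCompact (Set.Icc (0 : ℝ) ε ×ˢ Set.Icc (0 : ℝ) ε ×ˢ Set.Icc (0 : ℝ) ε) :=
    isCompact_Icc.prod (isCompact_Icc.prod isCompact_Icc)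
  have hu := hK.uniformContinuousOn_of_continuous hP.continuousOn
  rw [Metric.uniformContinuousOn_iff] at hu
  obtain ⟨δ, hδ, hδ2⟩ := hu (η / ε) (by positivity)
  obtain ⟨N, hN⟩ := exists_nat_gt (ε / δ)
  refine ⟨N, fun n hn hn0 => ?_⟩
  have hn1 : (0 : ℝ) < n := by exact_mod_cast hn0
  have hτ0 : 0 < ε / n := by positivity
  have hτδ : ε / n < δ := by
    have h1 : ε / δ < n := lt_of_lt_of_le hN (by exact_mod_cast hn)
    rw [div_lt_iff₀ hδ] at h1
    rw [div_lt_iff₀ hn1]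
    linarith
  set τ := ε / n with hτ
  have hnτ : (n : ℝ) * τ = ε := by rw [hτ]; field_simp
  have hc : Continuous fun s : ℝ => P (s, s, s) := by fun_prop
  have e1 : ∫ s in (0 : ℝ)..ε, P (s, s, s)
      = ∑ k ∈ range n, ∫ s in ((k : ℝ) * τ)..(((k + 1 : ℕ) : ℝ) * τ), P (s, s, s) := by
    rw [intervalIntegral.sum_integral_adjacent_intervals (a := fun k : ℕ => (k : ℝ) * τ)
      (fun k _ => hc.intervalIntegrable _ _)]
    simp [hnτ]
  have e2 : ∀ k ∈ range n, (∫ s in ((k : ℝ) * τ)..(((k + 1 : ℕ) : ℝ) * τ), P (s, s, s))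
      ≤ τ * P (((k : ℝ) + 1) * τ, ((k : ℝ) + 1 / 2) * τ, (k : ℝ) * τ) + τ * (η / ε) := by
    intro k hk
    have hkn : ((k : ℝ) + 1) ≤ n := by exact_mod_cast (mem_range.1 hk)
    have hk0 : (0 : ℝ) ≤ k := by positivity
    have hle : (k : ℝ) * τ ≤ ((k + 1 : ℕ) : ℝ) * τ := by push_cast; linarith only [hτ0]
    have hb : ((k : ℝ) + 1) * τ ≤ ε := by rw [← hnτ]; exact mul_le_mul_of_nonneg_right hkn hτ0.le
    have h1 : (∫ s in ((k : ℝ) * τ)..(((k + 1 : ℕ) : ℝ) * τ), P (s, s, s))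
        ≤ ∫ s in ((k : ℝ) * τ)..(((k + 1 : ℕ) : ℝ) * τ),
          (P (((k : ℝ) + 1) * τ, ((k : ℝ) + 1 / 2) * τ, (k : ℝ) * τ) + η / ε) := by
      refine intervalIntegral.integral_mono_on hle (hc.intervalIntegrable _ _)
        (by simp) fun s hs => ?_
      push_cast at hs
      have hs1 := hs.1
      have hs2 := hs.2
      have hkτ : 0 ≤ (k : ℝ) * τ := by positivity
      have hm1 : (s, s, s) ∈ Set.Icc (0 : ℝ) ε ×ˢ Set.Icc (0 : ℝ) ε ×ˢ Set.Icc (0 : ℝ) ε :=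
        ⟨⟨by linarith, by linarith⟩, ⟨by linarith, by linarith⟩, ⟨by linarith, by linarith⟩⟩
      have hm2 : (((k : ℝ) + 1) * τ, ((k : ℝ) + 1 / 2) * τ, (k : ℝ) * τ)
          ∈ Set.Icc (0 : ℝ) ε ×ˢ Set.Icc (0 : ℝ) ε ×ˢ Set.Icc (0 : ℝ) ε :=
        ⟨⟨by linarith only [hkτ, hτ0], by linarith only [hb]⟩, ⟨by linarith only [hkτ, hτ0], by linarith only [hb, hτ0]⟩, ⟨by linarith only [hkτ], by linarith only [hb, hτ0]⟩⟩
      have hd : dist ((s, s, s) : ℝ × ℝ × ℝ)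
          (((k : ℝ) + 1) * τ, ((k : ℝ) + 1 / 2) * τ, (k : ℝ) * τ) < δ := by
        rw [Prod.dist_eq, Prod.dist_eq, Real.dist_eq, Real.dist_eq, Real.dist_eq]
        refine max_lt ?_ (max_lt ?_ ?_)
        · rw [abs_lt]; constructor <;> nlinarith
        · rw [abs_lt]; constructor <;> nlinarith
        · rw [abs_lt]; constructor <;> nlinarith
      have h2 := hδ2 _ hm1 _ hm2 hd
      rw [Real.dist_eq] at h2
      have h3 := (abs_lt.1 h2).2
      linarith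
    refine h1.trans (le_of_eq ?_)
    rw [intervalIntegral.integral_const, smul_eq_mul]
    push_cast
    ring
  have e3 := Finset.sum_le_sum e2
  rw [← e1, Finset.sum_add_distrib, Finset.sum_const, card_range, nsmul_eq_mul] at e3
  have e4 : (n : ℝ) * (τ * (η / ε)) = η := by
    rw [← mul_assoc, hnτ]; field_simp
  linarith

end Vale.Agent.P233
end

section

open MeasureTheory Filter Topology
open scoped ENNReal NNReal

namespace Vale.Agent.P233

variable {M : Type*} [MeasurableSpace M] {m : Measure M} {C : Calc m}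

namespace IsGamma

variable (hC : IsGamma C) {κ : ℝ} (hB : C.BEi κ)
variable {u v w φ G r f a b F R1 R2 : M →ₘ[m] ℝ}

include hC

theorem ac_poly (hφ : φ ∈ C.A) (hG : G ∈ C.A) (hF : F ∈ C.A)
    (hR1 : R1 ∈ C.A) (hR2 : R2 ∈ C.A) (s t v : ℝ) :
    I ((φ - s • G) * (R1 + t • R2))
        - (2 : ℝ)⁻¹ * I ((F + v • R1 + (v ^ 2 / 2) • R2) * C.Γ (φ - s • G) (φ - s • G))
      = I (φ * R1) + t * I (φ * R2) - s * I (G * R1) - s * t * I (G * R2)
        - (2 : ℝ)⁻¹ * (I (F * C.Γ φ φ) + v * I (R1 * C.Γ φ φ) + v ^ 2 / 2 * I (R2 * C.Γ φ φ)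
          - 2 * s * (I (F * C.Γ φ G) + v * I (R1 * C.Γ φ G) + v ^ 2 / 2 * I (R2 * C.Γ φ G))
          + s ^ 2 * (I (F * C.Γ G G) + v * I (R1 * C.Γ G G) + v ^ 2 / 2 * I (R2 * C.Γ G G))) := by
  have L2 : ∀ {z : M →ₘ[m] ℝ}, z ∈ C.A → MemLp z 2 m := fun h => hC.memLp _ h.1
  have m1 := mem_mul_22 (L2 hφ) (L2 hR1)
  have m2 := mem_mul_22 (L2 hφ) (L2 hR2)
  have m3 := mem_mul_22 (L2 hG) (L2 hR1)
  have m4 := mem_mul_22 (L2 hG) (L2 hR2)
  have e1 : I ((φ - s • G) * (R1 + t • R2))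
      = I (φ * R1) + t * I (φ * R2) - s * I (G * R1) - s * t * I (G * R2) := by
    have : (φ - s • G) * (R1 + t • R2)
        = φ * R1 + t • (φ * R2) - s • (G * R1) - (s * t) • (G * R2) := by algebra
    rw [this, I_sub (mem_sub (mem_add m1 (mem_smul _ m2)) (mem_smul _ m3)) (mem_smul _ m4),
      I_sub (mem_add m1 (mem_smul _ m2)) (mem_smul _ m3), I_add m1 (mem_smul _ m2), I_smul,
      I_smul, I_smul]
  have g1 : C.Γ (φ - s • G) (φ - s • G) = C.Γ φ φ - (2 * s) • C.Γ φ G + (s ^ 2) • C.Γ G G := by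
    have h := hC.Γ_expand (-s) hφ.1 hG.1
    have h2 : φ + (-s) • G = φ - s • G := by module
    rw [h2] at h
    rw [h]
    module
  have q : ∀ {z p : M →ₘ[m] ℝ}, z ∈ C.A → MemLp p 1 m → MemLp (z * p) 1 m :=
    fun hz hp => mem_mul_top hz.2 hp
  have p1 : MemLp (C.Γ φ φ) 1 m := hC.Γ_mem1 hφ.1 hφ.1
  have p2 : MemLp (C.Γ φ G) 1 m := hC.Γ_mem1 hφ.1 hG.1
  have p3 : MemLp (C.Γ G G) 1 m := hC.Γ_mem1 hG.1 hG.1
  have e3 : ∀ {p : M →ₘ[m] ℝ}, MemLp p 1 m → I ((F + v • R1 + (v ^ 2 / 2) • R2) * p)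
      = I (F * p) + v * I (R1 * p) + v ^ 2 / 2 * I (R2 * p) := by
    intro p hp
    have : (F + v • R1 + (v ^ 2 / 2) • R2) * p
        = F * p + v • (R1 * p) + (v ^ 2 / 2) • (R2 * p) := by algebra
    rw [this, I_add (mem_add (q hF hp) (mem_smul _ (q hR1 hp))) (mem_smul _ (q hR2 hp)),
      I_add (q hF hp) (mem_smul _ (q hR1 hp)), I_smul, I_smul]
  have hρ : (F + v • R1 + (v ^ 2 / 2) • R2) ∈ C.A :=
    hC.A_add (hC.A_add hF (hC.A_smul _ hR1)) (hC.A_smul _ hR2)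
  have e4 : I ((F + v • R1 + (v ^ 2 / 2) • R2) * C.Γ (φ - s • G) (φ - s • G))
      = I ((F + v • R1 + (v ^ 2 / 2) • R2) * C.Γ φ φ)
        - 2 * s * I ((F + v • R1 + (v ^ 2 / 2) • R2) * C.Γ φ G)
        + s ^ 2 * I ((F + v • R1 + (v ^ 2 / 2) • R2) * C.Γ G G) := by
    have : (F + v • R1 + (v ^ 2 / 2) • R2) * C.Γ (φ - s • G) (φ - s • G)
        = (F + v • R1 + (v ^ 2 / 2) • R2) * C.Γ φ φ
          - (2 * s) • ((F + v • R1 + (v ^ 2 / 2) • R2) * C.Γ φ G)
          + (s ^ 2) • ((F + v • R1 + (v ^ 2 / 2) • R2) * C.Γ G G) := by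
      rw [g1]; algebra
    rw [this, I_add (mem_sub (q hρ p1) (mem_smul _ (q hρ p2))) (mem_smul _ (q hρ p3)),
      I_sub (q hρ p1) (mem_smul _ (q hρ p2)), I_smul, I_smul]
  rw [e1, e4, e3 p1, e3 p2, e3 p3]

theorem ac_riem (hφ : φ ∈ C.A) (hG : G ∈ C.A) (hF : F ∈ C.A)
    (hR1 : R1 ∈ C.A) (hR2 : R2 ∈ C.A) {ε η : ℝ} (hε : 0 < ε) (hη : 0 < η) :
    ∃ N : ℕ, ∀ n ≥ N, 0 < n →
      (∫ t in (0 : ℝ)..ε, (I ((φ - t • G) * (R1 + t • R2))
        - (2 : ℝ)⁻¹ * I ((F + t • R1 + (t ^ 2 / 2) • R2) * C.Γ (φ - t • G) (φ - t • G)))) - η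
      ≤ ∑ k ∈ Finset.range n, (ε / n) *
        (I ((φ - (((k : ℝ) + 1) * (ε / n)) • G) * (R1 + (((k : ℝ) + 1 / 2) * (ε / n)) • R2))
          - (2 : ℝ)⁻¹ * I ((F + ((k : ℝ) * (ε / n)) • R1 + (((k : ℝ) * (ε / n)) ^ 2 / 2) • R2)
            * C.Γ (φ - (((k : ℝ) + 1) * (ε / n)) • G) (φ - (((k : ℝ) + 1) * (ε / n)) • G))) := by
  have hc : Continuous fun p : ℝ × ℝ × ℝ => I ((φ - p.1 • G) * (R1 + p.2.1 • R2))
        - (2 : ℝ)⁻¹ * I ((F + p.2.2 • R1 + (p.2.2 ^ 2 / 2) • R2)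
          * C.Γ (φ - p.1 • G) (φ - p.1 • G)) := by
    have : (fun p : ℝ × ℝ × ℝ => I ((φ - p.1 • G) * (R1 + p.2.1 • R2))
        - (2 : ℝ)⁻¹ * I ((F + p.2.2 • R1 + (p.2.2 ^ 2 / 2) • R2)
          * C.Γ (φ - p.1 • G) (φ - p.1 • G)))
        = fun p : ℝ × ℝ × ℝ => I (φ * R1) + p.2.1 * I (φ * R2) - p.1 * I (G * R1)
          - p.1 * p.2.1 * I (G * R2)
          - (2 : ℝ)⁻¹ * (I (F * C.Γ φ φ) + p.2.2 * I (R1 * C.Γ φ φ)
            + p.2.2 ^ 2 / 2 * I (R2 * C.Γ φ φ)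
          - 2 * p.1 * (I (F * C.Γ φ G) + p.2.2 * I (R1 * C.Γ φ G)
            + p.2.2 ^ 2 / 2 * I (R2 * C.Γ φ G))
          + p.1 ^ 2 * (I (F * C.Γ G G) + p.2.2 * I (R1 * C.Γ G G)
            + p.2.2 ^ 2 / 2 * I (R2 * C.Γ G G))) := by
      funext p
      exact hC.ac_poly hφ hG hF hR1 hR2 p.1 p.2.1 p.2.2
    rw [this]
    fun_prop
  exact riem_sum hc hε hη

end IsGamma

end Vale.Agent.P233
end
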