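import Vale.Agent.P233.MathlibUsed2
import Vale.Agent.P233.Bd3.B1

set_option linter.all false

section

open MeasureTheory Filter Topology
open scoped ENNReal NNReal InnerProductSpace

namespace Vale.Agent.P233

/-! ### Cholesky decomposition of a positive semidefinite kernel on `ℕ` -/

/-- A positive semidefinite kernel. -/
structure PSDK (K : ℕ → ℕ → ℝ) : Prop where
  symm : ∀ i j, K i j = K j i
  nonneg : ∀ (s : Finset ℕ) (c : ℕ → ℝ), 0 ≤ ∑ i ∈ s, ∑ j ∈ s, c i * c j * K i j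

namespace PSDK
variable {K : ℕ → ℕ → ℝ}

theorem cs (h : PSDK K) (s : Finset ℕ) (c : ℕ → ℝ) (n : ℕ) :
    (∑ i ∈ s, c i * K n i) ^ 2 ≤ (∑ i ∈ s, ∑ j ∈ s, c i * c j * K i j) * K n n := by
  refine disc_of_forall fun t => ?_
  set a : ℕ → ℝ := fun i => (if i ∈ s then c i else 0) + t * (if i = n then 1 else 0) with ha
  have key : ∀ F : ℕ → ℝ, ∑ i ∈ insert n s, a i * F i = ∑ i ∈ s, c i * F i + t * F n := by
    intro F
    have h1 : ∀ i ∈ insert n s, a i * F i =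
        (if i ∈ s then c i * F i else 0) + (if i = n then t * F i else 0) := by
      intro i _
      simp only [ha]
      split_ifs <;> ring
    rw [Finset.sum_congr rfl h1, Finset.sum_add_distrib, Finset.sum_ite_mem, Finset.sum_ite_eq',
      if_pos (Finset.mem_insert_self n s)]
    congr 2
    exact Finset.inter_eq_right.2 (Finset.subset_insert n s)
  have h2 := h.nonneg (insert n s) a
  have h3 : ∑ i ∈ insert n s, ∑ j ∈ insert n s, a i * a j * K i j =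
      ∑ i ∈ insert n s, a i * (∑ j ∈ s, c j * K i j + t * K i n) := by
    refine Finset.sum_congr rfl fun i _ => ?_
    rw [← key, Finset.mul_sum]
    exact Finset.sum_congr rfl fun j _ => by ring
  rw [h3, key] at h2
  have h4 : ∑ i ∈ s, c i * (∑ j ∈ s, c j * K i j + t * K i n) =
      ∑ i ∈ s, ∑ j ∈ s, c i * c j * K i j + t * ∑ i ∈ s, c i * K n i := by
    rw [Finset.mul_sum, ← Finset.sum_add_distrib]
    refine Finset.sum_congr rfl fun i _ => ?_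
    rw [mul_add, Finset.mul_sum, h.symm i n]
    congr 1
    · exact Finset.sum_congr rfl fun j _ => by ring
    · ring
  rw [h4] at h2
  linarith only [h2]

theorem diag_nonneg (h : PSDK K) (n : ℕ) : 0 ≤ K n n := by
  have := h.nonneg {n} (fun _ => 1)
  simpa using this

theorem eq_zero (h : PSDK K) {n : ℕ} (h0 : K n n = 0) (k : ℕ) : K n k = 0 := by
  have := h.cs {k} (fun _ => 1) n
  rw [h0] at this
  simp only [Finset.sum_singleton, one_mul, mul_zero] at this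
  exact pow_eq_zero_iff (two_ne_zero) |>.1 (le_antisymm this (sq_nonneg _))

end PSDK

/-- Iterated Schur complements. -/
noncomputable def schurs (K : ℕ → ℕ → ℝ) : ℕ → ℕ → ℕ → ℝ
  | 0 => K
  | n + 1 => fun k l => schurs K n k l - schurs K n n k * schurs K n n l / schurs K n n n

/-- The Cholesky factor. -/
noncomputable def chol (K : ℕ → ℕ → ℝ) (n k : ℕ) : ℝ :=
  schurs K n n k / Real.sqrt (schurs K n n n)

namespace PSDK
variable {K : ℕ → ℕ → ℝ}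

theorem schur_step (h : PSDK K) (n : ℕ) : PSDK (fun k l => K k l - K n k * K n l / K n n) where
  symm i j := by simp only [h.symm i j, mul_comm (K n i)]
  nonneg s c := by
    have e1 : ∑ i ∈ s, ∑ j ∈ s, c i * c j * (K i j - K n i * K n j / K n n) =
        ∑ i ∈ s, ∑ j ∈ s, c i * c j * K i j - (∑ i ∈ s, c i * K n i) ^ 2 / K n n := by
      have e2 : (∑ i ∈ s, c i * K n i) ^ 2 / K n n =
          ∑ i ∈ s, ∑ j ∈ s, c i * c j * (K n i * K n j / K n n) := by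
        rw [sq, Finset.sum_mul_sum, Finset.sum_div]
        refine Finset.sum_congr rfl fun i _ => ?_
        rw [Finset.sum_div]
        exact Finset.sum_congr rfl fun j _ => by ring
      rw [e2, ← Finset.sum_sub_distrib]
      refine Finset.sum_congr rfl fun i _ => ?_
      rw [← Finset.sum_sub_distrib]
      exact Finset.sum_congr rfl fun j _ => by ring
    rw [e1, sub_nonneg]
    rcases (h.diag_nonneg n).eq_or_lt with h0 | h0
    · rw [← h0, div_zero]; exact h.nonneg s c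
    · rw [div_le_iff₀ h0]; exact h.cs s c n

theorem schurs (h : PSDK K) : ∀ n, PSDK (schurs K n)
  | 0 => h
  | n + 1 => (h.schurs n).schur_step n

theorem schurs_succ (h : PSDK K) (n k l : ℕ) :
    P233.schurs K (n + 1) k l = P233.schurs K n k l - chol K n k * chol K n l := by
  have h1 : chol K n k * chol K n l =
      P233.schurs K n n k * P233.schurs K n n l / P233.schurs K n n n := by
    unfold chol
    rw [div_mul_div_comm, Real.mul_self_sqrt ((h.schurs n).diag_nonneg n)]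
  rw [h1]; rfl

theorem telescope (h : PSDK K) (k l : ℕ) : ∀ N,
    K k l = ∑ n ∈ Finset.range N, chol K n k * chol K n l + P233.schurs K N k l
  | 0 => by simp [P233.schurs]
  | N + 1 => by
    rw [h.telescope k l N, Finset.sum_range_succ, h.schurs_succ]
    ring

theorem schurs_diag (h : PSDK K) (k l : ℕ) : P233.schurs K (k + 1) k l = 0 := by
  have h1 : P233.schurs K (k + 1) k l = P233.schurs K k k l -
    P233.schurs K k k k * P233.schurs K k k l / P233.schurs K k k k := rfl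
  rw [h1]
  by_cases h0 : P233.schurs K k k k = 0
  · rw [(h.schurs k).eq_zero h0 l]; simp
  · field_simp; ring

theorem eq_sum (h : PSDK K) (k l : ℕ) :
    K k l = ∑ n ∈ Finset.range (k + 1), chol K n k * chol K n l := by
  rw [h.telescope k l (k + 1), h.schurs_diag, add_zero]

end PSDK

/-! ### the vectors of a kernel -/

section vec
variable {E : Type*} [NormedAddCommGroup E] [InnerProductSpace ℝ E]

/-- The vectors of the kernel `K` with respect to an orthonormal sequence. -/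
noncomputable def kvec (b : ℕ → E) (K : ℕ → ℕ → ℝ) (k : ℕ) : E :=
  ∑ n ∈ Finset.range (k + 1), chol K n k • b n

theorem inner_kvec_aux {b : ℕ → E} (hb : Orthonormal ℝ b) {K : ℕ → ℕ → ℝ} (hK : PSDK K)
    {k l : ℕ} (h : k ≤ l) : ⟪kvec b K k, kvec b K l⟫_ℝ = K k l := by
  classical
  unfold kvec
  rw [sum_inner, hK.eq_sum k l]
  refine Finset.sum_congr rfl fun n hn => ?_
  rw [real_inner_smul_left, inner_sum]
  have h1 : ∀ i ∈ Finset.range (l + 1), ⟪b n, chol K i l • b i⟫_ℝ =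
      if n = i then chol K i l else 0 := by
    intro i _
    rw [real_inner_smul_right, orthonormal_iff_ite.1 hb n i]
    split_ifs <;> simp
  rw [Finset.sum_congr rfl h1, Finset.sum_ite_eq, if_pos]
  rw [Finset.mem_range] at hn ⊢
  omega

theorem inner_kvec {b : ℕ → E} (hb : Orthonormal ℝ b) {K : ℕ → ℕ → ℝ} (hK : PSDK K)
    (k l : ℕ) : ⟪kvec b K k, kvec b K l⟫_ℝ = K k l := by
  rcases le_total k l with h | h
  · exact inner_kvec_aux hb hK h
  · rw [real_inner_comm, inner_kvec_aux hb hK h, hK.symm]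

variable {M : Type*} [MeasurableSpace M]

theorem measurable_schurs {K : M → ℕ → ℕ → ℝ} (hK : ∀ i j, Measurable fun x => K x i j) :
    ∀ n i j, Measurable fun x => schurs (K x) n i j
  | 0, i, j => hK i j
  | n + 1, i, j => by
    have h := measurable_schurs hK n
    exact (h i j).sub (((h n i).mul (h n j)).div (h n n))

theorem measurable_chol {K : M → ℕ → ℕ → ℝ} (hK : ∀ i j, Measurable fun x => K x i j)
    (n k : ℕ) : Measurable fun x => chol (K x) n k :=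
  (measurable_schurs hK n n k).div (measurable_schurs hK n n n).sqrt

theorem stronglyMeasurable_kvec (b : ℕ → E) {K : M → ℕ → ℕ → ℝ}
    (hK : ∀ i j, Measurable fun x => K x i j) (k : ℕ) :
    StronglyMeasurable fun x => kvec b (K x) k := by
  unfold kvec
  exact Finset.stronglyMeasurable_fun_sum _ fun n _ =>
    (measurable_chol hK n k).stronglyMeasurable.smul_const (b n)

end vec

/-! ### the kernel `Γ(e_i,e_j)(x)` -/

section gram
variable {M : Type*} [MeasurableSpace M] {m : Measure M} {C : Calc m}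

theorem sum_ae {ι : Type*} (s : Finset ι) (f : ι → M →ₘ[m] ℝ) :
    ⇑(∑ i ∈ s, f i) =ᵐ[m] fun x => ∑ i ∈ s, f i x := by
  classical
  induction s using Finset.induction_on with
  | empty => simpa using zero_ae (M := M) (m := m)
  | insert a s ha ih =>
    rw [Finset.sum_insert ha]
    filter_upwards [ih, add_ae (f a) (∑ i ∈ s, f i)] with x h1 h2
    rw [h2, h1, Finset.sum_insert ha]

namespace IsDir
variable (hC : IsDir C)
include hC

theorem sum_mem {ι : Type*} (s : Finset ι) {f : ι → M →ₘ[m] ℝ} (hf : ∀ i, f i ∈ C.W) :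
    ∑ i ∈ s, f i ∈ C.W := by
  classical
  induction s using Finset.induction_on with
  | empty => simpa using hC.zero_mem
  | insert a s ha ih =>
    rw [Finset.sum_insert ha]
    exact hC.add_mem _ (hf a) _ ih

theorem Γ_sum_left {ι : Type*} (s : Finset ι) {f : ι → M →ₘ[m] ℝ} (hf : ∀ i, f i ∈ C.W)
    {g : M →ₘ[m] ℝ} (hg : g ∈ C.W) : C.Γ (∑ i ∈ s, f i) g = ∑ i ∈ s, C.Γ (f i) g := by
  classical
  induction s using Finset.induction_on with
  | empty => simpa using hC.Γ_zero_left hg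
  | insert a s ha ih =>
    rw [Finset.sum_insert ha, Finset.sum_insert ha,
      hC.add_left _ (hf a) _ (hC.sum_mem s hf) _ hg, ih]

theorem Γ_sum_right {ι : Type*} (s : Finset ι) {f : ι → M →ₘ[m] ℝ} (hf : ∀ i, f i ∈ C.W)
    {g : M →ₘ[m] ℝ} (hg : g ∈ C.W) : C.Γ g (∑ i ∈ s, f i) = ∑ i ∈ s, C.Γ g (f i) := by
  rw [hC.symm g hg _ (hC.sum_mem s hf), hC.Γ_sum_left s hf hg]
  exact Finset.sum_congr rfl fun i _ => hC.symm _ (hf i) _ hg

theorem gram_ae {e : ℕ → M →ₘ[m] ℝ} (he : ∀ i, e i ∈ C.W) (s : Finset ℕ) (c : ℕ → ℝ) :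
    ∀ᵐ x ∂m, 0 ≤ ∑ i ∈ s, ∑ j ∈ s, c i * c j * C.Γ (e i) (e j) x := by
  have h1 : ∀ i, c i • e i ∈ C.W := fun i => hC.smul_mem _ _ (he i)
  have h2 := hC.nonneg _ (hC.sum_mem s h1)
  rw [nonneg_iff_ae, hC.Γ_sum_left s h1 (hC.sum_mem s h1)] at h2
  have h3 : ∀ᵐ x ∂m, ∀ i j, C.Γ (c i • e i) (c j • e j) x = c i * c j * C.Γ (e i) (e j) x := by
    refine ae_all_iff.2 fun i => ae_all_iff.2 fun j => ?_
    rw [hC.smul_left _ _ (he i) _ (h1 j), hC.Γ_smul_right _ (he i) (he j), smul_smul]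
    exact smul_ae _ _
  have h4 : ∀ᵐ x ∂m, ∀ i, C.Γ (c i • e i) (∑ j ∈ s, c j • e j) x =
      ∑ j ∈ s, C.Γ (c i • e i) (c j • e j) x := by
    refine ae_all_iff.2 fun i => ?_
    rw [hC.Γ_sum_right s h1 (h1 i)]
    exact sum_ae s _
  filter_upwards [h2, h3, h4, sum_ae s fun i => C.Γ (c i • e i) (∑ j ∈ s, c j • e j)]
    with x a2 a3 a4 a5
  rw [a5] at a2
  simpa only [a4, a3] using a2

theorem psdk_ae {e : ℕ → M →ₘ[m] ℝ} (he : ∀ i, e i ∈ C.W) :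
    ∀ᵐ x ∂m, PSDK fun i j => C.Γ (e i) (e j) x := by
  have h1 : ∀ᵐ x ∂m, ∀ (s : Finset ℕ) (q : s → ℚ),
      0 ≤ ∑ i, ∑ j, (q i : ℝ) * (q j : ℝ) * C.Γ (e i) (e j) x := by
    refine ae_all_iff.2 fun s => ae_all_iff.2 fun q => ?_
    classical
    filter_upwards [hC.gram_ae he s (fun i => if h : i ∈ s then (q ⟨i, h⟩ : ℝ) else 0)] with x hx
    rw [← Finset.sum_coe_sort s] at hx
    refine hx.trans_eq (Finset.sum_congr rfl fun i _ => ?_)
    rw [← Finset.sum_coe_sort s]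
    refine Finset.sum_congr rfl fun j _ => ?_
    simp
  filter_upwards [h1] with x hx
  refine ⟨fun i j => by rw [hC.symm _ (he i) _ (he j)], fun s c => ?_⟩
  have hcont : Continuous fun r : s → ℝ => ∑ i, ∑ j, r i * r j * C.Γ (e i) (e j) x := by fun_prop
  have hcl : IsClosed {r : s → ℝ | 0 ≤ ∑ i, ∑ j, r i * r j * C.Γ (e i) (e j) x} :=
    isClosed_le continuous_const hcont
  have hd : DenseRange (Pi.map fun (_ : s) (q : ℚ) => (q : ℝ)) :=
    DenseRange.piMap fun _ => Rat.denseRange_cast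
  have h2 : ∀ r : s → ℝ, 0 ≤ ∑ i, ∑ j, r i * r j * C.Γ (e i) (e j) x := by
    intro r
    have := hcl.closure_subset_iff.2 (show Set.range (Pi.map fun (_ : s) (q : ℚ) => (q : ℝ)) ⊆
      {r : s → ℝ | 0 ≤ ∑ i, ∑ j, r i * r j * C.Γ (e i) (e j) x} by
        rintro _ ⟨q, rfl⟩; exact hx s q)
    exact this (hd r)
  have h3 := h2 fun i => c i
  rw [← Finset.sum_coe_sort]
  refine h3.trans_eq (Finset.sum_congr rfl fun i _ => ?_)
  rw [← Finset.sum_coe_sort s]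

end IsDir
end gram

/-! ### the gradient -/

/-- `Gr` is a realization of the gradient with values in a Hilbert space. -/
structure IsGrad {M : Type*} [MeasurableSpace M] {m : Measure M} (C : Calc m) {E : Type*}
    [NormedAddCommGroup E] [InnerProductSpace ℝ E] (Gr : (M →ₘ[m] ℝ) → M → E) : Prop where
  mem : ∀ f ∈ C.W, MemLp (Gr f) 2 m
  inner : ∀ f ∈ C.W, ∀ g ∈ C.W, ∀ᵐ x ∂m, ⟪Gr f x, Gr g x⟫_ℝ = C.Γ f g x

section ext
variable {M : Type*} [MeasurableSpace M] {m : Measure M} {C : Calc m}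
variable {E : Type*} [NormedAddCommGroup E] [InnerProductSpace ℝ E]

/-- convergence in `L¹` implies convergence a.e. along a subsequence -/
theorem exists_subseq_of_int_abs {u : ℕ → M →ₘ[m] ℝ} {f : M →ₘ[m] ℝ}
    (hu : ∀ n, MemLp (u n - f : M →ₘ[m] ℝ) 1 m)
    (h : Tendsto (fun n => ∫ x, |(u n - f : M →ₘ[m] ℝ) x| ∂m) atTop (𝓝 0)) :
    ∃ ns : ℕ → ℕ, StrictMono ns ∧ ∀ᵐ x ∂m, Tendsto (fun n => u (ns n) x) atTop (𝓝 (f x)) := by
  have h1 : Tendsto (fun n => eLpNorm ((⇑(u n) : M → ℝ) - ⇑f) 1 m) atTop (𝓝 0) := by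
    have h2 : ∀ n, eLpNorm ((⇑(u n) : M → ℝ) - ⇑f) 1 m =
        ENNReal.ofReal (∫ x, |(u n - f : M →ₘ[m] ℝ) x| ∂m) := by
      intro n
      rw [← eLpNorm_congr_ae (AEEqFun.coeFn_sub (u n) f), eLpNorm_one_eq_lintegral_enorm,
        ← ofReal_integral_norm_eq_lintegral_enorm (int_of_mem (hu n))]
      simp
    simp_rw [h2]
    simpa using ENNReal.tendsto_ofReal h
  exact (tendstoInMeasure_of_tendsto_eLpNorm (by norm_num) (fun n => (u n).aestronglyMeasurable)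
    f.aestronglyMeasurable h1).exists_seq_tendsto_ae

/-- limits of inner products -/
theorem inner_limit {F : ℕ → M → E} {F0 G : M → E} {a : ℕ → M →ₘ[m] ℝ} {a0 : M →ₘ[m] ℝ}
    (hF : ∀ n, AEStronglyMeasurable (F n) m) (hF0 : AEStronglyMeasurable F0 m)
    (hlim : Tendsto (fun n => eLpNorm (F n - F0) 2 m) atTop (𝓝 0))
    (ha : ∀ n, MemLp (a n - a0 : M →ₘ[m] ℝ) 1 m)
    (halim : Tendsto (fun n => ∫ x, |(a n - a0 : M →ₘ[m] ℝ) x| ∂m) atTop (𝓝 0))
    (h : ∀ n, ∀ᵐ x ∂m, ⟪F n x, G x⟫_ℝ = a n x) : ∀ᵐ x ∂m, ⟪F0 x, G x⟫_ℝ = a0 x := by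
  obtain ⟨ns, hns, h1⟩ := (tendstoInMeasure_of_tendsto_eLpNorm (by norm_num) hF hF0
    hlim).exists_seq_tendsto_ae
  obtain ⟨ks, hks, h2⟩ := exists_subseq_of_int_abs (u := fun n => a (ns n)) (f := a0)
    (fun n => ha (ns n)) (halim.comp hns.tendsto_atTop)
  filter_upwards [h1, h2, ae_all_iff.2 h] with x b1 b2 b3
  have b4 : Tendsto (fun n => ⟪F (ns (ks n)) x, G x⟫_ℝ) atTop (𝓝 ⟪F0 x, G x⟫_ℝ) :=
    (b1.comp hks.tendsto_atTop).inner tendsto_const_nhds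
  simp only [b3] at b4
  exact tendsto_nhds_unique b4 b2

namespace IsDir
variable (hC : IsDir C)
include hC

theorem exists_gradE [CompleteSpace E] {b : ℕ → E} (hb : Orthonormal ℝ b) {e : ℕ → M →ₘ[m] ℝ}
    (he : ∀ n, e n ∈ C.W) (hd : ∀ f ∈ C.W, ∀ ε > 0, ∃ n, C.nrm2 (e n - f) < ε) :
    ∃ Gr : (M →ₘ[m] ℝ) → M → E, IsGrad C Gr ∧ ∀ f, StronglyMeasurable (Gr f) := by
  classical
  set K : M → ℕ → ℕ → ℝ := fun x i j => C.Γ (e i) (e j) x with hKd
  have hKm : ∀ i j, Measurable fun x => K x i j := fun i j =>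
    (C.Γ (e i) (e j)).measurable
  set u : ℕ → M → E := fun k x => kvec b (K x) k with hu
  have hum : ∀ k, StronglyMeasurable (u k) := stronglyMeasurable_kvec b hKm
  have hui : ∀ k l, ∀ᵐ x ∂m, ⟪u k x, u l x⟫_ℝ = C.Γ (e k) (e l) x := by
    intro k l
    filter_upwards [hC.psdk_ae he] with x hx
    exact inner_kvec hb hx k l
  have huL : ∀ k, MemLp (u k) 2 m := by
    intro k
    rw [memLp_two_iff_integrable_sq_norm (hum k).aestronglyMeasurable]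
    refine (int_of_mem (hC.mem1 _ (he k))).congr ?_
    filter_upwards [hui k k] with x hx
    rw [← hx, real_inner_self_eq_norm_sq]
  -- the norm of differences
  have hdist : ∀ k l, ‖(huL k).toLp - (huL l).toLp‖ ^ 2 = I (C.Γ (e k - e l) (e k - e l)) := by
    intro k l
    rw [← real_inner_self_eq_norm_sq, L2.inner_def]
    unfold I
    refine integral_congr_ae ?_
    have hkl := hC.sub_mem (he k) (he l)
    have e1 : C.Γ (e k - e l) (e k - e l) =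
        (C.Γ (e k) (e k) - C.Γ (e k) (e l)) - (C.Γ (e l) (e k) - C.Γ (e l) (e l)) := by
      rw [hC.Γ_sub_left (he k) (he l) hkl, hC.Γ_sub_right (he k) (he k) (he l),
        hC.Γ_sub_right (he l) (he k) (he l)]
    rw [e1]
    filter_upwards [hui k k, hui k l, hui l k, hui l l, Lp.coeFn_sub (huL k).toLp (huL l).toLp,
      (huL k).coeFn_toLp, (huL l).coeFn_toLp,
      sub_ae (C.Γ (e k) (e k) - C.Γ (e k) (e l)) (C.Γ (e l) (e k) - C.Γ (e l) (e l)),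
      sub_ae (C.Γ (e k) (e k)) (C.Γ (e k) (e l)), sub_ae (C.Γ (e l) (e k)) (C.Γ (e l) (e l))]
      with x a1 a2 a3 a4 a5 a6 a7 a8 a9 a10
    rw [a5, Pi.sub_apply, a6, a7, a8, a9, a10, ← a1, ← a2, ← a3, ← a4, inner_sub_left,
      inner_sub_right, inner_sub_right]
  -- the approximating sequences
  have hseq : ∀ f ∈ C.W, ∃ k : ℕ → ℕ, Tendsto (fun n => C.nrm2 (e (k n) - f)) atTop (𝓝 0) := by
    intro f hf
    choose k hk using fun n : ℕ => hd f hf (((n : ℝ) + 1)⁻¹) (by positivity)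
    exact ⟨k, squeeze_zero (fun n => hC.nrm2_nonneg (hC.sub_mem (he _) hf)) (fun n => (hk n).le)
      tendsto_inv_succ⟩
  have hlim : ∀ f ∈ C.W, ∃ F : Lp E 2 m, ∃ k : ℕ → ℕ,
      Tendsto (fun n => C.nrm2 (e (k n) - f)) atTop (𝓝 0) ∧
      Tendsto (fun n => (huL (k n)).toLp) atTop (𝓝 F) := by
    intro f hf
    obtain ⟨k, hk⟩ := hseq f hf
    have hc : CauchySeq fun n => (huL (k n)).toLp := by
      rw [Metric.cauchySeq_iff]
      intro ε hε
      obtain ⟨N, hN⟩ := eventually_atTop.1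
        (hk.eventually (gt_mem_nhds (show (0:ℝ) < ε ^ 2 / 4 by positivity)))
      refine ⟨N, fun n hn l hl => ?_⟩
      rw [dist_eq_norm]
      have h1 := hdist (k n) (k l)
      have h2 : I (C.Γ (e (k n) - e (k l)) (e (k n) - e (k l))) < ε ^ 2 := by
        have h3 := hC.nrm2_sub_le (hC.sub_mem (he (k n)) hf) (hC.sub_mem (he (k l)) hf)
        rw [sub_sub_sub_cancel_right] at h3
        have h4 := hC.E_le_nrm2 (e (k n) - e (k l))
        have h5 := hN n hn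
        have h6 := hN l hl
        linarith only [h6, h5, h4, h3]
      rw [← h1] at h2
      exact lt_of_pow_lt_pow_left₀ 2 hε.le h2
    obtain ⟨F, hF⟩ := cauchySeq_tendsto_of_complete hc
    exact ⟨F, k, hk, hF⟩
  choose! F k hk hF using hlim
  -- convergence of the representatives
  have hF' : ∀ f ∈ C.W, Tendsto (fun n => eLpNorm (u (k f n) - ⇑(F f)) 2 m) atTop (𝓝 0) := by
    intro f hf
    have h1 := (Lp.tendsto_Lp_iff_tendsto_eLpNorm' _ _).1 (hF f hf)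
    refine h1.congr fun n => eLpNorm_congr_ae ?_
    filter_upwards [(huL (k f n)).coeFn_toLp] with x hx
    simp [hx]
  -- inner product with `u i`
  have hA : ∀ f ∈ C.W, ∀ i, ∀ᵐ x ∂m, ⟪F f x, u i x⟫_ℝ = C.Γ f (e i) x := by
    intro f hf i
    have hsub : ∀ n, C.Γ (e (k f n)) (e i) - C.Γ f (e i) = C.Γ (e (k f n) - f) (e i) := fun n =>
      (hC.Γ_sub_left (he _) hf (he i)).symm
    refine inner_limit (fun n => (hum (k f n)).aestronglyMeasurable) (Lp.aestronglyMeasurable _)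
      (hF' f hf) (a := fun n => C.Γ (e (k f n)) (e i)) (fun n => ?_) ?_ (fun n => hui _ _)
    · rw [hsub]; exact hC.Γ_mem1 (hC.sub_mem (he _) hf) (he i)
    · simp only [hsub]
      exact hC.tendsto_int_abs_Γ (fun n => he _) hf (he i) (hk f hf)
  have hB : ∀ f ∈ C.W, ∀ g ∈ C.W, ∀ᵐ x ∂m, ⟪F f x, F g x⟫_ℝ = C.Γ f g x := by
    intro f hf g hg
    rw [hC.symm f hf g hg]
    have hsub : ∀ n, C.Γ (e (k g n)) f - C.Γ g f = C.Γ (e (k g n) - g) f := fun n =>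
      (hC.Γ_sub_left (he _) hg hf).symm
    have h1 : ∀ᵐ x ∂m, ⟪F g x, F f x⟫_ℝ = C.Γ g f x := by
      refine inner_limit (fun n => (hum (k g n)).aestronglyMeasurable) (Lp.aestronglyMeasurable _)
        (hF' g hg) (a := fun n => C.Γ (e (k g n)) f) (fun n => ?_) ?_ (fun n => ?_)
      · rw [hsub]; exact hC.Γ_mem1 (hC.sub_mem (he _) hg) hf
      · simp only [hsub]
        exact hC.tendsto_int_abs_Γ (fun n => he _) hg hf (hk g hg)
      · filter_upwards [hA f hf (k g n)] with x hx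
        rw [real_inner_comm, hx, hC.symm f hf _ (he _)]
    filter_upwards [h1] with x hx
    rw [real_inner_comm, hx]
  refine ⟨fun f => if f ∈ C.W then ⇑(F f) else 0, ⟨fun f hf => ?_, fun f hf g hg => ?_⟩,
    fun f => ?_⟩
  · simp only [hf, if_true]; exact Lp.memLp _
  · simp only [hf, hg, if_true]; exact hB f hf g hg
  · beta_reduce
    split_ifs
    · exact Lp.stronglyMeasurable _
    · exact stronglyMeasurable_zero

theorem exists_grad [SigmaFinite m] [MeasurableSpace.CountablyGenerated M] :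
    ∃ Gr : (M →ₘ[m] ℝ) → M → lp (fun _ : ℕ => ℝ) 2, IsGrad C Gr ∧
      ∀ f, StronglyMeasurable (Gr f) := by
  obtain ⟨e, he, hd⟩ := hC.exists_dense_seq
  have hb : Orthonormal ℝ fun n : ℕ => lp.single (E := fun _ : ℕ => ℝ) 2 n (1 : ℝ) := by
    rw [orthonormal_iff_ite]
    intro i j
    rw [lp.inner_single_left, lp.single_apply]
    by_cases h : i = j
    · subst h; simp
    · rw [if_neg h, Pi.single_eq_of_ne h, inner_zero_right]
  exact hC.exists_gradE hb he hd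

end IsDir
end ext

/-! ### rules -/

section rules
variable {M : Type*} [MeasurableSpace M] {m : Measure M} {C : Calc m}
variable {E : Type*} [NormedAddCommGroup E] [InnerProductSpace ℝ E] {Gr : (M →ₘ[m] ℝ) → M → E}
variable {f g h : M →ₘ[m] ℝ}

/-- The vector field of the list `X` of pairs `(a_j, b_j)`. -/
noncomputable def fvec (Gr : (M →ₘ[m] ℝ) → M → E) (X : List ((M →ₘ[m] ℝ) × (M →ₘ[m] ℝ))) :
    M → E := fun x => (X.map fun p => p.1 x • Gr p.2 x).sum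

namespace IsGrad
variable (hG : IsGrad C Gr)
include hG

theorem norm_sq (hf : f ∈ C.W) : ∀ᵐ x ∂m, ‖Gr f x‖ ^ 2 = C.Γ f f x := by
  filter_upwards [hG.inner f hf f hf] with x hx
  rw [← hx, real_inner_self_eq_norm_sq]

theorem norm_eq (hf : f ∈ C.W) : ∀ᵐ x ∂m, ‖Gr f x‖ = Real.sqrt (C.Γ f f x) := by
  filter_upwards [hG.norm_sq hf] with x hx
  rw [← hx, Real.sqrt_sq (norm_nonneg _)]

theorem int_norm_sq (hf : f ∈ C.W) : ∫ x, ‖Gr f x‖ ^ 2 ∂m = I (C.Γ f f) :=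
  integral_congr_ae (hG.norm_sq hf)

/-- a field is a gradient if it has the right inner products -/
theorem lin2 (hC : IsDir C) (hf : f ∈ C.W) (hg : g ∈ C.W) (hh : h ∈ C.W) {a b : M → ℝ}
    (H : ∀ k ∈ C.W, ∀ᵐ x ∂m, C.Γ h k x = a x * C.Γ f k x + b x * C.Γ g k x) :
    ∀ᵐ x ∂m, Gr h x = a x • Gr f x + b x • Gr g x := by
  have hfh := hG.inner f hf h hh
  have hgh := hG.inner g hg h hh
  filter_upwards [hG.inner h hh h hh, hG.inner h hh f hf, hG.inner h hh g hg, hG.inner f hf f hf,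
    hG.inner f hf g hg, hG.inner g hg g hg, hG.inner g hg f hf, hfh, hgh, H h hh, H f hf, H g hg]
    with x a1 a2 a3 a4 a5 a6 a7 a8 a9 b1 b2 b3
  rw [← sub_eq_zero, ← norm_eq_zero, ← sq_eq_zero_iff, ← real_inner_self_eq_norm_sq]
  simp only [inner_sub_left, inner_sub_right, inner_add_left, inner_add_right,
    real_inner_smul_left, real_inner_smul_right]
  rw [a1, a2, a3, a4, a5, a6, a7, a8, a9]
  have c1 : C.Γ f h x = C.Γ h f x := by rw [hC.symm f hf h hh]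
  have c2 : C.Γ g h x = C.Γ h g x := by rw [hC.symm g hg h hh]
  have c3 : C.Γ g f x = C.Γ f g x := by rw [hC.symm g hg f hf]
  rw [c1, c2] at b1 ⊢
  rw [c3] at b2 ⊢
  rw [b1, b2, b3]
  ring

theorem add (hC : IsDir C) (hf : f ∈ C.W) (hg : g ∈ C.W) :
    ∀ᵐ x ∂m, Gr (f + g) x = Gr f x + Gr g x := by
  have h1 := hG.lin2 hC hf hg (hC.add_mem f hf g hg) (a := fun _ => 1) (b := fun _ => 1)
    (fun k hk => by
      rw [hC.add_left f hf g hg k hk]
      filter_upwards [add_ae (C.Γ f k) (C.Γ g k)] with x hx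
      rw [hx]; ring)
  filter_upwards [h1] with x hx
  rw [hx, one_smul, one_smul]

theorem smul (hC : IsDir C) (c : ℝ) (hf : f ∈ C.W) :
    ∀ᵐ x ∂m, Gr (c • f) x = c • Gr f x := by
  have h1 := hG.lin2 hC hf hf (hC.smul_mem c f hf) (a := fun _ => c) (b := fun _ => 0)
    (fun k hk => by
      rw [hC.smul_left c f hf k hk]
      filter_upwards [smul_ae (C.Γ f k) c] with x hx
      rw [hx]; ring)
  filter_upwards [h1] with x hx
  rw [hx, zero_smul, add_zero]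

theorem sub (hC : IsDir C) (hf : f ∈ C.W) (hg : g ∈ C.W) :
    ∀ᵐ x ∂m, Gr (f - g) x = Gr f x - Gr g x := by
  have h1 := hG.lin2 hC hf hg (hC.sub_mem hf hg) (a := fun _ => 1) (b := fun _ => -1)
    (fun k hk => by
      rw [hC.Γ_sub_left hf hg hk]
      filter_upwards [sub_ae (C.Γ f k) (C.Γ g k)] with x hx
      rw [hx]; ring)
  filter_upwards [h1] with x hx
  rw [hx, one_smul, neg_one_smul, sub_eq_add_neg]

theorem zero (hC : IsDir C) : ∀ᵐ x ∂m, Gr 0 x = 0 := by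
  filter_upwards [hG.smul hC 0 hC.zero_mem] with x hx
  rw [zero_smul, zero_smul] at hx
  exact hx

omit hG in
theorem fvec_nil : fvec Gr [] = 0 := by funext x; simp [fvec]

omit hG in
theorem fvec_cons (p : (M →ₘ[m] ℝ) × (M →ₘ[m] ℝ)) (X : List ((M →ₘ[m] ℝ) × (M →ₘ[m] ℝ)))
    (x : M) : fvec Gr (p :: X) x = p.1 x • Gr p.2 x + fvec Gr X x := by
  simp [fvec]

omit hG in
theorem fvec_append (X Y : List ((M →ₘ[m] ℝ) × (M →ₘ[m] ℝ))) (x : M) :
    fvec Gr (X ++ Y) x = fvec Gr X x + fvec Gr Y x := by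
  simp [fvec]

/-- inner products of fields -/
theorem inner_fvec : ∀ {X Y : List ((M →ₘ[m] ℝ) × (M →ₘ[m] ℝ))}, (∀ p ∈ X, p.2 ∈ C.W) →
    (∀ p ∈ Y, p.2 ∈ C.W) → ∀ᵐ x ∂m, ⟪fvec Gr X x, fvec Gr Y x⟫_ℝ = C.ip X Y x
  | [], Y, _, _ => by
    have h1 : C.ip [] Y = 0 := by simp [Calc.ip]
    rw [h1]
    filter_upwards [zero_ae (M := M) (m := m)] with x hx
    rw [hx]; simp [fvec]
  | p :: X, Y, hX, hY => by
    have h1 : ∀ {Y : List ((M →ₘ[m] ℝ) × (M →ₘ[m] ℝ))}, (∀ q ∈ Y, q.2 ∈ C.W) →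
        ∀ᵐ x ∂m, ⟪p.1 x • Gr p.2 x, fvec Gr Y x⟫_ℝ =
          (Y.map fun q => p.1 * q.1 * C.Γ p.2 q.2).sum x := by
      intro Y
      induction Y with
      | nil =>
        intro _
        filter_upwards [zero_ae (M := M) (m := m)] with x hx
        simp only [List.map_nil, List.sum_nil]
        rw [hx]; simp [fvec]
      | cons q Y ih =>
        intro hY
        simp only [List.map_cons, List.sum_cons]
        filter_upwards [ih fun r hr => hY r (List.mem_cons_of_mem _ hr),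
          hG.inner _ (hX p List.mem_cons_self) _ (hY q List.mem_cons_self),
          add_ae (p.1 * q.1 * C.Γ p.2 q.2) (Y.map fun q => p.1 * q.1 * C.Γ p.2 q.2).sum,
          mul_ae (p.1 * q.1) (C.Γ p.2 q.2), mul_ae p.1 q.1] with x a1 a2 a3 a4 a5
        rw [a3, a4, a5, ← a1, ← a2, fvec_cons, inner_add_right, real_inner_smul_left,
          real_inner_smul_right]
        ring
    have h2 : C.ip (p :: X) Y = (Y.map fun q => p.1 * q.1 * C.Γ p.2 q.2).sum + C.ip X Y := by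
      simp [Calc.ip]
    rw [h2]
    filter_upwards [h1 hY, inner_fvec (fun r hr => hX r (List.mem_cons_of_mem _ hr)) hY,
      add_ae (Y.map fun q => p.1 * q.1 * C.Γ p.2 q.2).sum (C.ip X Y)] with x a1 a2 a3
    rw [a3, ← a1, ← a2, fvec_cons, inner_add_left]

end IsGrad
end rules

end Vale.Agent.P233
end

section

open MeasureTheory Filter Topology
open scoped ENNReal NNReal

namespace Vale.Agent.P233

variable {M : Type*} [MeasurableSpace M] {m : Measure M}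

/-- a space `T` of functions that is stable under multiplication by the bounded functions of `S` -/
structure IsMod (S T : Set (M →ₘ[m] ℝ)) : Prop where
  zero : 0 ∈ T
  add : ∀ f ∈ T, ∀ g ∈ T, f + g ∈ T
  smul : ∀ (c : ℝ), ∀ f ∈ T, c • f ∈ T
  mul : ∀ f ∈ T, ∀ g ∈ S, f * g ∈ T
  zeroS : 0 ∈ S
  smulS : ∀ (c : ℝ), ∀ f ∈ S, c • f ∈ S
  topS : ∀ f ∈ S, MemLp f ∞ m

/-- functions that differ from an element of `S` by a constant -/
def APT (S : Set (M →ₘ[m] ℝ)) : Set (M →ₘ[m] ℝ) := {f | ∃ c : ℝ, f - c • (1 : M →ₘ[m] ℝ) ∈ S}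

variable {S T : Set (M →ₘ[m] ℝ)}

namespace IsMod

variable (hC : IsMod S T)
include hC
variable {φ ψ z f g : M →ₘ[m] ℝ}

theorem A_add (hf : f ∈ T) (hg : g ∈ T) : f + g ∈ T := hC.add _ hf _ hg

theorem A_smul (c : ℝ) (hf : f ∈ T) : c • f ∈ T := hC.smul c _ hf

theorem A_zero : (0 : M →ₘ[m] ℝ) ∈ T := hC.zero

theorem mul_mem_A (hf : f ∈ T) (hg : g ∈ S) : f * g ∈ T := hC.mul _ hf _ hg

theorem A_mul_AP (hφ : φ ∈ T) (hz : z ∈ APT S) : φ * z ∈ T := by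
  obtain ⟨c, hc⟩ := hz
  have : φ * z = φ * (z - c • (1 : M →ₘ[m] ℝ)) + c • φ := by algebra
  rw [this]
  exact hC.A_add (hC.mul_mem_A hφ hc) (hC.A_smul c hφ)

theorem AP_const (c : ℝ) : c • (1 : M →ₘ[m] ℝ) ∈ APT S :=
  ⟨c, by rw [sub_self]; exact hC.zeroS⟩

theorem AP_of_A (hφ : φ ∈ S) : φ ∈ APT S := ⟨0, by simpa using hφ⟩

theorem A_aeval (hφ : φ ∈ T) (hz : z ∈ APT S) (P : Polynomial ℝ) :
    φ * Polynomial.aeval z P ∈ T := by
  induction P using Polynomial.induction_on with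
  | C a =>
    have : φ * Polynomial.aeval z (Polynomial.C a) = a • φ := by
      rw [Polynomial.aeval_C, Algebra.algebraMap_eq_smul_one]; algebra
    rw [this]; exact hC.A_smul a hφ
  | add p q hp hq => rw [map_add, mul_add]; exact hC.A_add hp hq
  | monomial n a h =>
    have : φ * Polynomial.aeval z (Polynomial.C a * Polynomial.X ^ (n + 1))
        = φ * Polynomial.aeval z (Polynomial.C a * Polynomial.X ^ n) * z := by
      rw [pow_succ, ← mul_assoc, map_mul, Polynomial.aeval_X, mul_assoc]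
    rw [this]; exact hC.A_mul_AP h hz

theorem AP_top (hz : z ∈ APT S) : MemLp z ∞ m := by
  obtain ⟨c, hc⟩ := hz
  have : z = (z - c • (1 : M →ₘ[m] ℝ)) + c • 1 := by algebra
  rw [this]
  exact mem_add (hC.topS _ hc) (mem_smul _ mem_top_one)

/-- a linear functional on `A` passes through finite linear combinations of polynomials -/
theorem lin_aeval {P0 : (M →ₘ[m] ℝ) → ℝ}
    (h0 : ∀ φ ∈ T, ∀ ψ ∈ T, P0 (φ + ψ) = P0 φ + P0 ψ)
    (s0 : ∀ c : ℝ, ∀ φ ∈ T, P0 (c • φ) = c * P0 φ) (hφ : φ ∈ T) (hz : z ∈ APT S)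
    (s : Finset ℕ) (c : ℕ → ℝ) (B : ℕ → Polynomial ℝ) :
    P0 (φ * Polynomial.aeval z (∑ k ∈ s, c k • B k))
      = ∑ k ∈ s, c k * P0 (φ * Polynomial.aeval z (B k)) := by
  classical
  induction s using Finset.induction_on with
  | empty =>
    have := s0 0 0 hC.A_zero
    simp only [Finset.sum_empty, map_zero, mul_zero]
    simpa using this
  | insert i s hi ih =>
    rw [Finset.sum_insert hi, Finset.sum_insert hi, map_add, mul_add,
      h0 _ (hC.A_aeval hφ hz _) _ (hC.A_aeval hφ hz _), ih, map_smul, mul_smul_comm,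
      s0 _ _ (hC.A_aeval hφ hz _)]

theorem bernstein (P0 P1 P2 : (M →ₘ[m] ℝ) → ℝ)
    (h0 : ∀ φ ∈ T, ∀ ψ ∈ T, P0 (φ + ψ) = P0 φ + P0 ψ)
    (h1 : ∀ φ ∈ T, ∀ ψ ∈ T, P1 (φ + ψ) = P1 φ + P1 ψ)
    (h2 : ∀ φ ∈ T, ∀ ψ ∈ T, P2 (φ + ψ) = P2 φ + P2 ψ)
    (s0 : ∀ c : ℝ, ∀ φ ∈ T, P0 (c • φ) = c * P0 φ)
    (s1 : ∀ c : ℝ, ∀ φ ∈ T, P1 (c • φ) = c * P1 φ)
    (s2 : ∀ c : ℝ, ∀ φ ∈ T, P2 (c • φ) = c * P2 φ)
    (hpos : ∀ c : ℝ, ∀ φ ∈ T, 0 ≤ φ → 0 ≤ P0 φ + c * P1 φ + c ^ 2 * P2 φ)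
    {ζ : M →ₘ[m] ℝ} (hζ : ζ ∈ APT S) (hφ : φ ∈ T) (hφ0 : 0 ≤ φ) :
    0 ≤ P0 φ + P1 (φ * ζ) + P2 (φ * ζ ^ 2) := by
  obtain ⟨K, hK⟩ := mem_top_iff.1 (hC.AP_top hζ)
  obtain ⟨c, hc⟩ := hζ
  set R := |K| + 1 with hR
  have hR0 : 0 < R := by positivity
  have hKR : ∀ᵐ x ∂m, |ζ x| ≤ R := by
    filter_upwards [hK] with x hx
    exact hx.trans ((le_abs_self K).trans (by linarith))
  set z : M →ₘ[m] ℝ := (2 * R)⁻¹ • ζ + (2⁻¹ : ℝ) • 1 with hz
  have hζz : ζ = (2 * R) • z - R • 1 := by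
    have a1 : 2 * R * (2 * R)⁻¹ = 1 := by field_simp
    have a2 : 2 * R * (2⁻¹ : ℝ) = R := by ring
    rw [hz, smul_add, smul_smul, smul_smul, a1, a2, one_smul]
    ring
  have hzAP : z ∈ APT S := by
    refine ⟨(2 * R)⁻¹ * c + 2⁻¹, ?_⟩
    have : z - ((2 * R)⁻¹ * c + 2⁻¹) • (1 : M →ₘ[m] ℝ) = (2 * R)⁻¹ • (ζ - c • 1) := by
      rw [hz]; algebra
    rw [this]; exact hC.smulS _ _ hc
  have hz0 : 0 ≤ z := by
    rw [nonneg_iff_ae]
    filter_upwards [add_ae ((2 * R)⁻¹ • ζ) ((2⁻¹ : ℝ) • (1 : M →ₘ[m] ℝ)), smul_ae ζ (2 * R)⁻¹,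
      smul_ae (1 : M →ₘ[m] ℝ) (2⁻¹ : ℝ), one_ae (M := M) (m := m), hKR] with x e1 e2 e3 e4 e5
    rw [hz, e1, e2, e3, e4]
    have := (abs_le.1 e5).1
    have h3 : (2 * R)⁻¹ * (-R) = -2⁻¹ := by field_simp
    have h4 : (2 * R)⁻¹ * (-R) ≤ (2 * R)⁻¹ * ζ x :=
      mul_le_mul_of_nonneg_left this (by (clear * -; positivity))
    linarith only [h4, h3]
  have hz1 : 0 ≤ 1 - z := by
    rw [nonneg_iff_ae]
    filter_upwards [add_ae ((2 * R)⁻¹ • ζ) ((2⁻¹ : ℝ) • (1 : M →ₘ[m] ℝ)), smul_ae ζ (2 * R)⁻¹,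
      smul_ae (1 : M →ₘ[m] ℝ) (2⁻¹ : ℝ), one_ae (M := M) (m := m), hKR,
      sub_ae (1 : M →ₘ[m] ℝ) z] with x e1 e2 e3 e4 e5 e6
    rw [e6, e4, hz, e1, e2, e3, e4]
    have := (abs_le.1 e5).2
    have h3 : (2 * R)⁻¹ * R = 2⁻¹ := by field_simp
    have h4 : (2 * R)⁻¹ * ζ x ≤ (2 * R)⁻¹ * R :=
      mul_le_mul_of_nonneg_left this (by positivity)
    linarith
  have hB0 : ∀ n k : ℕ, 0 ≤ φ * Polynomial.aeval z (bernsteinPolynomial ℝ n k) := by
    intro n k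
    refine mul_nonneg hφ0 ?_
    have : Polynomial.aeval z (bernsteinPolynomial ℝ n k)
        = (n.choose k : M →ₘ[m] ℝ) * z ^ k * (1 - z) ^ (n - k) := by
      simp [bernsteinPolynomial]
    rw [this]
    have hch : (0 : M →ₘ[m] ℝ) ≤ (n.choose k : M →ₘ[m] ℝ) := by
      have : ((n.choose k : ℕ) : M →ₘ[m] ℝ) = (n.choose k : ℕ) • (1 : M →ₘ[m] ℝ) := by simp
      rw [this]
      exact nsmul_nonneg zero_le_one _
    exact mul_nonneg (mul_nonneg hch (pow_nonneg hz0 _)) (pow_nonneg hz1 _)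
  have key : ∀ n : ℕ, 0 ≤ (P0 φ + P1 (φ * ζ) + P2 (φ * ζ ^ 2))
      + 4 * R ^ 2 * P2 (φ * (z * (1 - z))) / ((n + 1 : ℕ) : ℝ) := by
    intro n
    have hn : n + 1 ≠ 0 := Nat.succ_ne_zero n
    have e0 := hC.lin_aeval h0 s0 hφ hzAP (Finset.range (n + 1 + 1)) (fun _ => 1)
      (bernsteinPolynomial ℝ (n + 1))
    have e1 := hC.lin_aeval h1 s1 hφ hzAP (Finset.range (n + 1 + 1))
      (fun k => R * (2 * (k : ℝ) / (n + 1 : ℕ) - 1)) (bernsteinPolynomial ℝ (n + 1))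
    have e2 := hC.lin_aeval h2 s2 hφ hzAP (Finset.range (n + 1 + 1))
      (fun k => (R * (2 * (k : ℝ) / (n + 1 : ℕ) - 1)) ^ 2) (bernsteinPolynomial ℝ (n + 1))
    simp only [one_smul, one_mul] at e0
    rw [bern_sum0, map_one, mul_one] at e0
    rw [bern_lin R hn] at e1
    rw [bern_quad R hn] at e2
    have a1 : Polynomial.aeval z ((2 * R) • Polynomial.X - R • (1 : Polynomial ℝ)) = ζ := by
      rw [map_sub, map_smul, map_smul, map_one, Polynomial.aeval_X, ← hζz]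
    rw [a1] at e1
    rw [map_add, map_pow, a1, map_smul, map_mul, map_sub, map_one, Polynomial.aeval_X, mul_add,
      mul_smul_comm] at e2
    have m1 : φ * ζ ^ 2 ∈ T := by
      rw [sq, ← mul_assoc]
      exact hC.A_mul_AP (hC.A_mul_AP hφ ⟨c, hc⟩) ⟨c, hc⟩
    have m2 : φ * (z * (1 - z)) ∈ T := by
      have : φ * (z * (1 - z)) = φ * z + (-1 : ℝ) • (φ * z * z) := by algebra
      rw [this]
      exact hC.A_add (hC.A_mul_AP hφ hzAP) (hC.A_smul _ (hC.A_mul_AP (hC.A_mul_AP hφ hzAP) hzAP))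
    rw [h2 _ m1 _ (hC.A_smul _ m2), s2 _ _ m2] at e2
    have e3 : (P0 φ + P1 (φ * ζ) + P2 (φ * ζ ^ 2))
        + 4 * R ^ 2 * P2 (φ * (z * (1 - z))) / ((n + 1 : ℕ) : ℝ)
        = P0 φ + P1 (φ * ζ) + (P2 (φ * ζ ^ 2)
          + 4 * R ^ 2 / ((n + 1 : ℕ) : ℝ) * P2 (φ * (z * (1 - z)))) := by ring
    rw [e3, e0, e1, e2, ← Finset.sum_add_distrib, ← Finset.sum_add_distrib]
    exact Finset.sum_nonneg fun k _ => hpos _ _ (hC.A_aeval hφ hzAP _) (hB0 _ _)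
  have hlim : Tendsto (fun n : ℕ => (P0 φ + P1 (φ * ζ) + P2 (φ * ζ ^ 2))
      + 4 * R ^ 2 * P2 (φ * (z * (1 - z))) / ((n + 1 : ℕ) : ℝ)) atTop
      (𝓝 ((P0 φ + P1 (φ * ζ) + P2 (φ * ζ ^ 2)) + 0)) := by
    refine Tendsto.add tendsto_const_nhds ?_
    exact (tendsto_const_div_atTop_nhds_zero_nat (4 * R ^ 2 * P2 (φ * (z * (1 - z))))).comp
      (tendsto_add_atTop_nat 1)
  rw [add_zero] at hlim
  exact ge_of_tendsto hlim (Eventually.of_forall key)

section master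
variable {ι : Type*} [Fintype ι] [DecidableEq ι] {Q : ι → ι → (M →ₘ[m] ℝ) → ℝ}

theorem update_identity (hadd : ∀ i j, ∀ φ ∈ T, ∀ ψ ∈ T, Q i j (φ + ψ) = Q i j φ + Q i j ψ)
    (hsmul : ∀ i j, ∀ c : ℝ, ∀ φ ∈ T, Q i j (c • φ) = c * Q i j φ)
    {a : ι → M →ₘ[m] ℝ} (ha : ∀ i, a i ∈ APT S) (i₀ : ι) {ζ : M →ₘ[m] ℝ} (hζ : ζ ∈ APT S)
    (hφ : φ ∈ T) :
    ∑ i, ∑ j, Q i j (φ * (Function.update a i₀ ζ i * Function.update a i₀ ζ j))
      = ∑ i, ∑ j, Q i j (φ * (Function.update a i₀ 0 i * Function.update a i₀ 0 j))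
        + (∑ j, Q i₀ j (φ * ζ * Function.update a i₀ 0 j)
          + ∑ i, Q i i₀ (φ * ζ * Function.update a i₀ 0 i)) + Q i₀ i₀ (φ * ζ ^ 2) := by
  set a0 := Function.update a i₀ 0 with ha0
  have ha0' : ∀ i, a0 i ∈ APT S := by
    intro i
    by_cases h : i = i₀
    · rw [h, ha0, Function.update_self]; exact hC.AP_of_A hC.zeroS
    · rw [ha0, Function.update_of_ne h]; exact ha i
  have hz : ∀ i j, Q i j 0 = 0 := by
    intro i j
    have := hsmul i j 0 0 hC.A_zero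
    simpa using this
  have e : ∀ i j, Q i j (φ * (Function.update a i₀ ζ i * Function.update a i₀ ζ j))
      = Q i j (φ * (a0 i * a0 j)) + ((if i = i₀ then Q i j (φ * ζ * a0 j) else 0)
        + (if j = i₀ then Q i j (φ * ζ * a0 i) else 0))
        + (if i = i₀ then (if j = i₀ then Q i j (φ * ζ ^ 2) else 0) else 0) := by
    intro i j
    by_cases hi : i = i₀
    · by_cases hj : j = i₀
      · subst hi
        subst hj
        simp only [if_true, Function.update_self, ha0, mul_zero, hz, zero_add]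
        rw [sq]
      · subst hi
        simp only [if_true, if_neg hj, Function.update_self, Function.update_of_ne hj, ha0,
          zero_mul, mul_zero, hz, zero_add, add_zero]
        rw [mul_assoc]
    · by_cases hj : j = i₀
      · subst hj
        simp only [if_true, if_neg hi, Function.update_self, Function.update_of_ne hi, ha0,
          mul_zero, hz, zero_add, add_zero]
        rw [mul_assoc, mul_comm (a i)]
      · simp only [if_neg hi, if_neg hj, Function.update_of_ne hi, Function.update_of_ne hj, ha0,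
          add_zero]
  simp only [e, Finset.sum_add_distrib]
  congr 1
  · congr 1
    congr 1
    · have : ∀ i, ∑ j, (if i = i₀ then Q i j (φ * ζ * a0 j) else 0)
          = if i = i₀ then ∑ j, Q i j (φ * ζ * a0 j) else 0 := by
        intro i; split_ifs <;> simp
      simp only [this, Finset.sum_ite_eq', Finset.mem_univ, if_true]
    · simp only [Finset.sum_ite_eq', Finset.mem_univ, if_true]
  · have : ∀ i, ∑ j, (if i = i₀ then (if j = i₀ then Q i j (φ * ζ ^ 2) else 0) else 0)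
        = if i = i₀ then Q i i₀ (φ * ζ ^ 2) else 0 := by
      intro i; split_ifs <;> simp
    simp only [this, Finset.sum_ite_eq', Finset.mem_univ, if_true]

/-- positivity for constant coefficients implies positivity for coefficients in `AP` -/
theorem master_fintype
    (hadd : ∀ i j, ∀ φ ∈ T, ∀ ψ ∈ T, Q i j (φ + ψ) = Q i j φ + Q i j ψ)
    (hsmul : ∀ i j, ∀ c : ℝ, ∀ φ ∈ T, Q i j (c • φ) = c * Q i j φ)
    (hpos : ∀ c : ι → ℝ, ∀ φ ∈ T, 0 ≤ φ → 0 ≤ ∑ i, ∑ j, c i * c j * Q i j φ)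
    {a : ι → M →ₘ[m] ℝ} (ha : ∀ i, a i ∈ APT S) (hφ : φ ∈ T) (hφ0 : 0 ≤ φ) :
    0 ≤ ∑ i, ∑ j, Q i j (φ * (a i * a j)) := by
  suffices H : ∀ S' : Finset ι, ∀ a : ι → M →ₘ[m] ℝ, (∀ i, a i ∈ APT S) →
      (∀ i ∉ S', ∃ c : ℝ, a i = c • (1 : M →ₘ[m] ℝ)) → ∀ φ ∈ T, 0 ≤ φ →
      0 ≤ ∑ i, ∑ j, Q i j (φ * (a i * a j)) from
    H Finset.univ a ha (fun i hi => absurd (Finset.mem_univ i) hi) φ hφ hφ0
  intro S'
  induction S' using Finset.induction_on with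
  | empty =>
    intro a _ hc φ hφ hφ0
    choose c hc using fun i => hc i (Finset.notMem_empty i)
    have : ∀ i j, Q i j (φ * (a i * a j)) = c i * c j * Q i j φ := by
      intro i j
      have e : φ * (a i * a j) = (c i * c j) • φ := by rw [hc i, hc j]; algebra
      rw [e, hsmul _ _ _ _ hφ]
    simp only [this]
    exact hpos c φ hφ hφ0
  | insert i₀ S' hi ih =>
    intro a ha hc φ hφ hφ0
    have hA0 : ∀ i, Function.update a i₀ 0 i ∈ APT S := by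
      intro i
      by_cases h : i = i₀
      · rw [h, Function.update_self]; exact hC.AP_of_A hC.zeroS
      · rw [Function.update_of_ne h]; exact ha i
    have key := hC.bernstein
      (fun φ => ∑ i, ∑ j, Q i j (φ * (Function.update a i₀ 0 i * Function.update a i₀ 0 j)))
      (fun φ => ∑ j, Q i₀ j (φ * Function.update a i₀ 0 j)
          + ∑ i, Q i i₀ (φ * Function.update a i₀ 0 i))
      (fun φ => Q i₀ i₀ φ) ?_ ?_ ?_ ?_ ?_ ?_ ?_ (ha i₀) hφ hφ0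
    · have e := hC.update_identity hadd hsmul ha i₀ (ha i₀) hφ
      rw [Function.update_eq_self] at e
      rw [e]
      exact key
    · intro φ hφ ψ hψ
      simp only [← Finset.sum_add_distrib]
      refine Finset.sum_congr rfl fun i _ => Finset.sum_congr rfl fun j _ => ?_
      rw [add_mul, ← mul_assoc, ← mul_assoc]
      exact hadd _ _ _ (hC.A_mul_AP (hC.A_mul_AP hφ (hA0 i)) (hA0 j)) _
        (hC.A_mul_AP (hC.A_mul_AP hψ (hA0 i)) (hA0 j))
    · intro φ hφ ψ hψ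
      have e1 : ∀ i j k, Q i j ((φ + ψ) * Function.update a i₀ 0 k)
          = Q i j (φ * Function.update a i₀ 0 k) + Q i j (ψ * Function.update a i₀ 0 k) := by
        intro i j k
        rw [add_mul]
        exact hadd _ _ _ (hC.A_mul_AP hφ (hA0 k)) _ (hC.A_mul_AP hψ (hA0 k))
      simp only [e1, Finset.sum_add_distrib]
      ring
    · intro φ hφ ψ hψ
      exact hadd _ _ _ hφ _ hψ
    · intro c φ hφ
      simp only [Finset.mul_sum]
      refine Finset.sum_congr rfl fun i _ => Finset.sum_congr rfl fun j _ => ?_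
      rw [smul_mul_assoc, hsmul]
      rw [← mul_assoc]
      exact hC.A_mul_AP (hC.A_mul_AP hφ (hA0 i)) (hA0 j)
    · intro c φ hφ
      simp only [mul_add, Finset.mul_sum]
      congr 1 <;> refine Finset.sum_congr rfl fun i _ => ?_
      all_goals rw [smul_mul_assoc, hsmul _ _ _ _ (hC.A_mul_AP hφ (hA0 i))]
    · intro c φ hφ
      exact hsmul _ _ _ _ hφ
    · intro c φ hφ hφ0
      have e := hC.update_identity hadd hsmul ha i₀ (hC.AP_const c) hφ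
      have h1 := ih (Function.update a i₀ (c • (1 : M →ₘ[m] ℝ))) ?_ ?_ φ hφ hφ0
      · rw [e] at h1
        have e1 : ∀ i j k, Q i j (φ * c • (1 : M →ₘ[m] ℝ) * Function.update a i₀ 0 k)
            = c * Q i j (φ * Function.update a i₀ 0 k) := by
          intro i j k
          rw [← hsmul _ _ _ _ (hC.A_mul_AP hφ (hA0 k))]
          congr 1
          algebra
        have e2 : Q i₀ i₀ (φ * (c • (1 : M →ₘ[m] ℝ)) ^ 2) = c ^ 2 * Q i₀ i₀ φ := by
          rw [← hsmul _ _ _ _ hφ]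
          congr 1
          algebra
        simp only [e1, e2, ← Finset.mul_sum] at h1
        convert h1 using 1
        ring
      · intro i
        by_cases h : i = i₀
        · rw [h, Function.update_self]; exact hC.AP_const c
        · rw [Function.update_of_ne h]; exact ha i
      · intro i hi'
        by_cases h : i = i₀
        · exact ⟨c, by rw [h, Function.update_self]⟩
        · rw [Function.update_of_ne h]
          exact hc i (by simp [h, hi'])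

end master

end IsMod

end Vale.Agent.P233
end

section

open MeasureTheory Filter Topology
open scoped ENNReal NNReal

namespace Vale.Agent.P233

variable {M : Type*} [MeasurableSpace M] {m : Measure M} {C : Calc m}

/-- a placeholder type for the functions `UU b a b' a' = ⟨∇_{∇a} ∇b, ∇_{∇a'} ∇b'⟩` -/
abbrev UUT (m : Measure M) : Type _ :=
  (M →ₘ[m] ℝ) → (M →ₘ[m] ℝ) → (M →ₘ[m] ℝ) → (M →ₘ[m] ℝ) → (M →ₘ[m] ℝ)

/-- the integrand of `R(∇d,∇e,∇e',∇d')(φ)` -/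
noncomputable def Calc.rrI (C : Calc m) (UU : UUT m) (d e e' d' φ : M →ₘ[m] ℝ) : M →ₘ[m] ℝ :=
  -(C.De φ d * C.hess e' e d') + C.De φ e * C.hess e' d d'
    + φ * (-UU d' d e' e + UU d' e e' d - UU e d e' d' + UU d e e' d')

/-- the integrand of `⟨∇_p q, ∇_r s⟩` -/
noncomputable def Calc.ccI (C : Calc m) (UU : UUT m) (p q r s : (M →ₘ[m] ℝ) × (M →ₘ[m] ℝ)) :
    M →ₘ[m] ℝ :=
  p.1 * r.1 * (C.Γ p.2 q.1 * C.Γ r.2 s.1 * C.Γ q.2 s.2
    + C.Γ p.2 q.1 * s.1 * C.hess s.2 r.2 q.2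
    + q.1 * C.Γ r.2 s.1 * C.hess q.2 p.2 s.2
    + q.1 * s.1 * UU q.2 p.2 s.2 r.2)

/-- the integrand of `⟨∇_p q, (∇ r)ᵀ s⟩` -/
noncomputable def Calc.ctI (C : Calc m) (UU : UUT m) (p q r s : (M →ₘ[m] ℝ) × (M →ₘ[m] ℝ)) :
    M →ₘ[m] ℝ :=
  p.1 * s.1 * (C.Γ p.2 q.1 * (C.Γ r.2 s.2 * C.Γ q.2 r.1 + r.1 * C.hess r.2 s.2 q.2)
    + q.1 * (C.Γ r.2 s.2 * C.hess q.2 p.2 r.1 + r.1 * UU q.2 p.2 r.2 s.2))

/-- `⟨∇_p q, r⟩` -/
noncomputable def Calc.nabI (C : Calc m) (p q r : (M →ₘ[m] ℝ) × (M →ₘ[m] ℝ)) : M →ₘ[m] ℝ :=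
  p.1 * r.1 * (C.Γ p.2 q.1 * C.Γ q.2 r.2 + q.1 * C.hess q.2 p.2 r.2)

/-- `div p` -/
noncomputable def Calc.dvI (C : Calc m) (p : (M →ₘ[m] ℝ) × (M →ₘ[m] ℝ)) : M →ₘ[m] ℝ :=
  C.Γ p.1 p.2 + p.1 * C.lap p.2

/-- the integrand of `R(p,q,r,s)(f)` -/
noncomputable def Calc.omI (C : Calc m) (UU : UUT m) (f : M →ₘ[m] ℝ)
    (p q r s : (M →ₘ[m] ℝ) × (M →ₘ[m] ℝ)) : M →ₘ[m] ℝ :=
  -C.ccI UU p (f * s.1, s.2) q r - f * C.nabI q r s * C.dvI p
    + C.ccI UU q (f * s.1, s.2) p r + f * C.nabI p r s * C.dvI q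
    - (C.ctI UU p q r (f * s.1, s.2) - C.ctI UU q p r (f * s.1, s.2))

namespace IsGamma

variable (hC : IsGamma C) {κ : ℝ} (hB : C.BEi κ)
variable {f g h φ ψ b k x y z w d e e' d' : M →ₘ[m] ℝ}

include hC

theorem tW (hb : b ∈ C.Test) : b ∈ C.W := (hC.test_A hb).1

theorem lap2 (hb : b ∈ C.Test) : MemLp (C.lap b) 2 m := hC.memLp _ (hC.test_lap_mem hb)

theorem ibp (hb : b ∈ C.Test) (hk : k ∈ C.W) : I (C.Γ b k) = - I (C.lap b * k) :=
  (hC.test_isLap hb).2.2 k hk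

theorem ibp_mem (hb : b ∈ C.Test) (hψ : ψ ∈ C.A) (hk : k ∈ C.A) :
    MemLp (ψ * C.Γ b k + k * C.Γ b ψ + ψ * k * C.lap b : M →ₘ[m] ℝ) 1 m :=
  mem_add (mem_add (mem_mul_top hψ.2 (hC.Γ_mem1 (hC.tW hb) hk.1))
      (mem_mul_top hk.2 (hC.Γ_mem1 (hC.tW hb) hψ.1)))
    (mem_mul_22 (mem_mul_top hψ.2 (hC.memLp _ hk.1)) (hC.lap2 hb))

theorem ibp' (hb : b ∈ C.Test) (hψ : ψ ∈ C.A) (hk : k ∈ C.A) :
    I (ψ * C.Γ b k + k * C.Γ b ψ + ψ * k * C.lap b) = 0 := by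
  have h1 := hC.ibp hb (hC.mul_mem_A hψ hk).1
  rw [hC.Γ_mul_right hψ hk (hC.tW hb)] at h1
  have m1 : MemLp (ψ * C.Γ b k + k * C.Γ b ψ : M →ₘ[m] ℝ) 1 m :=
    mem_add (mem_mul_top hψ.2 (hC.Γ_mem1 (hC.tW hb) hk.1))
      (mem_mul_top hk.2 (hC.Γ_mem1 (hC.tW hb) hψ.1))
  have m2 : MemLp (ψ * k * C.lap b : M →ₘ[m] ℝ) 1 m :=
    mem_mul_22 (mem_mul_top hψ.2 (hC.memLp _ hk.1)) (hC.lap2 hb)
  rw [I_add m1 m2, h1]
  have : C.lap b * (ψ * k) = ψ * k * C.lap b := by ring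
  rw [this]; ring

include hB

theorem omI_single_eq (UU : UUT m) (hf : f ∈ C.Test) (hx : x ∈ C.Test) (hy : y ∈ C.Test)
    (hz : z ∈ C.Test) (hw : w ∈ C.Test) (hd : d ∈ C.Test) (he : e ∈ C.Test) (he' : e' ∈ C.Test)
    (hd' : d' ∈ C.Test) :
    C.omI UU f (x, d) (y, e) (z, e') (w, d')
      = C.rrI UU d e e' d' (f * w * x * y * z)
      - ((x * y * (f * w) * C.Γ d' e') * C.Γ d (C.Γ e z)
          + C.Γ e z * C.Γ d (x * y * (f * w) * C.Γ d' e')
          + (x * y * (f * w) * C.Γ d' e') * C.Γ e z * C.lap d)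
      + ((x * y * (f * w) * C.Γ d' e') * C.Γ e (C.Γ d z)
          + C.Γ d z * C.Γ e (x * y * (f * w) * C.Γ d' e')
          + (x * y * (f * w) * C.Γ d' e') * C.Γ d z * C.lap e) := by
  have fA := hC.test_A hf
  have xA := hC.test_A hx
  have yA := hC.test_A hy
  have zA := hC.test_A hz
  have wA := hC.test_A hw
  have dA := hC.test_A hd
  have eA := hC.test_A he
  have e'A := hC.test_A he'
  have d'A := hC.test_A hd'
  have gA := hC.Γ_mem hB hd' he'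
  have FA := hC.mul_mem_A fA wA
  have xyA := hC.mul_mem_A xA yA
  have xyFA := hC.mul_mem_A xyA FA
  have FxA := hC.mul_mem_A FA xA
  have FxyA := hC.mul_mem_A FxA yA
  have hzd := (hC.Γ_mem hB hz hd).1
  have hed := (hC.Γ_mem hB he hd).1
  unfold Calc.omI Calc.rrI Calc.ccI Calc.ctI Calc.nabI Calc.dvI Calc.De Calc.hess
  simp only
  rw [hC.Γ_mul_right xyFA gA dA.1, hC.Γ_mul_right xyFA gA eA.1, hC.Γ_mul_right xyA FA dA.1,
    hC.Γ_mul_right xyA FA eA.1, hC.Γ_mul_right xA yA dA.1, hC.Γ_mul_right xA yA eA.1,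
    hC.Γ_mul_left FxyA zA dA.1, hC.Γ_mul_left FxyA zA eA.1, hC.Γ_mul_left FxA yA dA.1,
    hC.Γ_mul_left FxA yA eA.1, hC.Γ_mul_left FA xA dA.1, hC.Γ_mul_left FA xA eA.1,
    hC.symm _ dA.1 _ FA.1, hC.symm _ eA.1 _ FA.1,
    hC.symm _ dA.1 _ xA.1, hC.symm _ eA.1 _ xA.1, hC.symm _ dA.1 _ yA.1, hC.symm _ eA.1 _ yA.1,
    hC.symm _ dA.1 _ zA.1, hC.symm _ eA.1 _ zA.1,
    hC.symm _ dA.1 _ eA.1, hC.symm _ dA.1 _ e'A.1, hC.symm _ dA.1 _ d'A.1,
    hC.symm _ eA.1 _ e'A.1, hC.symm _ eA.1 _ d'A.1, hC.symm _ e'A.1 _ d'A.1]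
  algebra

omit hB in
theorem mem_De (hφ : φ ∈ C.A) (hd : d ∈ C.Test) : MemLp (C.De φ d) 2 m := by
  unfold Calc.De
  rw [hC.symm _ hφ.1 _ (hC.tW hd)]
  exact mem_add (hC.Γ_mem2 (hC.tW hd) (hC.test_Γ_top hd) hφ.1) (mem_mul_top hφ.2 (hC.lap2 hd))

theorem hess_mem2 (hb : b ∈ C.Test) (hg : g ∈ C.Test) (hh : h ∈ C.Test) :
    MemLp (C.hess b g h) 2 m := by
  have h1 := hC.KK_mem2 hB hg hh hb
  have h2 : C.hess b g h = (2 : ℝ)⁻¹ • C.KK b g h := by
    unfold Calc.KK; rw [smul_smul]; norm_num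
  rw [h2]
  exact mem_smul _ h1

theorem rrI_mem {UU : UUT m} (hd : d ∈ C.Test) (he : e ∈ C.Test) (he' : e' ∈ C.Test)
    (hd' : d' ∈ C.Test) (hφ : φ ∈ C.A)
    (hUU : ∀ a ∈ C.Test, ∀ b ∈ C.Test, ∀ c ∈ C.Test, ∀ d ∈ C.Test, MemLp (UU a b c d) 1 m) :
    MemLp (C.rrI UU d e e' d' φ) 1 m := by
  unfold Calc.rrI
  refine mem_add (mem_add (mem_neg (mem_mul_22 (hC.mem_De hφ hd) (hC.hess_mem2 hB he' he hd')))
    (mem_mul_22 (hC.mem_De hφ he) (hC.hess_mem2 hB he' hd hd'))) (mem_mul_top hφ.2 ?_)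
  exact mem_add (mem_sub (mem_add (mem_neg (hUU _ hd' _ hd _ he' _ he)) (hUU _ hd' _ he _ he' _ hd))
    (hUU _ he _ hd _ he' _ hd')) (hUU _ hd _ he _ he' _ hd')

/-- the tensoriality of the curvature functional -/
theorem I_omI {UU : UUT m} (hf : f ∈ C.Test) (hx : x ∈ C.Test) (hy : y ∈ C.Test)
    (hz : z ∈ C.Test) (hw : w ∈ C.Test) (hd : d ∈ C.Test) (he : e ∈ C.Test) (he' : e' ∈ C.Test)
    (hd' : d' ∈ C.Test)
    (hUU : ∀ a ∈ C.Test, ∀ b ∈ C.Test, ∀ c ∈ C.Test, ∀ d ∈ C.Test, MemLp (UU a b c d) 1 m) :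
    MemLp (C.omI UU f (x, d) (y, e) (z, e') (w, d')) 1 m ∧
    I (C.omI UU f (x, d) (y, e) (z, e') (w, d')) = I (C.rrI UU d e e' d' (f * w * x * y * z)) := by
  have fA := hC.test_A hf
  have xA := hC.test_A hx
  have yA := hC.test_A hy
  have zA := hC.test_A hz
  have wA := hC.test_A hw
  have oA := hC.mul_mem_A (hC.mul_mem_A (hC.mul_mem_A xA yA) (hC.mul_mem_A fA wA))
    (hC.Γ_mem hB hd' he')
  have φA := hC.mul_mem_A (hC.mul_mem_A (hC.mul_mem_A (hC.mul_mem_A fA wA) xA) yA) zA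
  have m0 := hC.rrI_mem hB hd he he' hd' φA hUU
  have m1 := hC.ibp_mem hd oA (hC.Γ_mem hB he hz)
  have m2 := hC.ibp_mem he oA (hC.Γ_mem hB hd hz)
  rw [hC.omI_single_eq hB UU hf hx hy hz hw hd he he' hd']
  refine ⟨mem_add (mem_sub m0 m1) m2, ?_⟩
  rw [I_add (mem_sub m0 m1) m2, I_sub m0 m1, hC.ibp' hd oA (hC.Γ_mem hB he hz),
    hC.ibp' he oA (hC.Γ_mem hB hd hz)]
  ring

end IsGamma

end Vale.Agent.P233
end

section

open MeasureTheory Filter Topology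
open scoped ENNReal NNReal

namespace Vale.Agent.P233

variable {M : Type*} [MeasurableSpace M] {m : Measure M} {C : Calc m}

/-- the functions `⟨∇_{∇a} ∇b, ∇_{∇a'} ∇b'⟩` are integrable and depend linearly on `a,b,a',b'` -/
structure Calc.IsUU (C : Calc m) (UU : UUT m) : Prop where
  mem : ∀ a ∈ C.Test, ∀ b ∈ C.Test, ∀ c ∈ C.Test, ∀ d ∈ C.Test, MemLp (UU a b c d) 1 m
  lin1 : ∀ a ∈ C.Test, ∀ a' ∈ C.Test, ∀ b ∈ C.Test, ∀ c ∈ C.Test, ∀ d ∈ C.Test, ∀ t : ℝ,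
    UU (a + t • a') b c d = UU a b c d + t • UU a' b c d
  lin2 : ∀ a ∈ C.Test, ∀ a' ∈ C.Test, ∀ b ∈ C.Test, ∀ c ∈ C.Test, ∀ d ∈ C.Test, ∀ t : ℝ,
    UU b (a + t • a') c d = UU b a c d + t • UU b a' c d
  lin3 : ∀ a ∈ C.Test, ∀ a' ∈ C.Test, ∀ b ∈ C.Test, ∀ c ∈ C.Test, ∀ d ∈ C.Test, ∀ t : ℝ,
    UU b c (a + t • a') d = UU b c a d + t • UU b c a' d
  lin4 : ∀ a ∈ C.Test, ∀ a' ∈ C.Test, ∀ b ∈ C.Test, ∀ c ∈ C.Test, ∀ d ∈ C.Test, ∀ t : ℝ,
    UU b c d (a + t • a') = UU b c d a + t • UU b c d a'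

section biquad

variable {S B : Set (M →ₘ[m] ℝ)}

/-- a linear space of functions -/
structure IsLin (S : Set (M →ₘ[m] ℝ)) : Prop where
  zero : 0 ∈ S
  add : ∀ f ∈ S, ∀ g ∈ S, f + g ∈ S
  smul : ∀ (c : ℝ), ∀ f ∈ S, c • f ∈ S

theorem IsLin.sum (hS : IsLin S) {ι : Type*} (s : Finset ι) {d : ι → M →ₘ[m] ℝ}
    (hd : ∀ i, d i ∈ S) (c : ι → ℝ) : (∑ i ∈ s, c i • d i) ∈ S := by
  classical
  induction s using Finset.induction_on with
  | empty => simpa using hS.zero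
  | insert i s hi ih =>
    rw [Finset.sum_insert hi]; exact hS.add _ (hS.smul _ _ (hd i)) _ ih

/-- a linear function commutes with finite sums -/
theorem IsLin.map_sum (hS : IsLin S) {V : Type*} [AddCommGroup V] [Module ℝ V]
    {P : (M →ₘ[m] ℝ) → V}
    (hP : ∀ a ∈ S, ∀ a' ∈ S, ∀ t : ℝ, P (a + t • a') = P a + t • P a') {ι : Type*}
    (s : Finset ι) {d : ι → M →ₘ[m] ℝ} (hd : ∀ i, d i ∈ S) (c : ι → ℝ) :
    P (∑ i ∈ s, c i • d i) = ∑ i ∈ s, c i • P (d i) := by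
  classical
  have h0 : P 0 = 0 := by
    have := hP 0 hS.zero 0 hS.zero 1
    simpa using this
  induction s using Finset.induction_on with
  | empty => simpa using h0
  | insert i s hi ih =>
    rw [Finset.sum_insert hi, Finset.sum_insert hi, add_comm (c i • d i),
      hP _ (hS.sum s hd c) _ (hd i), ih, add_comm]

/-- Positivity of a 5-linear functional on the diagonal for constants implies positivity for
function coefficients. -/
theorem biquad {T : Set (M →ₘ[m] ℝ)} (hT : IsMod B T) (hS : IsLin S)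
    (F : (M →ₘ[m] ℝ) → (M →ₘ[m] ℝ) → (M →ₘ[m] ℝ) → (M →ₘ[m] ℝ) → (M →ₘ[m] ℝ) → ℝ)
    (l1 : ∀ a ∈ S, ∀ a' ∈ S, ∀ b ∈ S, ∀ c ∈ S, ∀ d ∈ S, ∀ φ ∈ T, ∀ t : ℝ,
      F (a + t • a') b c d φ = F a b c d φ + t * F a' b c d φ)
    (l2 : ∀ a ∈ S, ∀ a' ∈ S, ∀ b ∈ S, ∀ c ∈ S, ∀ d ∈ S, ∀ φ ∈ T, ∀ t : ℝ,
      F b (a + t • a') c d φ = F b a c d φ + t * F b a' c d φ)
    (l3 : ∀ a ∈ S, ∀ a' ∈ S, ∀ b ∈ S, ∀ c ∈ S, ∀ d ∈ S, ∀ φ ∈ T, ∀ t : ℝ,
      F b c (a + t • a') d φ = F b c a d φ + t * F b c a' d φ)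
    (l4 : ∀ a ∈ S, ∀ a' ∈ S, ∀ b ∈ S, ∀ c ∈ S, ∀ d ∈ S, ∀ φ ∈ T, ∀ t : ℝ,
      F b c d (a + t • a') φ = F b c d a φ + t * F b c d a' φ)
    (l5 : ∀ φ ∈ T, ∀ φ' ∈ T, ∀ a ∈ S, ∀ b ∈ S, ∀ c ∈ S, ∀ d ∈ S, ∀ t : ℝ,
      F a b c d (φ + t • φ') = F a b c d φ + t * F a b c d φ')
    (hpos : ∀ a ∈ S, ∀ b ∈ S, ∀ φ ∈ T, 0 ≤ φ → 0 ≤ F a b b a φ)
    {ι ι' : Type*} [Fintype ι] [Fintype ι'] {d x : ι → M →ₘ[m] ℝ} {e y : ι' → M →ₘ[m] ℝ}
    (hd : ∀ i, d i ∈ S) (he : ∀ i, e i ∈ S) (hx : ∀ i, x i ∈ APT B) (hy : ∀ i, y i ∈ APT B)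
    {φ : M →ₘ[m] ℝ} (hφ : φ ∈ T) (hφ0 : 0 ≤ φ) :
    0 ≤ ∑ j, ∑ l, ∑ i, ∑ k, F (d i) (e j) (e l) (d k) (φ * (y j * y l) * (x i * x k)) := by
  classical
  -- linearity in `φ`
  have ladd : ∀ a ∈ S, ∀ b ∈ S, ∀ c ∈ S, ∀ d ∈ S, ∀ φ ∈ T, ∀ ψ ∈ T,
      F a b c d (φ + ψ) = F a b c d φ + F a b c d ψ := by
    intro a ha b hb c hc d hd φ hφ ψ hψ
    have := l5 φ hφ ψ hψ a ha b hb c hc d hd 1
    simpa using this
  have l0 : ∀ a ∈ S, ∀ b ∈ S, ∀ c ∈ S, ∀ d ∈ S, F a b c d 0 = 0 := by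
    intro a ha b hb c hc d hd
    have := ladd a ha b hb c hc d hd 0 hT.zero 0 hT.zero
    simpa using this
  have lsm : ∀ a ∈ S, ∀ b ∈ S, ∀ c ∈ S, ∀ d ∈ S, ∀ t : ℝ, ∀ φ ∈ T,
      F a b c d (t • φ) = t * F a b c d φ := by
    intro a ha b hb c hc d hd t φ hφ
    have := l5 0 hT.zero φ hφ a ha b hb c hc d hd t
    rw [l0 a ha b hb c hc d hd] at this
    simpa using this
  -- step A
  have stepA : ∀ b ∈ S, ∀ φ ∈ T, 0 ≤ φ → 0 ≤ ∑ i, ∑ k, F (d i) b b (d k) (φ * (x i * x k)) := by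
    intro b hb φ hφ hφ0
    refine hT.master_fintype (Q := fun i k φ => F (d i) b b (d k) φ) ?_ ?_ ?_ hx hφ hφ0
    · intro i k φ hφ ψ hψ
      exact ladd _ (hd i) _ hb _ hb _ (hd k) _ hφ _ hψ
    · intro i k c φ hφ
      exact lsm _ (hd i) _ hb _ hb _ (hd k) c _ hφ
    · intro c φ hφ hφ0
      have hs := hS.sum Finset.univ hd c
      have h1 := hpos _ hs b hb φ hφ hφ0
      have e1 := hS.map_sum (P := fun a => F a b b (∑ i, c i • d i) φ)
        (fun a ha a' ha' t => l1 a ha a' ha' b hb b hb _ hs φ hφ t) Finset.univ hd c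
      have e2 : ∀ i, F (d i) b b (∑ i, c i • d i) φ = ∑ k, c k • F (d i) b b (d k) φ := fun i =>
        hS.map_sum (P := fun a => F (d i) b b a φ)
          (fun a ha a' ha' t => l4 a ha a' ha' _ (hd i) b hb b hb φ hφ t) Finset.univ hd c
      rw [e1] at h1
      simp only [e2, smul_eq_mul, Finset.mul_sum] at h1
      convert h1 using 1
      refine Finset.sum_congr rfl fun i _ => Finset.sum_congr rfl fun k _ => ?_
      ring
  have hm : ∀ φ ∈ T, ∀ i k, φ * (x i * x k) ∈ T := by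
    intro φ hφ i k
    rw [← mul_assoc]
    exact hT.A_mul_AP (hT.A_mul_AP hφ (hx i)) (hx k)
  -- step B
  refine hT.master_fintype (Q := fun j l φ => ∑ i, ∑ k, F (d i) (e j) (e l) (d k)
    (φ * (x i * x k))) ?_ ?_ ?_ hy hφ hφ0
  · intro j l φ hφ ψ hψ
    simp only [← Finset.sum_add_distrib]
    refine Finset.sum_congr rfl fun i _ => Finset.sum_congr rfl fun k _ => ?_
    rw [add_mul]
    exact ladd _ (hd i) _ (he j) _ (he l) _ (hd k) _ (hm _ hφ i k) _ (hm _ hψ i k)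
  · intro j l c φ hφ
    simp only [Finset.mul_sum]
    refine Finset.sum_congr rfl fun i _ => Finset.sum_congr rfl fun k _ => ?_
    rw [smul_mul_assoc]
    exact lsm _ (hd i) _ (he j) _ (he l) _ (hd k) c _ (hm _ hφ i k)
  · intro c φ hφ hφ0
    have hs := hS.sum Finset.univ he c
    have h1 := stepA _ hs φ hφ hφ0
    have e1 : ∀ i k, F (d i) (∑ j, c j • e j) (∑ j, c j • e j) (d k) (φ * (x i * x k))
        = ∑ j, ∑ l, c j * c l * F (d i) (e j) (e l) (d k) (φ * (x i * x k)) := by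
      intro i k
      have a1 := hS.map_sum (P := fun a => F (d i) a (∑ j, c j • e j) (d k) (φ * (x i * x k)))
        (fun a ha a' ha' t => l2 a ha a' ha' _ (hd i) _ hs _ (hd k) _ (hm _ hφ i k) t)
        Finset.univ he c
      have a2 : ∀ j, F (d i) (e j) (∑ j, c j • e j) (d k) (φ * (x i * x k))
          = ∑ l, c l • F (d i) (e j) (e l) (d k) (φ * (x i * x k)) := fun j =>
        hS.map_sum (P := fun a => F (d i) (e j) a (d k) (φ * (x i * x k)))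
          (fun a ha a' ha' t => l3 a ha a' ha' _ (hd i) _ (he j) _ (hd k) _ (hm _ hφ i k) t)
          Finset.univ he c
      rw [a1]
      refine Finset.sum_congr rfl fun j _ => ?_
      rw [a2, smul_eq_mul, Finset.mul_sum]
      refine Finset.sum_congr rfl fun l _ => ?_
      rw [smul_eq_mul]; ring
    simp only [e1] at h1
    refine h1.trans_eq ?_
    calc ∑ i, ∑ k, ∑ j, ∑ l, c j * c l * F (d i) (e j) (e l) (d k) (φ * (x i * x k))
        = ∑ i, ∑ j, ∑ k, ∑ l, c j * c l * F (d i) (e j) (e l) (d k) (φ * (x i * x k)) :=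
          Finset.sum_congr rfl fun i _ => Finset.sum_comm
      _ = ∑ j, ∑ i, ∑ k, ∑ l, c j * c l * F (d i) (e j) (e l) (d k) (φ * (x i * x k)) :=
          Finset.sum_comm
      _ = ∑ j, ∑ i, ∑ l, ∑ k, c j * c l * F (d i) (e j) (e l) (d k) (φ * (x i * x k)) :=
          Finset.sum_congr rfl fun j _ => Finset.sum_congr rfl fun i _ => Finset.sum_comm
      _ = ∑ j, ∑ l, ∑ i, ∑ k, c j * c l * F (d i) (e j) (e l) (d k) (φ * (x i * x k)) :=
          Finset.sum_congr rfl fun j _ => Finset.sum_comm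
      _ = _ := by
          refine Finset.sum_congr rfl fun j _ => Finset.sum_congr rfl fun l _ => ?_
          simp only [Finset.mul_sum]

end biquad

end Vale.Agent.P233
end

section

open MeasureTheory Filter Topology
open scoped ENNReal NNReal

namespace Vale.Agent.P233

variable {M : Type*} [MeasurableSpace M] {m : Measure M} {C : Calc m}

/-- `R(∇a,∇b,∇b',∇a')(φ) - κ ∫ φ (⟨a,a'⟩⟨b,b'⟩ - ⟨a,b⟩⟨a',b'⟩)` -/
noncomputable def Calc.rkI (C : Calc m) (UU : UUT m) (κ : ℝ) (a b b' a' φ : M →ₘ[m] ℝ) :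
    M →ₘ[m] ℝ :=
  C.rrI UU a b b' a' φ - κ • (φ * (C.Γ a a' * C.Γ b b' - C.Γ a b * C.Γ a' b'))

namespace IsGamma

variable (hC : IsGamma C) {κ κ' : ℝ} (hB : C.BEi κ)
variable {f g h φ ψ a b c d a' φ' b' : M →ₘ[m] ℝ} (t : ℝ)

include hC

theorem Γ_linl (hf : f ∈ C.W) (hg : g ∈ C.W) (hh : h ∈ C.W) :
    C.Γ (f + t • g) h = C.Γ f h + t • C.Γ g h := by
  rw [hC.add_left _ hf _ (hC.smul_mem _ _ hg) _ hh, hC.smul_left _ _ hg _ hh]

theorem Γ_linr (hf : f ∈ C.W) (hg : g ∈ C.W) (hh : h ∈ C.W) :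
    C.Γ h (f + t • g) = C.Γ h f + t • C.Γ h g := by
  rw [hC.Γ_add_right hh hf (hC.smul_mem _ _ hg), hC.Γ_smul_right _ hh hg]

theorem De_linTφ (hφ : φ ∈ C.W) (hφ' : φ' ∈ C.W) (ha : a ∈ C.Test) :
    C.De (φ + t • φ') a = C.De φ a + t • C.De φ' a := by
  unfold Calc.De
  rw [hC.Γ_linl t hφ hφ' (hC.tW ha)]
  algebra

include hB

theorem isLin_test : IsLin C.Test :=
  ⟨hC.test_zero hB, fun _ hf _ hg => hC.test_add hB hf hg, fun c _ hf => hC.test_smul hB c hf⟩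

theorem isMod_test : IsMod C.Test C.Test :=
  ⟨hC.test_zero hB, fun _ hf _ hg => hC.test_add hB hf hg, fun c _ hf => hC.test_smul hB c hf,
    fun _ hf _ hg => hC.test_mul hB hf hg, hC.test_zero hB, fun c _ hf => hC.test_smul hB c hf,
    fun _ hf => (hC.test_A hf).2⟩

theorem lap_lin (ha : a ∈ C.Test) (ha' : a' ∈ C.Test) :
    C.lap (a + t • a') = C.lap a + t • C.lap a' := by
  rw [hC.lap_add hB ha (hC.test_smul hB t ha'), hC.lap_smul hB t ha']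

theorem De_linT (hφ : φ ∈ C.W) (ha : a ∈ C.Test) (ha' : a' ∈ C.Test) :
    C.De φ (a + t • a') = C.De φ a + t • C.De φ a' := by
  unfold Calc.De
  rw [hC.Γ_linr t (hC.tW ha) (hC.tW ha') hφ, hC.lap_lin hB t ha ha']
  algebra

theorem hess_lin1 (ha : a ∈ C.Test) (ha' : a' ∈ C.Test) (hb : b ∈ C.Test) (hc : c ∈ C.Test) :
    C.hess (a + t • a') b c = C.hess a b c + t • C.hess a' b c := by
  have aW := hC.tW ha
  have a'W := hC.tW ha'
  have bW := hC.tW hb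
  have cW := hC.tW hc
  have h1 := (hC.Γ_mem hB ha hc).1
  have h2 := (hC.Γ_mem hB ha' hc).1
  have h3 := (hC.Γ_mem hB ha hb).1
  have h4 := (hC.Γ_mem hB ha' hb).1
  have h5 := (hC.Γ_mem hB hb hc).1
  unfold Calc.hess
  rw [hC.Γ_linl t aW a'W cW, hC.Γ_linl t aW a'W bW, hC.Γ_linl t aW a'W h5,
    hC.Γ_linr t h1 h2 bW, hC.Γ_linr t h3 h4 cW]
  algebra

theorem hess_lin2 (ha : a ∈ C.Test) (ha' : a' ∈ C.Test) (hb : b ∈ C.Test) (hc : c ∈ C.Test) :
    C.hess b (a + t • a') c = C.hess b a c + t • C.hess b a' c := by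
  have aW := hC.tW ha
  have a'W := hC.tW ha'
  have bW := hC.tW hb
  have cW := hC.tW hc
  have h1 := (hC.Γ_mem hB hb hc).1
  have h2 := (hC.Γ_mem hB hb ha).1
  have h3 := (hC.Γ_mem hB hb ha').1
  have h4 := (hC.Γ_mem hB ha hc).1
  have h5 := (hC.Γ_mem hB ha' hc).1
  unfold Calc.hess
  rw [hC.Γ_linl t aW a'W h1, hC.Γ_linr t aW a'W bW, hC.Γ_linl t aW a'W cW,
    hC.Γ_linr t h2 h3 cW, hC.Γ_linr t h4 h5 bW]
  algebra

theorem hess_symm (ha : a ∈ C.Test) (hb : b ∈ C.Test) (hc : c ∈ C.Test) :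
    C.hess a b c = C.hess a c b := by
  unfold Calc.hess
  rw [hC.symm _ (hC.tW hb) _ (hC.tW hc)]
  algebra

theorem hess_lin3 (ha : a ∈ C.Test) (ha' : a' ∈ C.Test) (hb : b ∈ C.Test) (hc : c ∈ C.Test) :
    C.hess b c (a + t • a') = C.hess b c a + t • C.hess b c a' := by
  have hs := hC.test_add hB ha (hC.test_smul hB t ha')
  rw [hC.hess_symm hB hb hc hs, hC.hess_lin2 hB t ha ha' hb hc, hC.hess_symm hB hb ha hc,
    hC.hess_symm hB hb ha' hc]

variable {UU : UUT m} (hU : C.IsUU UU)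
include hU

theorem rkI_lin1 (ha : a ∈ C.Test) (ha' : a' ∈ C.Test) (hb : b ∈ C.Test) (hc : c ∈ C.Test)
    (hd : d ∈ C.Test) (hφ : φ ∈ C.W) :
    C.rkI UU κ' (a + t • a') b c d φ = C.rkI UU κ' a b c d φ + t • C.rkI UU κ' a' b c d φ := by
  have aW := hC.tW ha
  have a'W := hC.tW ha'
  unfold Calc.rkI Calc.rrI
  rw [hC.De_linT hB t hφ ha ha', hC.hess_lin2 hB t ha ha' hc hd, hU.lin2 _ ha _ ha' _ hd _ hc _ hb,
    hU.lin4 _ ha _ ha' _ hd _ hb _ hc, hU.lin2 _ ha _ ha' _ hb _ hc _ hd,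
    hU.lin1 _ ha _ ha' _ hb _ hc _ hd, hC.Γ_linl t aW a'W (hC.tW hd),
    hC.Γ_linl t aW a'W (hC.tW hb)]
  algebra

theorem rkI_lin2 (ha : a ∈ C.Test) (ha' : a' ∈ C.Test) (hb : b ∈ C.Test) (hc : c ∈ C.Test)
    (hd : d ∈ C.Test) (hφ : φ ∈ C.W) :
    C.rkI UU κ' b (a + t • a') c d φ = C.rkI UU κ' b a c d φ + t • C.rkI UU κ' b a' c d φ := by
  have aW := hC.tW ha
  have a'W := hC.tW ha'
  unfold Calc.rkI Calc.rrI
  rw [hC.De_linT hB t hφ ha ha', hC.hess_lin2 hB t ha ha' hc hd, hU.lin4 _ ha _ ha' _ hd _ hb _ hc,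
    hU.lin2 _ ha _ ha' _ hd _ hc _ hb, hU.lin1 _ ha _ ha' _ hb _ hc _ hd,
    hU.lin2 _ ha _ ha' _ hb _ hc _ hd, hC.Γ_linl t aW a'W (hC.tW hc),
    hC.Γ_linr t aW a'W (hC.tW hb)]
  algebra

theorem rkI_lin3 (ha : a ∈ C.Test) (ha' : a' ∈ C.Test) (hb : b ∈ C.Test) (hc : c ∈ C.Test)
    (hd : d ∈ C.Test) (hφ : φ ∈ C.W) :
    C.rkI UU κ' b c (a + t • a') d φ = C.rkI UU κ' b c a d φ + t • C.rkI UU κ' b c a' d φ := by
  have aW := hC.tW ha
  have a'W := hC.tW ha'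
  unfold Calc.rkI Calc.rrI
  rw [hC.hess_lin1 hB t ha ha' hc hd, hC.hess_lin1 hB t ha ha' hb hd,
    hU.lin3 _ ha _ ha' _ hd _ hb _ hc, hU.lin3 _ ha _ ha' _ hd _ hc _ hb,
    hU.lin3 _ ha _ ha' _ hc _ hb _ hd, hU.lin3 _ ha _ ha' _ hb _ hc _ hd,
    hC.Γ_linr t aW a'W (hC.tW hc), hC.Γ_linr t aW a'W (hC.tW hd)]
  algebra

theorem rkI_lin4 (ha : a ∈ C.Test) (ha' : a' ∈ C.Test) (hb : b ∈ C.Test) (hc : c ∈ C.Test)
    (hd : d ∈ C.Test) :
    C.rkI UU κ' b c d (a + t • a') φ = C.rkI UU κ' b c d a φ + t • C.rkI UU κ' b c d a' φ := by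
  have aW := hC.tW ha
  have a'W := hC.tW ha'
  unfold Calc.rkI Calc.rrI
  rw [hC.hess_lin3 hB t ha ha' hd hc, hC.hess_lin3 hB t ha ha' hd hb,
    hU.lin1 _ ha _ ha' _ hb _ hd _ hc, hU.lin1 _ ha _ ha' _ hc _ hd _ hb,
    hU.lin4 _ ha _ ha' _ hc _ hb _ hd, hU.lin4 _ ha _ ha' _ hb _ hc _ hd,
    hC.Γ_linr t aW a'W (hC.tW hb), hC.Γ_linl t aW a'W (hC.tW hd)]
  algebra

omit hU hB in
theorem rkI_linφ (ha : a ∈ C.Test) (hb : b ∈ C.Test) (hφ : φ ∈ C.W) (hφ' : φ' ∈ C.W) :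
    C.rkI UU κ' a b c d (φ + t • φ') = C.rkI UU κ' a b c d φ + t • C.rkI UU κ' a b c d φ' := by
  unfold Calc.rkI Calc.rrI
  rw [hC.De_linTφ t hφ hφ' ha, hC.De_linTφ t hφ hφ' hb]
  algebra

theorem rkI_mem (ha : a ∈ C.Test) (hb : b ∈ C.Test) (hc : c ∈ C.Test)
    (hd : d ∈ C.Test) (hφ : φ ∈ C.A) : MemLp (C.rkI UU κ' a b c d φ) 1 m := by
  unfold Calc.rkI
  refine mem_sub (hC.rrI_mem hB ha hb hc hd hφ hU.mem) (mem_smul _ (mem_mul_top hφ.2 ?_))
  exact mem_sub (mem_mul_top (hC.Γ_mem hB ha hd).2 (hC.Γ_mem1 (hC.tW hb) (hC.tW hc)))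
    (mem_mul_top (hC.Γ_mem hB ha hb).2 (hC.Γ_mem1 (hC.tW hd) (hC.tW hc)))

/-- from gradients to fields -/
theorem fields_of_gradients
    (hpos : ∀ a ∈ C.Test, ∀ b ∈ C.Test, ∀ φ ∈ C.Test, 0 ≤ φ → 0 ≤ I (C.rkI UU κ' a b b a φ))
    {ι ι' : Type*} [Fintype ι] [Fintype ι'] {d x : ι → M →ₘ[m] ℝ} {e y : ι' → M →ₘ[m] ℝ}
    (hd : ∀ i, d i ∈ C.Test) (he : ∀ i, e i ∈ C.Test) (hx : ∀ i, x i ∈ C.Test)
    (hy : ∀ i, y i ∈ C.Test) (hφ : φ ∈ C.Test) (hφ0 : 0 ≤ φ) :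
    0 ≤ ∑ j, ∑ l, ∑ i, ∑ k,
      I (C.rkI UU κ' (d i) (e j) (e l) (d k) (φ * (y j * y l) * (x i * x k))) := by
  have hT := hC.isMod_test hB
  have lin : ∀ {P Q R : M →ₘ[m] ℝ} {t : ℝ}, MemLp Q 1 m → MemLp R 1 m → P = Q + t • R →
      I P = I Q + t * I R := by
    intro P Q R t hQ hR h
    rw [h, I_add hQ (mem_smul _ hR), I_smul]
  have tA : ∀ {f : M →ₘ[m] ℝ}, f ∈ C.Test → f ∈ C.A := fun hf => hC.test_A hf
  refine biquad hT (hC.isLin_test hB) (fun a b c d φ => I (C.rkI UU κ' a b c d φ))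
    ?_ ?_ ?_ ?_ ?_ hpos hd he (fun i => hT.AP_of_A (hx i)) (fun i => hT.AP_of_A (hy i)) hφ hφ0
  · intro a ha a' ha' b hb c hc d hd φ hφ t
    exact lin (hC.rkI_mem hB hU ha hb hc hd (tA hφ)) (hC.rkI_mem hB hU ha' hb hc hd (tA hφ))
      (hC.rkI_lin1 hB t hU ha ha' hb hc hd (hC.tW hφ))
  · intro a ha a' ha' b hb c hc d hd φ hφ t
    exact lin (hC.rkI_mem hB hU hb ha hc hd (tA hφ)) (hC.rkI_mem hB hU hb ha' hc hd (tA hφ))
      (hC.rkI_lin2 hB t hU ha ha' hb hc hd (hC.tW hφ))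
  · intro a ha a' ha' b hb c hc d hd φ hφ t
    exact lin (hC.rkI_mem hB hU hb hc ha hd (tA hφ)) (hC.rkI_mem hB hU hb hc ha' hd (tA hφ))
      (hC.rkI_lin3 hB t hU ha ha' hb hc hd (hC.tW hφ))
  · intro a ha a' ha' b hb c hc d hd φ hφ t
    exact lin (hC.rkI_mem hB hU hb hc hd ha (tA hφ)) (hC.rkI_mem hB hU hb hc hd ha' (tA hφ))
      (hC.rkI_lin4 hB t hU ha ha' hb hc hd)
  · intro φ hφ φ' hφ' a ha b hb c hc d hd t
    exact lin (hC.rkI_mem hB hU ha hb hc hd (tA hφ)) (hC.rkI_mem hB hU ha hb hc hd (tA hφ'))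
      (hC.rkI_linφ t ha hb (hC.tW hφ) (hC.tW hφ'))

end IsGamma

end Vale.Agent.P233
end

section

open MeasureTheory Filter Topology Set
open scoped ENNReal NNReal

namespace Vale.Agent.P233.Met

variable {M : Type*} [MeasurableSpace M] {m : Measure M}

/-- dominated convergence in `L²` -/
theorem tendsto_eLpNorm_zero_of_dominated {F : ℕ → M → ℝ} {B : M → ℝ} (hB : MemLp B 2 m)
    (hF : ∀ k, AEStronglyMeasurable (F k) m) (hFB : ∀ k, ∀ᵐ x ∂m, |F k x| ≤ B x)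
    (hlim : ∀ᵐ x ∂m, Tendsto (fun k => F k x) atTop (𝓝 0)) :
    Tendsto (fun k => eLpNorm (F k) 2 m) atTop (𝓝 0) := by
  have h2 : (2 : ℝ≥0∞) ≠ 0 := by norm_num
  have h2' : (2 : ℝ≥0∞) ≠ ∞ := by norm_num
  have key : Tendsto (fun k => ∫⁻ x, ‖F k x‖ₑ ^ (2 : ℝ) ∂m) atTop (𝓝 (∫⁻ _, 0 ∂m)) := by
    refine tendsto_lintegral_of_dominated_convergence' (fun x => ‖B x‖ₑ ^ (2 : ℝ)) ?_ ?_ ?_ ?_
    · intro k
      exact (hF k).enorm.pow_const _
    · intro k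
      filter_upwards [hFB k] with x hx
      have : ‖F k x‖ₑ ≤ ‖B x‖ₑ := by
        rw [Real.enorm_eq_ofReal_abs, Real.enorm_eq_ofReal_abs]
        exact ENNReal.ofReal_le_ofReal (hx.trans (le_abs_self _))
      gcongr
    · have := hB.eLpNorm_lt_top
      have h3 := (eLpNorm_lt_top_iff_lintegral_rpow_enorm_lt_top h2 h2').1 this
      simpa using h3.ne
    · filter_upwards [hlim] with x hx
      have h3 : Tendsto (fun k => ‖F k x‖ₑ) atTop (𝓝 0) := by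
        have := (continuous_enorm.tendsto (0 : ℝ)).comp hx
        simpa [Function.comp_def] using this
      have h4 := (ENNReal.continuous_rpow_const (y := (2 : ℝ))).tendsto 0 |>.comp h3
      simpa [Function.comp_def] using h4
  simp only [lintegral_const, zero_mul] at key
  have h5 : ∀ k, eLpNorm (F k) 2 m = (∫⁻ x, ‖F k x‖ₑ ^ (2 : ℝ) ∂m) ^ (1 / 2 : ℝ) := by
    intro k
    rw [eLpNorm_eq_lintegral_rpow_enorm_toReal h2 h2']
    simp
  simp_rw [h5]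
  have h6 := (ENNReal.continuous_rpow_const (y := (1 / 2 : ℝ))).tendsto 0 |>.comp key
  simpa [Function.comp_def] using h6

/-- a subsequence converging almost everywhere -/
theorem exists_subseq_ae {u : ℕ → M → ℝ} {f : M → ℝ}
    (hu : ∀ k, AEStronglyMeasurable (u k) m) (hf : AEStronglyMeasurable f m)
    (h : Tendsto (fun k => eLpNorm (u k - f) 2 m) atTop (𝓝 0)) :
    ∃ ns : ℕ → ℕ, StrictMono ns ∧ ∀ᵐ x ∂m, Tendsto (fun k => u (ns k) x) atTop (𝓝 (f x)) := by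
  have h1 : TendstoInMeasure m u atTop f :=
    tendstoInMeasure_of_tendsto_eLpNorm (by norm_num) hu hf h
  exact h1.exists_seq_tendsto_ae

/-- `L²` limits of nonnegative functions are nonnegative -/
theorem nonneg_of_tendsto_L2 {g : ℕ → M → ℝ} {G : M → ℝ}
    (hg : ∀ k, AEStronglyMeasurable (g k) m) (hG : AEStronglyMeasurable G m)
    (h : Tendsto (fun k => eLpNorm (g k - G) 2 m) atTop (𝓝 0)) (h0 : ∀ k, ∀ᵐ x ∂m, 0 ≤ g k x) :
    ∀ᵐ x ∂m, 0 ≤ G x := by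
  obtain ⟨ns, -, hns⟩ := exists_subseq_ae hg hG h
  have h0' : ∀ᵐ x ∂m, ∀ k, 0 ≤ g k x := ae_all_iff.2 h0
  filter_upwards [hns, h0'] with x hx hx0
  exact ge_of_tendsto' hx (fun k => hx0 _)

end Vale.Agent.P233.Met
end

section

open MeasureTheory Filter Topology Set
open scoped ENNReal NNReal

namespace Vale.Agent.P233.Met

variable {M : Type*} [MetricSpace M] [MeasurableSpace M] {m : Measure M}

/-- admissible pair: Lipschitz function with an `L²` bound of its local Lipschitz constant -/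
def Good (m : Measure M) (u g : M → ℝ) : Prop :=
  IsLip u ∧ MemLp u 2 m ∧ MemLp g 2 m ∧ ∀ᵐ x ∂m, 0 ≤ g x ∧ lipAt u x ≤ ENNReal.ofReal (g x)

/-- `G` is a relaxed slope of `f` -/
def RSlope (m : Measure M) (f G : M → ℝ) : Prop :=
  MemLp f 2 m ∧ MemLp G 2 m ∧ ∃ u g : ℕ → M → ℝ, (∀ k, Good m (u k) (g k)) ∧
    Tendsto (fun k => eLpNorm (u k - f) 2 m) atTop (𝓝 0) ∧
    Tendsto (fun k => eLpNorm (g k - G) 2 m) atTop (𝓝 0)

theorem Good.lipBd {u g : M → ℝ} (h : Good m u g) : ∀ᵐ x ∂m, 0 ≤ g x ∧ LipBd u x (g x) := by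
  filter_upwards [h.2.2.2] with x hx
  exact ⟨hx.1, (lipAt_le_ofReal_iff hx.1).1 hx.2⟩

theorem Good.mk' {u g : M → ℝ} (h1 : IsLip u) (h2 : MemLp u 2 m) (h3 : MemLp g 2 m)
    (h4 : ∀ᵐ x ∂m, 0 ≤ g x ∧ LipBd u x (g x)) : Good m u g := by
  refine ⟨h1, h2, h3, ?_⟩
  filter_upwards [h4] with x hx
  exact ⟨hx.1, (lipAt_le_ofReal_iff hx.1).2 hx.2⟩

theorem rSlope_iff_eps {f G : M → ℝ} :
    RSlope m f G ↔ MemLp f 2 m ∧ MemLp G 2 m ∧ ∀ ε : ℝ≥0∞, ε ≠ 0 →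
      ∃ u g : M → ℝ, Good m u g ∧ eLpNorm (u - f) 2 m ≤ ε ∧ eLpNorm (g - G) 2 m ≤ ε := by
  constructor
  · rintro ⟨hf, hG, u, g, hug, h1, h2⟩
    refine ⟨hf, hG, fun ε hε => ?_⟩
    have e1 := (h1.eventually (ge_mem_nhds (pos_iff_ne_zero.2 hε)))
    have e2 := (h2.eventually (ge_mem_nhds (pos_iff_ne_zero.2 hε)))
    obtain ⟨k, hk1, hk2⟩ := (e1.and e2).exists
    exact ⟨u k, g k, hug k, hk1, hk2⟩
  · rintro ⟨hf, hG, h⟩
    have hex : ∀ k : ℕ, ∃ p : (M → ℝ) × (M → ℝ), Good m p.1 p.2 ∧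
        eLpNorm (p.1 - f) 2 m ≤ ((k : ℝ≥0∞) + 1)⁻¹ ∧
        eLpNorm (p.2 - G) 2 m ≤ ((k : ℝ≥0∞) + 1)⁻¹ := by
      intro k
      obtain ⟨u, g, h1, h2, h3⟩ := h ((k : ℝ≥0∞) + 1)⁻¹ (by
        simp [ENNReal.inv_eq_zero])
      exact ⟨(u, g), h1, h2, h3⟩
    choose p hp1 hp2 hp3 using hex
    have hlim : Tendsto (fun k : ℕ => ((k : ℝ≥0∞) + 1)⁻¹) atTop (𝓝 0) := by
      have := ENNReal.tendsto_inv_nat_nhds_zero
      have h2 := this.comp (tendsto_add_atTop_nat 1)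
      simpa [Function.comp_def] using h2
    refine ⟨hf, hG, fun k => (p k).1, fun k => (p k).2, hp1, ?_, ?_⟩
    · exact tendsto_of_tendsto_of_tendsto_of_le_of_le tendsto_const_nhds hlim
        (fun _ => zero_le) hp2
    · exact tendsto_of_tendsto_of_tendsto_of_le_of_le tendsto_const_nhds hlim
        (fun _ => zero_le) hp3

theorem Good.rSlope {u g : M → ℝ} (h : Good m u g) : RSlope m u g := by
  rw [rSlope_iff_eps]
  refine ⟨h.2.1, h.2.2.1, fun ε _ => ⟨u, g, h, ?_, ?_⟩⟩ <;> simp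

theorem RSlope.congr {f G f' G' : M → ℝ} (h : RSlope m f G)
    (hf : f =ᵐ[m] f') (hG : G =ᵐ[m] G') : RSlope m f' G' := by
  rw [rSlope_iff_eps] at h ⊢
  refine ⟨h.1.ae_eq hf, h.2.1.ae_eq hG, fun ε hε => ?_⟩
  obtain ⟨u, g, h1, h2, h3⟩ := h.2.2 ε hε
  refine ⟨u, g, h1, ?_, ?_⟩
  · rwa [eLpNorm_congr_ae (g := u - f)]
    filter_upwards [hf] with x hx; simp [hx]
  · rwa [eLpNorm_congr_ae (g := g - G)]
    filter_upwards [hG] with x hx; simp [hx]

theorem RSlope.nonneg {f G : M → ℝ} (h : RSlope m f G) : ∀ᵐ x ∂m, 0 ≤ G x := by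
  obtain ⟨-, hG, u, g, hug, -, h2⟩ := h
  refine nonneg_of_tendsto_L2 (fun k => (hug k).2.2.1.1) hG.1 h2 (fun k => ?_)
  filter_upwards [(hug k).2.2.2] with x hx using hx.1

/-- closure under strong `L²` convergence -/
theorem RSlope.of_eps {f G : M → ℝ} (hf : MemLp f 2 m) (hG : MemLp G 2 m)
    (h : ∀ ε : ℝ≥0∞, ε ≠ 0 → ∃ f' G' : M → ℝ, RSlope m f' G' ∧
      eLpNorm (f' - f) 2 m ≤ ε ∧ eLpNorm (G' - G) 2 m ≤ ε) : RSlope m f G := by
  rw [rSlope_iff_eps]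
  refine ⟨hf, hG, fun ε hε => ?_⟩
  obtain ⟨f', G', hfG, h1, h2⟩ := h (ε / 2) (by simpa using hε)
  obtain ⟨u, g, hug, h3, h4⟩ := (rSlope_iff_eps.1 hfG).2.2 (ε / 2) (by simpa using hε)
  refine ⟨u, g, hug, ?_, ?_⟩
  · have : u - f = (u - f') + (f' - f) := by simp
    rw [this]
    refine (eLpNorm_add_le (hug.2.1.1.sub hfG.1.1) (hfG.1.1.sub hf.1) (by norm_num)).trans ?_
    calc _ ≤ ε / 2 + ε / 2 := by gcongr
      _ = ε := ENNReal.add_halves ε
  · have : g - G = (g - G') + (G' - G) := by simp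
    rw [this]
    refine (eLpNorm_add_le (hug.2.2.1.1.sub hfG.2.1.1) (hfG.2.1.1.sub hG.1) (by norm_num)).trans ?_
    calc _ ≤ ε / 2 + ε / 2 := by gcongr
      _ = ε := ENNReal.add_halves ε

theorem RSlope.of_tendsto {f G : M → ℝ} {F H : ℕ → M → ℝ} (hf : MemLp f 2 m)
    (hG : MemLp G 2 m) (h : ∀ k, RSlope m (F k) (H k))
    (h1 : Tendsto (fun k => eLpNorm (F k - f) 2 m) atTop (𝓝 0))
    (h2 : Tendsto (fun k => eLpNorm (H k - G) 2 m) atTop (𝓝 0)) : RSlope m f G := by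
  refine RSlope.of_eps hf hG fun ε hε => ?_
  have e1 := (h1.eventually (ge_mem_nhds (pos_iff_ne_zero.2 hε)))
  have e2 := (h2.eventually (ge_mem_nhds (pos_iff_ne_zero.2 hε)))
  obtain ⟨k, hk1, hk2⟩ := (e1.and e2).exists
  exact ⟨F k, H k, h k, hk1, hk2⟩

theorem Good.add {u g v h : M → ℝ} (h1 : Good m u g) (h2 : Good m v h) :
    Good m (u + v) (g + h) := by
  refine Good.mk' (h1.1.add h2.1) (h1.2.1.add h2.2.1) (h1.2.2.1.add h2.2.2.1) ?_
  filter_upwards [h1.lipBd, h2.lipBd] with x hx hy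
  exact ⟨add_nonneg hx.1 hy.1, hx.2.add hy.2⟩

theorem Good.const_mul {u g : M → ℝ} (c : ℝ) (h1 : Good m u g) :
    Good m (fun x => c * u x) (fun x => |c| * g x) := by
  refine Good.mk' (h1.1.const_mul c) (h1.2.1.const_mul c) (h1.2.2.1.const_mul |c|) ?_
  filter_upwards [h1.lipBd] with x hx
  exact ⟨mul_nonneg (abs_nonneg c) hx.1, hx.2.const_mul c⟩

theorem RSlope.add {f G f' G' : M → ℝ} (h : RSlope m f G)
    (h' : RSlope m f' G') : RSlope m (f + f') (G + G') := by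
  rw [rSlope_iff_eps] at *
  refine ⟨h.1.add h'.1, h.2.1.add h'.2.1, fun ε hε => ?_⟩
  obtain ⟨u, g, h1, h2, h3⟩ := h.2.2 (ε / 2) (by simpa using hε)
  obtain ⟨u', g', h1', h2', h3'⟩ := h'.2.2 (ε / 2) (by simpa using hε)
  refine ⟨u + u', g + g', h1.add h1', ?_, ?_⟩
  · have : u + u' - (f + f') = (u - f) + (u' - f') := by abel
    rw [this]
    refine (eLpNorm_add_le (h1.2.1.1.sub h.1.1) (h1'.2.1.1.sub h'.1.1) (by norm_num)).trans ?_
    calc _ ≤ ε / 2 + ε / 2 := by gcongr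
      _ = ε := ENNReal.add_halves ε
  · have : g + g' - (G + G') = (g - G) + (g' - G') := by abel
    rw [this]
    refine (eLpNorm_add_le (h1.2.2.1.1.sub h.2.1.1) (h1'.2.2.1.1.sub h'.2.1.1)
      (by norm_num)).trans ?_
    calc _ ≤ ε / 2 + ε / 2 := by gcongr
      _ = ε := ENNReal.add_halves ε

theorem RSlope.const_mul {f G : M → ℝ} (c : ℝ) (h : RSlope m f G) :
    RSlope m (fun x => c * f x) (fun x => |c| * G x) := by
  rw [rSlope_iff_eps] at *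
  refine ⟨h.1.const_mul c, h.2.1.const_mul |c|, fun ε hε => ?_⟩
  obtain ⟨u, g, h1, h2, h3⟩ := h.2.2 (ε / (ENNReal.ofReal |c| + 1)) (by
    rw [ne_eq, ENNReal.div_eq_zero_iff]
    push Not
    exact ⟨hε, by simp⟩)
  have hkey : ENNReal.ofReal |c| * (ε / (ENNReal.ofReal |c| + 1)) ≤ ε := by
    calc ENNReal.ofReal |c| * (ε / (ENNReal.ofReal |c| + 1))
        ≤ (ENNReal.ofReal |c| + 1) * (ε / (ENNReal.ofReal |c| + 1)) := by
          gcongr; exact le_self_add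
      _ ≤ ε := ENNReal.mul_div_le
  refine ⟨_, _, h1.const_mul c, ?_, ?_⟩
  · have : (fun x => c * u x) - (fun x => c * f x) = c • (u - f) := by
      ext x; simp [mul_sub]
    rw [this, eLpNorm_const_smul]
    rw [Real.enorm_eq_ofReal_abs]
    exact (by gcongr : _ ≤ _).trans hkey
  · have : (fun x => |c| * g x) - (fun x => |c| * G x) = |c| • (g - G) := by
      ext x; simp [mul_sub]
    rw [this, eLpNorm_const_smul]
    rw [Real.enorm_eq_ofReal_abs, abs_abs]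
    exact (by gcongr : _ ≤ _).trans hkey

/-- relaxed slopes are upward closed -/
theorem RSlope.mono {f G G' : M → ℝ} (h : RSlope m f G) (hG' : MemLp G' 2 m)
    (hle : ∀ᵐ x ∂m, G x ≤ G' x) : RSlope m f G' := by
  rw [rSlope_iff_eps] at *
  refine ⟨h.1, hG', fun ε hε => ?_⟩
  obtain ⟨u, g, h1, h2, h3⟩ := h.2.2 ε hε
  refine ⟨u, g + (G' - G), ?_, h2, ?_⟩
  · refine Good.mk' h1.1 h1.2.1 (h1.2.2.1.add (hG'.sub h.2.1)) ?_
    filter_upwards [h1.lipBd, hle] with x hx hy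
    simp only [Pi.add_apply, Pi.sub_apply]
    exact ⟨by linarith [hx.1], hx.2.mono (by linarith)⟩
  · have : g + (G' - G) - G' = g - G := by abel
    rwa [this]

theorem rSlope_zero : RSlope m (0 : M → ℝ) 0 := by
  apply Good.rSlope
  refine Good.mk' ⟨0, LipschitzWith.const 0⟩ MemLp.zero MemLp.zero ?_
  filter_upwards with x
  refine ⟨le_rfl, fun c hc => ?_⟩
  filter_upwards with y
  have := dist_nonneg (x := y) (y := x)
  have hc' : 0 < c := hc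
  simp only [Pi.zero_apply, sub_self, abs_zero]
  positivity

end Vale.Agent.P233.Met
end

section

open MeasureTheory Filter Topology Set
open scoped ENNReal NNReal

namespace Vale.Agent.P233.Met

variable {M : Type*} [MetricSpace M] [MeasurableSpace M] {m : Measure M}

set_option linter.unusedSectionVars false

/-- truncation at height `n` -/
def trunc (n : ℝ) (t : ℝ) : ℝ := max (min t n) (-n)

theorem trunc_lip (n : ℝ) : LipschitzWith 1 (trunc n) := by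
  unfold trunc
  exact (LipschitzWith.id.min_const n).max_const (-n)

theorem abs_trunc_sub_le (n s t : ℝ) : |trunc n s - trunc n t| ≤ |s - t| := by
  have := (trunc_lip n).dist_le_mul s t
  simpa [Real.dist_eq] using this

theorem abs_trunc_le {n : ℝ} (hn : 0 ≤ n) (t : ℝ) : |trunc n t| ≤ n := by
  unfold trunc
  rw [abs_le]
  constructor
  · exact le_max_right _ _
  · exact max_le (min_le_right _ _) (by linarith)

theorem trunc_of_abs_le {n t : ℝ} (h : |t| ≤ n) : trunc n t = t := by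
  unfold trunc
  rw [abs_le] at h
  rw [min_eq_left h.2, max_eq_left h.1]

theorem abs_trunc_le_abs {n : ℝ} (hn : 0 ≤ n) (t : ℝ) : |trunc n t| ≤ |t| := by
  have h0 : trunc n 0 = 0 := trunc_of_abs_le (by simpa using hn)
  have := abs_trunc_sub_le n t 0
  simpa [h0] using this

theorem LipBd.trunc {f : M → ℝ} {x : M} {a : ℝ} (n : ℝ) (hf : LipBd f x a) :
    LipBd (fun y => trunc n (f y)) x a := by
  intro c hc
  filter_upwards [hf c hc] with y hy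
  exact (abs_trunc_sub_le n _ _).trans hy

theorem Good.trunc {u g : M → ℝ} {n : ℝ} (hn : 0 ≤ n) (h : Good m u g) :
    Good m (fun x => trunc n (u x)) g := by
  refine Good.mk' (h.1.comp (trunc_lip n)) ?_ h.2.2.1 ?_
  · refine h.2.1.mono ((trunc_lip n).continuous.comp_aestronglyMeasurable h.2.1.1) ?_
    filter_upwards with x
    simpa using abs_trunc_le_abs hn (u x)
  · filter_upwards [h.lipBd] with x hx
    exact ⟨hx.1, hx.2.trunc n⟩

theorem tendsto_trunc {f : M → ℝ} (hf : MemLp f 2 m) :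
    Tendsto (fun k : ℕ => eLpNorm ((fun x => trunc k (f x)) - f) 2 m) atTop (𝓝 0) := by
  refine tendsto_eLpNorm_zero_of_dominated (B := fun x => 2 * |f x|) (hf.abs.const_mul 2) ?_ ?_ ?_
  · intro k
    exact ((trunc_lip k).continuous.comp_aestronglyMeasurable hf.1).sub hf.1
  · intro k
    filter_upwards with x
    simp only [Pi.sub_apply]
    have h1 := abs_trunc_le_abs (n := (k : ℝ)) (by positivity) (f x)
    have h2 := abs_sub (trunc (k : ℝ) (f x)) (f x)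
    linarith
  · filter_upwards with x
    obtain ⟨N, hN⟩ := exists_nat_ge |f x|
    refine tendsto_const_nhds.congr' ?_
    filter_upwards [eventually_ge_atTop N] with k hk
    have : |f x| ≤ (k : ℝ) := hN.trans (by exact_mod_cast hk)
    simp [trunc_of_abs_le this]

/-- bounded approximating pairs -/
theorem RSlope.exists_bdd {f G : M → ℝ} (h : RSlope m f G) {ε : ℝ≥0∞}
    (hε : ε ≠ 0) : ∃ u g : M → ℝ, Good m u g ∧ (∃ C, ∀ x, |u x| ≤ C) ∧
      eLpNorm (u - f) 2 m ≤ ε ∧ eLpNorm (g - G) 2 m ≤ ε := by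
  have hε2 : ε / 2 ≠ 0 := by simpa using hε
  obtain ⟨u, g, h1, h2, h3⟩ := (rSlope_iff_eps.1 h).2.2 (ε / 2) hε2
  have e1 := ((tendsto_trunc h1.2.1).eventually (ge_mem_nhds (pos_iff_ne_zero.2 hε2)))
  obtain ⟨k, hk⟩ := e1.exists
  refine ⟨fun x => Met.trunc k (u x), g, h1.trunc (by positivity),
    ⟨k, fun x => abs_trunc_le (by positivity) _⟩, ?_, h3.trans ENNReal.half_le_self⟩
  have : (fun x => Met.trunc k (u x)) - f = ((fun x => Met.trunc k (u x)) - u) + (u - f) := by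
    simp
  rw [this]
  refine (eLpNorm_add_le
    (((trunc_lip k).continuous.comp_aestronglyMeasurable h1.2.1.1).sub h1.2.1.1)
    (h1.2.1.1.sub h.1.1) (by norm_num)).trans ?_
  calc _ ≤ ε / 2 + ε / 2 := by gcongr
    _ = ε := ENNReal.add_halves ε

theorem LipBd.glue {u v χ : M → ℝ} {x : M} {a b K : ℝ} (ha : 0 ≤ a) (hb : 0 ≤ b) (hK : 0 ≤ K)
    (hχ0 : ∀ y, 0 ≤ χ y) (hχ1 : ∀ y, χ y ≤ 1) (hχc : ContinuousAt χ x) (hχ : LipBd χ x K)
    (hu : LipBd u x a) (hv : LipBd v x b) :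
    LipBd (fun y => χ y * u y + (1 - χ y) * v y) x
      (χ x * a + (1 - χ x) * b + K * |u x - v x|) := by
  intro c hc
  obtain ⟨η, hη, hηb⟩ : ∃ η > 0, (χ x + η) * (a + η) + (1 - χ x + η) * (b + η) +
      (K + η) * |u x - v x| < c := by
    have hcont : Continuous (fun η : ℝ => (χ x + η) * (a + η) + (1 - χ x + η) * (b + η) +
      (K + η) * |u x - v x|) := by fun_prop
    have h0 : (fun η : ℝ => (χ x + η) * (a + η) + (1 - χ x + η) * (b + η) +
      (K + η) * |u x - v x|) 0 < c := by simpa using hc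
    have := (hcont.continuousAt (x := 0)).eventually_lt continuousAt_const h0
    rw [Metric.eventually_nhds_iff] at this
    obtain ⟨ε, hε, h⟩ := this
    refine ⟨ε / 2, by positivity, h ?_⟩
    simp [abs_of_pos hε, hε]
  have h1 := hu (a + η) (by linarith)
  have h2 := hv (b + η) (by linarith)
  have h3 := hχ (K + η) (by linarith)
  have h4 : ∀ᶠ y in 𝓝 x, |χ y - χ x| < η := by
    filter_upwards [hχc (Metric.ball_mem_nhds _ hη)] with y hy
    simpa [Real.dist_eq] using hy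
  filter_upwards [h1, h2, h3, h4] with y hy1 hy2 hy3 hy4
  have e : χ y * u y + (1 - χ y) * v y - (χ x * u x + (1 - χ x) * v x) =
    χ y * (u y - u x) + (1 - χ y) * (v y - v x) + (χ y - χ x) * (u x - v x) := by ring
  rw [e]
  have hy5 := abs_lt.1 hy4
  have h1y : 0 ≤ 1 - χ y := by linarith [hχ1 y]
  refine (abs_add_three _ _ _).trans ?_
  rw [abs_mul, abs_mul, abs_mul, abs_of_nonneg (hχ0 y), abs_of_nonneg h1y]
  calc χ y * |u y - u x| + (1 - χ y) * |v y - v x| + |χ y - χ x| * |u x - v x|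
      ≤ (χ x + η) * ((a + η) * dist y x) + (1 - χ x + η) * ((b + η) * dist y x) +
        ((K + η) * dist y x) * |u x - v x| := by
        gcongr
        · linarith [hχ0 x]
        · linarith
        · linarith [hχ1 x]
        · linarith
    _ = ((χ x + η) * (a + η) + (1 - χ x + η) * (b + η) +
      (K + η) * |u x - v x|) * dist y x := by ring
    _ ≤ c * dist y x := by gcongr

theorem Good.glue {u g v h χ : M → ℝ} {K : ℝ≥0} (hχ : LipschitzWith K χ)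
    (hχ0 : ∀ y, 0 ≤ χ y) (hχ1 : ∀ y, χ y ≤ 1) [BorelSpace M]
    (hu : Good m u g) (hv : Good m v h) (hub : ∃ C, ∀ x, |u x| ≤ C) (hvb : ∃ C, ∀ x, |v x| ≤ C) :
    Good m (fun x => χ x * u x + (1 - χ x) * v x)
      (fun x => χ x * g x + (1 - χ x) * h x + K * |u x - v x|) := by
  have hχL : IsLip χ := ⟨K, hχ⟩
  have hχm : AEStronglyMeasurable χ m := hχ.continuous.measurable.aestronglyMeasurable
  have hχm' : AEStronglyMeasurable (fun x => 1 - χ x) m :=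
    (continuous_const.sub hχ.continuous).measurable.aestronglyMeasurable
  have hχb : ∃ C, ∀ x, |χ x| ≤ C := ⟨1, fun x => abs_le.2 ⟨by linarith [hχ0 x], hχ1 x⟩⟩
  have hχL' : IsLip (fun x => 1 - χ x) := by
    refine ⟨K, LipschitzWith.of_dist_le_mul fun x y => ?_⟩
    have := hχ.dist_le_mul y x
    rw [Real.dist_eq] at this ⊢
    rw [dist_comm]
    have e : 1 - χ x - (1 - χ y) = χ y - χ x := by ring
    rwa [e]
  have hχb' : ∃ C, ∀ x, |1 - χ x| ≤ C :=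
    ⟨1, fun x => abs_le.2 ⟨by linarith [hχ1 x], by linarith [hχ0 x]⟩⟩
  have mulmem : ∀ {w c : M → ℝ}, MemLp w 2 m → AEStronglyMeasurable c m → (∀ x, |c x| ≤ 1) →
      MemLp (fun x => c x * w x) 2 m := by
    intro w c hw hc hc1
    refine hw.mono (hc.mul hw.1) ?_
    filter_upwards with x
    rw [norm_mul, Real.norm_eq_abs (c x)]
    calc |c x| * ‖w x‖ ≤ 1 * ‖w x‖ := by gcongr; exact hc1 x
      _ = _ := one_mul _
  have hc1 : ∀ x, |χ x| ≤ 1 := fun x => abs_le.2 ⟨by linarith [hχ0 x], hχ1 x⟩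
  have hc2 : ∀ x, |1 - χ x| ≤ 1 := fun x => abs_le.2 ⟨by linarith [hχ1 x], by linarith [hχ0 x]⟩
  refine Good.mk' ?_ ?_ ?_ ?_
  · exact (hχL.mul hu.1 hχb hub).add (hχL'.mul hv.1 hχb' hvb)
  · exact (mulmem hu.2.1 hχm hc1).add (mulmem hv.2.1 hχm' hc2)
  · exact ((mulmem hu.2.2.1 hχm hc1).add (mulmem hv.2.2.1 hχm' hc2)).add
      ((hu.2.1.sub hv.2.1).abs.const_mul (K : ℝ))
  · filter_upwards [hu.lipBd, hv.lipBd] with x hx hy
    refine ⟨?_, LipBd.glue hx.1 hy.1 K.2 hχ0 hχ1 hχ.continuous.continuousAt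
      (LipBd.of_lipschitz hχ x) hx.2 hy.2⟩
    have := hχ0 x
    have h1 : 0 ≤ 1 - χ x := by linarith [hχ1 x]
    have := hx.1
    have := hy.1
    positivity

/-- gluing with Lipschitz weights -/
theorem RSlope.glue [BorelSpace M] {f G H χ : M → ℝ} {K : ℝ≥0} (hχ : LipschitzWith K χ)
    (hχ0 : ∀ y, 0 ≤ χ y) (hχ1 : ∀ y, χ y ≤ 1)
    (hG : RSlope m f G) (hH : RSlope m f H) :
    RSlope m f (fun x => χ x * G x + (1 - χ x) * H x) := by
  have hχm : AEStronglyMeasurable χ m := hχ.continuous.measurable.aestronglyMeasurable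
  have hχm' : AEStronglyMeasurable (fun x => 1 - χ x) m :=
    (continuous_const.sub hχ.continuous).measurable.aestronglyMeasurable
  have hc1 : ∀ x, |χ x| ≤ 1 := fun x => abs_le.2 ⟨by linarith [hχ0 x], hχ1 x⟩
  have hc2 : ∀ x, |1 - χ x| ≤ 1 := fun x => abs_le.2 ⟨by linarith [hχ1 x], by linarith [hχ0 x]⟩
  have mulmem : ∀ {w c : M → ℝ}, MemLp w 2 m → AEStronglyMeasurable c m → (∀ x, |c x| ≤ 1) →
      MemLp (fun x => c x * w x) 2 m := by
    intro w c hw hc hc1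
    refine hw.mono (hc.mul hw.1) ?_
    filter_upwards with x
    rw [norm_mul, Real.norm_eq_abs (c x)]
    calc |c x| * ‖w x‖ ≤ 1 * ‖w x‖ := by gcongr; exact hc1 x
      _ = _ := one_mul _
  have mulnorm : ∀ {w c : M → ℝ}, (∀ x, |c x| ≤ 1) →
      eLpNorm (fun x => c x * w x) 2 m ≤ eLpNorm w 2 m := by
    intro w c hc1
    refine eLpNorm_mono fun x => ?_
    rw [norm_mul, Real.norm_eq_abs (c x)]
    calc |c x| * ‖w x‖ ≤ 1 * ‖w x‖ := by gcongr; exact hc1 x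
      _ = _ := one_mul _
  refine RSlope.of_eps hG.1
    ((mulmem hG.2.1 hχm hc1).add (mulmem hH.2.1 hχm' hc2)) fun ε hε => ?_
  set δ : ℝ≥0∞ := ε / (2 * (K + 2)) with hδ
  have hden : (2 * ((K : ℝ≥0∞) + 2)) ≠ ∞ := by
    refine ENNReal.mul_ne_top (by norm_num) (by simp)
  have hδ0 : δ ≠ 0 := by
    rw [hδ, ne_eq, ENNReal.div_eq_zero_iff]
    push Not
    exact ⟨hε, hden⟩
  have hδε : (2 * ((K : ℝ≥0∞) + 2)) * δ ≤ ε := ENNReal.mul_div_le
  obtain ⟨u, g, h1, hub, h2, h3⟩ := hG.exists_bdd hδ0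
  obtain ⟨v, h, h1', hvb, h2', h3'⟩ := hH.exists_bdd hδ0
  have hgl := Good.glue hχ hχ0 hχ1 h1 h1' hub hvb
  refine ⟨_, _, hgl.rSlope, ?_, ?_⟩
  · have e : (fun x => χ x * u x + (1 - χ x) * v x) - f =
        (fun x => χ x * (u - f) x) + (fun x => (1 - χ x) * (v - f) x) := by
      ext x; simp; ring
    rw [e]
    refine (eLpNorm_add_le (hχm.mul (h1.2.1.1.sub hG.1.1)) (hχm'.mul (h1'.2.1.1.sub hG.1.1))
      (by norm_num)).trans ?_
    calc _ ≤ δ + δ := by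
          gcongr
          · exact (mulnorm hc1).trans h2
          · exact (mulnorm hc2).trans h2'
      _ = 2 * (1 * δ) := by rw [one_mul, two_mul]
      _ ≤ 2 * (((K : ℝ≥0∞) + 2) * δ) := by
          gcongr
          calc (1 : ℝ≥0∞) ≤ 2 := by norm_num
            _ ≤ _ := le_add_self
      _ = (2 * ((K : ℝ≥0∞) + 2)) * δ := by ring
      _ ≤ ε := hδε
  · have e : (fun x => χ x * g x + (1 - χ x) * h x + K * |u x - v x|) -
        (fun x => χ x * G x + (1 - χ x) * H x) =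
        ((fun x => χ x * (g - G) x) + (fun x => (1 - χ x) * (h - H) x)) +
          (K : ℝ) • (fun x => |u x - v x|) := by
      ext x; simp; ring
    rw [e]
    have huv : eLpNorm (fun x => |u x - v x|) 2 m ≤ δ + δ := by
      have e1 : eLpNorm (fun x => |u x - v x|) 2 m = eLpNorm (u - v) 2 m :=
        eLpNorm_congr_norm_ae (by filter_upwards with x; simp)
      rw [e1]
      have e2 : u - v = (u - f) + (f - v) := by abel
      rw [e2]
      refine (eLpNorm_add_le (h1.2.1.1.sub hG.1.1) (hG.1.1.sub h1'.2.1.1) (by norm_num)).trans ?_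
      gcongr
      rw [← eLpNorm_neg, neg_sub]
      exact h2'
    have hm3 : AEStronglyMeasurable ((K : ℝ) • (fun x => |u x - v x|)) m :=
      (h1.2.1.1.sub h1'.2.1.1).norm.const_smul (K : ℝ)
    refine (eLpNorm_add_le ((hχm.mul (h1.2.2.1.1.sub hG.2.1.1)).add
      (hχm'.mul (h1'.2.2.1.1.sub hH.2.1.1))) hm3 (by norm_num)).trans ?_
    refine (add_le_add_left (eLpNorm_add_le (hχm.mul (h1.2.2.1.1.sub hG.2.1.1))
      (hχm'.mul (h1'.2.2.1.1.sub hH.2.1.1)) (by norm_num)) _).trans ?_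
    rw [eLpNorm_const_smul]
    have hKe : ‖(K : ℝ)‖ₑ = (K : ℝ≥0∞) := by
      rw [Real.enorm_eq_ofReal K.coe_nonneg, ENNReal.ofReal_coe_nnreal]
    rw [hKe]
    calc _ ≤ δ + δ + K * (δ + δ) := by
          gcongr
          · exact (mulnorm hc1).trans h3
          · exact (mulnorm hc2).trans h3'
      _ = (2 * (K + 1)) * δ := by ring
      _ ≤ (2 * ((K : ℝ≥0∞) + 2)) * δ := by
          gcongr
          norm_num
      _ ≤ ε := hδε

end Vale.Agent.P233.Met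
end

section

open MeasureTheory Filter Topology Set
open scoped ENNReal NNReal

namespace Vale.Agent.P233.Met

variable {M : Type*} [MetricSpace M] [MeasurableSpace M] {m : Measure M}

set_option linter.unusedSectionVars false

/-- monotone family of convex sets in a Hilbert space: the minimal norm points of the closures
converge -/
theorem exists_limit_min_norm {H : Type*} [NormedAddCommGroup H] [InnerProductSpace ℝ H]
    [CompleteSpace H] (S : ℕ → Set H) (hS : ∀ n, S (n + 1) ⊆ S n) (hconv : ∀ n, Convex ℝ (S n))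
    {C : ℝ} (hne : ∀ n, ∃ g ∈ S n, ‖g‖ ≤ C) :
    ∃ p : H, ∃ g : ℕ → H, (∀ n, g n ∈ S n) ∧ Tendsto g atTop (𝓝 p) ∧ ‖p‖ ≤ C := by
  have hex : ∀ n, ∃ v ∈ closure (S n), ‖(0 : H) - v‖ = ⨅ w : closure (S n), ‖(0 : H) - w‖ := by
    intro n
    obtain ⟨g, hg, -⟩ := hne n
    exact exists_norm_eq_iInf_of_complete_convex ⟨g, subset_closure hg⟩
      isClosed_closure.isComplete (hconv n).closure 0
  choose p hpS hp using hex
  simp only [zero_sub, norm_neg] at hp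
  have hmin : ∀ n, ∀ w ∈ closure (S n), ‖p n‖ ≤ ‖w‖ := by
    intro n w hw
    rw [hp n]
    exact ciInf_le (f := fun w : closure (S n) => ‖(w : H)‖)
      ⟨0, by rintro _ ⟨w, rfl⟩; exact norm_nonneg _⟩ ⟨w, hw⟩
  have hanti : Antitone S := antitone_nat_of_succ_le hS
  have hmono : Monotone (fun n => ‖p n‖) := by
    intro a b hab
    exact hmin a _ (closure_mono (hanti hab) (hpS b))
  have hbdd : ∀ n, ‖p n‖ ≤ C := by
    intro n
    obtain ⟨g, hg, hgC⟩ := hne n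
    exact (hmin n g (subset_closure hg)).trans hgC
  have hconvg : ∃ L, Tendsto (fun n => ‖p n‖) atTop (𝓝 L) :=
    ⟨_, tendsto_atTop_ciSup hmono ⟨C, by rintro _ ⟨n, rfl⟩; exact hbdd n⟩⟩
  obtain ⟨L, hL⟩ := hconvg
  have hpL : ∀ n, ‖p n‖ ≤ L := fun n => hmono.ge_of_tendsto hL n
  have hest : ∀ a b, a ≤ b → ‖p a - p b‖ ^ 2 ≤ 2 * (L ^ 2 - ‖p a‖ ^ 2) := by
    intro a b hab
    have hmid : (1 / 2 : ℝ) • p a + (1 / 2 : ℝ) • p b ∈ closure (S a) := by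
      refine (hconv a).closure (hpS a) (closure_mono (hanti hab) (hpS b)) (by norm_num)
        (by norm_num) (by norm_num)
    have h1 := hmin a _ hmid
    have h2 : ‖p a + p b‖ ^ 2 ≥ 4 * ‖p a‖ ^ 2 := by
      have h3 : (1 / 2 : ℝ) • p a + (1 / 2 : ℝ) • p b = (1 / 2 : ℝ) • (p a + p b) := by
        rw [smul_add]
      rw [h3, norm_smul] at h1
      have h4 : ‖(1 / 2 : ℝ)‖ = 1 / 2 := by norm_num
      rw [h4] at h1
      have h5 : 2 * ‖p a‖ ≤ ‖p a + p b‖ := by linarith only [h1]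
      have h6 := norm_nonneg (p a)
      linarith only [mul_nonneg (sub_nonneg.2 h5) (sub_nonneg.2 h6), mul_nonneg (sub_nonneg.2 h5) (sub_nonneg.2 h5)]
    have h7 := parallelogram_law_with_norm ℝ (p a) (p b)
    have h8 : ‖p b‖ ^ 2 ≤ L ^ 2 := by
      have := hpL b
      have := norm_nonneg (p b)
      gcongr
    linarith only [h8, h7, h2]
  have hcauchy : CauchySeq p := by
    rw [Metric.cauchySeq_iff']
    intro ε hε
    have h1 : Tendsto (fun n => 2 * (L ^ 2 - ‖p n‖ ^ 2)) atTop (𝓝 (2 * (L ^ 2 - L ^ 2))) :=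
      (tendsto_const_nhds.sub (hL.pow 2)).const_mul 2
    rw [sub_self, mul_zero] at h1
    obtain ⟨N, hN⟩ := (h1.eventually (gt_mem_nhds (show (0 : ℝ) < ε ^ 2 by positivity))).exists
    refine ⟨N, fun n hn => ?_⟩
    rw [dist_comm, dist_eq_norm]
    have h2 := hest N n hn
    have h3 : ‖p N - p n‖ ^ 2 < ε ^ 2 := lt_of_le_of_lt h2 hN
    exact lt_of_pow_lt_pow_left₀ 2 hε.le h3
  obtain ⟨q, hq⟩ := cauchySeq_tendsto_of_complete hcauchy
  have hg : ∀ n, ∃ g ∈ S n, dist (p n) g < 1 / ((n : ℝ) + 1) := by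
    intro n
    exact Metric.mem_closure_iff.1 (hpS n) _ (by positivity)
  choose g hgS hg using hg
  refine ⟨q, g, hgS, ?_, ?_⟩
  · have h1 : Tendsto (fun n => dist (p n) (g n)) atTop (𝓝 0) :=
      squeeze_zero (fun _ => dist_nonneg) (fun n => (hg n).le)
        tendsto_one_div_add_atTop_nhds_zero_nat
    exact (tendsto_iff_of_dist h1).1 hq
  · exact le_of_tendsto hq.norm (Eventually.of_forall hbdd)

/-- lower semicontinuity: if `f` is an `L²` limit of functions with relaxed slopes bounded by `C`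
in `L²`, then it has a relaxed slope bounded by `C` -/
theorem exists_rSlope_of_bounded {f : M → ℝ} (hf : MemLp f 2 m) {C : ℝ≥0}
    (h : ∀ ε : ℝ≥0∞, ε ≠ 0 → ∃ f' G' : M → ℝ, RSlope m f' G' ∧
      eLpNorm (f' - f) 2 m ≤ ε ∧ eLpNorm G' 2 m ≤ C) :
    ∃ G, RSlope m f G ∧ eLpNorm G 2 m ≤ C := by
  set ε : ℕ → ℝ≥0∞ := fun n => ((n : ℝ≥0∞) + 1)⁻¹ with hε
  have hε0 : ∀ n, ε n ≠ 0 := fun n => by simp [hε, ENNReal.inv_eq_zero]
  have hεt : ∀ n, ε n ≠ ∞ := fun n => by simp [hε, ENNReal.inv_eq_top]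
  have hεanti : ∀ n, ε (n + 1) ≤ ε n := fun n => by
    simp only [hε]
    gcongr
    push_cast
    exact le_self_add
  have hεlim : Tendsto ε atTop (𝓝 0) := by
    have := ENNReal.tendsto_inv_nat_nhds_zero
    have h2 := this.comp (tendsto_add_atTop_nat 1)
    simpa [Function.comp_def] using h2
  set S : ℕ → Set (Lp ℝ 2 m) := fun n =>
    {g | ∃ f', RSlope m f' g ∧ eLpNorm (f' - f) 2 m ≤ ε n} with hS
  have hSmono : ∀ n, S (n + 1) ⊆ S n := by
    rintro n g ⟨f', h1, h2⟩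
    exact ⟨f', h1, h2.trans (hεanti n)⟩
  have hconv : ∀ n, Convex ℝ (S n) := by
    rintro n g ⟨f1, hg1, hg2⟩ h' ⟨f2, hh1, hh2⟩ a b ha hb hab
    refine ⟨(fun x => a * f1 x) + (fun x => b * f2 x), ?_, ?_⟩
    · refine ((RSlope.const_mul a hg1).add (RSlope.const_mul b hh1)).congr
        Filter.EventuallyEq.rfl ?_
      filter_upwards [Lp.coeFn_add (a • g) (b • h'), Lp.coeFn_smul a g, Lp.coeFn_smul b h']
        with x hx1 hx2 hx3
      rw [hx1]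
      simp only [Pi.add_apply, hx2, hx3, Pi.smul_apply, smul_eq_mul, abs_of_nonneg ha,
        abs_of_nonneg hb]
    · have e : (fun x => a * f1 x) + (fun x => b * f2 x) - f = a • (f1 - f) + b • (f2 - f) := by
        ext x
        simp only [Pi.sub_apply, Pi.add_apply, Pi.smul_apply, smul_eq_mul]
        have : f x = (a + b) * f x := by rw [hab, one_mul]
        linear_combination (-1 : ℝ) * this
      rw [e]
      refine (eLpNorm_add_le ((hg1.1.1.sub hf.1).const_smul a) ((hh1.1.1.sub hf.1).const_smul b)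
        (by norm_num)).trans ?_
      rw [eLpNorm_const_smul, eLpNorm_const_smul]
      calc ‖a‖ₑ * eLpNorm (f1 - f) 2 m + ‖b‖ₑ * eLpNorm (f2 - f) 2 m
          ≤ ‖a‖ₑ * ε n + ‖b‖ₑ * ε n := by gcongr
        _ = (‖a‖ₑ + ‖b‖ₑ) * ε n := by ring
        _ = ε n := by
          rw [Real.enorm_eq_ofReal ha, Real.enorm_eq_ofReal hb, ← ENNReal.ofReal_add ha hb, hab]
          simp
  have hne : ∀ n, ∃ g ∈ S n, ‖g‖ ≤ (C : ℝ) := by
    intro n
    obtain ⟨f', G', h1, h2, h3⟩ := h (ε n) (hε0 n)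
    refine ⟨h1.2.1.toLp, ⟨f', h1.congr Filter.EventuallyEq.rfl (h1.2.1.coeFn_toLp).symm, h2⟩, ?_⟩
    rw [Lp.norm_toLp]
    have := ENNReal.toReal_mono (by simp) h3
    simpa using this
  obtain ⟨p, g, hg, hgp, hpC⟩ := exists_limit_min_norm S hSmono hconv hne
  refine ⟨p, ?_, ?_⟩
  · choose f' hf'1 hf'2 using hg
    refine RSlope.of_tendsto (F := f') (H := fun n => g n) hf (Lp.memLp p) hf'1 ?_ ?_
    · exact tendsto_of_tendsto_of_tendsto_of_le_of_le tendsto_const_nhds hεlim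
        (fun _ => zero_le) hf'2
    · rwa [Lp.tendsto_Lp_iff_tendsto_eLpNorm'] at hgp
  · rw [Lp.norm_def] at hpC
    have h1 : eLpNorm p 2 m ≠ ∞ := (Lp.memLp p).eLpNorm_lt_top.ne
    rw [← ENNReal.ofReal_toReal h1, ← ENNReal.ofReal_coe_nnreal]
    exact ENNReal.ofReal_le_ofReal hpC

end Vale.Agent.P233.Met
end

section

open MeasureTheory Filter Topology
open scoped ENNReal NNReal

namespace Vale.Agent.P233

variable {M : Type*} [MeasurableSpace M] {m : Measure M}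

/-- The data of the construction: potentials `a`, `b`, a density `F`, a cut-off `θ`, and test
functions `P`, `Q`, `R`, `A`, `B` which are close to `Γ(a,a)`, `Γ(a,b)`, `Γ(b,b)`,
`div(F∇a)`, `div(F∇b)`. -/
structure Dat (m : Measure M) where
  (a b F P Q R A B : M →ₘ[m] ℝ)

namespace Dat

variable (X : Dat m) (C : Calc m)

/-- the potential of direction `v` -/
noncomputable def pt (v : ℝ × ℝ) : M →ₘ[m] ℝ := v.1 • X.a + v.2 • X.b

/-- `div (F ∇ v)` -/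
noncomputable def D (v : ℝ × ℝ) : M →ₘ[m] ℝ := v.1 • C.De X.F X.a + v.2 • C.De X.F X.b

/-- approximation of `D v` -/
noncomputable def D' (v : ℝ × ℝ) : M →ₘ[m] ℝ := v.1 • X.A + v.2 • X.B

/-- approximation of `Γ(v,w)` -/
noncomputable def G' (v w : ℝ × ℝ) : M →ₘ[m] ℝ :=
  (v.1 * w.1) • X.P + (v.1 * w.2 + v.2 * w.1) • X.Q + (v.2 * w.2) • X.R

/-- `⟨Y_{vw}, ∇g⟩`, where `Y_{vw} = ½ (D_v ∇w + D_w ∇v) + ½ F ∇Γ(v,w)` approximately -/
noncomputable def Y (v w : ℝ × ℝ) (g : M →ₘ[m] ℝ) : M →ₘ[m] ℝ :=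
  (2 : ℝ)⁻¹ • (X.D' v * C.Γ (X.pt w) g + X.D' w * C.Γ (X.pt v) g + X.F * C.Γ (X.G' v w) g)

/-- `div Y_{vw}` -/
noncomputable def r (v w : ℝ × ℝ) : M →ₘ[m] ℝ :=
  (2 : ℝ)⁻¹ • (C.Γ (X.D' v) (X.pt w) + X.D' v * C.lap (X.pt w) + (C.Γ (X.D' w) (X.pt v)
    + X.D' w * C.lap (X.pt v)) + (C.Γ X.F (X.G' v w) + X.F * C.lap (X.G' v w)))

/-- the density `F - D_v + ½ r_{vv}` -/
noncomputable def rho (v : ℝ × ℝ) : M →ₘ[m] ℝ := X.F - X.D C v + (2 : ℝ)⁻¹ • X.r C v v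

/-- the reference potential of the pair with difference vector `e` -/
noncomputable def ph (e : ℝ × ℝ) (h : M →ₘ[m] ℝ) (ε t : ℝ) : M →ₘ[m] ℝ :=
  X.pt e + ε • h - (t / 2) • X.G' e e

/-- the action of the pair of directions `v`, `v + e` -/
noncomputable def actP (v e : ℝ × ℝ) (h : M →ₘ[m] ℝ) (ε : ℝ) : ℝ :=
  ∫ t in (0 : ℝ)..ε, (I (X.ph e h ε t * (X.r C (ε • v + t • e) e - X.D C e))
    - 2⁻¹ * I (X.rho C (ε • v + t • e) * C.Γ (X.ph e h ε t) (X.ph e h ε t)))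

/-- `|Y_{vv}|²` -/
noncomputable def Y2 (v : ℝ × ℝ) : M →ₘ[m] ℝ :=
  X.D' v ^ 2 * C.Γ (X.pt v) (X.pt v) + X.D' v * X.F * C.Γ (X.pt v) (X.G' v v)
    + (4 : ℝ)⁻¹ • (X.F ^ 2 * C.Γ (X.G' v v) (X.G' v v))

/-- `|F ∇v - t Y_{vv}|²` -/
noncomputable def J2 (v : ℝ × ℝ) (t : ℝ) : M →ₘ[m] ℝ :=
  X.F ^ 2 * C.Γ (X.pt v) (X.pt v) - (2 * t) • (X.F * X.Y C v v (X.pt v)) + t ^ 2 • X.Y2 C v

/-- the standing hypotheses: `a`, `b`, `F`, … are test functions with bounded Laplacian, all of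
them except `F` live in the region where `θ = 1`, and there `F ≥ η`; `P`, … are
`δ`-approximations. -/
structure Ok (θ : M →ₘ[m] ℝ) (η δ : ℝ) : Prop where
  ha : X.a ∈ C.TestI
  hb : X.b ∈ C.TestI
  hF : X.F ∈ C.TestI
  hP : X.P ∈ C.TestI
  hQ : X.Q ∈ C.TestI
  hR : X.R ∈ C.TestI
  hA : X.A ∈ C.TestI
  hB : X.B ∈ C.TestI
  hθ : θ ∈ C.TestI
  hF1 : MemLp X.F 1 m
  hθ0 : 0 ≤ θ
  θa : θ * X.a = X.a
  θb : θ * X.b = X.b
  θP : θ * X.P = X.P
  θQ : θ * X.Q = X.Q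
  θR : θ * X.R = X.R
  θA : θ * X.A = X.A
  θB : θ * X.B = X.B
  hη : 0 < η
  Fη : η • θ ≤ X.F
  nP : C.nrm2 (X.P - C.Γ X.a X.a) ≤ δ ^ 2
  nQ : C.nrm2 (X.Q - C.Γ X.a X.b) ≤ δ ^ 2
  nR : C.nrm2 (X.R - C.Γ X.b X.b) ≤ δ ^ 2
  nA : C.nrm2 (X.A - C.De X.F X.a) ≤ δ ^ 2
  nB : C.nrm2 (X.B - C.De X.F X.b) ≤ δ ^ 2

end Dat

end Vale.Agent.P233
end

section

open MeasureTheory Filter Topology
open scoped ENNReal NNReal

namespace Vale.Agent.P233

variable {M : Type*} [MeasurableSpace M] {m : Measure M}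

namespace Dat

variable (X : Dat m) (C : Calc m)

/-- `½ ∫ D_u Γ(v,w)` -/
noncomputable def W3 (u v w : ℝ × ℝ) : ℝ := 2⁻¹ * I (X.D C u * C.Γ (X.pt v) (X.pt w))

/-- `∫ u div Y_{vw}` -/
noncomputable def X3 (u v w : ℝ × ℝ) : ℝ := -I (X.Y C v w (X.pt u))

/-- `∫ F Γ(v,w)` -/
noncomputable def E2 (v w : ℝ × ℝ) : ℝ := I (X.F * C.Γ (X.pt v) (X.pt w))

/-- ideal value of `∫ g div Y_{vw}` -/
noncomputable def RR (v w : ℝ × ℝ) (g : M →ₘ[m] ℝ) : ℝ :=
  -(2⁻¹ * (I (X.D C v * C.Γ (X.pt w) g) + I (X.D C w * C.Γ (X.pt v) g)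
    + I (X.F * C.Γ (C.Γ (X.pt v) (X.pt w)) g)))

/-- `Γ(e,e)` -/
noncomputable def Ge (e : ℝ × ℝ) : M →ₘ[m] ℝ := C.Γ (X.pt e) (X.pt e)

/-- ideal integrand of order two of a pair -/
noncomputable def O2 (v e : ℝ × ℝ) (g : M →ₘ[m] ℝ) (s : ℝ) : ℝ :=
  X.RR C (v + s • e) e (g - (s / 2) • X.Ge C e)
    + I (X.D C (v + s • e) * C.Γ (X.pt e) (g - (s / 2) • X.Ge C e))
    - 2⁻¹ * I (X.F * C.Γ (g - (s / 2) • X.Ge C e) (g - (s / 2) • X.Ge C e))
    - 4⁻¹ * X.RR C (v + s • e) (v + s • e) (X.Ge C e)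

/-- ideal coefficient of `ε³` of a pair -/
noncomputable def P3 (v e : ℝ × ℝ) (g : M →ₘ[m] ℝ) : ℝ := ∫ s in (0 : ℝ)..1, X.O2 C v e g s

/-- ideal coefficient of `ε³` of a centre curve -/
noncomputable def C3 (e : ℝ × ℝ) : ℝ :=
  12⁻¹ * (I (X.F * C.Γ (X.Ge C e) (X.Ge C e)) + I (X.D C e * C.Γ (X.pt e) (X.Ge C e)))

end Dat

/-- the three directions `a`, `b`, `-a-b` -/
def dir : Fin 3 → ℝ × ℝ := ![(1, 0), (0, 1), (-1, -1)]

/-- `H(t) = 2 (t₀t₁ + t₁t₂ + t₀t₂) - t₀² - t₁² - t₂²` -/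
def HH (t : Fin 3 → ℝ) : ℝ :=
  2 * (t 0 * t 1 + t 1 * t 2 + t 0 * t 2) - (t 0 ^ 2 + t 1 ^ 2 + t 2 ^ 2)

/-- `∂ᵢ H` -/
def dHH (t : Fin 3 → ℝ) (i : Fin 3) : ℝ := 2 * (t 0 + t 1 + t 2) - 4 * t i

end Vale.Agent.P233
end

section

namespace Vale.Agent.P233

/-- the quadratic (1+3)-point inequality of curvature `≥ κ` at small scales -/
def LSS (M : Type*) [MetricSpace M] (κ r₀ C : ℝ) : Prop :=
  ∀ (z x₁ x₂ x₃ : M) (r : ℝ), dist z x₁ ≤ r → dist z x₂ ≤ r → dist z x₃ ≤ r → r ≤ r₀ →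
      dist x₁ x₂ ^ 2 + dist x₂ x₃ ^ 2 + dist x₁ x₃ ^ 2
        + κ / 4 * (2 * (dist z x₁ ^ 2 * dist z x₂ ^ 2 + dist z x₂ ^ 2 * dist z x₃ ^ 2
        + dist z x₁ ^ 2 * dist z x₃ ^ 2) - (dist z x₁ ^ 4 + dist z x₂ ^ 4 + dist z x₃ ^ 4))
        ≤ 3 * (dist z x₁ ^ 2 + dist z x₂ ^ 2 + dist z x₃ ^ 2) + C * r ^ 6

/-- the coefficient `A = ½ - β ε²` of the centre cost -/
noncomputable def bet (κ : ℝ) (t : Fin 3 → ℝ) (i : Fin 3) : ℝ :=
  κ / 24 * dHH t i + |κ| / 4 * t i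

/-- the centre cost -/
noncomputable def cst (κ : ℝ) (t : Fin 3 → ℝ) (i : Fin 3) (ε d : ℝ) : ℝ :=
  (1 / 2 - bet κ t i * ε ^ 2) * d ^ 2 / ε + (|κ| / 8 * ε ^ 2) * d ^ 4 / ε ^ 3

end Vale.Agent.P233
end

section

/-!
Locality, integration by parts and Cauchy-Schwarz for the data `Dat`.
-/

open MeasureTheory Filter Topology
open scoped ENNReal NNReal

namespace Vale.Agent.P233

variable {M : Type*} [MeasurableSpace M] {m : Measure M} {C : Calc m}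

theorem mul_zero_of_sq {u v : M →ₘ[m] ℝ} (h : u * (u * v) = 0) : u * v = 0 := by
  rw [eq_iff_ae] at h ⊢
  filter_upwards [h, mul_ae u (u * v), mul_ae u v, zero_ae (M := M) (m := m)] with x h1 h2 h3 h4
  rw [h2, h3, h4] at h1
  rw [h3, h4]
  rcases mul_eq_zero.1 h1 with h | h
  · rw [h, zero_mul]
  · exact h

namespace IsDir

variable (hC : IsDir C)
include hC

theorem cs2_ae {f₁ f₂ g : M →ₘ[m] ℝ} (h₁ : f₁ ∈ C.W) (h₂ : f₂ ∈ C.W) (hg : g ∈ C.W) :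
    ∀ᵐ x ∂m, ∀ s t : ℝ, (s * C.Γ f₁ g x + t * C.Γ f₂ g x) ^ 2
      ≤ (s ^ 2 * C.Γ f₁ f₁ x + 2 * s * t * C.Γ f₁ f₂ x + t ^ 2 * C.Γ f₂ f₂ x) * C.Γ g g x := by
  have h : ∀ᵐ x ∂m, ∀ s t : ℚ, ((s : ℝ) * C.Γ f₁ g x + (t : ℝ) * C.Γ f₂ g x) ^ 2
      ≤ ((s : ℝ) ^ 2 * C.Γ f₁ f₁ x + 2 * s * t * C.Γ f₁ f₂ x + (t : ℝ) ^ 2 * C.Γ f₂ f₂ x)
        * C.Γ g g x := by
    refine ae_all_iff.2 fun s => ae_all_iff.2 fun t => ?_
    have m1 := hC.smul_mem (s : ℝ) _ h₁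
    have m2 := hC.smul_mem (t : ℝ) _ h₂
    have m3 := hC.add_mem _ m1 _ m2
    have e1 : C.Γ ((s : ℝ) • f₁ + (t : ℝ) • f₂) g = (s : ℝ) • C.Γ f₁ g + (t : ℝ) • C.Γ f₂ g := by
      rw [hC.add_left _ m1 _ m2 _ hg, hC.smul_left _ _ h₁ _ hg, hC.smul_left _ _ h₂ _ hg]
    have e2 : C.Γ ((s : ℝ) • f₁ + (t : ℝ) • f₂) ((s : ℝ) • f₁ + (t : ℝ) • f₂)
        = (s : ℝ) ^ 2 • C.Γ f₁ f₁ + (2 * (s : ℝ) * t) • C.Γ f₁ f₂ + (t : ℝ) ^ 2 • C.Γ f₂ f₂ := by
      rw [hC.add_left _ m1 _ m2 _ m3, hC.Γ_add_right m1 m1 m2, hC.Γ_add_right m2 m1 m2,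
        hC.smul_left _ _ h₁ _ m1, hC.smul_left _ _ h₁ _ m2, hC.smul_left _ _ h₂ _ m1,
        hC.smul_left _ _ h₂ _ m2, hC.Γ_smul_right _ h₁ h₁, hC.Γ_smul_right _ h₁ h₂,
        hC.Γ_smul_right _ h₂ h₁, hC.Γ_smul_right _ h₂ h₂, hC.symm _ h₂ _ h₁]
      algebra
    filter_upwards [hC.Γ_cs_ae m3 hg, eq_iff_ae.1 e1, eq_iff_ae.1 e2,
      add_ae ((s : ℝ) • C.Γ f₁ g) ((t : ℝ) • C.Γ f₂ g), smul_ae (C.Γ f₁ g) (s : ℝ),
      smul_ae (C.Γ f₂ g) (t : ℝ),
      add_ae ((s : ℝ) ^ 2 • C.Γ f₁ f₁ + (2 * (s : ℝ) * t) • C.Γ f₁ f₂) ((t : ℝ) ^ 2 • C.Γ f₂ f₂),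
      add_ae ((s : ℝ) ^ 2 • C.Γ f₁ f₁) ((2 * (s : ℝ) * t) • C.Γ f₁ f₂),
      smul_ae (C.Γ f₁ f₁) ((s : ℝ) ^ 2), smul_ae (C.Γ f₁ f₂) (2 * (s : ℝ) * t),
      smul_ae (C.Γ f₂ f₂) ((t : ℝ) ^ 2)] with x a1 a2 a3 a4 a5 a6 a7 a8 a9 a10 a11
    rw [a2, a3, a4, a5, a6, a7, a8, a9, a10, a11] at a1
    exact a1
  filter_upwards [h] with x hx
  have hcl : IsClosed {p : ℝ × ℝ | (p.1 * C.Γ f₁ g x + p.2 * C.Γ f₂ g x) ^ 2
      ≤ (p.1 ^ 2 * C.Γ f₁ f₁ x + 2 * p.1 * p.2 * C.Γ f₁ f₂ x + p.2 ^ 2 * C.Γ f₂ f₂ x)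
        * C.Γ g g x} := isClosed_le (by fun_prop) (by fun_prop)
  have hd : DenseRange (Prod.map (fun q : ℚ => (q : ℝ)) (fun q : ℚ => (q : ℝ))) :=
    Rat.denseRange_cast.prodMap Rat.denseRange_cast
  intro s t
  have hmem : ∀ p : ℝ × ℝ, p ∈ {p : ℝ × ℝ | (p.1 * C.Γ f₁ g x + p.2 * C.Γ f₂ g x) ^ 2
      ≤ (p.1 ^ 2 * C.Γ f₁ f₁ x + 2 * p.1 * p.2 * C.Γ f₁ f₂ x + p.2 ^ 2 * C.Γ f₂ f₂ x)
        * C.Γ g g x} := fun p => hd.induction_on p hcl fun q => hx q.1 q.2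
  exact hmem (s, t)

theorem gram2_ae {f₁ f₂ : M →ₘ[m] ℝ} (h₁ : f₁ ∈ C.W) (h₂ : f₂ ∈ C.W) :
    ∀ᵐ x ∂m, ∀ s t : ℝ,
      0 ≤ s ^ 2 * C.Γ f₁ f₁ x + 2 * s * t * C.Γ f₁ f₂ x + t ^ 2 * C.Γ f₂ f₂ x := by
  filter_upwards [hC.Γ_cs_ae h₁ h₂, hC.Γ_nonneg_ae h₁, hC.Γ_nonneg_ae h₂] with x a1 a2 a3 s t
  set A := C.Γ f₁ f₁ x
  set B := C.Γ f₁ f₂ x
  set D := C.Γ f₂ f₂ x
  have h1 : (2 * s * t * B) ^ 2 ≤ (s ^ 2 * A + t ^ 2 * D) ^ 2 := by
    have h2 : (s * t) ^ 2 * B ^ 2 ≤ (s * t) ^ 2 * (A * D) :=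
      mul_le_mul_of_nonneg_left a1 (sq_nonneg _)
    linarith only [sq_nonneg (s ^ 2 * A - t ^ 2 * D), h2]
  have h3 := abs_le_of_sq_le_sq h1 (by positivity)
  linarith [(abs_le.1 h3).1]

end IsDir

namespace IsGamma

variable (hC : IsGamma C) {κ : ℝ} (hB : C.BEi κ)
variable {θ u g F : M →ₘ[m] ℝ}

include hC

/-- locality -/
theorem loc_Γ (hθ : θ ∈ C.Test) (hu : u ∈ C.Test) (h : θ * u = u) (hg : g ∈ C.W) :
    (1 - θ) * C.Γ u g = 0 := by
  have hD := hC.toIsDir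
  refine mul_zero_of_sq ?_
  have e1 : C.Γ u g = θ * C.Γ u g + u * C.Γ θ g := by
    have := hD.Γ_mul_left (hC.test_A hθ) (hC.test_A hu) hg
    rwa [h] at this
  have e2 : (1 - θ) * C.Γ u g = u * C.Γ θ g := by
    linear_combination e1
  rw [e2]
  have e3 : (1 - θ) * u = 0 := by
    linear_combination -h
  rw [← mul_assoc, e3, zero_mul]

include hB in
/-- locality -/
theorem loc_lap (hθ : θ ∈ C.Test) (hu : u ∈ C.Test) (h : θ * u = u) :
    (1 - θ) * C.lap u = 0 := by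
  have hD := hC.toIsDir
  refine mul_zero_of_sq ?_
  have e1 := hC.lap_mul hB hθ hu
  rw [h] at e1
  have e2 : (1 - θ) * C.Γ u θ = 0 := hC.loc_Γ hθ hu h (hC.test_A hθ).1
  rw [hC.symm _ (hC.test_A hu).1 _ (hC.test_A hθ).1] at e2
  have e3 : (1 - θ) * u = 0 := by
    linear_combination -h
  have e4 : (1 - θ) * ((1 - θ) * C.lap u)
      = ((1 - θ) * u) * C.lap θ + (2 : ℝ) • ((1 - θ) * C.Γ θ u) := by
    have e5 : (1 - θ) * C.lap u = u * C.lap θ + (2 : ℝ) • C.Γ θ u := by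
      linear_combination e1
    rw [e5]
    algebra
  rw [e4, e3, e2, zero_mul, smul_zero, add_zero]

/-- `∫ g div(F∇u) = - ∫ F Γ(u,g)` -/
theorem ibp_De (hF : F ∈ C.Test) (hu : u ∈ C.TestI) (hg : g ∈ C.W) :
    I (g * C.De F u) = - I (F * C.Γ u g) := by
  have hD := hC.toIsDir
  have FA := hC.test_A hF
  have FT := hC.test_Γ_top hF
  have uA := hC.test_A hu.1
  have uT := hC.test_Γ_top hu.1
  have hFg := hD.mul_mem_lip FA FT hg
  have h1 := (hC.test_isLap hu.1).2.2 _ hFg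
  change I (C.Γ u (F * g)) = -I (C.lap u * (F * g)) at h1
  have e1 : C.Γ u (F * g) = F * C.Γ u g + g * C.Γ F u := by
    rw [hC.symm _ uA.1 _ hFg, hD.Γ_mul_left_lip FA FT hg uA.1, hC.symm _ hg _ uA.1]
  have g2 := hC.memLp g hg
  have m1 : MemLp (F * C.Γ u g : M →ₘ[m] ℝ) 1 m := mem_mul_top FA.2 (hD.Γ_mem1 uA.1 hg)
  have m2 : MemLp (g * C.Γ F u : M →ₘ[m] ℝ) 1 m :=
    mem_mul_22 g2 (hD.Γ_mem2 FA.1 FT uA.1)
  have m3 : MemLp (g * (F * C.lap u) : M →ₘ[m] ℝ) 1 m :=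
    mem_mul_22 g2 (mem_mul_top FA.2 (hC.test_isLap hu.1).2.1)
  rw [e1, I_add m1 m2] at h1
  have e2 : g * C.De F u = g * C.Γ F u + g * (F * C.lap u) := by
    unfold Calc.De; ring
  have e3 : C.lap u * (F * g) = g * (F * C.lap u) := by ring
  rw [e3] at h1
  rw [e2, I_add m2 m3]
  linarith

end IsGamma

theorem mul_eq_of_sub_one {θ u : M →ₘ[m] ℝ} (h : (1 - θ) * u = 0) : θ * u = u := by
  linear_combination -h

/-- where `θ ≠ 1` the function vanishes -/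
theorem eq_zero_of_loc {θ u : M →ₘ[m] ℝ} (h : (1 - θ) * u = 0) :
    ∀ᵐ x ∂m, θ x = 1 ∨ u x = 0 := by
  rw [eq_iff_ae] at h
  filter_upwards [h, mul_ae (1 - θ) u, sub_ae 1 θ, one_ae (M := M) (m := m),
    zero_ae (M := M) (m := m)] with x a1 a2 a3 a4 a5
  rw [a2, a3, a4, a5] at a1
  rcases mul_eq_zero.1 a1 with h | h
  · left; linarith
  · right; exact h

namespace Dat

variable {X : Dat m} {θ : M →ₘ[m] ℝ} {η δ : ℝ}

section lin
variable (X C)

theorem pt_smul (t : ℝ) (e : ℝ × ℝ) : X.pt (t • e) = t • X.pt e := by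
  simp only [pt, Prod.smul_fst, Prod.smul_snd, smul_eq_mul, mul_smul, smul_add]

theorem D_smul (t : ℝ) (e : ℝ × ℝ) : X.D C (t • e) = t • X.D C e := by
  simp only [D, Prod.smul_fst, Prod.smul_snd, smul_eq_mul, mul_smul, smul_add]

theorem D'_smul (t : ℝ) (e : ℝ × ℝ) : X.D' (t • e) = t • X.D' e := by
  simp only [D', Prod.smul_fst, Prod.smul_snd, smul_eq_mul, mul_smul, smul_add]

theorem G'_smul (t : ℝ) (e : ℝ × ℝ) : X.G' (t • e) (t • e) = t ^ 2 • X.G' e e := by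
  simp only [G', Prod.smul_fst, Prod.smul_snd, smul_eq_mul]
  rw [show t * e.1 * (t * e.1) = t ^ 2 * (e.1 * e.1) by ring,
    show t * e.1 * (t * e.2) + t * e.2 * (t * e.1) = t ^ 2 * (e.1 * e.2 + e.2 * e.1) by ring,
    show t * e.2 * (t * e.2) = t ^ 2 * (e.2 * e.2) by ring]
  simp only [mul_smul, smul_add]

theorem pt_add (v w : ℝ × ℝ) : X.pt (v + w) = X.pt v + X.pt w := by
  simp only [pt, Prod.fst_add, Prod.snd_add, add_smul]
  abel

theorem D_add (v w : ℝ × ℝ) : X.D C (v + w) = X.D C v + X.D C w := by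
  simp only [D, Prod.fst_add, Prod.snd_add, add_smul]
  abel

theorem D'_add (v w : ℝ × ℝ) : X.D' (v + w) = X.D' v + X.D' w := by
  simp only [D', Prod.fst_add, Prod.snd_add, add_smul]
  abel

theorem G'_comm (v w : ℝ × ℝ) : X.G' v w = X.G' w v := by
  simp only [G']
  rw [mul_comm v.1 w.1, mul_comm v.2 w.2, show v.1 * w.2 + v.2 * w.1 = w.1 * v.2 + w.2 * v.1 by ring]

theorem G'_add (v w u : ℝ × ℝ) : X.G' (v + w) u = X.G' v u + X.G' w u := by
  simp only [G', Prod.fst_add, Prod.snd_add]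
  rw [show (v.1 + w.1) * u.1 = v.1 * u.1 + w.1 * u.1 by ring,
    show (v.1 + w.1) * u.2 + (v.2 + w.2) * u.1
      = (v.1 * u.2 + v.2 * u.1) + (w.1 * u.2 + w.2 * u.1) by ring,
    show (v.2 + w.2) * u.2 = v.2 * u.2 + w.2 * u.2 by ring]
  simp only [add_smul]
  abel

end lin

section Ok

variable (hC : IsGamma C) {κ : ℝ} (hB : C.BEi κ) (hX : X.Ok C θ η δ)
include hC hB hX

theorem pt_memI (v : ℝ × ℝ) : X.pt v ∈ C.TestI :=
  hC.testI_add hB (hC.testI_smul hB _ hX.ha) (hC.testI_smul hB _ hX.hb)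

theorem D'_memI (v : ℝ × ℝ) : X.D' v ∈ C.TestI :=
  hC.testI_add hB (hC.testI_smul hB _ hX.hA) (hC.testI_smul hB _ hX.hB)

theorem G'_memI (v w : ℝ × ℝ) : X.G' v w ∈ C.TestI :=
  hC.testI_add hB (hC.testI_add hB (hC.testI_smul hB _ hX.hP) (hC.testI_smul hB _ hX.hQ))
    (hC.testI_smul hB _ hX.hR)

omit hC hB in
theorem θ_pt (v : ℝ × ℝ) : θ * X.pt v = X.pt v := by
  simp only [pt, mul_add, mul_smul_comm, hX.θa, hX.θb]

omit hC hB in
theorem θ_G' (v w : ℝ × ℝ) : θ * X.G' v w = X.G' v w := by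
  simp only [G', mul_add, mul_smul_comm, hX.θP, hX.θQ, hX.θR]

/-- `D v = div(F∇v)` -/
theorem D_eq (v : ℝ × ℝ) : X.D C v = C.De X.F (X.pt v) := by
  have hF := (hC.test_A hX.hF.1).1
  have ha := (hC.test_A hX.ha.1).1
  have hb := (hC.test_A hX.hb.1).1
  unfold D pt Calc.De
  rw [hC.toIsDir.Γ_add_right hF (hC.smul_mem _ _ ha) (hC.smul_mem _ _ hb),
    hC.toIsDir.Γ_smul_right _ hF ha, hC.toIsDir.Γ_smul_right _ hF hb,
    hC.lap_add hB (hC.test_smul hB _ hX.ha.1) (hC.test_smul hB _ hX.hb.1),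
    hC.lap_smul hB _ hX.ha.1, hC.lap_smul hB _ hX.hb.1]
  algebra

omit hC hB hX in
/-- `r v w` in terms of divergences -/
theorem r_eq (v w : ℝ × ℝ) : X.r C v w = (2 : ℝ)⁻¹ • (C.De (X.D' v) (X.pt w)
    + C.De (X.D' w) (X.pt v) + C.De X.F (X.G' v w)) := rfl

theorem r_smul (t : ℝ) (e : ℝ × ℝ) : X.r C (t • e) (t • e) = t ^ 2 • X.r C e e := by
  have hF := (hC.test_A hX.hF.1).1
  have hp := pt_memI hC hB hX e
  have hd := D'_memI hC hB hX e
  have hg := G'_memI hC hB hX e e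
  have pW := (hC.test_A hp.1).1
  have dW := (hC.test_A hd.1).1
  have gW := (hC.test_A hg.1).1
  rw [r_eq, r_eq, pt_smul, D'_smul, G'_smul]
  unfold Calc.De
  rw [hC.lap_smul hB _ hp.1, hC.lap_smul hB _ hg.1,
    hC.smul_left _ _ dW _ (hC.smul_mem _ _ pW), hC.toIsDir.Γ_smul_right _ dW pW,
    hC.toIsDir.Γ_smul_right _ hF gW]
  algebra

omit hX in
theorem De_memA {f g : M →ₘ[m] ℝ} (hf : f ∈ C.TestI) (hg : g ∈ C.TestI) : C.De f g ∈ C.A := by
  have h1 := hC.Γ_mem hB hf.1 hg.1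
  have h2 := hC.toIsDir.mul_mem_A (hC.test_A hf.1) (hC.testI_lap_A hB hg)
  exact hC.toIsDir.A_add h1 h2

theorem D_memA (v : ℝ × ℝ) : X.D C v ∈ C.A := by
  rw [D_eq hC hB hX]
  exact De_memA hC hB hX.hF (pt_memI hC hB hX v)

theorem r_memA (v w : ℝ × ℝ) : X.r C v w ∈ C.A := by
  rw [r_eq]
  exact hC.toIsDir.A_smul _ (hC.toIsDir.A_add (hC.toIsDir.A_add
    (De_memA hC hB (D'_memI hC hB hX v) (pt_memI hC hB hX w))
    (De_memA hC hB (D'_memI hC hB hX w) (pt_memI hC hB hX v)))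
    (De_memA hC hB hX.hF (G'_memI hC hB hX v w)))

omit hX in
theorem loc_De {f g : M →ₘ[m] ℝ} (hθ : θ ∈ C.Test) (hf : f ∈ C.Test) (hg : g ∈ C.TestI)
    (h : θ * g = g) : (1 - θ) * C.De f g = 0 := by
  unfold Calc.De
  have h1 := hC.loc_Γ hθ hg.1 h (hC.test_A hf).1
  rw [hC.symm _ (hC.test_A hg.1).1 _ (hC.test_A hf).1] at h1
  have h2 := hC.loc_lap hB hθ hg.1 h
  have e : (1 - θ) * (C.Γ f g + f * C.lap g) = (1 - θ) * C.Γ f g + f * ((1 - θ) * C.lap g) := by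
    ring
  rw [e, h1, h2, mul_zero, add_zero]

theorem loc_D (v : ℝ × ℝ) : (1 - θ) * X.D C v = 0 := by
  rw [D_eq hC hB hX]
  exact loc_De hC hB hX.hθ.1 hX.hF.1 (pt_memI hC hB hX v) (θ_pt hX v)

theorem loc_r (v w : ℝ × ℝ) : (1 - θ) * X.r C v w = 0 := by
  rw [r_eq, mul_smul_comm, mul_add, mul_add,
    loc_De hC hB hX.hθ.1 (D'_memI hC hB hX v).1 (pt_memI hC hB hX w) (θ_pt hX w),
    loc_De hC hB hX.hθ.1 (D'_memI hC hB hX w).1 (pt_memI hC hB hX v) (θ_pt hX v),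
    loc_De hC hB hX.hθ.1 hX.hF.1 (G'_memI hC hB hX v w) (θ_G' hX v w)]
  simp

theorem loc_Γpt (v : ℝ × ℝ) {g : M →ₘ[m] ℝ} (hg : g ∈ C.W) : (1 - θ) * C.Γ (X.pt v) g = 0 :=
  hC.loc_Γ hX.hθ.1 (pt_memI hC hB hX v).1 (θ_pt hX v) hg

theorem loc_ΓG' (v w : ℝ × ℝ) {g : M →ₘ[m] ℝ} (hg : g ∈ C.W) :
    (1 - θ) * C.Γ (X.G' v w) g = 0 :=
  hC.loc_Γ hX.hθ.1 (G'_memI hC hB hX v w).1 (θ_G' hX v w) hg

theorem Y_mem1 (v w : ℝ × ℝ) {g : M →ₘ[m] ℝ} (hg : g ∈ C.W) : MemLp (X.Y C v w g) 1 m := by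
  have hD := hC.toIsDir
  have pv := (hC.test_A (pt_memI hC hB hX v).1).1
  have pw := (hC.test_A (pt_memI hC hB hX w).1).1
  have gg := (hC.test_A (G'_memI hC hB hX v w).1).1
  exact mem_smul _ (mem_add (mem_add
    (mem_mul_top (hC.test_A (D'_memI hC hB hX v).1).2 (hD.Γ_mem1 pw hg))
    (mem_mul_top (hC.test_A (D'_memI hC hB hX w).1).2 (hD.Γ_mem1 pv hg)))
    (mem_mul_top (hC.test_A hX.hF.1).2 (hD.Γ_mem1 gg hg)))

/-- `∫ g D_v = - ∫ F Γ(v,g)` -/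
theorem ibp_D (v : ℝ × ℝ) {g : M →ₘ[m] ℝ} (hg : g ∈ C.W) :
    I (g * X.D C v) = - I (X.F * C.Γ (X.pt v) g) := by
  rw [D_eq hC hB hX]
  exact hC.ibp_De hX.hF.1 (pt_memI hC hB hX v) hg

/-- `∫ g r_{vw} = - ∫ Y_{vw}(g)` -/
theorem ibp_r (v w : ℝ × ℝ) {g : M →ₘ[m] ℝ} (hg : g ∈ C.W) :
    I (g * X.r C v w) = - I (X.Y C v w g) := by
  have hD := hC.toIsDir
  have g2 := hC.memLp g hg
  have Pv := pt_memI hC hB hX v
  have Pw := pt_memI hC hB hX w
  have Dv := D'_memI hC hB hX v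
  have Dw := D'_memI hC hB hX w
  have Gg := G'_memI hC hB hX v w
  have h1 := hC.ibp_De Dv.1 Pw hg
  have h2 := hC.ibp_De Dw.1 Pv hg
  have h3 := hC.ibp_De hX.hF.1 Gg hg
  have n1 : MemLp (g * C.De (X.D' v) (X.pt w) : M →ₘ[m] ℝ) 1 m :=
    mem_mul_22 g2 (hC.memLp _ (De_memA hC hB Dv Pw).1)
  have n2 : MemLp (g * C.De (X.D' w) (X.pt v) : M →ₘ[m] ℝ) 1 m :=
    mem_mul_22 g2 (hC.memLp _ (De_memA hC hB Dw Pv).1)
  have n3 : MemLp (g * C.De X.F (X.G' v w) : M →ₘ[m] ℝ) 1 m :=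
    mem_mul_22 g2 (hC.memLp _ (De_memA hC hB hX.hF Gg).1)
  have q1 : MemLp (X.D' v * C.Γ (X.pt w) g : M →ₘ[m] ℝ) 1 m :=
    mem_mul_top (hC.test_A Dv.1).2 (hD.Γ_mem1 (hC.test_A Pw.1).1 hg)
  have q2 : MemLp (X.D' w * C.Γ (X.pt v) g : M →ₘ[m] ℝ) 1 m :=
    mem_mul_top (hC.test_A Dw.1).2 (hD.Γ_mem1 (hC.test_A Pv.1).1 hg)
  have q3 : MemLp (X.F * C.Γ (X.G' v w) g : M →ₘ[m] ℝ) 1 m :=
    mem_mul_top (hC.test_A hX.hF.1).2 (hD.Γ_mem1 (hC.test_A Gg.1).1 hg)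
  have e1 : g * X.r C v w = (2 : ℝ)⁻¹ • (g * C.De (X.D' v) (X.pt w)
      + g * C.De (X.D' w) (X.pt v) + g * C.De X.F (X.G' v w)) := by
    rw [r_eq]; algebra
  rw [e1, I_smul, I_add (mem_add n1 n2) n3, I_add n1 n2, h1, h2, h3]
  unfold Y
  rw [I_smul, I_add (mem_add q1 q2) q3, I_add q1 q2]
  ring

end Ok

end Dat

end Vale.Agent.P233
end

section

set_option linter.all false

open MeasureTheory Filter Topology
open scoped ENNReal NNReal

namespace Vale.Agent.P233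

variable {M : Type*} [MeasurableSpace M] {m : Measure M} {C : Calc m}

/-- The integrand of the action: `∫ φ ∂ρ - ½ ∫ ρ |∇φ|²`, where `ρ' = ∂ρ`. -/
noncomputable def Calc.act (C : Calc m) (φ ρ' ρ : M →ₘ[m] ℝ) : ℝ :=
  I (φ * ρ') - 2⁻¹ * I (ρ * C.Γ φ φ)

theorem I_lin3 {a b c g : M →ₘ[m] ℝ} (ha : MemLp a 2 m) (hb : MemLp b 2 m) (hc : MemLp c 2 m)
    (hg : MemLp g 2 m) (x y : ℝ) :
    I (g * (-a + x • b + y • c)) = -I (g * a) + x * I (g * b) + y * I (g * c) := by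
  have e : g * (-a + x • b + y • c) = -(g * a) + x • (g * b) + y • (g * c) := by algebra
  have n1 := mem_mul_22 hg ha
  have n2 := mem_mul_22 hg hb
  have n3 := mem_mul_22 hg hc
  rw [e, I_add (mem_add (mem_neg n1) (mem_smul _ n2)) (mem_smul _ n3),
    I_add (mem_neg n1) (mem_smul _ n2), I_neg, I_smul, I_smul]

theorem I_lin6 {F a b c d e g : M →ₘ[m] ℝ} (hF : MemLp F 2 m) (ha : MemLp a 2 m)
    (hb : MemLp b 2 m) (hc : MemLp c 2 m) (hd : MemLp d 2 m) (he : MemLp e 2 m)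
    (hg : MemLp g 2 m) (x y z u v : ℝ) :
    I ((F - x • a - y • b + z • c + u • d + v • e) * g)
      = I (F * g) - x * I (a * g) - y * I (b * g) + z * I (c * g) + u * I (d * g)
        + v * I (e * g) := by
  have e0 : (F - x • a - y • b + z • c + u • d + v • e) * g
      = F * g - x • (a * g) - y • (b * g) + z • (c * g) + u • (d * g) + v • (e * g) := by algebra
  have n0 := mem_mul_22 hF hg
  have n1 := mem_smul x (mem_mul_22 ha hg)
  have n2 := mem_smul y (mem_mul_22 hb hg)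
  have n3 := mem_smul z (mem_mul_22 hc hg)
  have n4 := mem_smul u (mem_mul_22 hd hg)
  have n5 := mem_smul v (mem_mul_22 he hg)
  rw [e0, I_add (mem_add (mem_add (mem_sub (mem_sub n0 n1) n2) n3) n4) n5,
    I_add (mem_add (mem_sub (mem_sub n0 n1) n2) n3) n4,
    I_add (mem_sub (mem_sub n0 n1) n2) n3, I_sub (mem_sub n0 n1) n2, I_sub n0 n1,
    I_smul, I_smul, I_smul, I_smul, I_smul]

theorem I_linΓ {ρ a b c d e f : M →ₘ[m] ℝ} (hρ : MemLp ρ 2 m) (ha : MemLp a 2 m)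
    (hb : MemLp b 2 m) (hc : MemLp c 2 m) (hd : MemLp d 2 m) (he : MemLp e 2 m)
    (hf : MemLp f 2 m) (x y z u v : ℝ) :
    I (ρ * (a + x • b + y • c + z • d + u • e + v • f))
      = I (ρ * a) + x * I (ρ * b) + y * I (ρ * c) + z * I (ρ * d) + u * I (ρ * e)
        + v * I (ρ * f) := by
  have e0 : ρ * (a + x • b + y • c + z • d + u • e + v • f)
      = ρ * a + x • (ρ * b) + y • (ρ * c) + z • (ρ * d) + u • (ρ * e) + v • (ρ * f) := by algebra
  have n0 := mem_mul_22 hρ ha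
  have n1 := mem_smul x (mem_mul_22 hρ hb)
  have n2 := mem_smul y (mem_mul_22 hρ hc)
  have n3 := mem_smul z (mem_mul_22 hρ hd)
  have n4 := mem_smul u (mem_mul_22 hρ he)
  have n5 := mem_smul v (mem_mul_22 hρ hf)
  rw [e0, I_add (mem_add (mem_add (mem_add (mem_add n0 n1) n2) n3) n4) n5,
    I_add (mem_add (mem_add (mem_add n0 n1) n2) n3) n4,
    I_add (mem_add (mem_add n0 n1) n2) n3, I_add (mem_add n0 n1) n2, I_add n0 n1,
    I_smul, I_smul, I_smul, I_smul, I_smul]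

/-- integral of a polynomial of degree four -/
theorem poly_int (A0 A1 A2 A3 A4 ε : ℝ) :
    ∫ s in (0:ℝ)..ε, (A0 + A1 * s + A2 * s ^ 2 + A3 * s ^ 3 + A4 * s ^ 4)
      = A0 * ε + A1 * ε ^ 2 / 2 + A2 * ε ^ 3 / 3 + A3 * ε ^ 4 / 4 + A4 * ε ^ 5 / 5 := by
  have key : ∀ s ∈ Set.uIcc 0 ε, HasDerivAt (fun s : ℝ => A0 * s + A1 * s ^ 2 / 2 + A2 * s ^ 3 / 3
      + A3 * s ^ 4 / 4 + A4 * s ^ 5 / 5)
      (A0 + A1 * s + A2 * s ^ 2 + A3 * s ^ 3 + A4 * s ^ 4) s := by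
    intro s _
    have h1 := (hasDerivAt_id s).const_mul A0
    have h2 := ((hasDerivAt_pow 2 s).const_mul A1).div_const 2
    have h3 := ((hasDerivAt_pow 3 s).const_mul A2).div_const 3
    have h4 := ((hasDerivAt_pow 4 s).const_mul A3).div_const 4
    have h5 := ((hasDerivAt_pow 5 s).const_mul A4).div_const 5
    have := (((h1.add h2).add h3).add h4).add h5
    refine (this.congr_deriv ?_).congr_of_eventuallyEq ?_
    · norm_num; ring
    · exact Filter.Eventually.of_forall fun t => by simp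
  rw [intervalIntegral.integral_eq_sub_of_hasDerivAt key]
  · ring
  · apply Continuous.intervalIntegrable
    fun_prop

namespace IsGamma

variable (hC : IsGamma C) {κ : ℝ} (hB : C.BEi κ)
variable {F e h G Dp De rpp rpe ree : M →ₘ[m] ℝ}

include hC hB

theorem Γ_expand3 (he : e ∈ C.Test) (hh : h ∈ C.Test) (hG : G ∈ C.Test) (x y : ℝ) :
    C.Γ (e + x • h - y • G) (e + x • h - y • G)
      = C.Γ e e + (2 * x) • C.Γ e h + (-(2 * y)) • C.Γ e G + (x ^ 2) • C.Γ h h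
        + (-(2 * x * y)) • C.Γ h G + (y ^ 2) • C.Γ G G := by
  have e1 := (hC.test_A he).1
  have h1 := (hC.test_A hh).1
  have G1 := (hC.test_A hG).1
  have xh := hC.smul_mem x _ h1
  have yG := hC.smul_mem y _ G1
  have exh := hC.add_mem _ e1 _ xh
  have tot := hC.toIsDir.sub_mem exh yG
  rw [hC.toIsDir.Γ_sub_left exh yG tot, hC.add_left _ e1 _ xh _ tot,
    hC.toIsDir.Γ_sub_right e1 exh yG, hC.toIsDir.Γ_sub_right xh exh yG,
    hC.toIsDir.Γ_sub_right yG exh yG, hC.toIsDir.Γ_add_right e1 e1 xh,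
    hC.toIsDir.Γ_add_right xh e1 xh, hC.toIsDir.Γ_add_right yG e1 xh,
    hC.smul_left _ _ h1 _ e1, hC.smul_left _ _ h1 _ xh, hC.smul_left _ _ h1 _ yG,
    hC.smul_left _ _ G1 _ e1, hC.smul_left _ _ G1 _ xh, hC.smul_left _ _ G1 _ yG,
    hC.toIsDir.Γ_smul_right _ e1 h1, hC.toIsDir.Γ_smul_right _ h1 h1,
    hC.toIsDir.Γ_smul_right _ G1 h1, hC.toIsDir.Γ_smul_right _ e1 G1,
    hC.toIsDir.Γ_smul_right _ h1 G1, hC.toIsDir.Γ_smul_right _ G1 G1,
    hC.symm _ h1 _ e1, hC.symm _ G1 _ e1, hC.symm _ G1 _ h1]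
  algebra

/-- the density on a segment -/
noncomputable def _root_.Vale.Agent.P233.segρ (F Dp De rpp rpe ree : M →ₘ[m] ℝ) (ε s : ℝ) :
    M →ₘ[m] ℝ :=
  F - ε • Dp - s • De + (ε ^ 2 / 2) • rpp + (ε * s) • rpe + (s ^ 2 / 2) • ree

theorem test_Γ2 (he : e ∈ C.Test) (hh : h ∈ C.Test) : MemLp (C.Γ e h) 2 m :=
  hC.memLp _ (hC.Γ_mem hB he hh).1

/-- The action integrand on a segment is a polynomial in `ε, s`. -/
theorem act_seg (he : e ∈ C.Test) (hh : h ∈ C.Test) (hG : G ∈ C.Test)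
    (hF : MemLp F 2 m) (hDp : MemLp Dp 2 m) (hDe : MemLp De 2 m) (hrpp : MemLp rpp 2 m)
    (hrpe : MemLp rpe 2 m) (hree : MemLp ree 2 m)
    (ie : I (e * De) = -I (F * C.Γ e e)) (ih : I (h * De) = -I (F * C.Γ e h))
    (iG : I (G * De) = -I (F * C.Γ e G)) (ε s : ℝ) :
    C.act (e + ε • h - s • G) (-De + ε • rpe + s • ree) (segρ F Dp De rpp rpe ree ε s)
      = (2⁻¹ * I (F * C.Γ e e)
        + ε * (I (e * rpe) + 2⁻¹ * I (Dp * C.Γ e e))
        + ε ^ 2 * (I (h * rpe) - 2⁻¹ * I (F * C.Γ h h) + I (Dp * C.Γ e h)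
            - 4⁻¹ * I (rpp * C.Γ e e))
        + ε ^ 3 * (2⁻¹ * I (Dp * C.Γ h h) - 2⁻¹ * I (rpp * C.Γ e h))
        + ε ^ 4 * (- 4⁻¹ * I (rpp * C.Γ h h)))
      + ((I (e * ree) + 2⁻¹ * I (De * C.Γ e e))
        + ε * (I (h * ree) - I (G * rpe) + I (F * C.Γ h G) + I (De * C.Γ e h)
            - I (Dp * C.Γ e G) - 2⁻¹ * I (rpe * C.Γ e e))
        + ε ^ 2 * (2⁻¹ * I (De * C.Γ h h) - I (Dp * C.Γ h G) - I (rpe * C.Γ e h)
            + 2⁻¹ * I (rpp * C.Γ e G))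
        + ε ^ 3 * (2⁻¹ * I (rpp * C.Γ h G) - 2⁻¹ * I (rpe * C.Γ h h))) * s
      + ((- I (G * ree) - 2⁻¹ * I (F * C.Γ G G) - I (De * C.Γ e G)
            - 4⁻¹ * I (ree * C.Γ e e))
        + ε * (2⁻¹ * I (Dp * C.Γ G G) - I (De * C.Γ h G) + I (rpe * C.Γ e G)
            - 2⁻¹ * I (ree * C.Γ e h))
        + ε ^ 2 * (- 4⁻¹ * I (rpp * C.Γ G G) + I (rpe * C.Γ h G)
            - 4⁻¹ * I (ree * C.Γ h h))) * s ^ 2
      + ((2⁻¹ * I (De * C.Γ G G) + 2⁻¹ * I (ree * C.Γ e G))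
        + ε * (- 2⁻¹ * I (rpe * C.Γ G G) + 2⁻¹ * I (ree * C.Γ h G))) * s ^ 3
      + (- 4⁻¹ * I (ree * C.Γ G G)) * s ^ 4 := by
  have e2 := hC.memLp _ (hC.test_A he).1
  have h2 := hC.memLp _ (hC.test_A hh).1
  have G2 := hC.memLp _ (hC.test_A hG).1
  have hX : MemLp (-De + ε • rpe + s • ree : M →ₘ[m] ℝ) 2 m :=
    mem_add (mem_add (mem_neg hDe) (mem_smul _ hrpe)) (mem_smul _ hree)
  have hρ : MemLp (segρ F Dp De rpp rpe ree ε s) 2 m :=
    mem_add (mem_add (mem_add (mem_sub (mem_sub hF (mem_smul _ hDp)) (mem_smul _ hDe))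
      (mem_smul _ hrpp)) (mem_smul _ hrpe)) (mem_smul _ hree)
  have g1 := hC.test_Γ2 hB he he
  have g2 := hC.test_Γ2 hB he hh
  have g3 := hC.test_Γ2 hB he hG
  have g4 := hC.test_Γ2 hB hh hh
  have g5 := hC.test_Γ2 hB hh hG
  have g6 := hC.test_Γ2 hB hG hG
  have p1 : I ((e + ε • h - s • G) * (-De + ε • rpe + s • ree))
      = I (e * (-De + ε • rpe + s • ree)) + ε * I (h * (-De + ε • rpe + s • ree))
        - s * I (G * (-De + ε • rpe + s • ree)) := by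
    have e0 : (e + ε • h - s • G) * (-De + ε • rpe + s • ree)
        = e * (-De + ε • rpe + s • ree) + ε • (h * (-De + ε • rpe + s • ree))
          - s • (G * (-De + ε • rpe + s • ree)) := by algebra
    have n0 := mem_mul_22 e2 hX
    have n1 := mem_smul ε (mem_mul_22 h2 hX)
    have n2 := mem_smul s (mem_mul_22 G2 hX)
    rw [e0, I_sub (mem_add n0 n1) n2, I_add n0 n1, I_smul, I_smul]
  have r1 := fun {g : M →ₘ[m] ℝ} (hg : MemLp g 2 m) =>
    I_lin6 hF hDp hDe hrpp hrpe hree hg ε s (ε ^ 2 / 2) (ε * s) (s ^ 2 / 2)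
  unfold Calc.act
  rw [p1, I_lin3 hDe hrpe hree e2, I_lin3 hDe hrpe hree h2, I_lin3 hDe hrpe hree G2, ie, ih, iG,
    hC.Γ_expand3 hB he hh hG, I_linΓ hρ g1 g2 g3 g4 g5 g6]
  unfold segρ
  rw [r1 g1, r1 g2, r1 g3, r1 g4, r1 g5, r1 g6]
  ring

/-- the coefficient of `ε` -/
noncomputable def _root_.Vale.Agent.P233.Calc.k1 (C : Calc m) (F e : M →ₘ[m] ℝ) : ℝ :=
  2⁻¹ * I (F * C.Γ e e)

/-- the coefficient of `ε²` -/
noncomputable def _root_.Vale.Agent.P233.Calc.k2 (C : Calc m) (e Dp De rpe ree : M →ₘ[m] ℝ) : ℝ :=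
  (I (e * rpe) + 2⁻¹ * I (Dp * C.Γ e e)) + 2⁻¹ * (I (e * ree) + 2⁻¹ * I (De * C.Γ e e))

/-- the coefficient of `ε³` -/
noncomputable def _root_.Vale.Agent.P233.Calc.k3 (C : Calc m)
    (F e h G Dp De rpp rpe ree : M →ₘ[m] ℝ) : ℝ :=
  (I (h * rpe) - 2⁻¹ * I (F * C.Γ h h) + I (Dp * C.Γ e h) - 4⁻¹ * I (rpp * C.Γ e e))
    + 2⁻¹ * (I (h * ree) - I (G * rpe) + I (F * C.Γ h G) + I (De * C.Γ e h)
            - I (Dp * C.Γ e G) - 2⁻¹ * I (rpe * C.Γ e e))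
    + 3⁻¹ * (- I (G * ree) - 2⁻¹ * I (F * C.Γ G G) - I (De * C.Γ e G)
            - 4⁻¹ * I (ree * C.Γ e e))

/-- The action of a segment as a function of `ε`. -/
theorem seg_int (he : e ∈ C.Test) (hh : h ∈ C.Test) (hG : G ∈ C.Test)
    (hF : MemLp F 2 m) (hDp : MemLp Dp 2 m) (hDe : MemLp De 2 m) (hrpp : MemLp rpp 2 m)
    (hrpe : MemLp rpe 2 m) (hree : MemLp ree 2 m)
    (ie : I (e * De) = -I (F * C.Γ e e)) (ih : I (h * De) = -I (F * C.Γ e h))
    (iG : I (G * De) = -I (F * C.Γ e G)) :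
    ∃ c4 c5 : ℝ, ∀ ε : ℝ,
      ∫ s in (0:ℝ)..ε, C.act (e + ε • h - s • G) (-De + ε • rpe + s • ree)
          (segρ F Dp De rpp rpe ree ε s)
        = C.k1 F e * ε + C.k2 e Dp De rpe ree * ε ^ 2 + C.k3 F e h G Dp De rpp rpe ree * ε ^ 3
          + c4 * ε ^ 4 + c5 * ε ^ 5 := by
  refine ⟨(2⁻¹ * I (Dp * C.Γ h h) - 2⁻¹ * I (rpp * C.Γ e h))
      + (2⁻¹ * I (De * C.Γ h h) - I (Dp * C.Γ h G) - I (rpe * C.Γ e h)
            + 2⁻¹ * I (rpp * C.Γ e G)) / 2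
      + (2⁻¹ * I (Dp * C.Γ G G) - I (De * C.Γ h G) + I (rpe * C.Γ e G)
            - 2⁻¹ * I (ree * C.Γ e h)) / 3
      + (2⁻¹ * I (De * C.Γ G G) + 2⁻¹ * I (ree * C.Γ e G)) / 4,
      (- 4⁻¹ * I (rpp * C.Γ h h))
      + (2⁻¹ * I (rpp * C.Γ h G) - 2⁻¹ * I (rpe * C.Γ h h)) / 2
      + (- 4⁻¹ * I (rpp * C.Γ G G) + I (rpe * C.Γ h G) - 4⁻¹ * I (ree * C.Γ h h)) / 3
      + (- 2⁻¹ * I (rpe * C.Γ G G) + 2⁻¹ * I (ree * C.Γ h G)) / 4
      + (- 4⁻¹ * I (ree * C.Γ G G)) / 5, fun ε => ?_⟩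
  simp only [hC.act_seg hB he hh hG hF hDp hDe hrpp hrpe hree ie ih iG ε]
  rw [poly_int]
  unfold Calc.k1 Calc.k2 Calc.k3
  ring

end IsGamma

end Vale.Agent.P233
end

section

/-!
Block CENI-1: the flux of the centre curve.
-/

open MeasureTheory Filter Topology
open scoped ENNReal NNReal

namespace Vale.Agent.P233

variable {M : Type*} [MeasurableSpace M] {m : Measure M} {C : Calc m}

/-- `v² = |J|²/ρ²` along the centre curve -/
noncomputable def Dat.v2 (X : Dat m) (C : Calc m) (e : ℝ × ℝ) (t : ℝ) : M →ₘ[m] ℝ :=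
  AEEqFun.mk (fun x => X.J2 C e t x / X.rho C (t • e) x ^ 2)
    ((AEEqFun.aestronglyMeasurable _).aemeasurable.div
      ((AEEqFun.aestronglyMeasurable _).aemeasurable.pow_const 2)).aestronglyMeasurable

theorem AB.rho_real {η B F D r t : ℝ} (hB0 : 0 ≤ B) (ht0 : 0 ≤ t) (ht1 : t ≤ 1)
    (ht3 : t * (4 * (B + 1)) ≤ η) (hF : η ≤ F) (hD : |D| ≤ B) (hr : |r| ≤ B) :
    η / 2 ≤ F - t * D + t ^ 2 / 2 * r := by
  have e1 : t * D ≤ t * B := mul_le_mul_of_nonneg_left (abs_le.1 hD).2 ht0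
  have e2 : t ^ 2 / 2 * (-B) ≤ t ^ 2 / 2 * r :=
    mul_le_mul_of_nonneg_left (abs_le.1 hr).1 (by positivity)
  have e3 : t ^ 2 * B ≤ t * B := by
    have : t ^ 2 ≤ t := by linarith only [mul_nonneg (sub_nonneg.2 ht0) (sub_nonneg.2 ht1)]
    exact mul_le_mul_of_nonneg_right this hB0
  have e4 : t * (4 * (B + 1)) = 4 * (t * B) + 4 * t := by ring
  have e5 : 0 ≤ t * B := mul_nonneg ht0 hB0
  have e6 : t ^ 2 / 2 * (-B) = -(t ^ 2 * B / 2) := by ring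
  rw [e4] at ht3
  rw [e6] at e2
  linarith only [e5, e3, e2, e1, hF, ht3, ht0]

theorem AB.J_real {B f d a b c t : ℝ} (hB0 : 0 ≤ B) (ht0 : 0 ≤ t) (ht1 : t ≤ 1) (hf : |f| ≤ B)
    (hd : |d| ≤ B) (ha : |a| ≤ B) (hb : |b| ≤ B) (hc : |c| ≤ B) :
    (f - t * d) ^ 2 * a + 2 * (f - t * d) * (-(t / 2 * f)) * b + (-(t / 2 * f)) ^ 2 * c
      ≤ 9 * B ^ 3 := by
  have f1 : |f - t * d| ≤ 2 * B := by
    have g1 : |t * d| ≤ B := by
      rw [abs_mul, abs_of_nonneg ht0]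
      calc t * |d| ≤ 1 * B := by gcongr
        _ = B := one_mul B
    rw [abs_le] at g1 hf ⊢
    constructor <;> linarith [g1.1, g1.2, hf.1, hf.2]
  have f2 : |-(t / 2 * f)| ≤ B := by
    rw [abs_neg, abs_mul, abs_of_nonneg (by positivity : (0:ℝ) ≤ t / 2)]
    calc t / 2 * |f| ≤ 1 * B := by
          have : t / 2 ≤ 1 := by linarith
          gcongr
      _ = B := one_mul B
  have g1 : (f - t * d) ^ 2 * a ≤ (2 * B) ^ 2 * B := by
    have h1 : (f - t * d) ^ 2 ≤ (2 * B) ^ 2 := by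
      rw [← sq_abs]; gcongr
    calc (f - t * d) ^ 2 * a ≤ (f - t * d) ^ 2 * B :=
          mul_le_mul_of_nonneg_left (abs_le.1 ha).2 (sq_nonneg _)
      _ ≤ (2 * B) ^ 2 * B := mul_le_mul_of_nonneg_right h1 hB0
  have g2 : 2 * (f - t * d) * (-(t / 2 * f)) * b ≤ 2 * (2 * B) * B * B := by
    refine (le_abs_self _).trans ?_
    rw [abs_mul, abs_mul, abs_mul, abs_two]
    gcongr
  have g3 : (-(t / 2 * f)) ^ 2 * c ≤ B ^ 2 * B := by
    have h1 : (-(t / 2 * f)) ^ 2 ≤ B ^ 2 := by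
      rw [← sq_abs]; gcongr
    calc (-(t / 2 * f)) ^ 2 * c ≤ (-(t / 2 * f)) ^ 2 * B :=
          mul_le_mul_of_nonneg_left (abs_le.1 hc).2 (sq_nonneg _)
      _ ≤ B ^ 2 * B := mul_le_mul_of_nonneg_right h1 hB0
  have e : (2 * B) ^ 2 * B + 2 * (2 * B) * B * B + B ^ 2 * B = 9 * B ^ 3 := by ring
  linarith

namespace Dat

variable {X : Dat m} {θ : M →ₘ[m] ℝ} {η δ : ℝ}

theorem v2_ae (e : ℝ × ℝ) (t : ℝ) :
    ∀ᵐ x ∂m, X.v2 C e t x = X.J2 C e t x / X.rho C (t • e) x ^ 2 :=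
  AEEqFun.coeFn_mk _ _

section Ok

variable (hC : IsGamma C) {κ : ℝ} (hB : C.BEi κ) (hX : X.Ok C θ η δ)
include hC hB hX

theorem rho_eq (t : ℝ) (e : ℝ × ℝ) :
    X.rho C (t • e) = X.F - t • X.D C e + (t ^ 2 / 2) • X.r C e e := by
  unfold rho
  rw [D_smul, r_smul hC hB hX, smul_smul]
  congr 2
  ring

theorem rho_ae (t : ℝ) (e : ℝ × ℝ) :
    ∀ᵐ x ∂m, X.rho C (t • e) x = X.F x - t * X.D C e x + t ^ 2 / 2 * X.r C e e x := by
  rw [rho_eq hC hB hX]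
  filter_upwards [add_ae (X.F - t • X.D C e) ((t ^ 2 / 2) • X.r C e e),
    sub_ae X.F (t • X.D C e), smul_ae (X.D C e) t, smul_ae (X.r C e e) (t ^ 2 / 2)]
    with x a1 a2 a3 a4
  rw [a1, a2, a3, a4]

theorem J2_eq (t : ℝ) (e : ℝ × ℝ) :
    X.J2 C e t = (X.F - t • X.D' e) * (X.F - t • X.D' e) * C.Γ (X.pt e) (X.pt e)
      + (2 : ℝ) • ((X.F - t • X.D' e) * ((-(t / 2)) • X.F) * C.Γ (X.pt e) (X.G' e e))
      + ((-(t / 2)) • X.F) * ((-(t / 2)) • X.F) * C.Γ (X.G' e e) (X.G' e e) := by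
  have pW := (hC.test_A (pt_memI hC hB hX e).1).1
  have gW := (hC.test_A (G'_memI hC hB hX e e).1).1
  unfold J2 Y Y2
  rw [hC.symm _ gW _ pW]
  algebra

omit hC hB hX in
theorem flux_eq (t : ℝ) (e : ℝ × ℝ) (g : M →ₘ[m] ℝ) :
    X.F * C.Γ (X.pt e) g - t • X.Y C e e g
      = (X.F - t • X.D' e) * C.Γ (X.pt e) g + ((-(t / 2)) • X.F) * C.Γ (X.G' e e) g := by
  unfold Y
  algebra

omit hC hB hX in
theorem coef_ae (t : ℝ) (e : ℝ × ℝ) :
    ∀ᵐ x ∂m, (X.F - t • X.D' e) x = X.F x - t * X.D' e x ∧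
      ((-(t / 2)) • X.F) x = -(t / 2 * X.F x) := by
  filter_upwards [sub_ae X.F (t • X.D' e), smul_ae (X.D' e) t, smul_ae X.F (-(t / 2))]
    with x a1 a2 a3
  refine ⟨by rw [a1, a2], by rw [a3]; ring⟩

theorem J2_ae (t : ℝ) (e : ℝ × ℝ) :
    ∀ᵐ x ∂m, X.J2 C e t x = (X.F x - t * X.D' e x) ^ 2 * C.Γ (X.pt e) (X.pt e) x
      + 2 * (X.F x - t * X.D' e x) * (-(t / 2 * X.F x)) * C.Γ (X.pt e) (X.G' e e) x
      + (-(t / 2 * X.F x)) ^ 2 * C.Γ (X.G' e e) (X.G' e e) x := by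
  rw [J2_eq hC hB hX]
  set c₁ := X.F - t • X.D' e with hc₁
  set c₂ := (-(t / 2)) • X.F with hc₂
  filter_upwards [coef_ae (X := X) t e, add_ae (c₁ * c₁ * C.Γ (X.pt e) (X.pt e)
      + (2 : ℝ) • (c₁ * c₂ * C.Γ (X.pt e) (X.G' e e))) (c₂ * c₂ * C.Γ (X.G' e e) (X.G' e e)),
    add_ae (c₁ * c₁ * C.Γ (X.pt e) (X.pt e)) ((2 : ℝ) • (c₁ * c₂ * C.Γ (X.pt e) (X.G' e e))),
    mul_ae (c₁ * c₁) (C.Γ (X.pt e) (X.pt e)), mul_ae c₁ c₁,
    smul_ae (c₁ * c₂ * C.Γ (X.pt e) (X.G' e e)) 2, mul_ae (c₁ * c₂) (C.Γ (X.pt e) (X.G' e e)),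
    mul_ae c₁ c₂, mul_ae (c₂ * c₂) (C.Γ (X.G' e e) (X.G' e e)), mul_ae c₂ c₂]
    with x a0 a1 a2 a3 a4 a5 a6 a7 a8 a9
  rw [a1, a2, a3, a4, a5, a6, a7, a8, a9, a0.1, a0.2]
  ring

omit hC hB hX in
theorem flux_ae (t : ℝ) (e : ℝ × ℝ) (g : M →ₘ[m] ℝ) :
    ∀ᵐ x ∂m, (X.F * C.Γ (X.pt e) g - t • X.Y C e e g) x
      = (X.F x - t * X.D' e x) * C.Γ (X.pt e) g x
        + (-(t / 2 * X.F x)) * C.Γ (X.G' e e) g x := by
  rw [flux_eq]
  set c₁ := X.F - t • X.D' e with hc₁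
  set c₂ := (-(t / 2)) • X.F with hc₂
  filter_upwards [coef_ae (X := X) t e, add_ae (c₁ * C.Γ (X.pt e) g) (c₂ * C.Γ (X.G' e e) g),
    mul_ae c₁ (C.Γ (X.pt e) g), mul_ae c₂ (C.Γ (X.G' e e) g)] with x a0 a1 a2 a3
  rw [a1, a2, a3, a0.1, a0.2]

/-- where `θ ≠ 1`, everything except `F` vanishes -/
theorem loc_ae (e : ℝ × ℝ) : ∀ᵐ x ∂m, (θ x = 1 ∧ η ≤ X.F x) ∨
    (θ x ≠ 1 ∧ 0 ≤ X.F x ∧ X.D C e x = 0 ∧ X.r C e e x = 0 ∧ C.Γ (X.pt e) (X.pt e) x = 0 ∧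
      C.Γ (X.pt e) (X.G' e e) x = 0 ∧ C.Γ (X.G' e e) (X.G' e e) x = 0) := by
  have pW := (hC.test_A (pt_memI hC hB hX e).1).1
  have gW := (hC.test_A (G'_memI hC hB hX e e).1).1
  filter_upwards [eq_zero_of_loc (loc_D hC hB hX e), eq_zero_of_loc (loc_r hC hB hX e e),
    eq_zero_of_loc (loc_Γpt hC hB hX e pW), eq_zero_of_loc (loc_Γpt hC hB hX e gW),
    eq_zero_of_loc (loc_ΓG' hC hB hX e e gW), le_iff_ae.1 hX.Fη, smul_ae θ η,
    nonneg_iff_ae.1 hX.hθ0] with x a1 a2 a3 a4 a5 a6 a7 a8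
  rw [a7] at a6
  have hη := hX.hη
  by_cases h : θ x = 1
  · left
    refine ⟨h, ?_⟩
    rw [h, mul_one] at a6
    exact a6
  · right
    exact ⟨h, (mul_nonneg hη.le a8).trans a6, a1.resolve_left h, a2.resolve_left h,
      a3.resolve_left h, a4.resolve_left h, a5.resolve_left h⟩

/-- one bound for all functions -/
theorem exists_bound (e : ℝ × ℝ) : ∃ B : ℝ, 0 ≤ B ∧ ∀ᵐ x ∂m, |X.F x| ≤ B ∧ |X.D C e x| ≤ B ∧
    |X.r C e e x| ≤ B ∧ |X.D' e x| ≤ B ∧ |C.Γ (X.pt e) (X.pt e) x| ≤ B ∧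
      |C.Γ (X.pt e) (X.G' e e) x| ≤ B ∧ |C.Γ (X.G' e e) (X.G' e e) x| ≤ B := by
  have hp := pt_memI hC hB hX e
  have hg := G'_memI hC hB hX e e
  obtain ⟨K1, h1⟩ := mem_top_iff.1 (hC.test_A hX.hF.1).2
  obtain ⟨K2, h2⟩ := mem_top_iff.1 (D_memA hC hB hX e).2
  obtain ⟨K3, h3⟩ := mem_top_iff.1 (r_memA hC hB hX e e).2
  obtain ⟨K4, h4⟩ := mem_top_iff.1 (hC.test_A (D'_memI hC hB hX e).1).2
  obtain ⟨K5, h5⟩ := mem_top_iff.1 (hC.Γ_mem hB hp.1 hp.1).2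
  obtain ⟨K6, h6⟩ := mem_top_iff.1 (hC.Γ_mem hB hp.1 hg.1).2
  obtain ⟨K7, h7⟩ := mem_top_iff.1 (hC.Γ_mem hB hg.1 hg.1).2
  refine ⟨|K1| + |K2| + |K3| + |K4| + |K5| + |K6| + |K7|, by (clear * -; positivity), ?_⟩
  filter_upwards [h1, h2, h3, h4, h5, h6, h7] with x b1 b2 b3 b4 b5 b6 b7
  have p1 := abs_nonneg K1
  have p2 := abs_nonneg K2
  have p3 := abs_nonneg K3
  have p4 := abs_nonneg K4
  have p5 := abs_nonneg K5
  have p6 := abs_nonneg K6
  have p7 := abs_nonneg K7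
  refine ⟨?_, ?_, ?_, ?_, ?_, ?_, ?_⟩
  · linarith [le_abs_self K1]
  · linarith [le_abs_self K2]
  · linarith [le_abs_self K3]
  · linarith [le_abs_self K4]
  · linarith [le_abs_self K5]
  · linarith [le_abs_self K6]
  · linarith [le_abs_self K7]

/-- positivity -/
theorem pos_ae (e : ℝ × ℝ) : ∃ ε₀ > 0, ε₀ ≤ 1 ∧ ∃ V ≥ 0, ∀ t ∈ Set.Icc (0 : ℝ) ε₀, ∀ᵐ x ∂m,
    (θ x = 1 → η / 2 ≤ X.rho C (t • e) x) ∧ 0 ≤ X.rho C (t • e) x ∧ 0 ≤ X.J2 C e t x ∧
      0 ≤ X.v2 C e t x ∧ X.v2 C e t x ≤ V ∧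
      X.rho C (t • e) x ^ 2 * X.v2 C e t x = X.J2 C e t x := by
  obtain ⟨B, hB0, hb⟩ := exists_bound hC hB hX e
  have hη := hX.hη
  have pW := (hC.test_A (pt_memI hC hB hX e).1).1
  have gW := (hC.test_A (G'_memI hC hB hX e e).1).1
  refine ⟨min 1 (η / (4 * (B + 1))), lt_min one_pos (by positivity), min_le_left _ _,
    9 * B ^ 3 / (η / 2) ^ 2, by positivity, ?_⟩
  intro t ht
  have ht0 := ht.1
  have ht1 : t ≤ 1 := ht.2.trans (min_le_left _ _)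
  have ht2 : t ≤ η / (4 * (B + 1)) := ht.2.trans (min_le_right _ _)
  have ht3 : t * (4 * (B + 1)) ≤ η := (le_div_iff₀ (by positivity)).1 ht2
  filter_upwards [hb, loc_ae hC hB hX e, rho_ae hC hB hX t e, J2_ae hC hB hX t e,
    v2_ae (X := X) (C := C) e t, hC.toIsDir.gram2_ae pW gW]
    with x b1 b2 b3 b4 b5 b6
  obtain ⟨c1, c2, c3, c4, c5, c6, c7⟩ := b1
  have hJ0 : 0 ≤ X.J2 C e t x := by
    rw [b4]
    exact b6 _ _
  rcases b2 with ⟨hθ, hF⟩ | ⟨hθ, hF, z1, z2, z3, z4, z5⟩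
  · have hρ : η / 2 ≤ X.rho C (t • e) x := by
      rw [b3]
      exact AB.rho_real hB0 ht0 ht1 ht3 hF c2 c3
    have hρ0 : 0 < X.rho C (t • e) x := lt_of_lt_of_le (by positivity) hρ
    have hJB : X.J2 C e t x ≤ 9 * B ^ 3 := by
      rw [b4]
      exact AB.J_real hB0 ht0 ht1 c1 c4 c5 c6 c7
    have hr2 : (η / 2) ^ 2 ≤ X.rho C (t • e) x ^ 2 := by gcongr
    refine ⟨fun _ => hρ, hρ0.le, hJ0, ?_, ?_, ?_⟩
    · rw [b5]; (clear * - hJ0 hρ0; positivity)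
    · rw [b5]
      exact div_le_div₀ (by positivity) hJB (by positivity) hr2
    · rw [b5]
      field_simp
  · have hρ : X.rho C (t • e) x = X.F x := by
      rw [b3, z1, z2]; ring
    have hJ : X.J2 C e t x = 0 := by
      rw [b4, z3, z4, z5]; ring
    have hv : X.v2 C e t x = 0 := by
      rw [b5, hJ, zero_div]
    refine ⟨?_, by rw [hρ]; exact hF, hJ0, hv.ge, ?_, ?_⟩
    · exact fun h => absurd h hθ
    · rw [hv]; (clear * - hB0 hη; positivity)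
    · rw [hv, hJ, mul_zero]

end Ok

/-- the algebraic part: `J` is dominated by `ρ v`, `v` is bounded, and positivity of `ρ` -/
theorem cen_flux [SigmaFinite m] (hC : IsGamma C) {K : ℝ} (hB : C.BEi K) {θ : M →ₘ[m] ℝ}
    {η δ : ℝ} {X : Dat m} (hX : X.Ok C θ η δ) (e : ℝ × ℝ) :
    ∃ ε₀ > 0, ∃ V ≥ 0, ∀ t ∈ Set.Icc (0 : ℝ) ε₀, 0 ≤ X.rho C (t • e) ∧ 0 ≤ X.v2 C e t ∧
      (∀ᵐ x ∂m, X.v2 C e t x ≤ V) ∧ X.rho C (t • e) ^ 2 * X.v2 C e t = X.J2 C e t ∧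
      ∀ g ∈ C.W, MemLp g ∞ m → MemLp (C.Γ g g) ∞ m →
        MemLp (X.F * C.Γ (X.pt e) g - t • X.Y C e e g : M →ₘ[m] ℝ) 1 m ∧
        I (g * (t • X.r C e e - X.D C e)) = I (X.F * C.Γ (X.pt e) g - t • X.Y C e e g) ∧
        (X.F * C.Γ (X.pt e) g - t • X.Y C e e g) ^ 2
          ≤ X.rho C (t • e) ^ 2 * X.v2 C e t * C.Γ g g := by
  obtain ⟨ε₀, hε₀, -, V, hV, hp⟩ := pos_ae hC hB hX e
  refine ⟨ε₀, hε₀, V, hV, fun t ht => ?_⟩
  have h := hp t ht
  have hprod : X.rho C (t • e) ^ 2 * X.v2 C e t = X.J2 C e t := by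
    rw [eq_iff_ae]
    filter_upwards [h, mul_ae (X.rho C (t • e) ^ 2) (X.v2 C e t), sq_ae (X.rho C (t • e))]
      with x a1 a2 a3
    rw [a2, a3]
    exact a1.2.2.2.2.2
  refine ⟨nonneg_iff_ae.2 (h.mono fun x hx => hx.2.1), nonneg_iff_ae.2
    (h.mono fun x hx => hx.2.2.2.1), h.mono fun x hx => hx.2.2.2.2.1, hprod, ?_⟩
  intro g hg hg1 hg2
  have hD := hC.toIsDir
  have pI := pt_memI hC hB hX e
  have pW := (hC.test_A pI.1).1
  have gW := (hC.test_A (G'_memI hC hB hX e e).1).1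
  have q1 : MemLp (X.F * C.Γ (X.pt e) g : M →ₘ[m] ℝ) 1 m :=
    mem_mul_top (hC.test_A hX.hF.1).2 (hD.Γ_mem1 pW hg)
  have q2 := Y_mem1 hC hB hX e e hg
  refine ⟨mem_sub q1 (mem_smul _ q2), ?_, ?_⟩
  · have g2 := hC.memLp g hg
    have n1 : MemLp (g * X.r C e e : M →ₘ[m] ℝ) 1 m :=
      mem_mul_22 g2 (hC.memLp _ (r_memA hC hB hX e e).1)
    have n2 : MemLp (g * X.D C e : M →ₘ[m] ℝ) 1 m :=
      mem_mul_22 g2 (hC.memLp _ (D_memA hC hB hX e).1)
    rw [mul_sub, mul_smul_comm, I_sub (mem_smul _ n1) n2, I_smul, ibp_r hC hB hX e e hg,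
      ibp_D hC hB hX e hg, I_sub q1 (mem_smul _ q2), I_smul]
    ring
  · rw [hprod, le_iff_ae]
    filter_upwards [flux_ae (X := X) (C := C) t e g, J2_ae hC hB hX t e,
      sq_ae (X.F * C.Γ (X.pt e) g - t • X.Y C e e g), mul_ae (X.J2 C e t) (C.Γ g g),
      hD.cs2_ae pW gW hg] with x a1 a2 a3 a4 a5
    rw [a3, a4, a1, a2]
    exact a5 _ _

end Dat

end Vale.Agent.P233
end

section

namespace Vale.Agent.P233.AB

private theorem bddCR (P : (Fin 8 → ℝ) → ℝ) (hP : Continuous P) (M : ℝ) :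
    ∃ C, 0 ≤ C ∧ ∀ v : Fin 8 → ℝ, (∀ i, |v i| ≤ M) → |P v| ≤ C := by
  have hK : IsCompact (Metric.closedBall (0 : Fin 8 → ℝ) (max M 0)) := isCompact_closedBall _ _
  obtain ⟨C, hC⟩ := hK.exists_bound_of_continuousOn hP.continuousOn
  refine ⟨max C 0, le_max_right _ _, fun v hv => ?_⟩
  have : v ∈ Metric.closedBall (0 : Fin 8 → ℝ) (max M 0) := by
    rw [mem_closedBall_zero_iff, pi_norm_le_iff_of_nonneg (le_max_right _ _)]
    intro i
    exact (hv i).trans (le_max_left _ _)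
  exact (hC v this).trans (le_max_left _ _)

private theorem bddCR' (P : ℝ → ℝ → ℝ → ℝ → ℝ → ℝ → ℝ → ℝ → ℝ)
    (hP : Continuous fun v : Fin 8 → ℝ => P (v 0) (v 1) (v 2) (v 3) (v 4) (v 5) (v 6) (v 7))
    (M : ℝ) :
    ∃ C, 0 ≤ C ∧ ∀ a b c d e f g h : ℝ, |a| ≤ M → |b| ≤ M → |c| ≤ M → |d| ≤ M → |e| ≤ M →
      |f| ≤ M → |g| ≤ M → |h| ≤ M → |P a b c d e f g h| ≤ C := by
  obtain ⟨C, hC0, hC⟩ := bddCR _ hP M
  refine ⟨C, hC0, fun a b c d e f g h h0 h1 h2 h3 h4 h5 h6 h7 => ?_⟩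
  have := hC ![a, b, c, d, e, f, g, h] (by
    intro i
    fin_cases i
    · exact h0
    · exact h1
    · exact h2
    · exact h3
    · exact h4
    · exact h5
    · exact h6
    · exact h7)
  exact this

private theorem cenAlgR {F g D y y2 r t w ρ N A₁ A₂ e p : ℝ} (hFw : F * w = 1) (hρ0 : 0 < ρ)
    (hρe : ρ = F - t * D + t ^ 2 / 2 * r)
    (hNe : N = F ^ 2 * g - 2 * t * (F * y) + t ^ 2 * y2) (hA₁ : A₁ = D * g - 2 * y)
    (hA₂ : A₂ = (y2 - 2 * y * D + D ^ 2 * g) * w - 1 / 2 * (r * g))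
    (he : e = r / 2 * A₁ - D * A₂ + t * r * A₂ / 2)
    (hp : p = 2 * F ^ 2 * g * (-2 * F * y + t * y2) + t * (-2 * F * y + t * y2) ^ 2
      - F * g ^ 2 * (3 * F ^ 2 * (-D + t / 2 * r) + 3 * t * F * (-D + t / 2 * r) ^ 2
        + t ^ 2 * (-D + t / 2 * r) ^ 3)) :
    N / ρ = F * g + t * A₁ + t ^ 2 * A₂ - t ^ 3 * (e / ρ) ∧
      N ^ 2 / ρ ^ 3 = F * g ^ 2 + t * (p / ρ ^ 3) := by
  have key1 : N = ρ * (F * g + t * A₁ + t ^ 2 * A₂) - t ^ 3 * e := by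
    rw [hNe, hρe, he, hA₁, hA₂]
    linear_combination (-(t ^ 2) * (y2 - 2 * y * D + D ^ 2 * g)) * hFw
  have key2 : N ^ 2 = ρ ^ 3 * (F * g ^ 2) + t * p := by
    rw [hNe, hρe, hp]
    ring
  constructor
  · rw [div_eq_iff hρ0.ne', key1]
    have : t ^ 3 * (e / ρ) * ρ = t ^ 3 * e := by
      rw [mul_assoc, div_mul_cancel₀ _ hρ0.ne']
    linear_combination this
  · rw [div_eq_iff (by positivity), key2]
    have : t * (p / ρ ^ 3) * ρ ^ 3 = t * p := by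
      rw [mul_assoc, div_mul_cancel₀ _ (by positivity)]
    linear_combination -this

private theorem cenQuotR {η ρ e p C₁ C₄ : ℝ} (hη : 0 < η) (hρ : η / 2 ≤ ρ) (hC₁ : 0 ≤ C₁)
    (hC₄ : 0 ≤ C₄) (B₁ : |e| ≤ C₁) (B₄ : |p| ≤ C₄) :
    |e / ρ| ≤ 2 * C₁ / η ∧ |p / ρ ^ 3| ≤ 8 * C₄ / η ^ 3 := by
  have hρ0 : 0 < ρ := by linarith
  constructor
  · rw [abs_div, abs_of_pos hρ0, div_le_div_iff₀ hρ0 hη]
    have h1 : |e| * η ≤ C₁ * η := mul_le_mul_of_nonneg_right B₁ hη.le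
    have h2 : C₁ * η ≤ 2 * C₁ * ρ := by
      have := mul_le_mul_of_nonneg_left hρ hC₁
      linarith
    linarith
  · have hρ3 : (η / 2) ^ 3 ≤ ρ ^ 3 := pow_le_pow_left₀ (by positivity) hρ 3
    rw [abs_div, abs_of_pos (by positivity : 0 < ρ ^ 3),
      div_le_div_iff₀ (by positivity) (by positivity)]
    have h1 : |p| * η ^ 3 ≤ C₄ * η ^ 3 := mul_le_mul_of_nonneg_right B₄ (by positivity)
    have h2 : C₄ * η ^ 3 ≤ 8 * C₄ * ρ ^ 3 := by
      have := mul_le_mul_of_nonneg_left hρ3 hC₄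
      have e : (η / 2) ^ 3 = η ^ 3 / 8 := by ring
      rw [e] at this
      linarith only [this]
    linarith

private theorem cenFinR {η α β t ε X₀ X₁ Y A₁ A₂ E P C₁ C₂ C₃ C₄ : ℝ} (hα : 0 ≤ α)
    (ht : 0 ≤ t) (htε : t ≤ ε) (hε1 : ε ≤ 1)
    (B₂ : |A₁| ≤ C₂) (B₃ : |A₂| ≤ C₃) (E₁ : |E| ≤ 2 * C₁ / η) (E₂ : |P| ≤ 8 * C₄ / η ^ 3)
    (hX : X₁ = 1 / 2 * X₀ + t / 2 * A₁ + t ^ 2 / 2 * A₂) :
    (1 / 2 - β * ε ^ 2) * (X₀ + t * A₁ + t ^ 2 * A₂ - t ^ 3 * E)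
        + α * ε ^ 2 * (Y + t * P)
      ≤ X₁ - β * ε ^ 2 * X₀ + α * ε ^ 2 * Y
        + (C₁ / η + |β| * (C₂ + C₃ + 2 * C₁ / η) + α * (8 * C₄ / η ^ 3)) * ε ^ 3 := by
  have hε0 : 0 ≤ ε := ht.trans htε
  have ht1 : t ≤ 1 := htε.trans hε1
  have ht3 : t ^ 3 ≤ ε ^ 3 := pow_le_pow_left₀ ht htε 3
  have ht30 : 0 ≤ t ^ 3 := by positivity
  have hε2' : 0 ≤ ε ^ 2 := by positivity
  have t2ε : t ^ 2 ≤ ε := by
    calc t ^ 2 = t * t := by ring
      _ ≤ ε * 1 := mul_le_mul htε ht1 ht hε0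
      _ = ε := mul_one ε
  have t3ε : t ^ 3 ≤ ε := by
    calc t ^ 3 = t ^ 2 * t := by ring
      _ ≤ ε * 1 := mul_le_mul t2ε ht1 ht hε0
      _ = ε := mul_one ε
  have q1 : t ^ 3 * |E| ≤ ε ^ 3 * (2 * C₁ / η) := mul_le_mul ht3 E₁ (abs_nonneg _) (by positivity)
  have q1' : t ^ 3 * |E| ≤ ε * (2 * C₁ / η) := mul_le_mul t3ε E₁ (abs_nonneg _) hε0
  have q2 : t * |A₁| ≤ ε * C₂ := mul_le_mul htε B₂ (abs_nonneg _) hε0
  have q3 : t ^ 2 * |A₂| ≤ ε * C₃ := mul_le_mul t2ε B₃ (abs_nonneg _) hε0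
  have q4 : t * |P| ≤ ε * (8 * C₄ / η ^ 3) := mul_le_mul htε E₂ (abs_nonneg _) hε0
  have z1 : -(t ^ 3 * E) ≤ t ^ 3 * |E| := by
    have := mul_le_mul_of_nonneg_left (neg_le_abs E) ht30
    linarith only [this]
  have z2 : -β * ε ^ 2 * (t * A₁ + t ^ 2 * A₂ - t ^ 3 * E)
      ≤ |β| * ε ^ 2 * (ε * C₂ + ε * C₃ + ε * (2 * C₁ / η)) := by
    have h : |t * A₁ + t ^ 2 * A₂ - t ^ 3 * E| ≤ ε * C₂ + ε * C₃ + ε * (2 * C₁ / η) := by
      refine (abs_sub _ _).trans (add_le_add ((abs_add_le _ _).trans (add_le_add ?_ ?_)) ?_)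
      · rw [abs_mul, abs_of_nonneg ht]; exact q2
      · rw [abs_mul, abs_of_nonneg (by positivity : 0 ≤ t ^ 2)]; exact q3
      · rw [abs_mul, abs_of_nonneg ht30]; exact q1'
    calc -β * ε ^ 2 * (t * A₁ + t ^ 2 * A₂ - t ^ 3 * E)
        ≤ |-β * ε ^ 2 * (t * A₁ + t ^ 2 * A₂ - t ^ 3 * E)| := le_abs_self _
      _ = |β| * ε ^ 2 * |t * A₁ + t ^ 2 * A₂ - t ^ 3 * E| := by
          rw [abs_mul, abs_mul, abs_neg, abs_of_nonneg hε2']
      _ ≤ _ := mul_le_mul_of_nonneg_left h (by positivity)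
  have z3 : α * ε ^ 2 * (t * P) ≤ α * ε ^ 2 * (ε * (8 * C₄ / η ^ 3)) := by
    refine mul_le_mul_of_nonneg_left ?_ (by positivity)
    exact (mul_le_mul_of_nonneg_left (le_abs_self _) ht).trans q4
  have f1 : ε ^ 3 * (2 * C₁ / η) = 2 * (C₁ / η * ε ^ 3) := by ring
  rw [f1] at q1
  have f2 : |β| * ε ^ 2 * (ε * C₂ + ε * C₃ + ε * (2 * C₁ / η))
      = |β| * (C₂ + C₃ + 2 * C₁ / η) * ε ^ 3 := by ring
  have f3 : α * ε ^ 2 * (ε * (8 * C₄ / η ^ 3)) = α * (8 * C₄ / η ^ 3) * ε ^ 3 := by ring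
  rw [f2] at z2
  rw [f3] at z3
  rw [hX]
  linarith only [q1, z3, z2, z1]

/-- pointwise expansion of the cost of a centre curve -/
theorem cen_real (η Λ β α : ℝ) (hη : 0 < η) (hα : 0 ≤ α) :
    ∃ C₀ ≥ 0, ∃ ε₀ > 0, ∀ F g D y y2 r t ε : ℝ, η ≤ F → F ≤ Λ → |g| ≤ Λ → |D| ≤ Λ → |y| ≤ Λ →
      |y2| ≤ Λ → |r| ≤ Λ → 0 ≤ t → t ≤ ε → ε ≤ ε₀ →
      η / 2 ≤ F - t * D + t ^ 2 / 2 * r ∧
      (1 / 2 - β * ε ^ 2) * ((F ^ 2 * g - 2 * t * (F * y) + t ^ 2 * y2) / (F - t * D + t ^ 2 / 2 * r))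
        + α * ε ^ 2 * ((F ^ 2 * g - 2 * t * (F * y) + t ^ 2 * y2) ^ 2
          / (F - t * D + t ^ 2 / 2 * r) ^ 3)
        ≤ 1 / 2 * (F * g) + t / 2 * (D * g - 2 * y)
          + t ^ 2 / 2 * ((y2 - 2 * y * D + D ^ 2 * g) / F - 1 / 2 * (r * g))
          - β * ε ^ 2 * (F * g) + α * ε ^ 2 * (F * g ^ 2) + C₀ * ε ^ 3 := by
  obtain ⟨M, hM⟩ : ∃ M : ℝ, M = |Λ| + 1 + 1 / η := ⟨_, rfl⟩
  have hη' : 0 < 1 / η := by positivity
  have hM1 : 1 ≤ M := by have := abs_nonneg Λ; linarith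
  have hΛM : Λ ≤ M := by have := le_abs_self Λ; linarith
  -- the polynomials: variables F w g D y y2 r t, with w = 1 / F
  obtain ⟨C₁, hC₁, b₁⟩ := bddCR' (fun _ w g D y y2 r t => r / 2 * (D * g - 2 * y)
    - D * ((y2 - 2 * y * D + D ^ 2 * g) * w - 1 / 2 * (r * g))
    + t * r * ((y2 - 2 * y * D + D ^ 2 * g) * w - 1 / 2 * (r * g)) / 2) (by fun_prop) M
  obtain ⟨C₂, hC₂, b₂⟩ := bddCR' (fun _ _ g D y _ _ _ => D * g - 2 * y) (by fun_prop) M
  obtain ⟨C₃, hC₃, b₃⟩ := bddCR' (fun _ w g D y y2 r _ =>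
    (y2 - 2 * y * D + D ^ 2 * g) * w - 1 / 2 * (r * g)) (by fun_prop) M
  obtain ⟨C₄, hC₄, b₄⟩ := bddCR' (fun F _ g D y y2 r t =>
    2 * F ^ 2 * g * (-2 * F * y + t * y2) + t * (-2 * F * y + t * y2) ^ 2
      - F * g ^ 2 * (3 * F ^ 2 * (-D + t / 2 * r) + 3 * t * F * (-D + t / 2 * r) ^ 2
        + t ^ 2 * (-D + t / 2 * r) ^ 3)) (by fun_prop) M
  refine ⟨C₁ / η + |β| * (C₂ + C₃ + 2 * C₁ / η) + α * (8 * C₄ / η ^ 3), by (clear * - hC₁ hη hC₂ hC₃ hα hC₄; positivity),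
    min 1 (η / (3 * M)), by positivity, ?_⟩
  intro F g D y y2 r t ε hF hFΛ hg hD hy hy2 hr ht htε hε
  have hε1 : ε ≤ 1 := hε.trans (min_le_left _ _)
  have hε2 : ε ≤ η / (3 * M) := hε.trans (min_le_right _ _)
  have hF0 : 0 < F := hη.trans_le hF
  have ht1 : t ≤ 1 := htε.trans hε1
  have htM : t * (3 * M) ≤ η := by
    have h := mul_le_mul_of_nonneg_right (htε.trans hε2) (by positivity : (0 : ℝ) ≤ 3 * M)
    rwa [div_mul_cancel₀ _ (by positivity : (3 * M : ℝ) ≠ 0)] at h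
  have hDM : |D| ≤ M := hD.trans hΛM
  have hrM : |r| ≤ M := hr.trans hΛM
  have hgM : |g| ≤ M := hg.trans hΛM
  have hyM : |y| ≤ M := hy.trans hΛM
  have hy2M : |y2| ≤ M := hy2.trans hΛM
  have hFM : |F| ≤ M := by rw [abs_of_pos hF0]; exact hFΛ.trans hΛM
  have htM' : |t| ≤ M := by rw [abs_of_nonneg ht]; linarith
  have hρ : η / 2 ≤ F - t * D + t ^ 2 / 2 * r := by
    have h1 : t * D ≤ t * M := mul_le_mul_of_nonneg_left ((le_abs_self D).trans hDM) ht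
    have h2 : t ^ 2 / 2 * (-r) ≤ t ^ 2 / 2 * M :=
      mul_le_mul_of_nonneg_left ((neg_le_abs r).trans hrM) (by positivity)
    have h3 : t ^ 2 * M ≤ t * M := by
      have : t ^ 2 ≤ t := by
        calc t ^ 2 = t * t := by ring
          _ ≤ t * 1 := mul_le_mul_of_nonneg_left ht1 ht
          _ = t := mul_one t
      exact mul_le_mul_of_nonneg_right this (by linarith only [hF0, hFΛ, hΛM])
    linarith
  refine ⟨hρ, ?_⟩
  obtain ⟨w, hw⟩ : ∃ w, w = 1 / F := ⟨_, rfl⟩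
  have hFw : F * w = 1 := by rw [hw]; field_simp
  have hwM : |w| ≤ M := by
    rw [hw, abs_of_pos (by positivity)]
    have : 1 / F ≤ 1 / η := one_div_le_one_div_of_le hη hF
    have := abs_nonneg Λ
    linarith
  have B₁ := b₁ F w g D y y2 r t hFM hwM hgM hDM hyM hy2M hrM htM'
  have B₂ := b₂ F w g D y y2 r t hFM hwM hgM hDM hyM hy2M hrM htM'
  have B₃ := b₃ F w g D y y2 r t hFM hwM hgM hDM hyM hy2M hrM htM'
  have B₄ := b₄ F w g D y y2 r t hFM hwM hgM hDM hyM hy2M hrM htM'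
  have hdivF : (y2 - 2 * y * D + D ^ 2 * g) / F = (y2 - 2 * y * D + D ^ 2 * g) * w := by
    rw [hw]; ring
  rw [hdivF]
  obtain ⟨k1, k2⟩ := cenAlgR hFw (by linarith : 0 < F - t * D + t ^ 2 / 2 * r) rfl rfl
    (rfl : D * g - 2 * y = D * g - 2 * y)
    (rfl : (y2 - 2 * y * D + D ^ 2 * g) * w - 1 / 2 * (r * g) = _) rfl rfl
  rw [k1, k2]
  obtain ⟨E₁, E₂⟩ := cenQuotR hη hρ hC₁ hC₄ B₁ B₄
  exact cenFinR hα ht htε hε1 B₂ B₃ E₁ E₂ rfl

end Vale.Agent.P233.AB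
end

section

/-!
# Hopf-Lax functions for the Lagrangian `α v² + β v⁴`
-/

open MeasureTheory Filter Topology Set

universe u

namespace Vale.Agent.P233.AB

/-- The cost `α d²/r + β d⁴/r³` of a distance `d` in time `r`. -/
noncomputable def cost (α β r d : ℝ) : ℝ := α * d ^ 2 / r + β * d ^ 4 / r ^ 3

theorem cost_nonneg {α β r d : ℝ} (hα : 0 ≤ α) (hβ : 0 ≤ β) (hr : 0 < r) :
    0 ≤ cost α β r d := by
  unfold cost; positivity

theorem cost_mono {α β r a b : ℝ} (hα : 0 ≤ α) (hβ : 0 ≤ β) (hr : 0 < r) (ha : 0 ≤ a)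
    (hab : a ≤ b) : cost α β r a ≤ cost α β r b := by
  unfold cost; gcongr

theorem cost_sub_le {α β r a b : ℝ} (hα : 0 ≤ α) (hβ : 0 ≤ β) (hr : 0 < r) (ha : 0 ≤ a)
    (hb : 0 ≤ b) :
    cost α β r b - cost α β r a ≤ (b - a) * (2 * α * (b / r) + 4 * β * (b / r) ^ 3) := by
  have h1 : b ^ 2 - a ^ 2 ≤ 2 * b * (b - a) := by linarith only [sq_nonneg (b - a)]
  have h2 : b ^ 4 - a ^ 4 ≤ 4 * b ^ 3 * (b - a) := by
    have : 4 * b ^ 3 * (b - a) - (b ^ 4 - a ^ 4) = (b - a) ^ 2 * (3 * b ^ 2 + 2 * a * b + a ^ 2) := by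
      ring
    nlinarith [mul_nonneg (sq_nonneg (b - a)) (by positivity : 0 ≤ 3 * b ^ 2 + 2 * a * b + a ^ 2)]
  have e : cost α β r b - cost α β r a = α * (b ^ 2 - a ^ 2) / r + β * (b ^ 4 - a ^ 4) / r ^ 3 := by
    unfold cost; ring
  have e2 : (b - a) * (2 * α * (b / r) + 4 * β * (b / r) ^ 3)
      = α * (2 * b * (b - a)) / r + β * (4 * b ^ 3 * (b - a)) / r ^ 3 := by
    field_simp
  rw [e, e2]
  gcongr

/-- convexity in time. -/
theorem cost_time {α β r r' d : ℝ} (hα : 0 ≤ α) (hβ : 0 ≤ β) (hr : 0 < r) (hrr : r ≤ r')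
    (_hd : 0 ≤ d) :
    cost α β r' d - cost α β r d ≤ -((r' - r) * (α * (d / r') ^ 2 + 3 * β * (d / r') ^ 4)) := by
  have hr' : 0 < r' := hr.trans_le hrr
  have h1 : d ^ 2 / r' - d ^ 2 / r ≤ -((r' - r) * (d / r') ^ 2) := by
    have : d ^ 2 / r - d ^ 2 / r' - (r' - r) * (d / r') ^ 2 = d ^ 2 * (r' - r) ^ 2 / (r * r' ^ 2) := by
      field_simp
    have h0 : 0 ≤ d ^ 2 * (r' - r) ^ 2 / (r * r' ^ 2) := by positivity
    linarith
  have h2 : d ^ 4 / r' ^ 3 - d ^ 4 / r ^ 3 ≤ -(3 * (r' - r) * (d / r') ^ 4) := by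
    have : d ^ 4 / r ^ 3 - d ^ 4 / r' ^ 3 - 3 * (r' - r) * (d / r') ^ 4
        = d ^ 4 * ((r' - r) ^ 2 * (r' ^ 2 + 2 * r * r' + 3 * r ^ 2)) / (r ^ 3 * r' ^ 4) := by
      field_simp; ring
    have h0 : 0 ≤ d ^ 4 * ((r' - r) ^ 2 * (r' ^ 2 + 2 * r * r' + 3 * r ^ 2)) / (r ^ 3 * r' ^ 4) := by
      positivity
    linarith only [h0, this]
  have e : cost α β r' d - cost α β r d
      = α * (d ^ 2 / r' - d ^ 2 / r) + β * (d ^ 4 / r' ^ 3 - d ^ 4 / r ^ 3) := by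
    unfold cost; ring
  rw [e]
  have := mul_le_mul_of_nonneg_left h1 hα
  have := mul_le_mul_of_nonneg_left h2 hβ
  nlinarith

theorem cost_time' {α β r r' d : ℝ} (hα : 0 ≤ α) (hβ : 0 ≤ β) (hr : 0 < r) (hrr : r ≤ r')
    (_hd : 0 ≤ d) :
    cost α β r d - cost α β r' d ≤ (r' - r) * (α * (d / r) ^ 2 + 3 * β * (d / r) ^ 4) := by
  have hr' : 0 < r' := hr.trans_le hrr
  have h1 : d ^ 2 / r - d ^ 2 / r' ≤ (r' - r) * (d / r) ^ 2 := by
    have : (r' - r) * (d / r) ^ 2 - (d ^ 2 / r - d ^ 2 / r') = d ^ 2 * (r' - r) ^ 2 / (r' * r ^ 2) := by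
      field_simp
    have h0 : 0 ≤ d ^ 2 * (r' - r) ^ 2 / (r' * r ^ 2) := by positivity
    linarith
  have h2 : d ^ 4 / r ^ 3 - d ^ 4 / r' ^ 3 ≤ 3 * (r' - r) * (d / r) ^ 4 := by
    have : 3 * (r' - r) * (d / r) ^ 4 - (d ^ 4 / r ^ 3 - d ^ 4 / r' ^ 3)
        = d ^ 4 * ((r' - r) ^ 2 * (3 * r' ^ 2 + 2 * r * r' + r ^ 2)) / (r' ^ 3 * r ^ 4) := by
      field_simp; ring
    have h0 : 0 ≤ d ^ 4 * ((r' - r) ^ 2 * (3 * r' ^ 2 + 2 * r * r' + r ^ 2)) / (r' ^ 3 * r ^ 4) := by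
      positivity
    linarith
  have e : cost α β r d - cost α β r' d
      = α * (d ^ 2 / r - d ^ 2 / r') + β * (d ^ 4 / r ^ 3 - d ^ 4 / r' ^ 3) := by
    unfold cost; ring
  rw [e]
  have := mul_le_mul_of_nonneg_left h1 hα
  have := mul_le_mul_of_nonneg_left h2 hβ
  nlinarith

section HL

variable {M : Type u} [MetricSpace M] {α β K L : ℝ} {h : M → ℝ}

/-- The Hopf-Lax function. -/
noncomputable def hl (α β : ℝ) (h : M → ℝ) (r : ℝ) (x : M) : ℝ :=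
  ⨅ y, (h y + cost α β r (dist x y))

/-- Hypotheses on the data. -/
structure Dat (α β K L : ℝ) (h : M → ℝ) : Prop where
  hα : 0 < α
  hβ : 0 ≤ β
  hK : ∀ x, |h x| ≤ K
  hL : ∀ x y, |h x - h y| ≤ L * dist x y
  hL0 : 0 ≤ L

namespace Dat

variable (D : Dat α β K L h)
include D

theorem bdd {r : ℝ} (hr : 0 < r) (x : M) :
    BddBelow (range fun y => h y + cost α β r (dist x y)) := by
  refine ⟨-K, ?_⟩
  rintro _ ⟨y, rfl⟩
  have h1 := (abs_le.1 (D.hK y)).1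
  have h2 := cost_nonneg (d := dist x y) D.hα.le D.hβ hr
  dsimp only
  linarith

theorem hl_le {r : ℝ} (hr : 0 < r) (x y : M) :
    hl α β h r x ≤ h y + cost α β r (dist x y) := ciInf_le (D.bdd hr x) y

omit D in
theorem le_hl {r c : ℝ} {x : M} (H : ∀ y, c ≤ h y + cost α β r (dist x y)) :
    c ≤ hl α β h r x := by
  have : Nonempty M := ⟨x⟩
  exact le_ciInf H

omit D in
theorem near {r η : ℝ} (hη : 0 < η) (x : M) :
    ∃ z, h z + cost α β r (dist x z) < hl α β h r x + η := by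
  have : Nonempty M := ⟨x⟩
  exact exists_lt_of_ciInf_lt (by unfold hl; linarith)

theorem hl_le_self {r : ℝ} (hr : 0 < r) (x : M) : hl α β h r x ≤ h x := by
  have := D.hl_le hr x x
  simpa [cost] using this

theorem hl_ge_self {r : ℝ} (hr : 0 < r) (x : M) :
    h x - L ^ 2 / (4 * α) * r ≤ hl α β h r x := by
  refine le_hl fun y => ?_
  have h1 := (abs_le.1 (D.hL x y)).2
  have hα := D.hα
  have h2 : L * dist x y - L ^ 2 / (4 * α) * r ≤ α * dist x y ^ 2 / r := by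
    have : α * dist x y ^ 2 / r - (L * dist x y - L ^ 2 / (4 * α) * r)
        = (2 * α * dist x y - L * r) ^ 2 / (4 * α * r) := by
      field_simp; ring
    have h0 : 0 ≤ (2 * α * dist x y - L * r) ^ 2 / (4 * α * r) := by positivity
    linarith only [h0, this]
  have h3 : 0 ≤ β * dist x y ^ 4 / r ^ 3 := by have := D.hβ; positivity
  unfold cost
  linarith

theorem hl_abs {r : ℝ} (hr : 0 < r) (x : M) : |hl α β h r x| ≤ K := by
  rw [abs_le]
  refine ⟨le_hl fun y => ?_, (D.hl_le_self hr x).trans (abs_le.1 (D.hK x)).2⟩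
  have h1 := (abs_le.1 (D.hK y)).1
  have h2 := cost_nonneg (d := dist x y) D.hα.le D.hβ hr
  linarith

/-- the speed bound. -/
theorem speed {r η : ℝ} (hr : 0 < r) (hη : η ≤ r) {x z : M}
    (hz : h z + cost α β r (dist x z) ≤ hl α β h r x + η) :
    dist x z / r ≤ (L + 1) / α + 1 := by
  have hα := D.hα
  have hL0 := D.hL0
  have h1 := D.hl_le_self hr x
  have h2 := (abs_le.1 (D.hL x z)).2
  have h3 : 0 ≤ β * dist x z ^ 4 / r ^ 3 := by have := D.hβ; positivity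
  have h4 : α * dist x z ^ 2 / r ≤ L * dist x z + r := by
    unfold cost at hz; linarith only [h3, h2, h1, hz, hη]
  by_contra hc
  push Not at hc
  set v := dist x z / r with hv
  have hd : dist x z = v * r := by rw [hv]; field_simp
  have hv1 : 1 < v := by
    have : 0 ≤ (L + 1) / α := by positivity
    linarith
  have hv2 : L + 1 < α * v := by
    have : (L + 1) / α < v := by linarith
    rw [div_lt_iff₀ hα] at this
    linarith
  rw [hd] at h4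
  have h5 : α * (v * r) ^ 2 / r = α * v ^ 2 * r := by field_simp
  rw [h5] at h4
  have h6 : α * v ^ 2 ≤ L * v + 1 := by
    have : (α * v ^ 2) * r ≤ (L * v + 1) * r := by linarith only [h4]
    exact le_of_mul_le_mul_right this hr
  linarith only [mul_pos (sub_pos.2 hv2) (sub_pos.2 hv2), mul_nonneg (sub_nonneg.2 hL0) (le_of_lt (sub_pos.2 hv2)), mul_nonneg (le_of_lt (sub_pos.2 hα)) (sub_nonneg.2 h6), mul_pos (sub_pos.2 hα) (sub_pos.2 hv1), mul_nonneg (mul_self_nonneg (1 : ℝ)) (le_of_lt (sub_pos.2 hv2))]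

/-- Lipschitz constant in space. -/
noncomputable def cx (α β L : ℝ) : ℝ :=
  L + L ^ 2 / (4 * α) + 2 * α * ((L + 1) / α + 2) + 4 * β * ((L + 1) / α + 2) ^ 3

theorem cx_nonneg : 0 ≤ cx α β L := by
  have hα := D.hα
  have hβ := D.hβ
  have hL0 := D.hL0
  unfold cx; positivity

theorem hl_lip' {r : ℝ} (hr : 0 < r) (x y : M) :
    hl α β h r y ≤ hl α β h r x + cx α β L * dist x y := by
  have hα := D.hα
  have hβ := D.hβ
  have hL0 := D.hL0
  rcases le_total (dist x y) r with hc | hc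
  · refine le_of_forall_pos_le_add fun η hη => ?_
    obtain ⟨z, hz⟩ := near (α := α) (β := β) (h := h) (r := r) (lt_min hη hr) x
    have hz' : h z + cost α β r (dist x z) ≤ hl α β h r x + min η r := hz.le
    have hs := D.speed hr (min_le_right _ _) hz'
    have h1 := D.hl_le hr y z
    have h2 : dist y z ≤ dist x z + dist x y := by
      have := dist_triangle_left y z x
      linarith
    have h3 := cost_mono (r := r) hα.le hβ hr dist_nonneg h2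
    have h4 := cost_sub_le (r := r) (a := dist x z) (b := dist x z + dist x y) hα.le hβ hr
      dist_nonneg (by positivity)
    have h5 : (dist x z + dist x y) / r ≤ (L + 1) / α + 2 := by
      rw [add_div]
      have : dist x y / r ≤ 1 := by rw [div_le_one hr]; exact hc
      linarith only [this, hs]
    have h6 : 0 ≤ (dist x z + dist x y) / r := by positivity
    have h7 : 2 * α * ((dist x z + dist x y) / r) + 4 * β * ((dist x z + dist x y) / r) ^ 3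
        ≤ 2 * α * ((L + 1) / α + 2) + 4 * β * ((L + 1) / α + 2) ^ 3 := by gcongr
    have h8 : (dist x z + dist x y - dist x z) *
        (2 * α * ((dist x z + dist x y) / r) + 4 * β * ((dist x z + dist x y) / r) ^ 3)
        ≤ dist x y * (2 * α * ((L + 1) / α + 2) + 4 * β * ((L + 1) / α + 2) ^ 3) := by
      have : dist x z + dist x y - dist x z = dist x y := by ring
      rw [this]
      gcongr
    have h9 : dist x y * (2 * α * ((L + 1) / α + 2) + 4 * β * ((L + 1) / α + 2) ^ 3)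
        ≤ cx α β L * dist x y := by
      rw [mul_comm]
      refine mul_le_mul_of_nonneg_right ?_ dist_nonneg
      unfold cx
      have : 0 ≤ L + L ^ 2 / (4 * α) := by positivity
      linarith only [this]
    have h10 := min_le_left η r
    linarith only [h10, h9, h8, h4, h3, h1, hz]
  · have h1 := D.hl_le_self hr y
    have h2 := D.hl_ge_self hr x
    have h3 := (abs_le.1 (D.hL y x)).2
    rw [dist_comm y x] at h3
    have h4 : L ^ 2 / (4 * α) * r ≤ L ^ 2 / (4 * α) * dist x y := by gcongr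
    have h5 : (L + L ^ 2 / (4 * α)) * dist x y ≤ cx α β L * dist x y := by
      refine mul_le_mul_of_nonneg_right ?_ dist_nonneg
      unfold cx
      have : 0 ≤ 2 * α * ((L + 1) / α + 2) + 4 * β * ((L + 1) / α + 2) ^ 3 := by positivity
      linarith only [this]
    linarith only [h5, h4, h3, h2, h1]

theorem hl_lip {r : ℝ} (hr : 0 < r) (x y : M) :
    |hl α β h r x - hl α β h r y| ≤ cx α β L * dist x y := by
  rw [abs_le]
  have h1 := D.hl_lip' hr x y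
  have h2 := D.hl_lip' hr y x
  rw [dist_comm y x] at h2
  constructor <;> linarith

/-- monotonicity in time. -/
theorem hl_anti {r r' : ℝ} (hr : 0 < r) (hrr : r ≤ r') (x : M) :
    hl α β h r' x ≤ hl α β h r x := by
  refine le_hl fun y => ?_
  have h1 := D.hl_le (hr.trans_le hrr) x y
  have h2 := cost_time (d := dist x y) D.hα.le D.hβ hr hrr dist_nonneg
  have h3 : 0 ≤ (r' - r) * (α * (dist x y / r') ^ 2 + 3 * β * (dist x y / r') ^ 4) := by
    have hα := D.hα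
    have hβ := D.hβ
    have : 0 ≤ r' - r := by linarith
    (clear * - hrr hα hβ; positivity)
  linarith

/-- Lipschitz constant in time. -/
noncomputable def ct (α β L : ℝ) : ℝ :=
  L ^ 2 / (2 * α) + α * (2 * ((L + 1) / α + 1)) ^ 2 + 3 * β * (2 * ((L + 1) / α + 1)) ^ 4

theorem ct_nonneg : 0 ≤ ct α β L := by
  have hα := D.hα
  have hβ := D.hβ
  have hL0 := D.hL0
  unfold ct; positivity

theorem hl_time {r r' : ℝ} (hr : 0 < r) (hrr : r ≤ r') (x : M) :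
    hl α β h r x - hl α β h r' x ≤ ct α β L * (r' - r) := by
  have hα := D.hα
  have hβ := D.hβ
  have hL0 := D.hL0
  have hr' : 0 < r' := hr.trans_le hrr
  rcases le_total r' (2 * r) with hc | hc
  · have : hl α β h r x ≤ hl α β h r' x + ct α β L * (r' - r) := by
      refine le_of_forall_pos_le_add fun η hη => ?_
      obtain ⟨z, hz⟩ := near (α := α) (β := β) (h := h) (r := r') (lt_min hη hr') x
      have hs := D.speed hr' (min_le_right _ _) hz.le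
      have h1 := D.hl_le hr x z
      have h2 := cost_time' (d := dist x z) hα.le hβ hr hrr dist_nonneg
      have h3 : dist x z / r ≤ 2 * ((L + 1) / α + 1) := by
        have : dist x z / r ≤ 2 * (dist x z / r') := by
          rw [div_le_iff₀ hr]
          have : 2 * (dist x z / r') * r = dist x z * (2 * r / r') := by field_simp
          rw [this]
          have h1 : 1 ≤ 2 * r / r' := by rw [le_div_iff₀ hr']; linarith only [hc]
          linarith only [mul_nonneg (sub_nonneg.2 h1) (sub_nonneg.2 (dist_nonneg (x := x) (y := z)))]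
        linarith only [this, hs]
      have h4 : 0 ≤ dist x z / r := by positivity
      have h5 : α * (dist x z / r) ^ 2 + 3 * β * (dist x z / r) ^ 4 ≤ ct α β L := by
        have : α * (dist x z / r) ^ 2 + 3 * β * (dist x z / r) ^ 4
            ≤ α * (2 * ((L + 1) / α + 1)) ^ 2 + 3 * β * (2 * ((L + 1) / α + 1)) ^ 4 := by gcongr
        unfold ct
        have : 0 ≤ L ^ 2 / (2 * α) := by positivity
        linarith
      have h6 : (r' - r) * (α * (dist x z / r) ^ 2 + 3 * β * (dist x z / r) ^ 4)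
          ≤ ct α β L * (r' - r) := by
        rw [mul_comm]
        exact mul_le_mul_of_nonneg_right h5 (by linarith only [hrr])
      have := min_le_left η r'
      linarith
    linarith
  · have h1 := D.hl_le_self hr x
    have h2 := D.hl_ge_self hr' x
    have h3 : L ^ 2 / (4 * α) * r' ≤ L ^ 2 / (2 * α) * (r' - r) := by
      have : L ^ 2 / (2 * α) * (r' - r) = L ^ 2 / (4 * α) * (2 * (r' - r)) := by field_simp; ring
      rw [this]
      gcongr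
      linarith
    have h4 : L ^ 2 / (2 * α) * (r' - r) ≤ ct α β L * (r' - r) := by
      refine mul_le_mul_of_nonneg_right ?_ (by linarith)
      unfold ct
      have : 0 ≤ α * (2 * ((L + 1) / α + 1)) ^ 2 + 3 * β * (2 * ((L + 1) / α + 1)) ^ 4 := by
        positivity
      linarith only [this]
    linarith


/-- near-minimisers are close, if the time derivative is small. -/
theorem close {r q v : ℝ} {x : M} (hr : 0 < r) (hv : 0 ≤ v)
    (hd : HasDerivAt (fun s => hl α β h s x) q r) (hq : -q ≤ α * v ^ 2 + 3 * β * v ^ 4)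
    {η : ℝ} (hη : 0 < η) :
    ∃ δ > 0, ∀ z, h z + cost α β r (dist x z) ≤ hl α β h r x + δ → dist x z ≤ r * (v + η) := by
  have hα := D.hα
  have hβ := D.hβ
  set e := α * (η / 2) ^ 2 with he
  have he0 : 0 < e := by positivity
  have h1 : ∀ᶠ s in 𝓝[>] (0 : ℝ), hl α β h r x + s * (q - e / 2) ≤ hl α β h (r + s) x := by
    have h2 := hd.tendsto_slope_zero_right
    have h3 : ∀ᶠ s in 𝓝[>] (0 : ℝ),
        q - e / 2 < s⁻¹ • (hl α β h (r + s) x - hl α β h r x) :=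
      h2.eventually (lt_mem_nhds (by linarith))
    filter_upwards [h3, self_mem_nhdsWithin] with s hs hs0
    have hs0' : 0 < s := hs0
    rw [smul_eq_mul, inv_mul_eq_div, lt_div_iff₀ hs0'] at hs
    linarith only [hs]
  have h2 : ∀ᶠ s in 𝓝[>] (0 : ℝ), s * (v + η / 2) ≤ r * (η / 2) := by
    have : Tendsto (fun s : ℝ => s * (v + η / 2)) (𝓝[>] 0) (𝓝 (0 * (v + η / 2))) :=
      (tendsto_nhdsWithin_of_tendsto_nhds tendsto_id).mul_const _
    rw [zero_mul] at this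
    filter_upwards [this.eventually (gt_mem_nhds (show (0 : ℝ) < r * (η / 2) by positivity))] with s hs
    exact hs.le
  obtain ⟨s, hs1, hs2, hs0⟩ := (h1.and (h2.and self_mem_nhdsWithin)).exists
  have hs0' : 0 < s := hs0
  refine ⟨s * (e / 2), by positivity, fun z hz => ?_⟩
  have h3 := D.hl_le (by linarith : 0 < r + s) x z
  have h4 := cost_time (r' := r + s) (d := dist x z) hα.le hβ hr (by linarith) dist_nonneg
  set w := dist x z / (r + s) with hw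
  have hw0 : 0 ≤ w := by rw [hw]; positivity
  have h5 : s * (α * w ^ 2 + 3 * β * w ^ 4) ≤ s * (e / 2 - q + e / 2) := by
    have : r + s - r = s := by ring
    rw [this] at h4
    linarith only [h4, h3, hz, hs1]
  have h6 : α * w ^ 2 + 3 * β * w ^ 4 ≤ e / 2 - q + e / 2 := le_of_mul_le_mul_left h5 hs0'
  have h7 : w ≤ v + η / 2 := by
    by_contra hc
    push Not at hc
    have h8 : α * (v + η / 2) ^ 2 < α * w ^ 2 := by gcongr
    have h9 : 3 * β * v ^ 4 ≤ 3 * β * w ^ 4 := by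
      have : v ≤ w := by linarith only [hc, hη]
      gcongr
    have h10 : α * v ^ 2 + e ≤ α * (v + η / 2) ^ 2 := by
      have : α * (v + η / 2) ^ 2 - (α * v ^ 2 + e) = α * v * η := by rw [he]; ring
      have h0 : 0 ≤ α * v * η := by positivity
      linarith only [h0, this, h9, h8, h6, hq]
    linarith only [h10, h9, h8, h6, hq]
  have h8 : dist x z = w * (r + s) := by rw [hw]; field_simp
  rw [h8]
  calc w * (r + s) ≤ (v + η / 2) * (r + s) := by gcongr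
    _ = r * (v + η / 2) + s * (v + η / 2) := by ring
    _ ≤ r * (v + η / 2) + r * (η / 2) := by linarith only [hs2]
    _ = r * (v + η) := by ring

theorem lip_near {r q v : ℝ} {x : M} (hr : 0 < r) (hv : 0 ≤ v)
    (hd : HasDerivAt (fun s => hl α β h s x) q r) (hq : -q ≤ α * v ^ 2 + 3 * β * v ^ 4)
    {ε : ℝ} (hε : 0 < ε) :
    ∀ᶠ y in 𝓝 x, |hl α β h r y - hl α β h r x|
      ≤ (2 * α * v + 4 * β * v ^ 3 + ε) * dist y x := by
  have hα := D.hα
  have hβ := D.hβ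
  have hL0 := D.hL0
  have hcx := D.cx_nonneg
  -- choose η
  have hη : ∀ᶠ η in 𝓝[>] (0 : ℝ), 2 * α * (v + 2 * η) + 4 * β * (v + 2 * η) ^ 3 + η
      < 2 * α * v + 4 * β * v ^ 3 + ε := by
    have hc : Continuous fun η : ℝ => 2 * α * (v + 2 * η) + 4 * β * (v + 2 * η) ^ 3 + η := by
      fun_prop
    have h1 := (hc.tendsto 0).mono_left (nhdsWithin_le_nhds (s := Ioi (0 : ℝ)))
    refine h1.eventually (gt_mem_nhds ?_)
    simp only [mul_zero, add_zero]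
    linarith
  obtain ⟨η, hη1, hη0⟩ := (hη.and self_mem_nhdsWithin).exists
  have hη0' : 0 < η := hη0
  obtain ⟨δ, hδ, hcl⟩ := D.close hr hv hd hq hη0'
  -- choose the radius
  have hρ : ∀ᶠ ρ in 𝓝 (0 : ℝ), ρ < r * η ∧ ρ < η ∧ ρ < r ∧ ρ ^ 2 + 2 * cx α β L * ρ < δ := by
    refine (gt_mem_nhds (by positivity)).and ((gt_mem_nhds hη0').and ((gt_mem_nhds hr).and ?_))
    have hc : Continuous fun ρ : ℝ => ρ ^ 2 + 2 * cx α β L * ρ := by fun_prop
    refine (hc.tendsto 0).eventually (gt_mem_nhds ?_)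
    simpa using hδ
  have hy : Tendsto (fun y => dist y x) (𝓝 x) (𝓝 0) := by
    have : Continuous fun y : M => dist y x := by fun_prop
    simpa using this.tendsto x
  filter_upwards [hy.eventually hρ] with y hy
  obtain ⟨y1, y2, y3, y4⟩ := hy
  rcases eq_or_lt_of_le (dist_nonneg : 0 ≤ dist y x) with h0 | h0
  · have : y = x := dist_eq_zero.1 h0.symm
    subst this
    simp
  set ρ := dist y x with hρdef
  have hsq : ρ ^ 2 ≤ ρ * η := by (by_contra nlg; linarith only [nlg, mul_pos (sub_pos.2 (not_le.1 nlg)) (sub_pos.2 h0), mul_nonneg (sq_nonneg (ρ : ℝ)) (le_of_lt (sub_pos.2 y2))])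
  have hsm : ∀ b, 0 ≤ b → b / r ≤ v + 2 * η →
      2 * α * (b / r) + 4 * β * (b / r) ^ 3 + η ≤ 2 * α * v + 4 * β * v ^ 3 + ε := by
    intro b hb hbr
    have : 2 * α * (b / r) + 4 * β * (b / r) ^ 3 ≤ 2 * α * (v + 2 * η) + 4 * β * (v + 2 * η) ^ 3 := by
      have : 0 ≤ b / r := by positivity
      gcongr
    linarith only [this, hη1]
  have hnn : ∀ b, 0 ≤ b → 0 ≤ 2 * α * (b / r) + 4 * β * (b / r) ^ 3 := by
    intro b hb; (clear * - hα hb hr hβ; positivity)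
  rw [abs_le]
  constructor
  · -- hl x - hl y
    obtain ⟨z, hz⟩ := near (α := α) (β := β) (h := h) (r := r)
      (lt_min (lt_min (by positivity : 0 < ρ ^ 2) hr) hδ) y
    have e1 : h z + cost α β r (dist y z) ≤ hl α β h r y + ρ ^ 2 :=
      hz.le.trans (by gcongr; exact (min_le_left _ _).trans (min_le_left _ _))
    have e2 : h z + cost α β r (dist y z) ≤ hl α β h r y + min (min (ρ ^ 2) r) δ := hz.le
    have hs := D.speed hr ((min_le_left _ _).trans (min_le_right _ _)) e2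
    have t1 : dist x z ≤ dist y z + ρ := by
      have := dist_triangle_left x z y
      linarith
    have t2 : dist y z ≤ dist x z + ρ := by
      have := dist_triangle_left y z x
      rw [dist_comm x y] at this
      linarith
    -- z is a near-minimiser for x
    have n1 := cost_mono (r := r) hα.le hβ hr dist_nonneg t1
    have n2 := cost_sub_le (r := r) (a := dist y z) (b := dist y z + ρ) hα.le hβ hr
      dist_nonneg (by positivity)
    have n3 : (dist y z + ρ) / r ≤ (L + 1) / α + 2 := by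
      rw [add_div]
      have : ρ / r ≤ 1 := by rw [div_le_one hr]; exact y3.le
      linarith only [this, hs]
    have n4 : 2 * α * ((dist y z + ρ) / r) + 4 * β * ((dist y z + ρ) / r) ^ 3 ≤ cx α β L := by
      have h6 : 0 ≤ (dist y z + ρ) / r := by positivity
      have : 2 * α * ((dist y z + ρ) / r) + 4 * β * ((dist y z + ρ) / r) ^ 3
        ≤ 2 * α * ((L + 1) / α + 2) + 4 * β * ((L + 1) / α + 2) ^ 3 := by gcongr
      unfold cx
      have : 0 ≤ L + L ^ 2 / (4 * α) := by (clear * - hL0 hα; positivity)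
      linarith
    have n5 : (dist y z + ρ - dist y z) * (2 * α * ((dist y z + ρ) / r)
        + 4 * β * ((dist y z + ρ) / r) ^ 3) ≤ ρ * cx α β L := by
      have : dist y z + ρ - dist y z = ρ := by ring
      rw [this]
      gcongr
    have n6 := D.hl_lip' hr x y
    rw [dist_comm x y, ← hρdef] at n6
    have n7 : h z + cost α β r (dist x z) ≤ hl α β h r x + δ := by
      have : 2 * cx α β L * ρ = cx α β L * ρ + ρ * cx α β L := by ring
      linarith only [n6, n5, n2, n1, e1, y4]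
    have n8 := hcl z n7
    have n9 := D.hl_le hr x z
    have n10 := cost_sub_le (r := r) (a := dist y z) (b := dist x z) hα.le hβ hr
      dist_nonneg dist_nonneg
    have n11 : dist x z / r ≤ v + 2 * η := by
      rw [div_le_iff₀ hr]
      have : (v + 2 * η) * r = r * (v + η) + r * η := by ring
      have : 0 < r * η := by positivity
      linarith only [n8, h0, y1]
    have n12 := mul_le_mul_of_nonneg_left (hsm _ dist_nonneg n11) h0.le
    rw [mul_add] at n12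
    have n13 := hnn (dist x z) dist_nonneg
    have n14 : (dist x z - dist y z) * (2 * α * (dist x z / r) + 4 * β * (dist x z / r) ^ 3)
        ≤ ρ * (2 * α * (dist x z / r) + 4 * β * (dist x z / r) ^ 3) := by
      apply mul_le_mul_of_nonneg_right _ n13
      linarith only [t1]
    have e4 : (2 * α * v + 4 * β * v ^ 3 + ε) * ρ = ρ * (2 * α * v + 4 * β * v ^ 3 + ε) := by ring
    rw [e4]
    linarith only [n14, n12, n10, n9, e1, hsq]
  · obtain ⟨z, hz⟩ := near (α := α) (β := β) (h := h) (r := r)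
      (lt_min (by positivity : 0 < ρ ^ 2) hδ) x
    have e1 : h z + cost α β r (dist x z) ≤ hl α β h r x + ρ ^ 2 :=
      hz.le.trans (by gcongr; exact min_le_left _ _)
    have e2 : h z + cost α β r (dist x z) ≤ hl α β h r x + δ :=
      hz.le.trans (by gcongr; exact min_le_right _ _)
    have n8 := hcl z e2
    have t2 : dist y z ≤ dist x z + ρ := by
      have := dist_triangle_left y z x
      rw [dist_comm x y] at this
      linarith
    have n1 := cost_mono (r := r) hα.le hβ hr dist_nonneg t2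
    have n2 := cost_sub_le (r := r) (a := dist x z) (b := dist x z + ρ) hα.le hβ hr
      dist_nonneg (by positivity)
    have n9 := D.hl_le hr y z
    have n11 : (dist x z + ρ) / r ≤ v + 2 * η := by
      rw [div_le_iff₀ hr]
      have : (v + 2 * η) * r = r * (v + η) + r * η := by ring
      linarith
    have n12 := mul_le_mul_of_nonneg_left (hsm _ (by positivity) n11) h0.le
    have e3 : dist x z + ρ - dist x z = ρ := by ring
    rw [e3] at n2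
    rw [mul_add] at n12
    have e4 : (2 * α * v + 4 * β * v ^ 3 + ε) * ρ = ρ * (2 * α * v + 4 * β * v ^ 3 + ε) := by ring
    rw [e4]
    linarith only [n12, n9, n2, n1, e1, hsq]

theorem lipAt_hl {r q v : ℝ} {x : M} (hr : 0 < r) (hv : 0 ≤ v)
    (hd : HasDerivAt (fun s => hl α β h s x) q r) (hq : -q ≤ α * v ^ 2 + 3 * β * v ^ 4) :
    lipAt (hl α β h r) x ≤ ENNReal.ofReal (2 * α * v + 4 * β * v ^ 3) := by
  have h1 : ∀ ε : ℝ, 0 < ε → lipAt (hl α β h r) x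
      ≤ ENNReal.ofReal (2 * α * v + 4 * β * v ^ 3 + ε) := by
    intro ε hε
    unfold lipAt
    refine limsup_le_of_le (by isBoundedDefault) ?_
    filter_upwards [mem_nhdsWithin_of_mem_nhds (D.lip_near hr hv hd hq hε), self_mem_nhdsWithin]
      with y hy hne
    refine ENNReal.ofReal_le_ofReal ?_
    have : 0 < dist y x := dist_pos.2 hne
    rw [div_le_iff₀ this]
    exact hy
  have h2 : Tendsto (fun ε : ℝ => ENNReal.ofReal (2 * α * v + 4 * β * v ^ 3 + ε)) (𝓝[>] 0)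
      (𝓝 (ENNReal.ofReal (2 * α * v + 4 * β * v ^ 3 + 0))) :=
    ((ENNReal.continuous_ofReal.comp (continuous_const.add continuous_id)).tendsto 0).mono_left
      nhdsWithin_le_nhds
  rw [add_zero] at h2
  exact ge_of_tendsto h2 (by filter_upwards [self_mem_nhdsWithin] with ε hε using h1 ε hε)

end Dat

end HL

end Vale.Agent.P233.AB
end
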