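import Vale.Agent.P233.MathlibUsed2
import Vale.Agent.P233.Bd3.B5
import Vale.Agent.P233.Bd3.B1
import Vale.Agent.P233.Bd3.B4
import Vale.Agent.P233.Bd3.B3

set_option linter.all false

section

open MeasureTheory Filter Topology Set
open scoped ENNReal NNReal

namespace Vale.Agent.P233.Met

variable {M : Type*} [MetricSpace M] [MeasurableSpace M] {m : Measure M}

set_option linter.unusedSectionVars false

theorem RSlope.glue_closed [BorelSpace M] {f G H : M → ℝ} {F : Set M} (hF : IsClosed F)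
    (hG : RSlope m f G) (hH : RSlope m f H) :
    RSlope m f (fun x => F.indicator (fun _ => (1 : ℝ)) x * G x +
      (1 - F.indicator (fun _ => (1 : ℝ)) x) * H x) := by
  set δ : ℕ → ℝ := fun n => 1 / ((n : ℝ) + 1) with hδ
  have hδ0 : ∀ n, 0 < δ n := fun n => by positivity
  have hδl : Tendsto δ atTop (𝓝 0) := tendsto_one_div_add_atTop_nhds_zero_nat
  set χ : ℕ → M → ℝ := fun n x => (thickenedIndicator (hδ0 n) F x : ℝ) with hχ
  have hχ0 : ∀ n x, 0 ≤ χ n x := fun n x => NNReal.coe_nonneg _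
  have hχ1 : ∀ n x, χ n x ≤ 1 := fun n x => by
    have := thickenedIndicator_le_one (hδ0 n) F x
    exact_mod_cast this
  have hχL : ∀ n, LipschitzWith (δ n).toNNReal⁻¹ (χ n) := fun n => by
    have := lipschitzWith_thickenedIndicator (hδ0 n) F
    refine LipschitzWith.of_dist_le_mul fun x y => ?_
    have h2 := this.dist_le_mul x y
    rw [NNReal.dist_eq] at h2
    rw [Real.dist_eq]
    exact h2
  have hlim : ∀ x, Tendsto (fun n => χ n x) atTop (𝓝 (F.indicator (fun _ => (1 : ℝ)) x)) := by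
    intro x
    have h1 := thickenedIndicator_tendsto_indicator_closure hδ0 hδl F
    rw [tendsto_pi_nhds] at h1
    have h2 := h1 x
    rw [hF.closure_eq] at h2
    have h3 := (NNReal.continuous_coe.tendsto _).comp h2
    have h4 : ((F.indicator (fun _ => (1 : ℝ≥0)) x : ℝ≥0) : ℝ) =
        F.indicator (fun _ => (1 : ℝ)) x := by
      by_cases hx : x ∈ F <;> simp [hx]
    rw [h4] at h3
    exact h3
  have hind : AEStronglyMeasurable (F.indicator (fun _ => (1 : ℝ))) m :=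
    (aestronglyMeasurable_const.indicator hF.measurableSet)
  have hi0 : ∀ x, 0 ≤ F.indicator (fun _ => (1 : ℝ)) x := fun x => by
    by_cases hx : x ∈ F <;> simp [hx]
  have hi1 : ∀ x, F.indicator (fun _ => (1 : ℝ)) x ≤ 1 := fun x => by
    by_cases hx : x ∈ F <;> simp [hx]
  refine RSlope.of_tendsto (F := fun _ => f)
    (H := fun n => fun x => χ n x * G x + (1 - χ n x) * H x) hG.1 ?_ ?_ ?_ ?_
  · have e : (fun x => F.indicator (fun _ => (1 : ℝ)) x * G x +
      (1 - F.indicator (fun _ => (1 : ℝ)) x) * H x) =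
      fun x => H x + F.indicator (fun _ => (1 : ℝ)) x * (G x - H x) := by
      ext x; ring
    rw [e]
    refine hH.2.1.add ((hG.2.1.sub hH.2.1).mono (hind.mul (hG.2.1.1.sub hH.2.1.1)) ?_)
    filter_upwards with x
    rw [norm_mul, Real.norm_eq_abs, abs_of_nonneg (hi0 x)]
    calc _ ≤ 1 * ‖G x - H x‖ := by gcongr; exact hi1 x
      _ = _ := one_mul _
  · intro n
    exact RSlope.glue (hχL n) (hχ0 n) (hχ1 n) hG hH
  · simp
  · refine tendsto_eLpNorm_zero_of_dominated (B := fun x => |G x - H x|)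
      (hG.2.1.sub hH.2.1).abs ?_ ?_ ?_
    · intro n
      have h1 : AEStronglyMeasurable (χ n) m :=
        (hχL n).continuous.measurable.aestronglyMeasurable
      have h2 : AEStronglyMeasurable (fun x => 1 - χ n x) m :=
        (continuous_const.sub (hχL n).continuous).measurable.aestronglyMeasurable
      have h3 : AEStronglyMeasurable (fun x => 1 - F.indicator (fun _ => (1 : ℝ)) x) m :=
        aestronglyMeasurable_const.sub hind
      exact ((h1.mul hG.2.1.1).add (h2.mul hH.2.1.1)).sub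
        ((hind.mul hG.2.1.1).add (h3.mul hH.2.1.1))
    · intro n
      filter_upwards with x
      simp only [Pi.sub_apply]
      have e : χ n x * G x + (1 - χ n x) * H x - (F.indicator (fun _ => (1 : ℝ)) x * G x +
        (1 - F.indicator (fun _ => (1 : ℝ)) x) * H x) =
        (χ n x - F.indicator (fun _ => (1 : ℝ)) x) * (G x - H x) := by ring
      rw [e, abs_mul]
      have h1 : |χ n x - F.indicator (fun _ => (1 : ℝ)) x| ≤ 1 := by
        rw [abs_le]
        constructor <;> linarith [hχ0 n x, hχ1 n x, hi0 x, hi1 x]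
      calc _ ≤ 1 * |G x - H x| := by gcongr
        _ = _ := one_mul _
    · filter_upwards with x
      simp only [Pi.sub_apply]
      have h1 := hlim x
      have h2 : Tendsto (fun n => χ n x * G x + (1 - χ n x) * H x) atTop
          (𝓝 (F.indicator (fun _ => (1 : ℝ)) x * G x +
        (1 - F.indicator (fun _ => (1 : ℝ)) x) * H x)) :=
        (h1.mul_const _).add ((tendsto_const_nhds.sub h1).mul_const _)
      have h3 := h2.sub_const (F.indicator (fun _ => (1 : ℝ)) x * G x +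
        (1 - F.indicator (fun _ => (1 : ℝ)) x) * H x)
      simpa using h3

/-- gluing of relaxed slopes along a Borel set -/
theorem RSlope.glue_measurable [BorelSpace M] {f G H : M → ℝ} {B : Set M}
    (hB : MeasurableSet B) (hG : RSlope m f G) (hH : RSlope m f H) :
    RSlope m f (fun x => B.indicator (fun _ => (1 : ℝ)) x * G x +
      (1 - B.indicator (fun _ => (1 : ℝ)) x) * H x) := by
  have hi0 : ∀ (B : Set M) x, 0 ≤ B.indicator (fun _ => (1 : ℝ)) x := fun B x => by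
    by_cases hx : x ∈ B <;> simp [hx]
  have hi1 : ∀ (B : Set M) x, B.indicator (fun _ => (1 : ℝ)) x ≤ 1 := fun B x => by
    by_cases hx : x ∈ B <;> simp [hx]
  have hindB : AEStronglyMeasurable (B.indicator (fun _ => (1 : ℝ))) m :=
    (aestronglyMeasurable_const.indicator hB)
  set D : M → ℝ := fun x => G x - H x with hD
  have hDm : MemLp D 2 m := hG.2.1.sub hH.2.1
  have hmem : MemLp (fun x => B.indicator (fun _ => (1 : ℝ)) x * G x +
      (1 - B.indicator (fun _ => (1 : ℝ)) x) * H x) 2 m := by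
    have e : (fun x => B.indicator (fun _ => (1 : ℝ)) x * G x +
      (1 - B.indicator (fun _ => (1 : ℝ)) x) * H x) =
      fun x => H x + B.indicator (fun _ => (1 : ℝ)) x * D x := by
      ext x; simp [hD]; ring
    rw [e]
    refine hH.2.1.add (hDm.mono (hindB.mul hDm.1) ?_)
    filter_upwards with x
    rw [norm_mul, Real.norm_eq_abs, abs_of_nonneg (hi0 B x)]
    calc _ ≤ 1 * ‖D x‖ := by gcongr; exact hi1 B x
      _ = _ := one_mul _
  -- the finite measure with density D^2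
  set ν : Measure M := m.withDensity (fun x => ‖D x‖ₑ ^ (2 : ℝ)) with hν
  have h2 : (2 : ℝ≥0∞) ≠ 0 := by norm_num
  have h2' : (2 : ℝ≥0∞) ≠ ∞ := by norm_num
  have hfin : ∫⁻ x, ‖D x‖ₑ ^ (2 : ℝ) ∂m < ∞ := by
    have := (eLpNorm_lt_top_iff_lintegral_rpow_enorm_lt_top h2 h2').1 hDm.eLpNorm_lt_top
    simpa using this
  haveI : IsFiniteMeasure ν := by
    refine ⟨?_⟩
    rw [hν, withDensity_apply _ MeasurableSet.univ]
    simpa using hfin
  refine RSlope.of_eps hG.1 hmem fun ε hε => ?_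
  have hε2 : ε ^ (2 : ℝ) ≠ 0 := by
    rw [ne_eq, ENNReal.rpow_eq_zero_iff]
    push Not
    exact ⟨fun h => absurd h hε, fun h => by norm_num⟩
  obtain ⟨F, hFB, hFc, hF⟩ := hB.exists_isClosed_sdiff_lt (μ := ν) (measure_ne_top ν B) hε2
  refine ⟨f, _, RSlope.glue_closed hFc hG hH, by simp, ?_⟩
  have e : (fun x => F.indicator (fun _ => (1 : ℝ)) x * G x +
      (1 - F.indicator (fun _ => (1 : ℝ)) x) * H x) -
      (fun x => B.indicator (fun _ => (1 : ℝ)) x * G x +
      (1 - B.indicator (fun _ => (1 : ℝ)) x) * H x) =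
      -((B \ F).indicator D) := by
    ext x
    by_cases hxF : x ∈ F
    · have hxB := hFB hxF
      simp [hxF, hxB]
    · by_cases hxB : x ∈ B
      · simp [hxF, hxB, hD]
      · simp [hxF, hxB]
  rw [e, eLpNorm_neg, eLpNorm_eq_lintegral_rpow_enorm_toReal h2 h2']
  have hmeas : MeasurableSet (B \ F) := hB.diff hFc.measurableSet
  have e2 : ∫⁻ x, ‖(B \ F).indicator D x‖ₑ ^ (2 : ℝ≥0∞).toReal ∂m = ν (B \ F) := by
    rw [hν, withDensity_apply _ hmeas, ← lintegral_indicator hmeas]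
    congr 1
    ext x
    by_cases hx : x ∈ B \ F
    · simp [hx]
    · simp [hx]
  rw [e2]
  have h3 : (ν (B \ F)) ^ (1 / (2 : ℝ≥0∞).toReal) ≤ (ε ^ (2 : ℝ)) ^ (1 / (2 : ℝ≥0∞).toReal) := by
    gcongr
  refine h3.trans ?_
  rw [← ENNReal.rpow_mul]
  simp

theorem RSlope.min [BorelSpace M] {f G H : M → ℝ}
    (hG : RSlope m f G) (hH : RSlope m f H) :
    RSlope m f (fun x => min (G x) (H x)) := by
  obtain ⟨G', hG'm, hGG'⟩ := hG.2.1.1
  obtain ⟨H', hH'm, hHH'⟩ := hH.2.1.1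
  have hG2 := hG.congr (Filter.EventuallyEq.rfl) hGG'
  have hH2 := hH.congr (Filter.EventuallyEq.rfl) hHH'
  have hB : MeasurableSet {x | G' x ≤ H' x} :=
    measurableSet_le hG'm.measurable hH'm.measurable
  refine (RSlope.glue_measurable hB hG2 hH2).congr Filter.EventuallyEq.rfl ?_
  filter_upwards [hGG', hHH'] with x hx hy
  by_cases h : G' x ≤ H' x
  · have : x ∈ {x | G' x ≤ H' x} := h
    simp [this, hx, hy, h]
  · have h' : x ∉ {x | G' x ≤ H' x} := h
    simp [h', hx, hy, (not_le.1 h).le]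

/-- the almost everywhere minimal relaxed slope -/
def RMin (m : Measure M) (f G : M → ℝ) : Prop :=
  RSlope m f G ∧ ∀ H, RSlope m f H → ∀ᵐ x ∂m, G x ≤ H x

theorem exists_rmin [BorelSpace M] {f H : M → ℝ} (hH : RSlope m f H) :
    ∃ G, RMin m f G := by
  set K : Set (Lp ℝ 2 m) := {g | RSlope m f g} with hK
  have hne : K.Nonempty := ⟨hH.2.1.toLp, hH.congr Filter.EventuallyEq.rfl
    (hH.2.1.coeFn_toLp).symm⟩
  have hclosed : IsClosed K := by
    refine isClosed_of_closure_subset fun g hg => ?_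
    rw [mem_closure_iff_seq_limit] at hg
    obtain ⟨s, hs, hlim⟩ := hg
    rw [Lp.tendsto_Lp_iff_tendsto_eLpNorm'] at hlim
    exact RSlope.of_tendsto (F := fun _ => f) (H := fun n => s n) hH.1 (Lp.memLp g)
      hs (by simp) hlim
  have hconv : Convex ℝ K := by
    intro g hg h hh a b ha hb hab
    have h1 := (RSlope.const_mul a hg).add (RSlope.const_mul b hh)
    refine h1.congr ?_ ?_
    · filter_upwards with x
      simp only [Pi.add_apply]
      rw [← add_mul, hab, one_mul]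
    · filter_upwards [Lp.coeFn_add (a • g) (b • h), Lp.coeFn_smul a g, Lp.coeFn_smul b h]
        with x hx1 hx2 hx3
      rw [hx1]
      simp only [Pi.add_apply, hx2, hx3, Pi.smul_apply, smul_eq_mul, abs_of_nonneg ha,
        abs_of_nonneg hb]
  obtain ⟨g, hgK, hg⟩ := exists_norm_eq_iInf_of_complete_convex hne hclosed.isComplete hconv 0
  simp only [zero_sub, norm_neg] at hg
  have hmin : ∀ h ∈ K, ‖g‖ ≤ ‖h‖ := by
    intro h hh
    rw [hg]
    exact ciInf_le (f := fun w : K => ‖(w : Lp ℝ 2 m)‖)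
      ⟨0, by rintro _ ⟨w, rfl⟩; exact norm_nonneg _⟩ ⟨h, hh⟩
  refine ⟨g, hgK, fun H hH' => ?_⟩
  have h1 := RSlope.min hgK hH'
  have h2 : h1.2.1.toLp ∈ K := h1.congr Filter.EventuallyEq.rfl (h1.2.1.coeFn_toLp).symm
  have h3 := hmin _ h2
  -- compare the squares
  have hg0 := RSlope.nonneg hgK
  have hH0 := RSlope.nonneg hH'
  have hint1 : Integrable (fun x => (g x) ^ 2) m := (Lp.memLp g).integrable_sq
  have hint2 : Integrable (fun x => (Min.min (g x) (H x)) ^ 2) m := h1.2.1.integrable_sq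
  have h4 : ∫ x, (g x) ^ 2 ∂m ≤ ∫ x, (Min.min (g x) (H x)) ^ 2 ∂m := by
    have e1 : ‖g‖ ^ 2 = ∫ x, (g x) ^ 2 ∂m := by
      rw [← real_inner_self_eq_norm_sq, L2.inner_def]
      simp [sq]
    have e2 : ‖h1.2.1.toLp‖ ^ 2 = ∫ x, (Min.min (g x) (H x)) ^ 2 ∂m := by
      rw [← real_inner_self_eq_norm_sq, L2.inner_def]
      refine integral_congr_ae ?_
      filter_upwards [h1.2.1.coeFn_toLp] with x hx
      simp [hx, sq]
    rw [← e1, ← e2]
    gcongr
  have h5 : ∀ᵐ x ∂m, 0 ≤ (g x) ^ 2 - (Min.min (g x) (H x)) ^ 2 := by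
    filter_upwards [hg0, hH0] with x hx hy
    have h6 : 0 ≤ Min.min (g x) (H x) := le_min hx hy
    have h7 : Min.min (g x) (H x) ≤ g x := min_le_left _ _
    linarith only [mul_nonneg (sub_nonneg.2 h7) (sub_nonneg.2 h7), mul_nonneg (sub_nonneg.2 h6) (sub_nonneg.2 h7)]
  have h6 : ∫ x, ((g x) ^ 2 - (Min.min (g x) (H x)) ^ 2) ∂m = 0 := by
    have h7 : ∫ x, ((g x) ^ 2 - (Min.min (g x) (H x)) ^ 2) ∂m ≤ 0 := by
      rw [integral_sub hint1 hint2]; linarith
    exact le_antisymm h7 (integral_nonneg_of_ae h5)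
  have h7 := (integral_eq_zero_iff_of_nonneg_ae h5 (hint1.sub hint2)).1 h6
  filter_upwards [h7, hg0, hH0] with x hx hy hz
  simp only [Pi.zero_apply] at hx
  have h8 : 0 ≤ Min.min (g x) (H x) := le_min hy hz
  have h9 : g x = Min.min (g x) (H x) := by
    have := sq_eq_sq₀ hy h8
    exact this.1 (by linarith)
  rw [h9]
  exact min_le_right _ _

end Vale.Agent.P233.Met
end

section

open MeasureTheory Filter Topology Set
open scoped ENNReal NNReal

namespace Vale.Agent.P233.Met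

variable {M : Type*} [MetricSpace M] [MeasurableSpace M] {m : Measure M}

set_option linter.unusedSectionVars false

theorem memLp_bdd_mul {w c : M → ℝ} {C : ℝ} (hw : MemLp w 2 m) (hc : AEStronglyMeasurable c m)
    (hcb : ∀ᵐ x ∂m, |c x| ≤ C) : MemLp (fun x => c x * w x) 2 m := by
  refine (hw.const_mul C).mono (hc.mul hw.1) ?_
  filter_upwards [hcb] with x hx
  rw [norm_mul, norm_mul, Real.norm_eq_abs (c x), Real.norm_eq_abs C]
  exact mul_le_mul_of_nonneg_right (hx.trans (le_abs_self C)) (norm_nonneg _)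

/-- convergence of products: bounded a.e. convergent times `L²` convergent -/
theorem tendsto_mul_L2 {a : ℕ → M → ℝ} {A : M → ℝ} {g : ℕ → M → ℝ} {G : M → ℝ} {C : ℝ}
    (ha : ∀ k, AEStronglyMeasurable (a k) m) (hA : AEStronglyMeasurable A m)
    (haC : ∀ k, ∀ᵐ x ∂m, |a k x| ≤ C)
    (hlim : ∀ᵐ x ∂m, Tendsto (fun k => a k x) atTop (𝓝 (A x)))
    (hg : ∀ k, MemLp (g k) 2 m) (hG : MemLp G 2 m)
    (hgG : Tendsto (fun k => eLpNorm (g k - G) 2 m) atTop (𝓝 0)) :
    Tendsto (fun k => eLpNorm ((fun x => a k x * g k x) - (fun x => A x * G x)) 2 m) atTop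
      (𝓝 0) := by
  have haC' : ∀ᵐ x ∂m, ∀ k, |a k x| ≤ C := ae_all_iff.2 haC
  have hAC : ∀ᵐ x ∂m, |A x| ≤ C := by
    filter_upwards [hlim, haC'] with x hx hx2
    exact le_of_tendsto hx.abs (Eventually.of_forall hx2)
  have h1 : Tendsto (fun k => eLpNorm (fun x => (a k x - A x) * G x) 2 m) atTop (𝓝 0) := by
    refine tendsto_eLpNorm_zero_of_dominated (B := fun x => (2 * C) * |G x|)
      (hG.abs.const_mul (2 * C)) ?_ ?_ ?_
    · intro k; exact ((ha k).sub hA).mul hG.1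
    · intro k
      filter_upwards [haC k, hAC] with x hx hy
      rw [abs_mul]
      have : |a k x - A x| ≤ 2 * C := (abs_sub _ _).trans (by linarith)
      gcongr
    · filter_upwards [hlim] with x hx
      have := (hx.sub_const (A x)).mul_const (G x)
      simpa using this
  have h2 : Tendsto (fun k => eLpNorm (fun x => a k x * (g k - G) x) 2 m) atTop (𝓝 0) := by
    have h3 : Tendsto (fun k => ‖C‖ₑ * eLpNorm (g k - G) 2 m) atTop (𝓝 0) := by
      have := ENNReal.Tendsto.const_mul (a := ‖C‖ₑ) hgG (Or.inr (by simp))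
      simpa using this
    refine tendsto_of_tendsto_of_tendsto_of_le_of_le tendsto_const_nhds h3
      (fun _ => zero_le) (fun k => ?_)
    rw [← eLpNorm_const_smul]
    refine eLpNorm_mono_ae ?_
    filter_upwards [haC k] with x hx
    simp only [Pi.smul_apply, smul_eq_mul]
    rw [norm_mul, norm_mul, Real.norm_eq_abs (a k x), Real.norm_eq_abs C]
    exact mul_le_mul_of_nonneg_right (hx.trans (le_abs_self C)) (norm_nonneg _)
  have h3 := h1.add h2
  rw [add_zero] at h3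
  refine tendsto_of_tendsto_of_tendsto_of_le_of_le tendsto_const_nhds h3
    (fun _ => zero_le) (fun k => ?_)
  have e : (fun x => a k x * g k x) - (fun x => A x * G x) =
      (fun x => (a k x - A x) * G x) + (fun x => a k x * (g k - G) x) := by
    ext x; simp; ring
  rw [e]
  exact eLpNorm_add_le (((ha k).sub hA).mul hG.1) ((ha k).mul ((hg k).1.sub hG.1)) (by norm_num)

/-- `C¹` chain rule for relaxed slopes -/
theorem RSlope.comp {f G : M → ℝ} (h : RSlope m f G) {φ : ℝ → ℝ}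
    (hφ : ContDiff ℝ 1 φ) (hφ0 : φ 0 = 0) {L : ℝ≥0} (hL : ∀ t, |deriv φ t| ≤ L) :
    RSlope m (fun x => φ (f x)) (fun x => |deriv φ (f x)| * G x) := by
  have hφL : LipschitzWith L φ := by
    refine lipschitzWith_of_nnnorm_deriv_le (hφ.differentiable (by norm_num)) fun t => ?_
    have := hL t
    rw [← Real.norm_eq_abs] at this
    exact_mod_cast this
  have hdc : Continuous (deriv φ) := hφ.continuous_deriv (by norm_num)
  obtain ⟨hf, hG, u, g, hug, h1, h2⟩ := h
  obtain ⟨ns, hns, hlim⟩ := exists_subseq_ae (fun k => (hug k).2.1.1) hf.1 h1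
  have habs : ∀ w : M → ℝ, MemLp w 2 m → MemLp (fun x => φ (w x)) 2 m := by
    intro w hw
    refine (hw.const_mul (L : ℝ)).mono (hφL.continuous.comp_aestronglyMeasurable hw.1) ?_
    filter_upwards with x
    have := hφL.dist_le_mul (w x) 0
    rw [hφ0, dist_zero_right, dist_zero_right] at this
    rw [norm_mul, NNReal.norm_eq]
    exact this
  have hda : ∀ w : M → ℝ, AEStronglyMeasurable w m →
      AEStronglyMeasurable (fun x => |deriv φ (w x)|) m := fun w hw =>
    (hdc.comp_aestronglyMeasurable hw).norm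
  have hdb : ∀ w : M → ℝ, ∀ᵐ x ∂m, |(|deriv φ (w x)|)| ≤ (L : ℝ) := fun w => by
    filter_upwards with x
    rw [abs_abs]; exact hL _
  refine RSlope.of_tendsto (F := fun k x => φ (u (ns k) x))
    (H := fun k x => |deriv φ (u (ns k) x)| * g (ns k) x) (habs f hf)
    (memLp_bdd_mul hG (hda f hf.1) (hdb f)) ?_ ?_ ?_
  · intro k
    obtain ⟨hu1, hu2, hg, -⟩ := hug (ns k)
    refine (Good.mk' (hu1.comp hφL) (habs _ hu2) (memLp_bdd_mul hg (hda _ hu2.1) (hdb _)) ?_
      ).rSlope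
    filter_upwards [(hug (ns k)).lipBd] with x hx
    exact ⟨mul_nonneg (abs_nonneg _) hx.1, LipBd.comp hφ hu1.continuous.continuousAt hx.2⟩
  · have h3 : Tendsto (fun k => ‖(L : ℝ)‖ₑ * eLpNorm (u (ns k) - f) 2 m) atTop (𝓝 0) := by
      have := ENNReal.Tendsto.const_mul (a := ‖(L : ℝ)‖ₑ) (h1.comp hns.tendsto_atTop)
        (Or.inr (by simp))
      simpa using this
    refine tendsto_of_tendsto_of_tendsto_of_le_of_le tendsto_const_nhds h3
      (fun _ => zero_le) (fun k => ?_)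
    rw [← eLpNorm_const_smul]
    refine eLpNorm_mono fun x => ?_
    have := hφL.dist_le_mul (u (ns k) x) (f x)
    rw [dist_eq_norm, dist_eq_norm] at this
    simp only [Pi.smul_apply, smul_eq_mul, Pi.sub_apply]
    rw [norm_mul, NNReal.norm_eq]
    exact this
  · refine tendsto_mul_L2 (fun k => hda _ (hug _).2.1.1) (hda f hf.1) (fun k => hdb _) ?_
      (fun k => (hug (ns k)).2.2.1) hG (h2.comp hns.tendsto_atTop)
    filter_upwards [hlim] with x hx
    exact ((hdc.tendsto _).comp hx).abs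

/-- approximants respecting an `L^∞` bound -/
theorem RSlope.exists_seq_bdd {f G : M → ℝ} (h : RSlope m f G) {C : ℝ}
    (hC : 0 ≤ C) (hfC : ∀ᵐ x ∂m, |f x| ≤ C) :
    ∃ u g : ℕ → M → ℝ, (∀ k, Good m (u k) (g k) ∧ ∀ x, |u k x| ≤ C) ∧
      Tendsto (fun k => eLpNorm (u k - f) 2 m) atTop (𝓝 0) ∧
      Tendsto (fun k => eLpNorm (g k - G) 2 m) atTop (𝓝 0) ∧
      ∀ᵐ x ∂m, Tendsto (fun k => u k x) atTop (𝓝 (f x)) := by
  obtain ⟨hf, hG, u, g, hug, h1, h2⟩ := h
  have h1' : Tendsto (fun k => eLpNorm ((fun x => trunc C (u k x)) - f) 2 m) atTop (𝓝 0) := by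
    refine tendsto_of_tendsto_of_tendsto_of_le_of_le tendsto_const_nhds h1
      (fun _ => zero_le) (fun k => ?_)
    refine eLpNorm_mono_ae ?_
    filter_upwards [hfC] with x hx
    simp only [Pi.sub_apply]
    nth_rewrite 1 [← trunc_of_abs_le hx]
    exact abs_trunc_sub_le _ _ _
  obtain ⟨ns, hns, hlim⟩ := exists_subseq_ae
    (fun k => ((hug k).trunc (n := C) hC).2.1.1) hf.1 h1'
  exact ⟨fun k x => trunc C (u (ns k) x), fun k => g (ns k),
    fun k => ⟨(hug _).trunc hC, fun x => abs_trunc_le hC _⟩,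
    h1'.comp hns.tendsto_atTop, h2.comp hns.tendsto_atTop, hlim⟩

/-- Leibniz inequality for relaxed slopes of bounded functions -/
theorem RSlope.mul {f G g H : M → ℝ} (hf : RSlope m f G)
    (hg : RSlope m g H) {C D : ℝ} (hC : 0 ≤ C) (hD : 0 ≤ D) [BorelSpace M]
    (hfC : ∀ᵐ x ∂m, |f x| ≤ C) (hgD : ∀ᵐ x ∂m, |g x| ≤ D) :
    RSlope m (fun x => f x * g x) (fun x => |f x| * H x + |g x| * G x) := by
  obtain ⟨u, p, hup, hu1, hu2, hu3⟩ := hf.exists_seq_bdd hC hfC
  obtain ⟨v, q, hvq, hv1, hv2, hv3⟩ := hg.exists_seq_bdd hD hgD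
  have habs : ∀ {w : M → ℝ}, AEStronglyMeasurable w m → AEStronglyMeasurable (fun x => |w x|) m :=
    fun hw => hw.norm
  refine RSlope.of_tendsto (F := fun k x => u k x * v k x)
    (H := fun k x => |u k x| * q k x + |v k x| * p k x)
    (memLp_bdd_mul hg.1 hf.1.1 hfC)
    ((memLp_bdd_mul hg.2.1 (habs hf.1.1) (C := C) (by simpa using hfC)).add
      (memLp_bdd_mul hf.2.1 (habs hg.1.1) (C := D) (by simpa using hgD))) ?_ ?_ ?_
  · intro k
    obtain ⟨h1, h1b⟩ := hup k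
    obtain ⟨h2, h2b⟩ := hvq k
    refine (Good.mk' (h1.1.mul h2.1 ⟨C, h1b⟩ ⟨D, h2b⟩)
      (memLp_bdd_mul h2.2.1 h1.2.1.1 (Eventually.of_forall h1b)) ?_ ?_).rSlope
    · exact (memLp_bdd_mul h2.2.2.1 (habs h1.2.1.1) (C := C)
          (Eventually.of_forall (by simpa using h1b))).add
        (memLp_bdd_mul h1.2.2.1 (habs h2.2.1.1) (C := D)
          (Eventually.of_forall (by simpa using h2b)))
    · filter_upwards [h1.lipBd, h2.lipBd] with x hx hy
      refine ⟨?_, LipBd.mul h1.1.continuous.continuousAt hx.2 hy.2⟩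
      have := hx.1
      have := hy.1
      positivity
  · exact tendsto_mul_L2 (fun k => (hup k).1.2.1.1) hf.1.1
      (fun k => Eventually.of_forall (hup k).2) hu3 (fun k => (hvq k).1.2.1) hg.1 hv1
  · have h1 := tendsto_mul_L2 (a := fun k x => |u k x|) (A := fun x => |f x|)
      (fun k => habs (hup k).1.2.1.1) (habs hf.1.1)
      (C := C) (fun k => Eventually.of_forall (by simpa using (hup k).2))
      (by filter_upwards [hu3] with x hx using hx.abs) (fun k => (hvq k).1.2.2.1) hg.2.1 hv2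
    have h2 := tendsto_mul_L2 (a := fun k x => |v k x|) (A := fun x => |g x|)
      (fun k => habs (hvq k).1.2.1.1) (habs hg.1.1)
      (C := D) (fun k => Eventually.of_forall (by simpa using (hvq k).2))
      (by filter_upwards [hv3] with x hx using hx.abs) (fun k => (hup k).1.2.2.1) hf.2.1 hu2
    have h3 := h1.add h2
    rw [add_zero] at h3
    refine tendsto_of_tendsto_of_tendsto_of_le_of_le tendsto_const_nhds h3
      (fun _ => zero_le) (fun k => ?_)
    have e : (fun x => |u k x| * q k x + |v k x| * p k x) -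
        (fun x => |f x| * H x + |g x| * G x) =
        ((fun x => |u k x| * q k x) - (fun x => |f x| * H x)) +
        ((fun x => |v k x| * p k x) - (fun x => |g x| * G x)) := by
      ext x; simp; ring
    rw [e]
    refine eLpNorm_add_le ?_ ?_ (by norm_num)
    · exact ((habs (hup k).1.2.1.1).mul (hvq k).1.2.2.1.1).sub ((habs hf.1.1).mul hg.2.1.1)
    · exact ((habs (hvq k).1.2.1.1).mul (hup k).1.2.2.1.1).sub ((habs hg.1.1).mul hf.2.1.1)

end Vale.Agent.P233.Met
end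

section

open MeasureTheory Filter Topology Set
open scoped ENNReal NNReal

namespace Vale.Agent.P233.Met

variable {M : Type*} [MetricSpace M] [MeasurableSpace M] {m : Measure M}

set_option linter.unusedSectionVars false

/-- the Sobolev class `W^{1,2}` -/
def W12 (m : Measure M) (f : M → ℝ) : Prop := ∃ G, RSlope m f G

open Classical in
/-- the minimal relaxed slope `|Df|` -/
noncomputable def mslope (m : Measure M) (f : M → ℝ) : M → ℝ :=
  if h : ∃ G, RMin m f G then h.choose else 0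

theorem W12.memLp {f : M → ℝ} (h : W12 m f) : MemLp f 2 m := by
  obtain ⟨G, hG⟩ := h; exact hG.1

theorem W12.spec [BorelSpace M] {f : M → ℝ} (h : W12 m f) : RMin m f (mslope m f) := by
  obtain ⟨G, hG⟩ := h
  have h1 := exists_rmin hG
  unfold mslope
  rw [dif_pos h1]
  exact h1.choose_spec

theorem W12.rSlope [BorelSpace M] {f : M → ℝ} (h : W12 m f) :
    RSlope m f (mslope m f) := h.spec.1

theorem W12.memLp_mslope [BorelSpace M] {f : M → ℝ} (h : W12 m f) :
    MemLp (mslope m f) 2 m := h.spec.1.2.1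

theorem W12.mslope_nonneg [BorelSpace M] {f : M → ℝ} (h : W12 m f) :
    ∀ᵐ x ∂m, 0 ≤ mslope m f x := h.spec.1.nonneg

theorem RSlope.mslope_le [BorelSpace M] {f G : M → ℝ} (h : RSlope m f G) :
    ∀ᵐ x ∂m, mslope m f x ≤ G x := (W12.spec ⟨G, h⟩).2 G h

theorem RMin.eq [BorelSpace M] {f G : M → ℝ} (h : RMin m f G) :
    mslope m f =ᵐ[m] G := by
  filter_upwards [h.1.mslope_le, h.2 _ (W12.rSlope ⟨G, h.1⟩)] with x hx hy
  exact le_antisymm hx hy

theorem W12.congr {f g : M → ℝ} (h : W12 m f) (hfg : f =ᵐ[m] g) : W12 m g := by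
  obtain ⟨G, hG⟩ := h
  exact ⟨G, hG.congr hfg Filter.EventuallyEq.rfl⟩

theorem mslope_congr [BorelSpace M] {f g : M → ℝ} (hfg : f =ᵐ[m] g) (h : W12 m f) :
    mslope m f =ᵐ[m] mslope m g := by
  have hg := h.congr hfg
  filter_upwards [(hg.rSlope.congr hfg.symm Filter.EventuallyEq.rfl).mslope_le,
    (h.rSlope.congr hfg Filter.EventuallyEq.rfl).mslope_le] with x hx hy
  exact le_antisymm hx hy

theorem W12.add {f g : M → ℝ} (hf : W12 m f) (hg : W12 m g) : W12 m (f + g) := by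
  obtain ⟨F, hF⟩ := hf; obtain ⟨G, hG⟩ := hg
  exact ⟨_, hF.add hG⟩

theorem W12.const_mul {f : M → ℝ} (c : ℝ) (hf : W12 m f) : W12 m (fun x => c * f x) := by
  obtain ⟨F, hF⟩ := hf
  exact ⟨_, hF.const_mul c⟩

theorem W12.neg {f : M → ℝ} (hf : W12 m f) : W12 m (-f) := by
  have := hf.const_mul (-1)
  exact this.congr (by filter_upwards with x; simp)

theorem W12.sub {f g : M → ℝ} (hf : W12 m f) (hg : W12 m g) : W12 m (f - g) := by
  rw [sub_eq_add_neg]; exact hf.add hg.neg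

theorem W12.zero : W12 m (0 : M → ℝ) := ⟨0, rSlope_zero⟩

theorem mslope_add_le [BorelSpace M] {f g : M → ℝ} (hf : W12 m f) (hg : W12 m g) :
    ∀ᵐ x ∂m, mslope m (f + g) x ≤ mslope m f x + mslope m g x :=
  (hf.rSlope.add hg.rSlope).mslope_le

theorem mslope_const_mul_le [BorelSpace M] {f : M → ℝ} (c : ℝ) (hf : W12 m f) :
    ∀ᵐ x ∂m, mslope m (fun x => c * f x) x ≤ |c| * mslope m f x :=
  (hf.rSlope.const_mul c).mslope_le

theorem mslope_zero [BorelSpace M] : mslope m (0 : M → ℝ) =ᵐ[m] 0 := by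
  filter_upwards [(rSlope_zero (m := m)).mslope_le, (W12.zero (m := m)).mslope_nonneg]
    with x hx hy
  exact le_antisymm hx hy

theorem mslope_const_mul [BorelSpace M] {f : M → ℝ} (c : ℝ) (hf : W12 m f) :
    ∀ᵐ x ∂m, mslope m (fun x => c * f x) x = |c| * mslope m f x := by
  by_cases hc : c = 0
  · subst hc
    have h1 : (fun x => (0 : ℝ) * f x) = 0 := by ext x; simp
    rw [h1]
    filter_upwards [mslope_zero (m := m)] with x hx
    simp [hx]
  · have h1 := mslope_const_mul_le c⁻¹ (hf.const_mul c)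
    have h2 : (fun x => c⁻¹ * (c * f x)) = f := by
      ext x; field_simp
    rw [h2] at h1
    filter_upwards [h1, mslope_const_mul_le c hf] with x hx hy
    refine le_antisymm hy ?_
    have hc' : 0 < |c| := abs_pos.2 hc
    rw [abs_inv] at hx
    have := mul_le_mul_of_nonneg_left hx hc'.le
    rwa [← mul_assoc, mul_inv_cancel₀ hc'.ne', one_mul] at this

theorem mslope_neg [BorelSpace M] {f : M → ℝ} (hf : W12 m f) :
    ∀ᵐ x ∂m, mslope m (-f) x = mslope m f x := by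
  have h1 := mslope_const_mul (-1) hf
  have h2 : (fun x => (-1 : ℝ) * f x) = -f := by ext x; simp
  rw [h2] at h1
  filter_upwards [h1] with x hx
  simpa using hx

theorem mslope_sub_le [BorelSpace M] {f g : M → ℝ} (hf : W12 m f) (hg : W12 m g) :
    ∀ᵐ x ∂m, mslope m (f - g) x ≤ mslope m f x + mslope m g x := by
  rw [sub_eq_add_neg]
  filter_upwards [mslope_add_le hf hg.neg, mslope_neg hg] with x hx hy
  rwa [hy] at hx

/-- reverse triangle inequality -/
theorem abs_mslope_sub_le [BorelSpace M] {f g : M → ℝ} (hf : W12 m f) (hg : W12 m g) :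
    ∀ᵐ x ∂m, |mslope m f x - mslope m g x| ≤ mslope m (f - g) x := by
  have h1 := mslope_add_le (hf.sub hg) hg
  have h2 := mslope_sub_le hf (hf.sub hg)
  have e1 : f - g + g = f := by abel
  have e2 : f - (f - g) = g := by abel
  rw [e1] at h1
  rw [e2] at h2
  filter_upwards [h1, h2] with x hx hy
  rw [abs_le]
  constructor <;> linarith

theorem W12.comp {f : M → ℝ} (hf : W12 m f) {φ : ℝ → ℝ} (hφ : ContDiff ℝ 1 φ)
    (hφ0 : φ 0 = 0) {L : ℝ≥0} (hL : ∀ t, |deriv φ t| ≤ L) : W12 m (fun x => φ (f x)) := by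
  obtain ⟨F, hF⟩ := hf
  exact ⟨_, hF.comp hφ hφ0 hL⟩

theorem mslope_comp_le [BorelSpace M] {f : M → ℝ} (hf : W12 m f) {φ : ℝ → ℝ}
    (hφ : ContDiff ℝ 1 φ) (hφ0 : φ 0 = 0) {L : ℝ≥0} (hL : ∀ t, |deriv φ t| ≤ L) :
    ∀ᵐ x ∂m, mslope m (fun x => φ (f x)) x ≤ |deriv φ (f x)| * mslope m f x :=
  (hf.rSlope.comp hφ hφ0 hL).mslope_le

/-- chain rule `|D(φ∘f)| = |φ'(f)| |Df|` -/
theorem mslope_comp [BorelSpace M] {f : M → ℝ} (hf : W12 m f) {φ : ℝ → ℝ}
    (hφ : ContDiff ℝ 1 φ) (hφ0 : φ 0 = 0) {L : ℝ≥0} (hL : ∀ t, |deriv φ t| ≤ L) :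
    ∀ᵐ x ∂m, mslope m (fun x => φ (f x)) x = |deriv φ (f x)| * mslope m f x := by
  have hφf := hf.comp hφ hφ0 hL
  -- general inequality `(s φ')(f) |Df| ≤ |D(φ∘f)|` for `s = ±1`
  have key : ∀ ψ : ℝ → ℝ, ContDiff ℝ 1 ψ → ψ 0 = 0 → (∀ t, |deriv ψ t| ≤ L) →
      ∀ᵐ x ∂m, deriv ψ (f x) * mslope m f x ≤ mslope m (fun x => ψ (f x)) x := by
    intro ψ hψ hψ0 hψL
    set χ : ℝ → ℝ := fun t => L * t - ψ t with hχ
    have hχc : ContDiff ℝ 1 χ := (contDiff_const.mul contDiff_id).sub hψ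
    have hχ0 : χ 0 = 0 := by simp [hχ, hψ0]
    have hχd : ∀ t, deriv χ t = L - deriv ψ t := by
      intro t
      have h1 : HasDerivAt (fun t : ℝ => (L : ℝ) * t) ((L : ℝ) * 1) t :=
        (hasDerivAt_id t).const_mul (L : ℝ)
      have h2 : HasDerivAt ψ (deriv ψ t) t :=
        (hψ.differentiable (by norm_num) t).hasDerivAt
      have h3 := (h1.sub h2).deriv
      rw [mul_one] at h3
      exact h3
    have hχL : ∀ t, |deriv χ t| ≤ (2 * L : ℝ≥0) := by
      intro t
      rw [hχd]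
      have := abs_le.1 (hψL t)
      rw [abs_le]
      push_cast
      constructor <;> linarith [L.coe_nonneg]
    have hψf := hf.comp hψ hψ0 hψL
    have hχf := hf.comp hχc hχ0 hχL
    have h1 := mslope_add_le hψf hχf
    have e : (fun x => ψ (f x)) + (fun x => χ (f x)) = fun x => (L : ℝ) * f x := by
      ext x; simp [hχ]
    rw [e] at h1
    filter_upwards [h1, mslope_const_mul (L : ℝ) hf, mslope_comp_le hf hχc hχ0 hχL,
      hf.mslope_nonneg] with x hx hy hz h0
    rw [hy, NNReal.abs_eq] at hx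
    rw [hχd, abs_of_nonneg (by linarith [abs_le.1 (hψL (f x))])] at hz
    linarith only [hz, hx]
  have h1 := key φ hφ hφ0 hL
  have h2 := key (fun t => - φ t) hφ.neg (by simp [hφ0]) (fun t => by
    rw [deriv.fun_neg, abs_neg]; exact hL t)
  have e : (fun x => - φ (f x)) = -(fun x => φ (f x)) := rfl
  rw [e] at h2
  filter_upwards [h1, h2, mslope_neg hφf, mslope_comp_le hf hφ hφ0 hL] with x hx hy hz hw
  refine le_antisymm hw ?_
  rw [hz, deriv.fun_neg] at hy
  rcases abs_cases (deriv φ (f x)) with ⟨h, -⟩ | ⟨h, -⟩ <;> rw [h] <;> linarith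

end Vale.Agent.P233.Met
end

section

open MeasureTheory Filter Topology Set
open scoped ENNReal NNReal

namespace Vale.Agent.P233.Met

variable {M : Type*} [MetricSpace M] [MeasurableSpace M] {m : Measure M}

set_option linter.unusedSectionVars false

/-- Lipschitz contraction -/
theorem RSlope.comp_lip {f G : M → ℝ} (h : RSlope m f G) {φ : ℝ → ℝ} {L : ℝ≥0}
    (hφ : LipschitzWith L φ) (hφ0 : φ 0 = 0) :
    RSlope m (fun x => φ (f x)) (fun x => L * G x) := by
  have habs : ∀ w : M → ℝ, MemLp w 2 m → MemLp (fun x => φ (w x)) 2 m := by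
    intro w hw
    refine (hw.const_mul (L : ℝ)).mono (hφ.continuous.comp_aestronglyMeasurable hw.1) ?_
    filter_upwards with x
    have := hφ.dist_le_mul (w x) 0
    rw [hφ0, dist_zero_right, dist_zero_right] at this
    rw [norm_mul, NNReal.norm_eq]
    exact this
  obtain ⟨hf, hG, u, g, hug, h1, h2⟩ := h
  refine RSlope.of_tendsto (F := fun k x => φ (u k x))
    (H := fun k x => L * g k x) (habs f hf) (hG.const_mul _) ?_ ?_ ?_
  · intro k
    obtain ⟨hu1, hu2, hg, -⟩ := hug k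
    refine (Good.mk' (hu1.comp hφ) (habs _ hu2) (hg.const_mul _) ?_).rSlope
    filter_upwards [(hug k).lipBd] with x hx
    refine ⟨mul_nonneg L.coe_nonneg hx.1, fun c hc => ?_⟩
    -- choose an intermediate constant
    obtain ⟨η, hη, hηb⟩ : ∃ η > 0, (L : ℝ) * (g k x + η) < c := by
      have hcont : Continuous (fun η : ℝ => (L : ℝ) * (g k x + η)) := by fun_prop
      have h0 : (fun η : ℝ => (L : ℝ) * (g k x + η)) 0 < c := by simpa using hc
      have := (hcont.continuousAt (x := 0)).eventually_lt continuousAt_const h0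
      rw [Metric.eventually_nhds_iff] at this
      obtain ⟨ε, hε, h⟩ := this
      refine ⟨ε / 2, by positivity, h ?_⟩
      simp [abs_of_pos hε, hε]
    filter_upwards [hx.2 (g k x + η) (by linarith)] with y hy
    have h3 := hφ.dist_le_mul (u k y) (u k x)
    rw [Real.dist_eq, Real.dist_eq] at h3
    calc |φ (u k y) - φ (u k x)| ≤ L * |u k y - u k x| := h3
      _ ≤ L * ((g k x + η) * dist y x) := by gcongr
      _ = (L * (g k x + η)) * dist y x := by ring
      _ ≤ c * dist y x := by gcongr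
  · have h3 : Tendsto (fun k => ‖(L : ℝ)‖ₑ * eLpNorm (u k - f) 2 m) atTop (𝓝 0) := by
      have := ENNReal.Tendsto.const_mul (a := ‖(L : ℝ)‖ₑ) h1 (Or.inr (by simp))
      simpa using this
    refine tendsto_of_tendsto_of_tendsto_of_le_of_le tendsto_const_nhds h3
      (fun _ => zero_le) (fun k => ?_)
    rw [← eLpNorm_const_smul]
    refine eLpNorm_mono fun x => ?_
    have := hφ.dist_le_mul (u k x) (f x)
    rw [dist_eq_norm, dist_eq_norm] at this
    simp only [Pi.smul_apply, smul_eq_mul, Pi.sub_apply]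
    rw [norm_mul, NNReal.norm_eq]
    exact this
  · have h3 : Tendsto (fun k => ‖(L : ℝ)‖ₑ * eLpNorm (g k - G) 2 m) atTop (𝓝 0) := by
      have := ENNReal.Tendsto.const_mul (a := ‖(L : ℝ)‖ₑ) h2 (Or.inr (by simp))
      simpa using this
    refine h3.congr fun k => ?_
    rw [← eLpNorm_const_smul]
    congr 1
    ext x
    simp [mul_sub]

theorem W12.comp_lip {f : M → ℝ} (h : W12 m f) {φ : ℝ → ℝ} {L : ℝ≥0}
    (hφ : LipschitzWith L φ) (hφ0 : φ 0 = 0) : W12 m (fun x => φ (f x)) := by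
  obtain ⟨F, hF⟩ := h
  exact ⟨_, hF.comp_lip hφ hφ0⟩

/-- the auxiliary weight `ψ_n(s) = min 1 (n |s - c|)` -/
theorem exists_cut (c : ℝ) (n : ℕ) : ∃ φ : ℝ → ℝ, ContDiff ℝ 1 φ ∧ φ 0 = 0 ∧
    (∀ t, deriv φ t = min 1 (n * |t - c|)) ∧ ∀ t, |φ t - t| ≤ |t| := by
  set ψ : ℝ → ℝ := fun s => min 1 (n * |s - c|) with hψ
  have hψc : Continuous ψ := by fun_prop
  have hψ0 : ∀ s, 0 ≤ ψ s := fun s => le_min zero_le_one (by positivity)
  have hψ1 : ∀ s, ψ s ≤ 1 := fun s => min_le_left _ _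
  set φ : ℝ → ℝ := fun t => ∫ s in (0 : ℝ)..t, ψ s with hφ
  have hd : ∀ t, HasDerivAt φ (ψ t) t := fun t =>
    intervalIntegral.integral_hasDerivAt_right (hψc.intervalIntegrable _ _)
      hψc.stronglyMeasurable.stronglyMeasurableAtFilter hψc.continuousAt
  refine ⟨φ, ?_, by simp [hφ], fun t => (hd t).deriv, ?_⟩
  · rw [contDiff_one_iff_deriv]
    refine ⟨fun t => (hd t).differentiableAt, ?_⟩
    have : deriv φ = ψ := by ext t; exact (hd t).deriv
    rw [this]; exact hψc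
  · intro t
    have h1 : φ t - t = - ∫ s in (0 : ℝ)..t, (1 - ψ s) := by
      rw [intervalIntegral.integral_sub (by simp) (hψc.intervalIntegrable _ _)]
      simp [hφ]
    rw [h1, abs_neg]
    have h2 := intervalIntegral.norm_integral_le_of_norm_le_const (a := (0 : ℝ)) (b := t)
      (f := fun s => 1 - ψ s) (C := 1) (fun s _ => by
        rw [Real.norm_eq_abs, abs_le]
        constructor <;> linarith [hψ0 s, hψ1 s])
    simpa using h2

/-- quantitative convergence of the auxiliary functions -/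
theorem exists_cut' (c : ℝ) : ∃ φ : ℕ → ℝ → ℝ, (∀ n, ContDiff ℝ 1 (φ n)) ∧ (∀ n, φ n 0 = 0) ∧
    (∀ n t, deriv (φ n) t = min 1 (n * |t - c|)) ∧ (∀ n t, |φ n t - t| ≤ |t|) ∧
    ∀ t, Tendsto (fun n => φ n t) atTop (𝓝 t) := by
  choose φ h1 h2 h3 h4 using exists_cut c
  refine ⟨φ, h1, h2, h3, h4, fun t => ?_⟩
  have h5 : ∀ n, φ n t = ∫ s in (0 : ℝ)..t, min 1 ((n : ℝ) * |s - c|) := by
    intro n
    have h6 := intervalIntegral.integral_eq_sub_of_hasDerivAt (a := (0 : ℝ)) (b := t)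
      (f := φ n) (f' := deriv (φ n))
      (fun s _ => ((h1 n).differentiable (by norm_num) s).hasDerivAt)
      (((h1 n).continuous_deriv (by norm_num)).intervalIntegrable _ _)
    rw [h2 n, sub_zero] at h6
    rw [← h6]
    refine intervalIntegral.integral_congr fun s _ => ?_
    exact h3 n s
  have h7 : Tendsto (fun n : ℕ => ∫ s in (0 : ℝ)..t, min 1 ((n : ℝ) * |s - c|)) atTop
      (𝓝 (∫ _ in (0 : ℝ)..t, (1 : ℝ))) := by
    refine intervalIntegral.tendsto_integral_filter_of_dominated_convergence (fun _ => 1) ?_ ?_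
      ?_ ?_
    · filter_upwards with n
      exact (by fun_prop : Continuous fun s : ℝ => min 1 ((n : ℝ) * |s - c|)
        ).aestronglyMeasurable
    · filter_upwards with n
      filter_upwards with s _
      rw [Real.norm_eq_abs, abs_le]
      have : 0 ≤ (n : ℝ) * |s - c| := by (clear * -; positivity)
      constructor
      · have := le_min zero_le_one this
        linarith
      · exact min_le_left _ _
    · simp
    · have hne : ∀ᵐ s : ℝ, s ≠ c := by
        rw [ae_iff]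
        simp
      filter_upwards [hne] with s hs _
      have hpos : 0 < |s - c| := abs_pos.2 (sub_ne_zero.2 hs)
      obtain ⟨N, hN⟩ := exists_nat_ge (1 / |s - c|)
      refine tendsto_const_nhds.congr' ?_
      filter_upwards [eventually_ge_atTop N] with k hk
      have h8 : 1 / |s - c| ≤ (k : ℝ) := hN.trans (by exact_mod_cast hk)
      rw [div_le_iff₀ hpos] at h8
      rw [min_eq_left h8]
  simp only [intervalIntegral.integral_const, sub_zero, smul_eq_mul, mul_one] at h7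
  simpa [h5] using h7

/-- locality: `|Df| = 0` a.e. on `{f = c}` -/
theorem mslope_eq_zero_of_eq_const [BorelSpace M] {f : M → ℝ} (hf : W12 m f) (c : ℝ) :
    ∀ᵐ x ∂m, f x = c → mslope m f x = 0 := by
  obtain ⟨φ, h1, h2, h3, h4, h5⟩ := exists_cut' c
  obtain ⟨f', hf'm, hff'⟩ := hf.memLp.1
  have hB : MeasurableSet {x | f' x = c} := hf'm.measurable (measurableSet_singleton c)
  have hL : ∀ n t, |deriv (φ n) t| ≤ (1 : ℝ≥0) := by
    intro n t
    rw [h3, abs_le]
    have h6 : 0 ≤ (n : ℝ) * |t - c| := by (clear * -; positivity)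
    have h7 := le_min zero_le_one h6
    have h8 : min 1 ((n : ℝ) * |t - c|) ≤ 1 := min_le_left _ _
    simp only [NNReal.coe_one]
    constructor <;> linarith
  -- candidate slope
  have hG : MemLp ({x | f' x = c}ᶜ.indicator (mslope m f)) 2 m :=
    hf.memLp_mslope.indicator hB.compl
  have key : RSlope m f ({x | f' x = c}ᶜ.indicator (mslope m f)) := by
    refine RSlope.of_tendsto (F := fun n x => φ n (f x))
      (H := fun _ => {x | f' x = c}ᶜ.indicator (mslope m f)) hf.memLp hG ?_ ?_ (by simp)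
    · intro n
      refine (hf.rSlope.comp (h1 n) (h2 n) (hL n)).mono hG ?_
      filter_upwards [hff', hf.mslope_nonneg] with x hx h0
      by_cases hxc : f' x = c
      · have : x ∉ {x | f' x = c}ᶜ := by simp [hxc]
        rw [indicator_of_notMem this, hx, h3, hxc]
        simp
      · have : x ∈ {x | f' x = c}ᶜ := by simp [hxc]
        rw [indicator_of_mem this]
        have := hL n (f x)
        simp only [NNReal.coe_one] at this
        calc _ ≤ 1 * mslope m f x := by gcongr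
          _ = _ := one_mul _
    · refine tendsto_eLpNorm_zero_of_dominated (B := fun x => |f x|) hf.memLp.abs ?_ ?_ ?_
      · intro n
        exact ((h1 n).continuous.comp_aestronglyMeasurable hf.memLp.1).sub hf.memLp.1
      · intro n
        filter_upwards with x
        exact h4 n (f x)
      · filter_upwards with x
        have := (h5 (f x)).sub_const (f x)
        simpa using this
  filter_upwards [key.mslope_le, hf.mslope_nonneg, hff'] with x hx h0 hx2 hxc
  have : x ∉ {x | f' x = c}ᶜ := by simp [← hx2, hxc]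
  rw [indicator_of_notMem this] at hx
  exact le_antisymm hx h0

/-- locality: `|Df| = |Dg|` a.e. on `{f - g = c}` -/
theorem mslope_eq_of_sub_eq_const [BorelSpace M] {f g : M → ℝ} (hf : W12 m f) (hg : W12 m g)
    (c : ℝ) : ∀ᵐ x ∂m, f x - g x = c → mslope m f x = mslope m g x := by
  filter_upwards [abs_mslope_sub_le hf hg, mslope_eq_zero_of_eq_const (hf.sub hg) c]
    with x hx hy hc
  have h1 := hy hc
  rw [h1] at hx
  have := abs_nonpos_iff.1 hx
  linarith

theorem W12.trunc {f : M → ℝ} (hf : W12 m f) {n : ℝ} (hn : 0 ≤ n) :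
    W12 m (fun x => trunc n (f x)) :=
  hf.comp_lip (trunc_lip n) (trunc_of_abs_le (by simpa using hn))

end Vale.Agent.P233.Met
end

section

open MeasureTheory Filter Topology Set
open scoped ENNReal NNReal

namespace Vale.Agent.P233.Met

variable {M : Type*} [MetricSpace M] [MeasurableSpace M] {m : Measure M}

set_option linter.unusedSectionVars false

theorem lipBd_zero_of_eventually {u : M → ℝ} {x : M} (h : ∀ᶠ y in 𝓝 x, u y = u x) :
    LipBd u x 0 := by
  intro c hc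
  filter_upwards [h] with y hy
  rw [hy, sub_self, abs_zero]
  exact mul_nonneg (le_of_lt hc) dist_nonneg

theorem bdd_of_bounded_support {u : M → ℝ} {K : ℝ≥0} (hu : LipschitzWith K u) {x₀ : M} {R : ℝ}
    (hR : ∀ x, x ∉ Metric.ball x₀ R → u x = 0) : ∃ C, ∀ x, |u x| ≤ C := by
  refine ⟨|u x₀| + K * |R|, fun x => ?_⟩
  by_cases hx : x ∈ Metric.ball x₀ R
  · have h1 := hu.dist_le_mul x x₀
    rw [Real.dist_eq] at h1
    have h2 : dist x x₀ ≤ |R| := (Metric.mem_ball.1 hx).le.trans (le_abs_self R)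
    have h3 : |u x| ≤ |u x₀| + |u x - u x₀| := by
      have := abs_add_le (u x₀) (u x - u x₀)
      simpa using this
    have h4 : (K : ℝ) * dist x x₀ ≤ K * |R| := by gcongr
    linarith
  · rw [hR x hx, abs_zero]; (clear * -; positivity)

/-- Lipschitz functions with bounded support are admissible -/
theorem good_of_bounded_support [BorelSpace M] (hfin : ∀ (x : M) (r : ℝ), m (Metric.ball x r) < ∞)
    {u : M → ℝ} {K : ℝ≥0} (hu : LipschitzWith K u) {x₀ : M} {R : ℝ}
    (hR : ∀ x, x ∉ Metric.ball x₀ R → u x = 0) :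
    Good m u ((Metric.ball x₀ (R + 1)).indicator fun _ => (K : ℝ)) := by
  have hbm : MeasurableSet (Metric.ball x₀ (R + 1)) := Metric.isOpen_ball.measurableSet
  obtain ⟨C, hC⟩ := bdd_of_bounded_support hu hR
  have hC0 : 0 ≤ C := (abs_nonneg _).trans (hC x₀)
  have hind : ∀ c : ℝ, MemLp ((Metric.ball x₀ (R + 1)).indicator fun _ => c) 2 m := fun c =>
    memLp_indicator_const 2 hbm c (Or.inr (hfin x₀ (R + 1)).ne)
  refine Good.mk' ⟨K, hu⟩ ?_ (hind K) ?_
  · refine (hind C).mono hu.continuous.measurable.aestronglyMeasurable ?_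
    filter_upwards with x
    by_cases hx : x ∈ Metric.ball x₀ (R + 1)
    · rw [indicator_of_mem hx, Real.norm_eq_abs, Real.norm_eq_abs, abs_of_nonneg hC0]
      exact hC x
    · have hx' : x ∉ Metric.ball x₀ R := fun h => hx (Metric.ball_subset_ball (by linarith) h)
      rw [hR x hx', norm_zero]; exact norm_nonneg _
  · filter_upwards with x
    by_cases hx : x ∈ Metric.ball x₀ (R + 1)
    · rw [indicator_of_mem hx]
      exact ⟨K.coe_nonneg, LipBd.of_lipschitz hu x⟩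
    · rw [indicator_of_notMem hx]
      refine ⟨le_rfl, lipBd_zero_of_eventually ?_⟩
      have hx2 : R < dist x x₀ := by
        rw [Metric.mem_ball, not_lt] at hx; linarith
      have h1 : ∀ᶠ y in 𝓝 x, R < dist y x₀ :=
        (continuous_id.dist continuous_const).continuousAt.eventually_const_lt hx2
      filter_upwards [h1] with y hy
      rw [hR y (by rw [Metric.mem_ball, not_lt]; exact hy.le),
        hR x (by rw [Metric.mem_ball, not_lt]; exact hx2.le)]

/-- cut-off functions -/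
noncomputable def cutoff (x₀ : M) (R : ℝ) (x : M) : ℝ := max 0 (min 1 (R + 1 - dist x x₀))

theorem cutoff_lip (x₀ : M) (R : ℝ) : LipschitzWith 1 (cutoff x₀ R) := by
  unfold cutoff
  have h1 : LipschitzWith 1 (fun x : M => R + 1 - dist x x₀) := by
    refine LipschitzWith.of_dist_le_mul fun x y => ?_
    rw [Real.dist_eq, NNReal.coe_one, one_mul]
    have : R + 1 - dist x x₀ - (R + 1 - dist y x₀) = dist y x₀ - dist x x₀ := by ring
    rw [this, dist_comm x y]
    exact abs_dist_sub_le y x x₀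
  exact (h1.const_min 1).const_max 0

theorem cutoff_nonneg (x₀ : M) (R : ℝ) (x : M) : 0 ≤ cutoff x₀ R x := le_max_left _ _
theorem cutoff_le_one (x₀ : M) (R : ℝ) (x : M) : cutoff x₀ R x ≤ 1 :=
  max_le zero_le_one (min_le_left _ _)
theorem cutoff_eq_one {x₀ : M} {R : ℝ} {x : M} (h : dist x x₀ ≤ R) : cutoff x₀ R x = 1 := by
  unfold cutoff
  rw [min_eq_left (by linarith)]
  norm_num
theorem cutoff_eq_zero {x₀ : M} {R : ℝ} {x : M} (h : x ∉ Metric.ball x₀ (R + 1)) :
    cutoff x₀ R x = 0 := by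
  rw [Metric.mem_ball, not_lt] at h
  unfold cutoff
  exact max_eq_left ((min_le_right _ _).trans (by linarith))

theorem tendsto_cutoff (x₀ x : M) : Tendsto (fun n : ℕ => cutoff x₀ n x) atTop (𝓝 1) := by
  obtain ⟨N, hN⟩ := exists_nat_ge (dist x x₀)
  refine tendsto_const_nhds.congr' ?_
  filter_upwards [eventually_ge_atTop N] with k hk
  rw [cutoff_eq_one]
  exact hN.trans (by exact_mod_cast hk)

/-- `W^{1,2}` is dense in `L²` -/
theorem dense_W12 [BorelSpace M] [SecondCountableTopology M]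
    (hfin : ∀ (x : M) (r : ℝ), m (Metric.ball x r) < ∞) {f : M → ℝ} (hf : MemLp f 2 m)
    {ε : ℝ≥0∞} (hε : ε ≠ 0) : ∃ g, eLpNorm (f - g) 2 m ≤ ε ∧ W12 m g := by
  have hloc : IsLocallyFiniteMeasure m :=
    ⟨fun x => ⟨Metric.ball x 1, Metric.ball_mem_nhds x one_pos, hfin x 1⟩⟩
  refine MemLp.induction_dense (by norm_num) (W12 m) ?_ (fun f g hf hg => hf.add hg)
    (fun f hf => hf.memLp.1) hf hε
  intro c s hs hsfin ε hε
  rcases isEmpty_or_nonempty M with hM | ⟨⟨x₀⟩⟩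
  · refine ⟨0, ?_, W12.zero⟩
    have : (0 : M → ℝ) - s.indicator (fun _ => c) = 0 := by ext x; exact (hM.false x).elim
    rw [this]; simp
  -- it suffices to treat bounded closed sets
  -- step A : approximate `s` by `F ⊆ s ∩ ball x₀ n` closed
  set δ : ℝ≥0∞ := ε / 3 with hδ
  have hδ0 : δ ≠ 0 := by simp [hδ, hε]
  have h2 : (2 : ℝ≥0∞) ≠ 0 := by norm_num
  have h2' : (2 : ℝ≥0∞) ≠ ∞ := by norm_num
  -- the norm of an indicator tends to zero with the measure
  have hsmall : ∃ η : ℝ≥0∞, η ≠ 0 ∧ ∀ A : Set M, MeasurableSet A → m A ≤ η →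
      eLpNorm (A.indicator fun _ => c) 2 m ≤ δ := by
    have hc : Tendsto (fun t : ℝ≥0∞ => ‖c‖ₑ * t ^ (1 / (2 : ℝ≥0∞).toReal)) (𝓝 0) (𝓝 0) := by
      have h3 := (ENNReal.continuous_rpow_const (y := 1 / (2 : ℝ≥0∞).toReal)).tendsto 0
      have h4 := ENNReal.Tendsto.const_mul (a := ‖c‖ₑ) h3 (Or.inr (by simp))
      simpa using h4
    have h5 := hc.eventually (ge_mem_nhds (pos_iff_ne_zero.2 hδ0))
    rw [ENNReal.nhds_zero] at h5
    rw [Filter.eventually_iff] at h5
    have h6 : ∃ η : ℝ≥0∞, η ≠ 0 ∧ ∀ t ≤ η, ‖c‖ₑ * t ^ (1 / (2 : ℝ≥0∞).toReal) ≤ δ := by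
      have h7 := (ENNReal.nhds_zero_basis_Iic.mem_iff).1 (by rw [ENNReal.nhds_zero]; exact h5)
      obtain ⟨η, hη, hsub⟩ := h7
      exact ⟨η, hη.ne', fun t ht => hsub ht⟩
    obtain ⟨η, hη, hη2⟩ := h6
    refine ⟨η, hη, fun A hA hmA => ?_⟩
    rw [eLpNorm_indicator_const hA h2 h2']
    exact hη2 _ hmA
  obtain ⟨η, hη, hsmall⟩ := hsmall
  have hball : Tendsto (fun n : ℕ => m (s \ Metric.ball x₀ n)) atTop (𝓝 0) := by
    have h3 : Tendsto (fun n : ℕ => m (s \ Metric.ball x₀ n)) atTop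
        (𝓝 (m (⋂ n : ℕ, s \ Metric.ball x₀ n))) := by
      refine tendsto_measure_iInter_atTop
        (fun n => (hs.diff Metric.isOpen_ball.measurableSet).nullMeasurableSet) ?_
        ⟨0, (measure_mono sdiff_subset).trans_lt hsfin |>.ne⟩
      intro a b hab
      exact sdiff_subset_sdiff_right (Metric.ball_subset_ball (by exact_mod_cast hab))
    have h4 : (⋂ n : ℕ, s \ Metric.ball x₀ n) = ∅ := by
      rw [Set.eq_empty_iff_forall_notMem]
      intro x hx
      obtain ⟨n, hn⟩ := exists_nat_gt (dist x x₀)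
      have h5 := mem_iInter.1 hx n
      exact h5.2 hn
    rwa [h4, measure_empty] at h3
  obtain ⟨n, hn⟩ := (hball.eventually (ge_mem_nhds (pos_iff_ne_zero.2 hη))).exists
  set s' := s ∩ Metric.ball x₀ n with hs'
  have hs'm : MeasurableSet s' := hs.inter Metric.isOpen_ball.measurableSet
  have hs'fin : m s' ≠ ∞ := ((measure_mono inter_subset_left).trans_lt hsfin).ne
  obtain ⟨F, hFs, hFc, hF⟩ := hs'm.exists_isClosed_sdiff_lt hs'fin hη
  -- thickened indicators of F
  set d : ℕ → ℝ := fun k => 1 / ((k : ℝ) + 1) with hd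
  have hd0 : ∀ k, 0 < d k := fun k => by (clear * -; positivity)
  have hd1 : ∀ k, d k ≤ 1 := fun k => by
    simp only [hd]
    rw [div_le_one (by (clear * -; positivity))]
    have : (0 : ℝ) ≤ k := by (clear * -; positivity)
    linarith
  have hdl : Tendsto d atTop (𝓝 0) := tendsto_one_div_add_atTop_nhds_zero_nat
  set χ : ℕ → M → ℝ := fun k x => c * (thickenedIndicator (hd0 k) F x : ℝ) with hχ
  have hχL : ∀ k, IsLip (χ k) := fun k => by
    have h3 := lipschitzWith_thickenedIndicator (hd0 k) F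
    have h4 : LipschitzWith (d k).toNNReal⁻¹ (fun x => (thickenedIndicator (hd0 k) F x : ℝ)) := by
      refine LipschitzWith.of_dist_le_mul fun x y => ?_
      have h5 := h3.dist_le_mul x y
      rw [NNReal.dist_eq] at h5
      rw [Real.dist_eq]
      exact h5
    exact IsLip.const_mul c ⟨_, h4⟩
  have hχsupp : ∀ k x, x ∉ Metric.ball x₀ (n + 1) → χ k x = 0 := by
    intro k x hx
    have h3 : x ∉ Metric.thickening (d k) F := by
      intro h4
      rw [Metric.mem_thickening_iff] at h4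
      obtain ⟨z, hz, hxz⟩ := h4
      have h5 : dist z x₀ < n := (hFs hz).2
      apply hx
      rw [Metric.mem_ball]
      calc dist x x₀ ≤ dist x z + dist z x₀ := dist_triangle _ _ _
        _ < d k + n := add_lt_add hxz h5
        _ ≤ n + 1 := by linarith [hd1 k]
    simp only [hχ]
    rw [thickenedIndicator_zero (hd0 k) F h3]
    simp
  have hχW : ∀ k, W12 m (χ k) := fun k => by
    obtain ⟨K, hK⟩ := hχL k
    exact ⟨_, (good_of_bounded_support hfin hK (hχsupp k)).rSlope⟩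
  have hχlim : Tendsto (fun k => eLpNorm (χ k - F.indicator (fun _ => c)) 2 m) atTop (𝓝 0) := by
    refine tendsto_eLpNorm_zero_of_dominated
      (B := (Metric.ball x₀ (n + 1)).indicator fun _ => |c|) ?_ ?_ ?_ ?_
    · exact memLp_indicator_const 2 Metric.isOpen_ball.measurableSet |c|
        (Or.inr (hfin x₀ (n + 1)).ne)
    · intro k
      exact ((hχL k).continuous.measurable.aestronglyMeasurable).sub
        (aestronglyMeasurable_const.indicator hFc.measurableSet)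
    · intro k
      filter_upwards with x
      by_cases hx : x ∈ Metric.ball x₀ (n + 1)
      · rw [indicator_of_mem hx]
        have h3 := thickenedIndicator_le_one (hd0 k) F x
        have h3' : (thickenedIndicator (hd0 k) F x : ℝ) ≤ 1 := by exact_mod_cast h3
        have h30 : 0 ≤ (thickenedIndicator (hd0 k) F x : ℝ) := NNReal.coe_nonneg _
        by_cases hxF : x ∈ F
        · have h4 := thickenedIndicator_one (hd0 k) F hxF
          simp only [Pi.sub_apply, hχ, h4, indicator_of_mem hxF]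
          simp
        · simp only [Pi.sub_apply, hχ, indicator_of_notMem hxF, sub_zero, abs_mul,
            abs_of_nonneg h30]
          calc |c| * _ ≤ |c| * 1 := by gcongr
            _ = |c| := mul_one _
      · rw [indicator_of_notMem hx]
        have hxF : x ∉ F := fun h => hx (Metric.ball_subset_ball (by linarith) (hFs h).2)
        simp only [Pi.sub_apply, hχsupp k x hx, indicator_of_notMem hxF]
        simp
    · filter_upwards with x
      have h3 := thickenedIndicator_tendsto_indicator_closure hd0 hdl F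
      rw [tendsto_pi_nhds] at h3
      have h4 := h3 x
      rw [hFc.closure_eq] at h4
      have h5 := ((NNReal.continuous_coe.tendsto _).comp h4).const_mul c
      have h6 : c * ((F.indicator (fun _ => (1 : ℝ≥0)) x : ℝ≥0) : ℝ) =
          F.indicator (fun _ => c) x := by
        by_cases hx : x ∈ F <;> simp [hx]
      rw [h6] at h5
      have h7 := h5.sub_const (F.indicator (fun _ => c) x)
      rw [sub_self] at h7
      exact h7
  obtain ⟨k, hk⟩ := (hχlim.eventually (ge_mem_nhds (pos_iff_ne_zero.2 hδ0))).exists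
  refine ⟨χ k, ?_, hχW k⟩
  have e : χ k - s.indicator (fun _ => c) = (χ k - F.indicator (fun _ => c)) +
      (-((s' \ F).indicator (fun _ => c)) + -((s \ Metric.ball x₀ n).indicator fun _ => c)) := by
    ext x
    simp only [Pi.sub_apply, Pi.add_apply, Pi.neg_apply]
    by_cases hxF : x ∈ F
    · have hxs' := hFs hxF
      have : x ∈ s := hxs'.1
      have h4 : x ∉ s \ Metric.ball x₀ n := fun h => h.2 hxs'.2
      have h5 : x ∉ s' \ F := fun h => h.2 hxF
      rw [indicator_of_mem hxF, indicator_of_mem this, indicator_of_notMem h4,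
        indicator_of_notMem h5]
      ring
    · by_cases hxs : x ∈ s
      · by_cases hxb : x ∈ Metric.ball x₀ n
        · have h4 : x ∉ s \ Metric.ball x₀ n := fun h => h.2 hxb
          have h5 : x ∈ s' \ F := ⟨⟨hxs, hxb⟩, hxF⟩
          rw [indicator_of_notMem hxF, indicator_of_mem hxs, indicator_of_notMem h4,
            indicator_of_mem h5]
          ring
        · have h4 : x ∈ s \ Metric.ball x₀ n := ⟨hxs, hxb⟩
          have h5 : x ∉ s' \ F := fun h => hxb h.1.2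
          rw [indicator_of_notMem hxF, indicator_of_mem hxs, indicator_of_mem h4,
            indicator_of_notMem h5]
          ring
      · have h4 : x ∉ s \ Metric.ball x₀ n := fun h => hxs h.1
        have h5 : x ∉ s' \ F := fun h => hxs h.1.1
        rw [indicator_of_notMem hxF, indicator_of_notMem hxs, indicator_of_notMem h4,
          indicator_of_notMem h5]
        ring
  rw [e]
  have hm1 : AEStronglyMeasurable (χ k - F.indicator (fun _ => c)) m :=
    ((hχL k).continuous.measurable.aestronglyMeasurable).sub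
        (aestronglyMeasurable_const.indicator hFc.measurableSet)
  have hm2 : MeasurableSet (s' \ F) := hs'm.diff hFc.measurableSet
  have hm3 : MeasurableSet (s \ Metric.ball x₀ n) := hs.diff Metric.isOpen_ball.measurableSet
  have hm2' : AEStronglyMeasurable (-((s' \ F).indicator (fun _ => c))) m :=
    (aestronglyMeasurable_const.indicator hm2).neg
  have hm3' : AEStronglyMeasurable (-((s \ Metric.ball x₀ n).indicator (fun _ => c))) m :=
    (aestronglyMeasurable_const.indicator hm3).neg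
  refine (eLpNorm_add_le hm1 (hm2'.add hm3') (by norm_num)).trans ?_
  refine (add_le_add_right (eLpNorm_add_le hm2' hm3' (by norm_num)) _).trans ?_
  rw [eLpNorm_neg, eLpNorm_neg]
  calc _ ≤ δ + (δ + δ) := by
        gcongr
        · exact hsmall _ hm2 hF.le
        · exact hsmall _ hm3 hn
    _ = 3 * δ := by ring
    _ ≤ ε := ENNReal.mul_div_le

end Vale.Agent.P233.Met
end

section

open MeasureTheory Filter Topology
open scoped ENNReal NNReal

namespace Vale.Agent.P233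

section
variable {M : Type*} [MetricSpace M] [MeasurableSpace M] {m : Measure M}

theorem relaxed_iff {f G : M →ₘ[m] ℝ} : IsRelaxedSlope f G ↔ Met.RSlope m f G := Iff.rfl

theorem isMinSlope_iff {f G : M →ₘ[m] ℝ} : IsMinSlope f G ↔ Met.RMin m f G := by
  constructor
  · rintro ⟨h1, h2⟩
    refine ⟨h1, fun H hH => ?_⟩
    have h3 : IsRelaxedSlope f (AEEqFun.mk H hH.2.1.1) :=
      relaxed_iff.2 (hH.congr Filter.EventuallyEq.rfl (AEEqFun.coeFn_mk H _).symm)
    filter_upwards [le_iff_ae.1 (h2 _ h3), AEEqFun.coeFn_mk H hH.2.1.1] with x hx hy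
    rwa [hy] at hx
  · rintro ⟨h1, h2⟩
    exact ⟨h1, fun G' hG' => le_iff_ae.2 (h2 _ hG')⟩

theorem mem_sob_iff {f : M →ₘ[m] ℝ} : f ∈ (sob m).W ↔ Met.W12 m f := by
  constructor
  · rintro ⟨G, hG⟩
    exact ⟨G, hG⟩
  · rintro ⟨G, hG⟩
    exact ⟨AEEqFun.mk G hG.2.1.1,
      relaxed_iff.2 (hG.congr Filter.EventuallyEq.rfl (AEEqFun.coeFn_mk G _).symm)⟩

variable [BorelSpace M]

theorem exists_minSlope' {f : M →ₘ[m] ℝ} (hf : f ∈ (sob m).W) : IsMinSlope f (slope f) := by
  have h1 := mem_sob_iff.1 hf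
  obtain ⟨G, hG⟩ := Met.exists_rmin (m := m) h1.choose_spec
  have h2 : IsMinSlope f (AEEqFun.mk G hG.1.2.1.1) := by
    rw [isMinSlope_iff]
    have hae := AEEqFun.coeFn_mk G hG.1.2.1.1
    refine ⟨hG.1.congr Filter.EventuallyEq.rfl hae.symm, fun H hH => ?_⟩
    filter_upwards [hG.2 H hH, hae] with x hx hy
    rwa [hy]
  have h3 : ∃ G, IsMinSlope f G := ⟨_, h2⟩
  unfold slope
  rw [dif_pos h3]
  exact h3.choose_spec

theorem slope_ae {f : M →ₘ[m] ℝ} (hf : f ∈ (sob m).W) : ⇑(slope f) =ᵐ[m] Met.mslope m f :=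
  (isMinSlope_iff.1 (exists_minSlope' hf)).eq.symm

end

variable {M : Type*} [MetricSpace M] [MeasurableSpace M] [BorelSpace M]
  [SecondCountableTopology M] {m : Measure M}

/-! ### relaxed slopes; no assumption on `m` except finiteness on balls -/

/-- `L²` convergence in terms of `I` -/
theorem eLpNorm_eq_I {f : M →ₘ[m] ℝ} (hf : MemLp f 2 m) :
    eLpNorm f 2 m = ENNReal.ofReal (Real.sqrt (I (f ^ 2))) := by
  have h1 : I (f ^ 2) = (eLpNorm f 2 m).toReal ^ 2 := by
    have h2 : (eLpNorm f 2 m).toReal = ‖hf.toLp‖ := (Lp.norm_toLp _ hf).symm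
    rw [h2, ← real_inner_self_eq_norm_sq, L2.inner_def]
    unfold I
    refine integral_congr_ae ?_
    filter_upwards [hf.coeFn_toLp, sq_ae f] with x hx hy
    rw [hy, hx]
    simp [sq]
  rw [h1, Real.sqrt_sq ENNReal.toReal_nonneg, ENNReal.ofReal_toReal hf.eLpNorm_lt_top.ne]

theorem dense_L2_sob (hfin : ∀ (x : M) (r : ℝ), m (Metric.ball x r) < ∞) (f : M →ₘ[m] ℝ)
    (hf : MemLp f 2 m) (ε : ℝ) (hε : 0 < ε) : ∃ g ∈ (sob m).W, I ((f - g) ^ 2) < ε := by
  have hε' : ENNReal.ofReal (Real.sqrt (ε / 2)) ≠ 0 := by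
    rw [ne_eq, ENNReal.ofReal_eq_zero, not_le]
    exact Real.sqrt_pos.2 (by linarith)
  obtain ⟨g, hg1, hg2⟩ := Met.dense_W12 hfin hf hε'
  have hae := AEEqFun.coeFn_mk g hg2.memLp.1
  refine ⟨AEEqFun.mk g hg2.memLp.1, mem_sob_iff.2 (hg2.congr hae.symm), ?_⟩
  have hgm : MemLp (AEEqFun.mk g hg2.memLp.1) 2 m := (memLp_congr_ae hae).2 hg2.memLp
  have h1 := eLpNorm_eq_I (mem_sub hf hgm)
  have h2 : eLpNorm (f - AEEqFun.mk g hg2.memLp.1 : M →ₘ[m] ℝ) 2 m = eLpNorm (⇑f - g) 2 m := by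
    refine eLpNorm_congr_ae ?_
    filter_upwards [AEEqFun.coeFn_sub f (AEEqFun.mk g hg2.memLp.1), hae] with x hx hy
    rw [hx]
    simp [hy]
  rw [h2] at h1
  rw [h1] at hg1
  have h3 := (ENNReal.ofReal_le_ofReal_iff (Real.sqrt_nonneg _)).1 hg1
  have h4 := (Real.sqrt_le_sqrt_iff (by linarith only [hε])).1 h3
  linarith

/-- if `u` is Lipschitz then `|Du| ≤ lip u` -/
theorem slope_le_of_lipschitz (hfin : ∀ (x : M) (r : ℝ), m (Metric.ball x r) < ∞)
    {f : M →ₘ[m] ℝ} (hf : f ∈ (sob m).W) {u : M → ℝ} (hfu : f =ᵐ[m] u) {K : ℝ≥0}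
    (hu : LipschitzWith K u) : slope f ≤ (K : ℝ) • (1 : M →ₘ[m] ℝ) := by
  have hf' := mem_sob_iff.1 hf
  rw [le_iff_ae]
  rcases isEmpty_or_nonempty M with hM | ⟨⟨x₀⟩⟩
  · filter_upwards with x
    exact (hM.false x).elim
  have key : ∀ n : ℕ, ∀ᵐ x ∂m, dist x x₀ < n → Met.mslope m f x ≤ K := by
    intro n
    -- localized function
    set C : ℝ := |u x₀| + K * (n + 1) with hC
    have hC0 : 0 ≤ C := by (clear * -; positivity)
    set w : M → ℝ := fun x => Met.cutoff x₀ n x * Met.trunc C (u x) with hw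
    have hcl : Met.IsLip (Met.cutoff x₀ n) := ⟨1, Met.cutoff_lip x₀ n⟩
    have htl : Met.IsLip (fun x => Met.trunc C (u x)) :=
      Met.IsLip.comp ⟨K, hu⟩ (Met.trunc_lip C)
    obtain ⟨L, hL⟩ : Met.IsLip w := hcl.mul htl
      ⟨1, fun x => abs_le.2 ⟨by linarith [Met.cutoff_nonneg x₀ n x], Met.cutoff_le_one x₀ n x⟩⟩
      ⟨C, fun x => Met.abs_trunc_le hC0 _⟩
    have hsupp : ∀ x, x ∉ Metric.ball x₀ ((n : ℝ) + 1) → w x = 0 := by
      intro x hx
      simp only [hw]
      rw [Met.cutoff_eq_zero hx, zero_mul]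
    have hgood := Met.good_of_bounded_support hfin hL hsupp
    have heq : ∀ x, dist x x₀ < n → w x = u x := by
      intro x hx
      simp only [hw]
      rw [Met.cutoff_eq_one hx.le, one_mul, Met.trunc_of_abs_le]
      have h1 := hu.dist_le_mul x x₀
      rw [Real.dist_eq] at h1
      have h3 : |u x| ≤ |u x₀| + |u x - u x₀| := by
        have := abs_add_le (u x₀) (u x - u x₀)
        simpa using this
      have h4 : (K : ℝ) * dist x x₀ ≤ K * (n + 1) := by
        gcongr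
        linarith
      linarith
    -- improved bound
    set b : M → ℝ := fun x => if dist x x₀ < n then (K : ℝ) else
      (Metric.ball x₀ ((n : ℝ) + 1 + 1)).indicator (fun _ => (L : ℝ)) x with hb
    have hbm : MeasurableSet {x : M | dist x x₀ < n} :=
      (isOpen_lt (by fun_prop) (by fun_prop)).measurableSet
    have hbmeas : Measurable b :=
      Measurable.ite hbm measurable_const
        (measurable_const.indicator Metric.isOpen_ball.measurableSet)
    have hgood2 : Met.Good m w b := by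
      refine Met.Good.mk' hgood.1 hgood.2.1 ?_ ?_
      · have h1 : MemLp ((Metric.ball x₀ ((n : ℝ) + 1 + 1)).indicator fun _ => (K + L : ℝ)) 2 m :=
          memLp_indicator_const 2 Metric.isOpen_ball.measurableSet _ (Or.inr (hfin x₀ _).ne)
        refine h1.mono hbmeas.aestronglyMeasurable ?_
        filter_upwards with x
        simp only [hb]
        split_ifs with hx
        · have : x ∈ Metric.ball x₀ ((n : ℝ) + 1 + 1) := by
            rw [Metric.mem_ball]; linarith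
          rw [Set.indicator_of_mem this, Real.norm_eq_abs, Real.norm_eq_abs]
          rw [abs_of_nonneg K.coe_nonneg, abs_of_nonneg (by positivity)]
          linarith [L.coe_nonneg]
        · by_cases hx2 : x ∈ Metric.ball x₀ ((n : ℝ) + 1 + 1)
          · rw [Set.indicator_of_mem hx2, Set.indicator_of_mem hx2, Real.norm_eq_abs,
              Real.norm_eq_abs, abs_of_nonneg L.coe_nonneg, abs_of_nonneg (by positivity)]
            linarith [K.coe_nonneg]
          · rw [Set.indicator_of_notMem hx2, Set.indicator_of_notMem hx2]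
      · filter_upwards [hgood.lipBd] with x hx
        simp only [hb]
        split_ifs with hxn
        · refine ⟨K.coe_nonneg, ?_⟩
          have h1 := Met.LipBd.of_lipschitz hu x
          intro c hc
          have h2 : ∀ᶠ y in 𝓝 x, dist y x₀ < n :=
            (continuous_id.dist continuous_const).continuousAt.eventually_lt_const hxn
          filter_upwards [h1 c hc, h2] with y hy hy2
          rwa [heq y hy2, heq x hxn]
        · exact hx
    have h1 : Met.W12 m w := ⟨_, hgood2.rSlope⟩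
    filter_upwards [hgood2.rSlope.mslope_le, Met.mslope_eq_of_sub_eq_const hf' h1 0, hfu]
      with x hx hy hz hxn
    have h2 : Met.mslope m f x = Met.mslope m w x := hy (by rw [hz, heq x hxn, sub_self])
    rw [h2]
    refine hx.trans ?_
    simp only [hb]
    rw [if_pos hxn]
  have key' := ae_all_iff.2 key
  filter_upwards [key', slope_ae hf, smul_ae (1 : M →ₘ[m] ℝ) (K : ℝ), one_ae (M := M) (m := m)]
    with x h1 h2 h3 h4
  obtain ⟨n, hn⟩ := exists_nat_gt (dist x x₀)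
  rw [h2, h3, h4, mul_one]
  exact h1 n hn

end Vale.Agent.P233
end

section

open MeasureTheory Filter Topology Set
open scoped ENNReal NNReal

namespace Vale.Agent.P233.Met

variable {M : Type*} [MetricSpace M] [MeasurableSpace M] {m : Measure M}

set_option linter.unusedSectionVars false

theorem LipBd.poly {u v : M → ℝ} {x : M} {a b : ℝ} (α β γ δ : ℝ)
    (huc : ContinuousAt u x) (hvc : ContinuousAt v x)
    (hu : LipBd u x a) (hv : LipBd v x b) :
    LipBd (fun y => α * u y + β * v y + γ * (u y * v y) + δ * (u y * u y)) x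
      (|α + γ * v x + 2 * δ * u x| * a + |β + γ * u x| * b) := by
  intro c hc
  set p : ℝ := |α + γ * v x + 2 * δ * u x| with hp
  set q : ℝ := |β + γ * u x| with hq
  obtain ⟨η, hη, hηb⟩ : ∃ η > 0, (p + η) * (a + η) + q * (b + η) < c := by
    have hcont : Continuous (fun η : ℝ => (p + η) * (a + η) + q * (b + η)) := by fun_prop
    have h0 : (fun η : ℝ => (p + η) * (a + η) + q * (b + η)) 0 < c := by simpa using hc
    have := (hcont.continuousAt (x := 0)).eventually_lt continuousAt_const h0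
    rw [Metric.eventually_nhds_iff] at this
    obtain ⟨ε, hε, h⟩ := this
    refine ⟨ε / 2, by positivity, h ?_⟩
    simp [abs_of_pos hε, hε]
  have h1 := hu (a + η) (by linarith)
  have h2 := hv (b + η) (by linarith)
  have h3 : ∀ᶠ y in 𝓝 x, |α + γ * v y + δ * (u y + u x)| < p + η := by
    have hc3 : ContinuousAt (fun y => |α + γ * v y + δ * (u y + u x)|) x := by fun_prop
    refine hc3.eventually_lt continuousAt_const ?_
    have e : α + γ * v x + δ * (u x + u x) = α + γ * v x + 2 * δ * u x := by ring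
    rw [e]
    linarith
  filter_upwards [h1, h2, h3] with y hy1 hy2 hy3
  have e : α * u y + β * v y + γ * (u y * v y) + δ * (u y * u y) -
      (α * u x + β * v x + γ * (u x * v x) + δ * (u x * u x)) =
      (α + γ * v y + δ * (u y + u x)) * (u y - u x) + (β + γ * u x) * (v y - v x) := by ring
  rw [e]
  refine (abs_add_le _ _).trans ?_
  rw [abs_mul, abs_mul]
  have hp0 : 0 ≤ p := abs_nonneg _
  calc _ ≤ (p + η) * ((a + η) * dist y x) + q * ((b + η) * dist y x) := by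
        gcongr
    _ = ((p + η) * (a + η) + q * (b + η)) * dist y x := by ring
    _ ≤ c * dist y x := by gcongr

/-- chain rule inequality for the polynomials `αu + βv + γuv + δu²` of bounded functions -/
theorem RSlope.poly [BorelSpace M] {f F g G : M → ℝ} (hf : RSlope m f F) (hg : RSlope m g G)
    {C D : ℝ} (hC : 0 ≤ C) (hD : 0 ≤ D) (hfC : ∀ᵐ x ∂m, |f x| ≤ C) (hgD : ∀ᵐ x ∂m, |g x| ≤ D)
    (α β γ δ : ℝ) :
    RSlope m (fun x => α * f x + β * g x + γ * (f x * g x) + δ * (f x * f x))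
      (fun x => |α + γ * g x + 2 * δ * f x| * F x + |β + γ * f x| * G x) := by
  obtain ⟨u, p, hup, hu1, hu2, hu3⟩ := hf.exists_seq_bdd hC hfC
  obtain ⟨v, q, hvq, hv1, hv2, hv3⟩ := hg.exists_seq_bdd hD hgD
  -- coefficients
  have m1 : ∀ {f g : M → ℝ}, AEStronglyMeasurable f m → AEStronglyMeasurable g m →
      AEStronglyMeasurable (fun x => α + γ * g x + δ * f x) m := fun hf hg =>
    (aestronglyMeasurable_const.add (hg.const_mul γ)).add (hf.const_mul δ)
  have m2 : ∀ {f g : M → ℝ}, AEStronglyMeasurable f m → AEStronglyMeasurable g m →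
      AEStronglyMeasurable (fun x => |α + γ * g x + 2 * δ * f x|) m := fun hf hg =>
    ((aestronglyMeasurable_const.add (hg.const_mul γ)).add (hf.const_mul (2 * δ))).norm
  have m3 : ∀ {f : M → ℝ}, AEStronglyMeasurable f m →
      AEStronglyMeasurable (fun x => |β + γ * f x|) m := fun hf =>
    (aestronglyMeasurable_const.add (hf.const_mul γ)).norm
  have b1 : ∀ {s t : ℝ}, |s| ≤ C → |t| ≤ D → |α + γ * t + δ * s| ≤ |α| + |γ| * D + |δ| * C := by
    intro s t hs ht
    refine (abs_add_three _ _ _).trans ?_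
    rw [abs_mul, abs_mul]
    gcongr
  have b2 : ∀ {s t : ℝ}, |s| ≤ C → |t| ≤ D →
      |(|α + γ * t + 2 * δ * s|)| ≤ |α| + |γ| * D + |2 * δ| * C := by
    intro s t hs ht
    rw [abs_abs]
    refine (abs_add_three _ _ _).trans ?_
    rw [abs_mul, abs_mul (2 * δ)]
    gcongr
  have b3 : ∀ {s : ℝ}, |s| ≤ C → |(|β + γ * s|)| ≤ |β| + |γ| * C := by
    intro s hs
    rw [abs_abs]
    refine (abs_add_le _ _).trans ?_
    rw [abs_mul]
    gcongr
  have ef : ∀ f g : M → ℝ, (fun x => α * f x + β * g x + γ * (f x * g x) + δ * (f x * f x)) =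
      (fun x => (α + γ * g x + δ * f x) * f x) + (fun x => β * g x) := by
    intro f g; ext x; simp; ring
  have memf : ∀ {f g : M → ℝ}, MemLp f 2 m → MemLp g 2 m → (∀ᵐ x ∂m, |f x| ≤ C) →
      (∀ᵐ x ∂m, |g x| ≤ D) →
      MemLp (fun x => α * f x + β * g x + γ * (f x * g x) + δ * (f x * f x)) 2 m := by
    intro f g hf hg hfC hgD
    rw [ef]
    refine (memLp_bdd_mul hf (m1 hf.1 hg.1) (C := |α| + |γ| * D + |δ| * C) ?_).add
      (hg.const_mul β)
    filter_upwards [hfC, hgD] with x hx hy using b1 hx hy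
  have memg : ∀ {f g F G : M → ℝ}, MemLp f 2 m → MemLp g 2 m → (∀ᵐ x ∂m, |f x| ≤ C) →
      (∀ᵐ x ∂m, |g x| ≤ D) → MemLp F 2 m → MemLp G 2 m →
      MemLp (fun x => |α + γ * g x + 2 * δ * f x| * F x + |β + γ * f x| * G x) 2 m := by
    intro f g F G hf hg hfC hgD hF hG
    refine (memLp_bdd_mul hF (m2 hf.1 hg.1) (C := |α| + |γ| * D + |2 * δ| * C) ?_).add
      (memLp_bdd_mul hG (m3 hf.1) (C := |β| + |γ| * C) ?_)
    · filter_upwards [hfC, hgD] with x hx hy using b2 hx hy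
    · filter_upwards [hfC] with x hx using b3 hx
  refine RSlope.of_tendsto
    (F := fun k x => α * u k x + β * v k x + γ * (u k x * v k x) + δ * (u k x * u k x))
    (H := fun k x => |α + γ * v k x + 2 * δ * u k x| * p k x + |β + γ * u k x| * q k x)
    (memf hf.1 hg.1 hfC hgD) (memg hf.1 hg.1 hfC hgD hf.2.1 hg.2.1) ?_ ?_ ?_
  · intro k
    obtain ⟨h1, h1b⟩ := hup k
    obtain ⟨h2, h2b⟩ := hvq k
    have hb1 : ∃ C, ∀ x, |u k x| ≤ C := ⟨C, h1b⟩
    have hb2 : ∃ C, ∀ x, |v k x| ≤ C := ⟨D, h2b⟩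
    refine (Good.mk' ?_ (memf h1.2.1 h2.2.1 (Eventually.of_forall h1b)
      (Eventually.of_forall h2b)) (memg h1.2.1 h2.2.1 (Eventually.of_forall h1b)
      (Eventually.of_forall h2b) h1.2.2.1 h2.2.2.1) ?_).rSlope
    · exact (((h1.1.const_mul α).add (h2.1.const_mul β)).add
        ((h1.1.mul h2.1 hb1 hb2).const_mul γ)).add ((h1.1.mul h1.1 hb1 hb1).const_mul δ)
    · filter_upwards [h1.lipBd, h2.lipBd] with x hx hy
      refine ⟨?_, LipBd.poly α β γ δ h1.1.continuous.continuousAt h2.1.continuous.continuousAt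
        hx.2 hy.2⟩
      have := hx.1
      have := hy.1
      positivity
  · have h1 := tendsto_mul_L2 (a := fun k x => α + γ * v k x + δ * u k x)
      (A := fun x => α + γ * g x + δ * f x) (C := |α| + |γ| * D + |δ| * C)
      (fun k => m1 (hup k).1.2.1.1 (hvq k).1.2.1.1) (m1 hf.1.1 hg.1.1)
      (fun k => Eventually.of_forall fun x => b1 ((hup k).2 x) ((hvq k).2 x))
      (by filter_upwards [hu3, hv3] with x hx hy
          exact (tendsto_const_nhds.add (hy.const_mul γ)).add (hx.const_mul δ))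
      (fun k => (hup k).1.2.1) hf.1 hu1
    have h2 : Tendsto (fun k => ‖β‖ₑ * eLpNorm (v k - g) 2 m) atTop (𝓝 0) := by
      have := ENNReal.Tendsto.const_mul (a := ‖β‖ₑ) hv1 (Or.inr (by simp))
      simpa using this
    have h3 := h1.add h2
    rw [add_zero] at h3
    refine tendsto_of_tendsto_of_tendsto_of_le_of_le tendsto_const_nhds h3
      (fun _ => zero_le) (fun k => ?_)
    have e : (fun x => α * u k x + β * v k x + γ * (u k x * v k x) + δ * (u k x * u k x)) -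
        (fun x => α * f x + β * g x + γ * (f x * g x) + δ * (f x * f x)) =
        ((fun x => (α + γ * v k x + δ * u k x) * u k x) -
          (fun x => (α + γ * g x + δ * f x) * f x)) + β • (v k - g) := by
      ext x; simp; ring
    rw [e, ← eLpNorm_const_smul]
    refine eLpNorm_add_le ?_ ?_ (by norm_num)
    · exact ((m1 (hup k).1.2.1.1 (hvq k).1.2.1.1).mul (hup k).1.2.1.1).sub
        ((m1 hf.1.1 hg.1.1).mul hf.1.1)
    · exact ((hvq k).1.2.1.1.sub hg.1.1).const_smul β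
  · have h1 := tendsto_mul_L2 (a := fun k x => |α + γ * v k x + 2 * δ * u k x|)
      (A := fun x => |α + γ * g x + 2 * δ * f x|) (C := |α| + |γ| * D + |2 * δ| * C)
      (fun k => m2 (hup k).1.2.1.1 (hvq k).1.2.1.1) (m2 hf.1.1 hg.1.1)
      (fun k => Eventually.of_forall fun x => b2 ((hup k).2 x) ((hvq k).2 x))
      (by filter_upwards [hu3, hv3] with x hx hy
          exact ((tendsto_const_nhds.add (hy.const_mul γ)).add (hx.const_mul (2 * δ))).abs)
      (fun k => (hup k).1.2.2.1) hf.2.1 hu2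
    have h2 := tendsto_mul_L2 (a := fun k x => |β + γ * u k x|)
      (A := fun x => |β + γ * f x|) (C := |β| + |γ| * C)
      (fun k => m3 (hup k).1.2.1.1) (m3 hf.1.1)
      (fun k => Eventually.of_forall fun x => b3 ((hup k).2 x))
      (by filter_upwards [hu3] with x hx
          exact (tendsto_const_nhds.add (hx.const_mul γ)).abs)
      (fun k => (hvq k).1.2.2.1) hg.2.1 hv2
    have h3 := h1.add h2
    rw [add_zero] at h3
    refine tendsto_of_tendsto_of_tendsto_of_le_of_le tendsto_const_nhds h3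
      (fun _ => zero_le) (fun k => ?_)
    have e : (fun x => |α + γ * v k x + 2 * δ * u k x| * p k x + |β + γ * u k x| * q k x) -
        (fun x => |α + γ * g x + 2 * δ * f x| * F x + |β + γ * f x| * G x) =
        ((fun x => |α + γ * v k x + 2 * δ * u k x| * p k x) -
          (fun x => |α + γ * g x + 2 * δ * f x| * F x)) +
        ((fun x => |β + γ * u k x| * q k x) - (fun x => |β + γ * f x| * G x)) := by
      ext x; simp; ring
    rw [e]
    refine eLpNorm_add_le ?_ ?_ (by norm_num)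
    · exact ((m2 (hup k).1.2.1.1 (hvq k).1.2.1.1).mul (hup k).1.2.2.1.1).sub
        ((m2 hf.1.1 hg.1.1).mul hf.2.1.1)
    · exact ((m3 (hup k).1.2.1.1).mul (hvq k).1.2.2.1.1).sub ((m3 hf.1.1).mul hg.2.1.1)

end Vale.Agent.P233.Met
end

section

open Filter Topology Set

namespace Vale.Agent.P233.Met

/-- seminorms on the plane -/
structure IsSemi2 (N : ℝ → ℝ → ℝ) : Prop where
  nonneg : ∀ s t, 0 ≤ N s t
  homog : ∀ c s t, N (c * s) (c * t) = |c| * N s t
  add_le : ∀ s t s' t', N (s + s') (t + t') ≤ N s t + N s' t'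

namespace IsSemi2

variable {N : ℝ → ℝ → ℝ}

theorem abs_sub_le (h : IsSemi2 N) (s t s' t' : ℝ) :
    |N s t - N s' t'| ≤ N (s - s') (t - t') := by
  have h1 := h.add_le (s - s') (t - t') s' t'
  have h2 := h.add_le (s' - s) (t' - t) s t
  have h3 := h.homog (-1) (s - s') (t - t')
  simp only [sub_add_cancel] at h1 h2
  have e1 : (-1 : ℝ) * (s - s') = s' - s := by ring
  have e2 : (-1 : ℝ) * (t - t') = t' - t := by ring
  rw [e1, e2, abs_neg, abs_one, one_mul] at h3
  rw [h3] at h2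
  rw [abs_le]
  constructor <;> linarith

theorem le_coord (h : IsSemi2 N) (s t : ℝ) : N s t ≤ |s| * N 1 0 + |t| * N 0 1 := by
  have h1 := h.add_le s 0 0 t
  simp only [add_zero, zero_add] at h1
  have h2 := h.homog s 1 0
  have h3 := h.homog t 0 1
  simp only [mul_one, mul_zero] at h2 h3
  rw [h2, h3] at h1
  exact h1

theorem zero (h : IsSemi2 N) : N 0 0 = 0 := by
  have h1 := h.homog 0 0 0
  simpa using h1

theorem flip (h : IsSemi2 N) : IsSemi2 (fun s t => N s (-t)) where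
  nonneg s t := h.nonneg _ _
  homog c s t := by
    have := h.homog c s (-t)
    rw [← this]; congr 1; ring
  add_le s t s' t' := by
    have := h.add_le s (-t) s' (-t')
    have e : -(t + t') = -t + -t' := by ring
    rw [e]; exact this

/-- monotonicity of difference quotients -/
theorem quot_mono (h : IsSemi2 N) {t t' : ℝ} (ht : 0 < t) (htt' : t ≤ t') :
    (N 1 t ^ 2 - N 1 0 ^ 2) / t ≤ (N 1 t' ^ 2 - N 1 0 ^ 2) / t' := by
  have ht' : 0 < t' := lt_of_lt_of_le ht htt'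
  set l : ℝ := t / t' with hl
  have hl0 : 0 ≤ l := by positivity
  have hl1 : l ≤ 1 := by rw [hl, div_le_one ht']; exact htt'
  have h1 := h.add_le (1 - l) 0 l t
  have e1 : 1 - l + l = 1 := by ring
  rw [e1, zero_add] at h1
  have h2 := h.homog (1 - l) 1 0
  have h3 := h.homog l 1 t'
  have e2 : l * t' = t := by rw [hl]; field_simp
  rw [e2, mul_one, abs_of_nonneg hl0] at h3
  rw [mul_one, mul_zero, abs_of_nonneg (by linarith)] at h2
  rw [h2, h3] at h1
  have hN0 := h.nonneg 1 0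
  have hNt := h.nonneg 1 t
  have hNt' := h.nonneg 1 t'
  have h4 : N 1 t ^ 2 ≤ ((1 - l) * N 1 0 + l * N 1 t') ^ 2 := by
    gcongr
  have h5 : ((1 - l) * N 1 0 + l * N 1 t') ^ 2 ≤ (1 - l) * N 1 0 ^ 2 + l * N 1 t' ^ 2 := by
    nlinarith [mul_nonneg (mul_nonneg hl0 (by linarith : (0 : ℝ) ≤ 1 - l))
      (sq_nonneg (N 1 0 - N 1 t'))]
  have h6 : N 1 t ^ 2 - N 1 0 ^ 2 ≤ l * (N 1 t' ^ 2 - N 1 0 ^ 2) := by linarith only [h5, h4]
  rw [div_le_iff₀ ht]
  have e3 : (N 1 t' ^ 2 - N 1 0 ^ 2) / t' * t = l * (N 1 t' ^ 2 - N 1 0 ^ 2) := by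
    rw [hl]; ring
  rw [e3]
  exact h6

theorem quot_lower (h : IsSemi2 N) {t : ℝ} (ht : 0 < t) (ht1 : t ≤ 1) :
    -(N 0 1 * (2 * N 1 0 + N 0 1)) ≤ (N 1 t ^ 2 - N 1 0 ^ 2) / t := by
  rw [le_div_iff₀ ht]
  have h1 := h.abs_sub_le 1 t 1 0
  rw [sub_self, sub_zero] at h1
  have h2 := h.homog t 0 1
  rw [mul_zero, mul_one, abs_of_pos ht] at h2
  rw [h2] at h1
  have h3 := abs_le.1 h1
  have hN0 := h.nonneg 1 0
  have hNt := h.nonneg 1 t
  have hB := h.nonneg 0 1
  have h4 : N 1 t ^ 2 - N 1 0 ^ 2 = (N 1 t - N 1 0) * (N 1 t + N 1 0) := by ring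
  rw [h4]
  have h5 : N 1 t + N 1 0 ≤ 2 * N 1 0 + N 0 1 := by nlinarith
  have h6 : 0 ≤ N 1 t + N 1 0 := by linarith
  nlinarith [mul_le_mul_of_nonneg_left h5 (mul_nonneg ht.le hB)]

theorem exists_quot_lim (h : IsSemi2 N) :
    ∃ L, Tendsto (fun t => (N 1 t ^ 2 - N 1 0 ^ 2) / t) (𝓝[>] 0) (𝓝 L) := by
  refine ⟨_, MonotoneOn.tendsto_nhdsWithin_Ioo_right (x := (0 : ℝ)) (y := 1)
    ⟨1 / 2, by norm_num, by norm_num⟩ ?_ ?_⟩
  · intro t ht t' _ htt'
    exact h.quot_mono ht.1 htt'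
  · refine ⟨-(N 0 1 * (2 * N 1 0 + N 0 1)), ?_⟩
    rintro _ ⟨t, ht, rfl⟩
    exact h.quot_lower ht.1 ht.2.le

theorem tendsto_one (h : IsSemi2 N) {s : ℝ → ℝ} (hs : Tendsto s (𝓝[>] 0) (𝓝 0)) :
    Tendsto (fun ε => N 1 (s ε) ^ 2) (𝓝[>] 0) (𝓝 (N 1 0 ^ 2)) := by
  have h1 : Tendsto (fun ε => N 1 (s ε)) (𝓝[>] 0) (𝓝 (N 1 0)) := by
    rw [tendsto_iff_dist_tendsto_zero]
    have h2 : Tendsto (fun ε => |s ε| * N 0 1) (𝓝[>] 0) (𝓝 0) := by
      have := hs.abs.mul_const (N 0 1)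
      simpa using this
    refine squeeze_zero (fun _ => dist_nonneg) (fun ε => ?_) h2
    rw [Real.dist_eq]
    refine (h.abs_sub_le _ _ _ _).trans ?_
    rw [sub_self, sub_zero]
    have := h.homog (s ε) 0 1
    rw [mul_zero, mul_one] at this
    rw [this]
  exact h1.pow 2

/-- the key limit, positive case -/
theorem key_pos (h : IsSemi2 N) {g : ℝ} (hg : 0 < g) (k : ℝ) :
    Tendsto (fun ε : ℝ => (N (1 + ε * k) (ε * g) ^ 2 - N 1 0 ^ 2) / (2 * ε) -
      (N (2 * g) ε ^ 2 - N (2 * g) 0 ^ 2) / (4 * ε)) (𝓝[>] 0) (𝓝 (k * N 1 0 ^ 2)) := by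
  obtain ⟨L, hL⟩ := h.exists_quot_lim
  have hid : Tendsto (fun ε : ℝ => ε) (𝓝[>] (0 : ℝ)) (𝓝 0) := tendsto_nhdsWithin_of_tendsto_nhds
    tendsto_id
  have hpos : ∀ᶠ ε : ℝ in 𝓝[>] 0, 0 < ε := eventually_mem_nhdsWithin
  have h1k : Tendsto (fun ε : ℝ => 1 + ε * k) (𝓝[>] 0) (𝓝 1) := by
    have := (hid.mul_const k).const_add 1
    simpa using this
  have h1kpos : ∀ᶠ ε : ℝ in 𝓝[>] 0, 0 < 1 + ε * k := h1k.eventually_const_lt (by norm_num)
  set s : ℝ → ℝ := fun ε => ε * g / (1 + ε * k) with hs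
  have hs0 : Tendsto s (𝓝[>] 0) (𝓝 0) := by
    have := (hid.mul_const g).div h1k (by norm_num)
    rw [zero_mul, zero_div] at this
    exact this
  have hs' : Tendsto s (𝓝[>] 0) (𝓝[>] 0) := by
    rw [tendsto_nhdsWithin_iff]
    refine ⟨hs0, ?_⟩
    filter_upwards [hpos, h1kpos] with ε h1 h2
    exact div_pos (mul_pos h1 hg) h2
  set t : ℝ → ℝ := fun ε => ε / (2 * g) with ht
  have ht' : Tendsto t (𝓝[>] 0) (𝓝[>] 0) := by
    rw [tendsto_nhdsWithin_iff]
    refine ⟨?_, ?_⟩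
    · have := hid.div_const (2 * g)
      simpa using this
    · filter_upwards [hpos] with ε h1
      exact div_pos h1 (by positivity)
  have hA : Tendsto (fun ε => (k + ε * k ^ 2 / 2) * N 1 (s ε) ^ 2 +
      g / (2 * (1 + ε * k)) * ((N 1 (s ε) ^ 2 - N 1 0 ^ 2) / s ε)) (𝓝[>] 0)
      (𝓝 (k * N 1 0 ^ 2 + g / 2 * L)) := by
    refine Tendsto.add (Tendsto.mul ?_ (h.tendsto_one hs0)) (Tendsto.mul ?_ (hL.comp hs'))
    · have := ((hid.mul_const (k ^ 2)).div_const 2).const_add k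
      simpa using this
    · have := (tendsto_const_nhds (x := g)).div (h1k.const_mul 2) (by norm_num)
      rw [mul_one] at this
      exact this
  have hB : Tendsto (fun ε => g / 2 * ((N 1 (t ε) ^ 2 - N 1 0 ^ 2) / t ε)) (𝓝[>] 0)
      (𝓝 (g / 2 * L)) := (hL.comp ht').const_mul (g / 2)
  have hAB := hA.sub hB
  have e0 : k * N 1 0 ^ 2 + g / 2 * L - g / 2 * L = k * N 1 0 ^ 2 := by ring
  rw [e0] at hAB
  refine hAB.congr' ?_
  filter_upwards [hpos, h1kpos] with ε h1 h2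
  have e1 : N (1 + ε * k) (ε * g) = (1 + ε * k) * N 1 (s ε) := by
    have := h.homog (1 + ε * k) 1 (s ε)
    rw [abs_of_pos h2, mul_one] at this
    rw [← this]
    congr 1
    rw [hs]; field_simp
  have e2 : N (2 * g) ε = (2 * g) * N 1 (t ε) := by
    have := h.homog (2 * g) 1 (t ε)
    rw [abs_of_pos (by positivity : (0 : ℝ) < 2 * g), mul_one] at this
    rw [← this]
    congr 1
    rw [ht]; field_simp
  have e3 : N (2 * g) 0 = (2 * g) * N 1 0 := by
    have := h.homog (2 * g) 1 0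
    rw [abs_of_pos (by positivity : (0 : ℝ) < 2 * g), mul_one, mul_zero] at this
    exact this
  have hsne : s ε ≠ 0 := (div_pos (mul_pos h1 hg) h2).ne'
  rw [e1, e2, e3]
  have hε : ε ≠ 0 := h1.ne'
  have h2' : 1 + ε * k ≠ 0 := h2.ne'
  have hg' : g ≠ 0 := hg.ne'
  have e4 : g / (2 * (1 + ε * k)) * ((N 1 (s ε) ^ 2 - N 1 0 ^ 2) / s ε) =
      (N 1 (s ε) ^ 2 - N 1 0 ^ 2) / (2 * ε) := by
    simp only [hs]; field_simp
  have e5 : g / 2 * ((N 1 (t ε) ^ 2 - N 1 0 ^ 2) / t ε) =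
      g ^ 2 * (N 1 (t ε) ^ 2 - N 1 0 ^ 2) / ε := by
    simp only [ht]; field_simp
  rw [e4, e5]
  field_simp
  ring

/-- the key limit -/
theorem key (h : IsSemi2 N) (g k : ℝ) :
    Tendsto (fun ε : ℝ => (N (1 + ε * k) (ε * g) ^ 2 - N 1 0 ^ 2) / (2 * ε) -
      (N (2 * g) ε ^ 2 - N (2 * g) 0 ^ 2) / (4 * ε)) (𝓝[>] 0) (𝓝 (k * N 1 0 ^ 2)) := by
  rcases lt_trichotomy g 0 with hg | hg | hg
  · have h1 := h.flip.key_pos (g := -g) (by linarith) k
    simp only [neg_zero] at h1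
    refine h1.congr fun ε => ?_
    have e1 : -(ε * -g) = ε * g := by ring
    have e2 : N (2 * -g) (-ε) = N (2 * g) ε := by
      have := h.homog (-1) (2 * g) ε
      rw [abs_neg, abs_one, one_mul] at this
      rw [← this]; congr 1 <;> ring
    have e3 : N (2 * -g) 0 = N (2 * g) 0 := by
      have := h.homog (-1) (2 * g) 0
      rw [abs_neg, abs_one, one_mul] at this
      rw [← this]; congr 1 <;> ring
    rw [e1, e2, e3]
  · subst hg
    have hid : Tendsto (fun ε : ℝ => ε) (𝓝[>] (0 : ℝ)) (𝓝 0) :=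
      tendsto_nhdsWithin_of_tendsto_nhds tendsto_id
    have hpos : ∀ᶠ ε : ℝ in 𝓝[>] 0, 0 < ε := eventually_mem_nhdsWithin
    have h1 : Tendsto (fun ε : ℝ => (k + ε * k ^ 2 / 2) * N 1 0 ^ 2 - ε / 4 * N 0 1 ^ 2) (𝓝[>] 0)
        (𝓝 (k * N 1 0 ^ 2)) := by
      have h2 := ((((hid.mul_const (k ^ 2)).div_const 2).const_add k).mul_const (N 1 0 ^ 2)).sub
        ((hid.div_const 4).mul_const (N 0 1 ^ 2))
      simpa using h2
    refine h1.congr' ?_
    filter_upwards [hpos] with ε hε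
    have e1 : N (1 + ε * k) (ε * 0) ^ 2 = (1 + ε * k) ^ 2 * N 1 0 ^ 2 := by
      have := h.homog (1 + ε * k) 1 0
      rw [mul_one, mul_zero] at this
      rw [mul_zero, this, mul_pow, sq_abs]
    have e2 : N (2 * 0) ε ^ 2 = ε ^ 2 * N 0 1 ^ 2 := by
      have := h.homog ε 0 1
      rw [mul_one, mul_zero] at this
      rw [mul_zero, this, mul_pow, sq_abs]
    have e3 : N (2 * 0) 0 = 0 := by rw [mul_zero]; exact h.zero
    rw [e1, e2, e3]
    have hε' : ε ≠ 0 := hε.ne'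
    field_simp
    ring
  · exact h.key_pos hg k

theorem bound_a (h : IsSemi2 N) (g k : ℝ) {ε : ℝ} (hε : 0 < ε) (hε1 : ε ≤ 1) :
    |(N (1 + ε * k) (ε * g) ^ 2 - N 1 0 ^ 2) / (2 * ε)| ≤
      (|k| * N 1 0 + |g| * N 0 1) * (2 * N 1 0 + (|k| * N 1 0 + |g| * N 0 1)) := by
  set A := N 1 0 with hA
  set B := |k| * N 1 0 + |g| * N 0 1 with hB
  have hA0 : 0 ≤ A := h.nonneg _ _
  have hB0 : 0 ≤ B := by
    have := h.nonneg 0 1
    (clear * - hA0 this; positivity)
  have h1 : |N (1 + ε * k) (ε * g) - A| ≤ ε * B := by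
    refine (h.abs_sub_le _ _ _ _).trans ?_
    have e : N (1 + ε * k - 1) (ε * g - 0) = ε * N k g := by
      have := h.homog ε k g
      rw [abs_of_pos hε] at this
      rw [← this]; congr 1 <;> ring
    rw [e]
    have := h.le_coord k g
    gcongr
  have h2 : N (1 + ε * k) (ε * g) ^ 2 - A ^ 2 =
      (N (1 + ε * k) (ε * g) - A) * (N (1 + ε * k) (ε * g) + A) := by ring
  rw [h2, abs_div, abs_mul, abs_of_pos (by positivity : 0 < 2 * ε), div_le_iff₀ (by positivity)]
  have h3 : |N (1 + ε * k) (ε * g) + A| ≤ 2 * A + B := by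
    rw [abs_of_nonneg (add_nonneg (h.nonneg _ _) hA0)]
    have := (abs_le.1 h1).2
    have h4 : ε * B ≤ 1 * B := by gcongr
    linarith
  calc _ ≤ (ε * B) * (2 * A + B) := by gcongr
    _ ≤ B * (2 * A + B) * (2 * ε) := by
      have : 0 ≤ B * (2 * A + B) * ε := by (clear * - hB0 hA0 hε; positivity)
      linarith only [this]

theorem bound_b (h : IsSemi2 N) (g : ℝ) {ε : ℝ} (hε : 0 < ε) (hε1 : ε ≤ 1) :
    |(N (2 * g) ε ^ 2 - N (2 * g) 0 ^ 2) / (4 * ε)| ≤
      N 0 1 * (4 * |g| * N 1 0 + N 0 1) := by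
  have hB0 : 0 ≤ N 0 1 := h.nonneg _ _
  have hA0 : 0 ≤ N 1 0 := h.nonneg _ _
  have e1 : N (2 * g) 0 = 2 * |g| * N 1 0 := by
    have := h.homog (2 * g) 1 0
    rw [mul_one, mul_zero] at this
    rw [this, abs_mul]; norm_num
  have h1 : |N (2 * g) ε - N (2 * g) 0| ≤ ε * N 0 1 := by
    refine (h.abs_sub_le _ _ _ _).trans ?_
    rw [sub_self, sub_zero]
    have := h.homog ε 0 1
    rw [mul_one, mul_zero, abs_of_pos hε] at this
    rw [this]
  have h2 : N (2 * g) ε ^ 2 - N (2 * g) 0 ^ 2 =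
      (N (2 * g) ε - N (2 * g) 0) * (N (2 * g) ε + N (2 * g) 0) := by ring
  rw [h2, abs_div, abs_mul, abs_of_pos (by positivity : 0 < 4 * ε), div_le_iff₀ (by positivity)]
  have h3 : |N (2 * g) ε + N (2 * g) 0| ≤ 4 * |g| * N 1 0 + N 0 1 := by
    rw [abs_of_nonneg (add_nonneg (h.nonneg _ _) (h.nonneg _ _))]
    have := (abs_le.1 h1).2
    have h4 : ε * N 0 1 ≤ 1 * N 0 1 := by gcongr
    linarith
  calc _ ≤ (ε * N 0 1) * (4 * |g| * N 1 0 + N 0 1) := by gcongr
    _ ≤ N 0 1 * (4 * |g| * N 1 0 + N 0 1) * (4 * ε) := by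
      have : 0 ≤ N 0 1 * (4 * |g| * N 1 0 + N 0 1) * ε := by (clear * - hB0 hA0 hε; positivity)
      linarith only [this]

end IsSemi2

/-- extension of a rational seminorm -/
theorem exists_semi2_ext (N : ℚ → ℚ → ℝ) (h0 : ∀ p q, 0 ≤ N p q)
    (h1 : ∀ c p q, N (c * p) (c * q) = |(c : ℝ)| * N p q)
    (h2 : ∀ p q p' q', N (p + p') (q + q') ≤ N p q + N p' q') :
    ∃ N' : ℝ → ℝ → ℝ, IsSemi2 N' ∧ ∀ p q : ℚ, N' p q = N p q := by
  have hcoord : ∀ p q, N p q ≤ |(p : ℝ)| * N 1 0 + |(q : ℝ)| * N 0 1 := by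
    intro p q
    have e1 := h2 p 0 0 q
    have e2 := h1 p 1 0
    have e3 := h1 q 0 1
    simp only [mul_one, mul_zero, add_zero, zero_add] at e1 e2 e3
    rw [e2, e3] at e1
    exact e1
  have hsub : ∀ p q p' q', |N p q - N p' q'| ≤ N (p - p') (q - q') := by
    intro p q p' q'
    have e1 := h2 (p - p') (q - q') p' q'
    have e2 := h2 (p' - p) (q' - q) p q
    have e3 := h1 (-1) (p - p') (q - q')
    simp only [sub_add_cancel] at e1 e2
    have f1 : (-1 : ℚ) * (p - p') = p' - p := by ring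
    have f2 : (-1 : ℚ) * (q - q') = q' - q := by ring
    rw [f1, f2] at e3
    simp only [Rat.cast_neg, Rat.cast_one, abs_neg, abs_one, one_mul] at e3
    rw [e3] at e2
    rw [abs_le]
    constructor <;> linarith
  set e : ℚ × ℚ → ℝ × ℝ := fun r => ((r.1 : ℝ), (r.2 : ℝ)) with he
  have hinj : Function.Injective e := by
    rintro ⟨a, b⟩ ⟨c, d⟩ h
    simp only [he, Prod.mk.injEq, Rat.cast_inj] at h
    exact Prod.ext h.1 h.2
  have hdense : DenseRange e := Rat.denseRange_cast.prodMap Rat.denseRange_cast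
  set K : NNReal := ⟨N 1 0 + N 0 1, add_nonneg (h0 _ _) (h0 _ _)⟩ with hK
  set f : ℝ × ℝ → ℝ := fun z => N (Function.invFun e z).1 (Function.invFun e z).2 with hf
  have hfe : ∀ r, f (e r) = N r.1 r.2 := by
    intro r
    simp only [hf]
    rw [Function.leftInverse_invFun hinj r]
  have hLip : LipschitzOnWith K f (range e) := by
    refine LipschitzOnWith.of_dist_le_mul ?_
    rintro _ ⟨r, rfl⟩ _ ⟨r', rfl⟩
    rw [hfe, hfe, Real.dist_eq]
    refine (hsub _ _ _ _).trans ((hcoord _ _).trans ?_)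
    have hd1 : |((r.1 - r'.1 : ℚ) : ℝ)| ≤ dist (e r) (e r') := by
      rw [Prod.dist_eq]
      refine le_trans ?_ (le_max_left _ _)
      simp [he, Real.dist_eq]
    have hd2 : |((r.2 - r'.2 : ℚ) : ℝ)| ≤ dist (e r) (e r') := by
      rw [Prod.dist_eq]
      refine le_trans ?_ (le_max_right _ _)
      simp [he, Real.dist_eq]
    have n1 := h0 1 0
    have n2 := h0 0 1
    calc _ ≤ dist (e r) (e r') * N 1 0 + dist (e r) (e r') * N 0 1 := by gcongr
      _ = (N 1 0 + N 0 1) * dist (e r) (e r') := by ring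
  obtain ⟨F, hF, hFe⟩ := hLip.extend_real
  have hFc : Continuous F := hF.continuous
  have hF' : ∀ p q : ℚ, F ((p : ℝ), (q : ℝ)) = N p q := by
    intro p q
    have : F (e (p, q)) = f (e (p, q)) := (hFe (mem_range_self _)).symm
    rw [hfe] at this
    exact this
  refine ⟨fun s t => F (s, t), ⟨?_, ?_, ?_⟩, hF'⟩
  · intro s t
    have hcl : IsClosed {z : ℝ × ℝ | 0 ≤ F z} := isClosed_le continuous_const hFc
    have := hdense.induction_on (p := fun z => 0 ≤ F z) (s, t) hcl (fun r => by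
      rw [hF']; exact h0 _ _)
    exact this
  · intro c s t
    have hcl : IsClosed {z : ℝ × (ℝ × ℝ) | F (z.1 * z.2.1, z.1 * z.2.2) = |z.1| * F z.2} := by
      refine isClosed_eq (hFc.comp (by fun_prop)) ?_
      exact (continuous_fst.abs).mul (hFc.comp continuous_snd)
    have hd : DenseRange (Prod.map (fun c : ℚ => (c : ℝ)) e) :=
      Rat.denseRange_cast.prodMap hdense
    have := hd.induction_on (p := fun z : ℝ × (ℝ × ℝ) =>
      F (z.1 * z.2.1, z.1 * z.2.2) = |z.1| * F z.2) (c, (s, t)) hcl (by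
        rintro ⟨c, p, q⟩
        simp only [Prod.map, he]
        have := hF' (c * p) (c * q)
        push_cast at this
        rw [this, hF', h1])
    exact this
  · intro s t s' t'
    have hcl : IsClosed {z : (ℝ × ℝ) × (ℝ × ℝ) | F (z.1.1 + z.2.1, z.1.2 + z.2.2) ≤
        F z.1 + F z.2} := by
      refine isClosed_le (hFc.comp (by fun_prop)) ?_
      exact (hFc.comp continuous_fst).add (hFc.comp continuous_snd)
    have hd : DenseRange (Prod.map e e) := hdense.prodMap hdense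
    have := hd.induction_on (p := fun z : (ℝ × ℝ) × (ℝ × ℝ) =>
      F (z.1.1 + z.2.1, z.1.2 + z.2.2) ≤ F z.1 + F z.2) ((s, t), (s', t')) hcl (by
        rintro ⟨⟨p, q⟩, p', q'⟩
        simp only [Prod.map, he]
        have := hF' (p + p') (q + q')
        push_cast at this
        rw [this, hF', hF']
        exact h2 _ _ _ _)
    exact this

end Vale.Agent.P233.Met
end

section

open MeasureTheory Filter Topology Set
open scoped ENNReal NNReal

namespace Vale.Agent.P233.Met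

variable {M : Type*} [MetricSpace M] [MeasurableSpace M] {m : Measure M}

set_option linter.unusedSectionVars false

/-- twice the Cheeger energy -/
noncomputable def Q (m : Measure M) (f : M → ℝ) : ℝ := ∫ x, (mslope m f x) ^ 2 ∂m

/-- the energy is a quadratic form -/
def Quad (m : Measure M) : Prop :=
  ∀ f g, W12 m f → W12 m g → Q m (f + g) + Q m (f - g) = 2 * Q m f + 2 * Q m g

/-- the bilinear form -/
noncomputable def E (m : Measure M) (f g : M → ℝ) : ℝ := (Q m (f + g) - Q m (f - g)) / 4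

variable [BorelSpace M]

theorem Q_neg {f : M → ℝ} (hf : W12 m f) : Q m (-f) = Q m f := by
  unfold Q
  refine integral_congr_ae ?_
  filter_upwards [mslope_neg hf] with x hx
  rw [hx]

theorem Q_sub_comm {f g : M → ℝ} (hf : W12 m f) (hg : W12 m g) : Q m (f - g) = Q m (g - f) := by
  rw [← Q_neg (hf.sub hg), neg_sub]

theorem Q_const_mul {f : M → ℝ} (c : ℝ) (hf : W12 m f) :
    Q m (fun x => c * f x) = c ^ 2 * Q m f := by
  unfold Q
  rw [← integral_const_mul]
  refine integral_congr_ae ?_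
  filter_upwards [mslope_const_mul c hf] with x hx
  rw [hx, mul_pow, sq_abs]

theorem Q_nonneg (f : M → ℝ) : 0 ≤ Q m f := integral_nonneg fun x => sq_nonneg _

theorem E_symm {f g : M → ℝ} (hf : W12 m f) (hg : W12 m g) : E m f g = E m g f := by
  unfold E
  rw [Q_sub_comm hf hg, add_comm]

/-- three term identity -/
theorem Q_three (hQ : Quad m) {f g h : M → ℝ} (hf : W12 m f) (hg : W12 m g) (hh : W12 m h) :
    Q m (f + g + h) = Q m (f + g) + Q m (g + h) + Q m (f + h) - Q m f - Q m g - Q m h := by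
  have h1 := hQ (f + h) g (hf.add hh) hg
  have h2 := hQ (g + h) f (hg.add hh) hf
  have h3 := hQ (f - g) h (hf.sub hg) hh
  have h4 := hQ f g hf hg
  have e1 : f + h + g = f + g + h := by abel
  have e2 : g + h + f = f + g + h := by abel
  have e3 : f + h - g = f - g + h := by abel
  have e4 : Q m (f - g - h) = Q m (g + h - f) := by
    rw [show f - g - h = -(g + h - f) by abel, Q_neg ((hg.add hh).sub hf)]
  rw [e1, e3] at h1
  rw [e2] at h2
  rw [e4] at h3
  linarith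

theorem E_add_left (hQ : Quad m) {f g h : M → ℝ} (hf : W12 m f) (hh : W12 m h) (hg : W12 m g) :
    E m (f + h) g = E m f g + E m h g := by
  unfold E
  have h1 := Q_three hQ hf hh hg
  have h2 := Q_three hQ hf hh hg.neg
  have e1 : f + h + -g = f + h - g := by abel
  have e2 : h + -g = h - g := by abel
  have e3 : f + -g = f - g := by abel
  rw [e1, e2, e3, Q_neg hg] at h2
  rw [h1, h2]
  ring

theorem E_add_right (hQ : Quad m) {f g h : M → ℝ} (hg : W12 m g) (hf : W12 m f) (hh : W12 m h) :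
    E m g (f + h) = E m g f + E m g h := by
  rw [E_symm hg (hf.add hh), E_add_left hQ hf hh hg, E_symm hf hg, E_symm hh hg]

theorem E_neg_right (hQ : Quad m) {f g : M → ℝ} (hg : W12 m g) (hf : W12 m f) :
    E m g (-f) = -E m g f := by
  unfold E
  rw [sub_neg_eq_add, ← sub_eq_add_neg]
  ring

theorem E_zero_right {g : M → ℝ} : E m g 0 = 0 := by
  unfold E
  simp

theorem E_nat_mul (hQ : Quad m) {f g : M → ℝ} (hg : W12 m g) (hf : W12 m f) (n : ℕ) :
    E m g (fun x => (n : ℝ) * f x) = n * E m g f := by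
  induction n with
  | zero =>
    have e : (fun x => ((0 : ℕ) : ℝ) * f x) = 0 := by ext x; simp
    rw [e, E_zero_right]; simp
  | succ n ih =>
    have e : (fun x => ((n + 1 : ℕ) : ℝ) * f x) = (fun x => (n : ℝ) * f x) + f := by
      ext x; simp; ring
    rw [e, E_add_right hQ hg (hf.const_mul _) hf, ih]
    push_cast; ring

theorem E_inv_mul (hQ : Quad m) {f g : M → ℝ} (hg : W12 m g) (hf : W12 m f) (n : ℕ) :
    E m g (fun x => (1 / ((n : ℝ) + 1)) * f x) = (1 / ((n : ℝ) + 1)) * E m g f := by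
  have h1 := E_nat_mul hQ hg (hf.const_mul (1 / ((n : ℝ) + 1))) (n + 1)
  have e : (fun x => ((n + 1 : ℕ) : ℝ) * (1 / ((n : ℝ) + 1) * f x)) = f := by
    ext x
    push_cast
    field_simp
  rw [e] at h1
  rw [h1]
  push_cast
  field_simp

theorem Q_add (hQ : Quad m) {f g : M → ℝ} (hf : W12 m f) (hg : W12 m g) :
    Q m (f + g) = Q m f + 2 * E m f g + Q m g := by
  have := hQ f g hf hg
  unfold E
  linarith

theorem Q_add_inv (hQ : Quad m) {f g : M → ℝ} (hf : W12 m f) (hg : W12 m g) (n : ℕ) :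
    Q m (f + fun x => (1 / ((n : ℝ) + 1)) * g x) =
      Q m f + 2 * (1 / ((n : ℝ) + 1)) * E m f g + (1 / ((n : ℝ) + 1)) ^ 2 * Q m g := by
  rw [Q_add hQ hf (hg.const_mul _), E_inv_mul hQ hf hg, Q_const_mul _ hg]
  ring

/-- the pointwise seminorm generated by two Sobolev functions -/
theorem exists_semi {g h : M → ℝ} (hg : W12 m g) (hh : W12 m h) :
    ∀ᵐ x ∂m, ∃ N : ℝ → ℝ → ℝ, IsSemi2 N ∧
      ∀ p q : ℚ, N p q = mslope m (fun y => (p : ℝ) * g y + (q : ℝ) * h y) x := by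
  have hW : ∀ p q : ℚ, W12 m (fun y => (p : ℝ) * g y + (q : ℝ) * h y) := fun p q =>
    (hg.const_mul _).add (hh.const_mul _)
  have h1 : ∀ᵐ x ∂m, ∀ p q : ℚ, 0 ≤ mslope m (fun y => (p : ℝ) * g y + (q : ℝ) * h y) x := by
    rw [ae_all_iff]; intro p; rw [ae_all_iff]; intro q
    exact (hW p q).mslope_nonneg
  have h2 : ∀ᵐ x ∂m, ∀ c p q : ℚ,
      mslope m (fun y => ((c * p : ℚ) : ℝ) * g y + ((c * q : ℚ) : ℝ) * h y) x =
      |(c : ℝ)| * mslope m (fun y => (p : ℝ) * g y + (q : ℝ) * h y) x := by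
    rw [ae_all_iff]; intro c; rw [ae_all_iff]; intro p; rw [ae_all_iff]; intro q
    have e : (fun y => ((c * p : ℚ) : ℝ) * g y + ((c * q : ℚ) : ℝ) * h y) =
        fun y => (c : ℝ) * ((p : ℝ) * g y + (q : ℝ) * h y) := by
      ext y; push_cast; ring
    rw [e]
    exact mslope_const_mul (c : ℝ) (hW p q)
  have h3 : ∀ᵐ x ∂m, ∀ p q p' q' : ℚ,
      mslope m (fun y => ((p + p' : ℚ) : ℝ) * g y + ((q + q' : ℚ) : ℝ) * h y) x ≤
      mslope m (fun y => (p : ℝ) * g y + (q : ℝ) * h y) x +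
      mslope m (fun y => (p' : ℝ) * g y + (q' : ℝ) * h y) x := by
    rw [ae_all_iff]; intro p; rw [ae_all_iff]; intro q
    rw [ae_all_iff]; intro p'; rw [ae_all_iff]; intro q'
    have e : (fun y => ((p + p' : ℚ) : ℝ) * g y + ((q + q' : ℚ) : ℝ) * h y) =
        (fun y => (p : ℝ) * g y + (q : ℝ) * h y) + (fun y => (p' : ℝ) * g y + (q' : ℝ) * h y) := by
      ext y; simp; ring
    rw [e]
    exact mslope_add_le (hW p q) (hW p' q')
  filter_upwards [h1, h2, h3] with x hx1 hx2 hx3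
  obtain ⟨N, hN, hN'⟩ := exists_semi2_ext
    (fun p q => mslope m (fun y => (p : ℝ) * g y + (q : ℝ) * h y) x) hx1 hx2 hx3
  exact ⟨N, hN, hN'⟩

/-- freezing of coefficients -/
theorem mslope_poly {g h : M → ℝ} (hg : W12 m g) (hh : W12 m h) {C D : ℝ}
    (hC : 0 ≤ C) (hD : 0 ≤ D) (hgC : ∀ᵐ x ∂m, |g x| ≤ C) (hhD : ∀ᵐ x ∂m, |h x| ≤ D)
    (α β γ δ : ℝ) :
    W12 m (fun y => α * g y + β * h y + γ * (g y * h y) + δ * (g y * g y)) ∧
    ∀ᵐ x ∂m, ∀ N : ℝ → ℝ → ℝ, IsSemi2 N →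
      (∀ p q : ℚ, N p q = mslope m (fun y => (p : ℝ) * g y + (q : ℝ) * h y) x) →
      mslope m (fun y => α * g y + β * h y + γ * (g y * h y) + δ * (g y * g y)) x =
        N (α + γ * h x + 2 * δ * g x) (β + γ * g x) := by
  have hP : ∀ α β : ℝ, W12 m (fun y => α * g y + β * h y + γ * (g y * h y) + δ * (g y * g y)) :=
    fun α β => ⟨_, RSlope.poly hg.rSlope hh.rSlope hC hD hgC hhD α β γ δ⟩
  refine ⟨hP α β, ?_⟩
  have hW : ∀ p q : ℚ, W12 m (fun y => (p : ℝ) * g y + (q : ℝ) * h y) := fun p q =>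
    (hg.const_mul _).add (hh.const_mul _)
  have h1 : ∀ᵐ x ∂m, ∀ p q : ℚ,
      |mslope m (fun y => α * g y + β * h y + γ * (g y * h y) + δ * (g y * g y)) x -
        mslope m (fun y => (p : ℝ) * g y + (q : ℝ) * h y) x| ≤
      |α - p + γ * h x + 2 * δ * g x| * mslope m g x + |β - q + γ * g x| * mslope m h x := by
    rw [ae_all_iff]; intro p; rw [ae_all_iff]; intro q
    have e : (fun y => α * g y + β * h y + γ * (g y * h y) + δ * (g y * g y)) -
        (fun y => (p : ℝ) * g y + (q : ℝ) * h y) =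
        fun y => (α - p) * g y + (β - q) * h y + γ * (g y * h y) + δ * (g y * g y) := by
      ext y; simp; ring
    have h2 := abs_mslope_sub_le (hP α β) (hW p q)
    rw [e] at h2
    filter_upwards [h2, (RSlope.poly hg.rSlope hh.rSlope hC hD hgC hhD
      (α - p) (β - q) γ δ).mslope_le] with x hx hy
    exact hx.trans hy
  filter_upwards [h1] with x hx N hN hNe
  have hA : N 1 0 = mslope m g x := by
    have := hNe 1 0
    simpa using this
  have hB : N 0 1 = mslope m h x := by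
    have := hNe 0 1
    simpa using this
  set s := α + γ * h x + 2 * δ * g x with hs
  set t := β + γ * g x with ht
  set P := mslope m (fun y => α * g y + β * h y + γ * (g y * h y) + δ * (g y * g y)) x with hPdef
  have hA0 : 0 ≤ N 1 0 := hN.nonneg _ _
  have hB0 : 0 ≤ N 0 1 := hN.nonneg _ _
  have key : ∀ p q : ℚ, |P - N s t| ≤ 2 * (|s - p| * N 1 0 + |t - q| * N 0 1) := by
    intro p q
    have h2 := hx p q
    rw [← hNe p q] at h2
    have e1 : α - p + γ * h x + 2 * δ * g x = s - p := by rw [hs]; ring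
    have e2 : β - q + γ * g x = t - q := by rw [ht]; ring
    rw [e1, e2, ← hA, ← hB] at h2
    have h3 := (hN.abs_sub_le (p : ℝ) (q : ℝ) s t).trans (hN.le_coord _ _)
    rw [abs_sub_comm (p : ℝ) s, abs_sub_comm (q : ℝ) t] at h3
    have h4 : |P - N s t| ≤ |P - N p q| + |N p q - N s t| := by
      have := abs_add_le (P - N p q) (N p q - N s t)
      simpa using this
    linarith
  have h0 : |P - N s t| ≤ 0 := by
    refine le_of_forall_pos_le_add fun ε hε => ?_
    obtain ⟨η, hη, hη2⟩ : ∃ η > 0, 2 * (η * N 1 0 + η * N 0 1) ≤ ε := by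
      refine ⟨ε / (2 * (N 1 0 + N 0 1 + 1)), by (clear * - hε hA0 hB0; positivity), ?_⟩
      have : 2 * (ε / (2 * (N 1 0 + N 0 1 + 1)) * N 1 0 +
          ε / (2 * (N 1 0 + N 0 1 + 1)) * N 0 1) =
          ε * ((N 1 0 + N 0 1) / (N 1 0 + N 0 1 + 1)) := by field_simp
      rw [this]
      have h5 : (N 1 0 + N 0 1) / (N 1 0 + N 0 1 + 1) ≤ 1 := by
        rw [div_le_one (by (clear * - hA0 hB0; positivity))]; linarith
      linarith only [mul_nonneg (le_of_lt (sub_pos.2 hε)) (sub_nonneg.2 h5)]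
    obtain ⟨p, hp1, hp2⟩ := exists_rat_btwn (show s - η < s by linarith)
    obtain ⟨q, hq1, hq2⟩ := exists_rat_btwn (show t - η < t by linarith)
    have h5 := key p q
    have h6 : |s - p| ≤ η := by rw [abs_le]; constructor <;> linarith
    have h7 : |t - q| ≤ η := by rw [abs_le]; constructor <;> linarith
    have h8 : |s - p| * N 1 0 + |t - q| * N 0 1 ≤ η * N 1 0 + η * N 0 1 := by gcongr
    linarith
  have := abs_nonpos_iff.1 h0
  linarith

/-- energy density formula -/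
theorem energy_density (hQ : Quad m) {g h : M → ℝ} (hg : W12 m g) (hh : W12 m h) {C D : ℝ}
    (hC : 0 ≤ C) (hD : 0 ≤ D) (hgC : ∀ᵐ x ∂m, |g x| ≤ C) (hhD : ∀ᵐ x ∂m, |h x| ≤ D) :
    ∫ x, h x * (mslope m g x) ^ 2 ∂m =
      E m g (fun x => g x * h x) - E m (fun x => g x * g x) h / 2 := by
  set ε : ℕ → ℝ := fun n => 1 / ((n : ℝ) + 1) with hε
  have hεpos : ∀ n, 0 < ε n := fun n => by positivity
  have hε1 : ∀ n, ε n ≤ 1 := fun n => by
    simp only [hε]
    rw [div_le_one (by positivity)]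
    have : (0 : ℝ) ≤ n := by positivity
    linarith
  have hεlim : Tendsto ε atTop (𝓝 0) := tendsto_one_div_add_atTop_nhds_zero_nat
  have hεlim' : Tendsto ε atTop (𝓝[>] 0) := by
    rw [tendsto_nhdsWithin_iff]
    exact ⟨hεlim, Eventually.of_forall hεpos⟩
  -- the functions
  set P1 : ℕ → M → ℝ := fun n y => g y + ε n * (g y * h y) with hP1
  set P2 : ℕ → M → ℝ := fun n y => g y * g y + ε n * h y with hP2
  set P3 : M → ℝ := fun y => g y * g y with hP3
  have e1 : ∀ n, (fun y => (1 : ℝ) * g y + 0 * h y + ε n * (g y * h y) + 0 * (g y * g y)) =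
      P1 n := by intro n; ext y; simp [hP1]
  have e2 : ∀ n, (fun y => (0 : ℝ) * g y + ε n * h y + 0 * (g y * h y) + 1 * (g y * g y)) =
      P2 n := by intro n; ext y; simp [hP2]; ring
  have e3 : (fun y => (0 : ℝ) * g y + 0 * h y + 0 * (g y * h y) + 1 * (g y * g y)) = P3 := by
    ext y; simp [hP3]
  have e4 : (fun y => (0 : ℝ) * g y + 0 * h y + 1 * (g y * h y) + 0 * (g y * g y)) =
      fun y => g y * h y := by
    ext y; simp
  have hp1 := fun n => mslope_poly hg hh hC hD hgC hhD 1 0 (ε n) 0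
  have hp2 := fun n => mslope_poly hg hh hC hD hgC hhD 0 (ε n) 0 1
  have hp3 := mslope_poly hg hh hC hD hgC hhD 0 0 0 1
  have hp4 := mslope_poly hg hh hC hD hgC hhD 0 0 1 0
  simp only [e1] at hp1
  simp only [e2] at hp2
  rw [e3] at hp3
  rw [e4] at hp4
  have hW1 : ∀ n, W12 m (P1 n) := fun n => (hp1 n).1
  have hW2 : ∀ n, W12 m (P2 n) := fun n => (hp2 n).1
  have hW3 : W12 m P3 := hp3.1
  have hW4 : W12 m (fun y => g y * h y) := hp4.1
  have hae1 : ∀ᵐ x ∂m, ∀ n, ∀ N : ℝ → ℝ → ℝ, IsSemi2 N →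
      (∀ p q : ℚ, N p q = mslope m (fun y => (p : ℝ) * g y + (q : ℝ) * h y) x) →
      mslope m (P1 n) x = N (1 + ε n * h x) (ε n * g x) := by
    rw [ae_all_iff]; intro n
    filter_upwards [(hp1 n).2] with x hx N hN hNe
    rw [hx N hN hNe]
    congr 1 <;> ring
  have hae2 : ∀ᵐ x ∂m, ∀ n, ∀ N : ℝ → ℝ → ℝ, IsSemi2 N →
      (∀ p q : ℚ, N p q = mslope m (fun y => (p : ℝ) * g y + (q : ℝ) * h y) x) →
      mslope m (P2 n) x = N (2 * g x) (ε n) := by
    rw [ae_all_iff]; intro n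
    filter_upwards [(hp2 n).2] with x hx N hN hNe
    rw [hx N hN hNe]
    congr 1 <;> ring
  have hae3 : ∀ᵐ x ∂m, ∀ N : ℝ → ℝ → ℝ, IsSemi2 N →
      (∀ p q : ℚ, N p q = mslope m (fun y => (p : ℝ) * g y + (q : ℝ) * h y) x) →
      mslope m P3 x = N (2 * g x) 0 := by
    filter_upwards [hp3.2] with x hx N hN hNe
    rw [hx N hN hNe]
    congr 1 <;> ring
  -- the integrands
  set a : ℕ → M → ℝ := fun n x => (mslope m (P1 n) x ^ 2 - mslope m g x ^ 2) / (2 * ε n) with ha
  set b : ℕ → M → ℝ := fun n x => (mslope m (P2 n) x ^ 2 - mslope m P3 x ^ 2) / (4 * ε n) with hb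
  have hsq : ∀ {f : M → ℝ}, W12 m f → Integrable (fun x => mslope m f x ^ 2) m := fun hf =>
    hf.memLp_mslope.integrable_sq
  have hia : ∀ n, Integrable (a n) m := fun n => ((hsq (hW1 n)).sub (hsq hg)).div_const _
  have hib : ∀ n, Integrable (b n) m := fun n => ((hsq (hW2 n)).sub (hsq hW3)).div_const _
  have hlimab : Tendsto (fun n => ∫ x, (a n x - b n x) ∂m) atTop
      (𝓝 (∫ x, h x * (mslope m g x) ^ 2 ∂m)) := by
    refine tendsto_integral_of_dominated_convergence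
      (fun x => (D * mslope m g x + C * mslope m h x) *
        (2 * mslope m g x + (D * mslope m g x + C * mslope m h x)) +
        mslope m h x * (4 * C * mslope m g x + mslope m h x)) ?_ ?_ ?_ ?_
    · intro n
      exact ((hia n).sub (hib n)).aestronglyMeasurable
    · have hA := hg.memLp_mslope
      have hB := hh.memLp_mslope
      have i1 : MemLp (fun x => D * mslope m g x + C * mslope m h x) 2 m :=
        (hA.const_mul D).add (hB.const_mul C)
      have i2 : MemLp (fun x => 2 * mslope m g x + (D * mslope m g x + C * mslope m h x)) 2 m :=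
        (hA.const_mul 2).add i1
      have i3 : MemLp (fun x => 4 * C * mslope m g x + mslope m h x) 2 m :=
        (hA.const_mul (4 * C)).add hB
      exact (i1.integrable_mul i2).add (hB.integrable_mul i3)
    · intro n
      filter_upwards [exists_semi hg hh, hae1, hae2, hae3, hgC, hhD] with x hx h1 h2 h3 hgx hhx
      obtain ⟨N, hN, hNe⟩ := hx
      have hA : N 1 0 = mslope m g x := by simpa using hNe 1 0
      have hB : N 0 1 = mslope m h x := by simpa using hNe 0 1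
      have b1 := hN.bound_a (g x) (h x) (hεpos n) (hε1 n)
      have b2 := hN.bound_b (g x) (hεpos n) (hε1 n)
      rw [← h1 n N hN hNe, hA, hB] at b1
      rw [← h2 n N hN hNe, ← h3 N hN hNe, hA, hB] at b2
      have hA0 : 0 ≤ mslope m g x := hA ▸ hN.nonneg _ _
      have hB0 : 0 ≤ mslope m h x := hB ▸ hN.nonneg _ _
      rw [Real.norm_eq_abs]
      refine (abs_sub _ _).trans (add_le_add (b1.trans ?_) (b2.trans ?_))
      · gcongr
      · gcongr
    · filter_upwards [exists_semi hg hh, hae1, hae2, hae3] with x hx h1 h2 h3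
      obtain ⟨N, hN, hNe⟩ := hx
      have hA : N 1 0 = mslope m g x := by simpa using hNe 1 0
      have h4 := (hN.key (g x) (h x)).comp hεlim'
      rw [hA] at h4
      refine h4.congr fun n => ?_
      simp only [ha, hb, Function.comp_apply]
      rw [h1 n N hN hNe, h2 n N hN hNe, h3 N hN hNe]
  have hval : ∀ n, ∫ x, (a n x - b n x) ∂m =
      E m g (fun x => g x * h x) + ε n / 2 * Q m (fun x => g x * h x) -
      (E m P3 h / 2 + ε n / 4 * Q m h) := by
    intro n
    rw [integral_sub (hia n) (hib n)]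
    have i1 : ∫ x, a n x ∂m = (Q m (P1 n) - Q m g) / (2 * ε n) := by
      simp only [ha]
      rw [integral_div, integral_sub (hsq (hW1 n)) (hsq hg)]
      rfl
    have i2 : ∫ x, b n x ∂m = (Q m (P2 n) - Q m P3) / (4 * ε n) := by
      simp only [hb]
      rw [integral_div, integral_sub (hsq (hW2 n)) (hsq hW3)]
      rfl
    have f1 : P1 n = g + fun x => (1 / ((n : ℝ) + 1)) * (g x * h x) := by
      ext y; simp [hP1, hε]
    have f2 : P2 n = P3 + fun x => (1 / ((n : ℝ) + 1)) * h x := by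
      ext y; simp [hP2, hP3, hε]
    have q1 : Q m (P1 n) = Q m g + 2 * ε n * E m g (fun x => g x * h x) +
        ε n ^ 2 * Q m (fun x => g x * h x) := by
      rw [f1, Q_add_inv hQ hg hW4]
    have q2 : Q m (P2 n) = Q m P3 + 2 * ε n * E m P3 h + ε n ^ 2 * Q m h := by
      rw [f2, Q_add_inv hQ hW3 hh]
    rw [i1, i2, q1, q2]
    have := (hεpos n).ne'
    field_simp
    ring
  have hlim2 : Tendsto (fun n => E m g (fun x => g x * h x) + ε n / 2 * Q m (fun x => g x * h x) -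
      (E m P3 h / 2 + ε n / 4 * Q m h)) atTop
      (𝓝 (E m g (fun x => g x * h x) - E m P3 h / 2)) := by
    have h5 := (((hεlim.div_const 2).mul_const (Q m (fun x => g x * h x))).const_add
      (E m g (fun x => g x * h x))).sub (((hεlim.div_const 4).mul_const (Q m h)).const_add
      (E m P3 h / 2))
    simpa using h5
  simp only [hval] at hlimab
  exact tendsto_nhds_unique hlimab hlim2

end Vale.Agent.P233.Met
end

section

open MeasureTheory Filter Topology Set
open scoped ENNReal NNReal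

namespace Vale.Agent.P233.Met

variable {M : Type*} [MetricSpace M] [MeasurableSpace M] {m : Measure M}

set_option linter.unusedSectionVars false

variable [BorelSpace M]

theorem sq_integrable {f : M → ℝ} (hf : W12 m f) : Integrable (fun x => mslope m f x ^ 2) m :=
  hf.memLp_mslope.integrable_sq

/-- an integrable function that annihilates all bounded Lipschitz functions with bounded support
vanishes -/
theorem ae_eq_zero_of_forall_lip (hfin : ∀ (x : M) (r : ℝ), m (Metric.ball x r) < ∞)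
    {F : M → ℝ} (hF : Integrable F m)
    (h : ∀ φ : M → ℝ, W12 m φ → (∀ x, 0 ≤ φ x) → (∀ x, φ x ≤ 1) → ∫ x, φ x * F x ∂m = 0) :
    F =ᵐ[m] 0 := by
  refine ae_eq_zero_of_forall_setIntegral_isClosed_eq_zero hF fun s hs => ?_
  rcases isEmpty_or_nonempty M with hM | ⟨⟨x₀⟩⟩
  · have : m = 0 := by
      ext t _
      rw [Set.eq_empty_of_isEmpty t]; simp
    rw [this]; simp
  set d : ℕ → ℝ := fun k => 1 / ((k : ℝ) + 1) with hd
  have hd0 : ∀ k, 0 < d k := fun k => by positivity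
  have hdl : Tendsto d atTop (𝓝 0) := tendsto_one_div_add_atTop_nhds_zero_nat
  set φ : ℕ → M → ℝ := fun k x => cutoff x₀ k x * (thickenedIndicator (hd0 k) s x : ℝ) with hφ
  have ht0 : ∀ k x, 0 ≤ (thickenedIndicator (hd0 k) s x : ℝ) := fun k x => NNReal.coe_nonneg _
  have ht1 : ∀ k x, (thickenedIndicator (hd0 k) s x : ℝ) ≤ 1 := fun k x => by
    exact_mod_cast thickenedIndicator_le_one (hd0 k) s x
  have hφ0 : ∀ k x, 0 ≤ φ k x := fun k x => mul_nonneg (cutoff_nonneg _ _ _) (ht0 k x)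
  have hφ1 : ∀ k x, φ k x ≤ 1 := fun k x =>
    mul_le_one₀ (cutoff_le_one _ _ _) (ht0 k x) (ht1 k x)
  have htL : ∀ k, IsLip (fun x => (thickenedIndicator (hd0 k) s x : ℝ)) := fun k => by
    have h3 := lipschitzWith_thickenedIndicator (hd0 k) s
    refine ⟨(d k).toNNReal⁻¹, LipschitzWith.of_dist_le_mul fun x y => ?_⟩
    have h5 := h3.dist_le_mul x y
    rw [NNReal.dist_eq] at h5
    rw [Real.dist_eq]
    exact h5
  have hφL : ∀ k, IsLip (φ k) := fun k =>
    IsLip.mul ⟨1, cutoff_lip x₀ k⟩ (htL k)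
      ⟨1, fun x => abs_le.2 ⟨by linarith [cutoff_nonneg x₀ k x], cutoff_le_one x₀ k x⟩⟩
      ⟨1, fun x => abs_le.2 ⟨by linarith [ht0 k x], ht1 k x⟩⟩
  have hφW : ∀ k, W12 m (φ k) := fun k => by
    obtain ⟨K, hK⟩ := hφL k
    refine ⟨_, (good_of_bounded_support hfin hK (x₀ := x₀) (R := (k : ℝ) + 1) fun x hx => ?_).rSlope⟩
    simp only [hφ]
    rw [cutoff_eq_zero hx, zero_mul]
  have hz : ∀ k, ∫ x, φ k x * F x ∂m = 0 := fun k => h _ (hφW k) (hφ0 k) (hφ1 k)
  have hlim : Tendsto (fun k => ∫ x, φ k x * F x ∂m) atTop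
      (𝓝 (∫ x, s.indicator (fun _ => (1 : ℝ)) x * F x ∂m)) := by
    refine tendsto_integral_of_dominated_convergence (fun x => |F x|) ?_ hF.abs ?_ ?_
    · intro k
      exact ((hφL k).continuous.measurable.aestronglyMeasurable).mul hF.1
    · intro k
      filter_upwards with x
      rw [norm_mul, Real.norm_eq_abs, Real.norm_eq_abs, abs_of_nonneg (hφ0 k x)]
      calc _ ≤ 1 * |F x| := by gcongr; exact hφ1 k x
        _ = _ := one_mul _
    · filter_upwards with x
      refine Tendsto.mul_const _ ?_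
      have h3 := thickenedIndicator_tendsto_indicator_closure hd0 hdl s
      rw [tendsto_pi_nhds] at h3
      have h4 := h3 x
      rw [hs.closure_eq] at h4
      have h5 := (tendsto_cutoff x₀ x).mul ((NNReal.continuous_coe.tendsto _).comp h4)
      have h6 : (1 : ℝ) * ((s.indicator (fun _ => (1 : ℝ≥0)) x : ℝ≥0) : ℝ) =
          s.indicator (fun _ => (1 : ℝ)) x := by
        by_cases hx : x ∈ s <;> simp [hx]
      rw [h6] at h5
      exact h5
  simp only [hz] at hlim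
  have h1 := tendsto_nhds_unique hlim tendsto_const_nhds
  rw [← integral_indicator hs.measurableSet, ← h1]
  congr 1
  ext x
  by_cases hx : x ∈ s <;> simp [hx]

/-- pointwise parallelogram law, bounded functions -/
theorem parallelogram_bdd (hfin : ∀ (x : M) (r : ℝ), m (Metric.ball x r) < ∞) (hQ : Quad m)
    {f g : M → ℝ} (hf : W12 m f) (hg : W12 m g) {C D : ℝ}
    (hC : 0 ≤ C) (hD : 0 ≤ D) (hfC : ∀ᵐ x ∂m, |f x| ≤ C) (hgD : ∀ᵐ x ∂m, |g x| ≤ D) :
    ∀ᵐ x ∂m, mslope m (f + g) x ^ 2 + mslope m (f - g) x ^ 2 =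
      2 * mslope m f x ^ 2 + 2 * mslope m g x ^ 2 := by
  set F : M → ℝ := fun x => mslope m (f + g) x ^ 2 + mslope m (f - g) x ^ 2 -
    (2 * mslope m f x ^ 2 + 2 * mslope m g x ^ 2) with hF
  have i1 := sq_integrable (hf.add hg)
  have i2 := sq_integrable (hf.sub hg)
  have i3 := sq_integrable hf
  have i4 := sq_integrable hg
  have hFi : Integrable F m := (i1.add i2).sub ((i3.const_mul 2).add (i4.const_mul 2))
  have key : F =ᵐ[m] 0 := by
    refine ae_eq_zero_of_forall_lip hfin hFi fun h hh h0 h1 => ?_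
    have hh1 : ∀ᵐ x ∂m, |h x| ≤ 1 := Eventually.of_forall fun x =>
      abs_le.2 ⟨by linarith [h0 x], h1 x⟩
    have hb1 : ∀ᵐ x ∂m, |(f + g) x| ≤ C + D := by
      filter_upwards [hfC, hgD] with x hx hy
      exact (abs_add_le _ _).trans (add_le_add hx hy)
    have hb2 : ∀ᵐ x ∂m, |(f - g) x| ≤ C + D := by
      filter_upwards [hfC, hgD] with x hx hy
      exact (abs_sub _ _).trans (add_le_add hx hy)
    have d1 := energy_density hQ (hf.add hg) hh (add_nonneg hC hD) zero_le_one hb1 hh1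
    have d2 := energy_density hQ (hf.sub hg) hh (add_nonneg hC hD) zero_le_one hb2 hh1
    have d3 := energy_density hQ hf hh hC zero_le_one hfC hh1
    have d4 := energy_density hQ hg hh hD zero_le_one hgD hh1
    -- products are Sobolev
    have w1 : W12 m (fun x => f x * h x) :=
      ⟨_, RSlope.mul hf.rSlope hh.rSlope hC zero_le_one hfC hh1⟩
    have w2 : W12 m (fun x => g x * h x) :=
      ⟨_, RSlope.mul hg.rSlope hh.rSlope hD zero_le_one hgD hh1⟩
    have w3 : W12 m (fun x => f x * f x) := ⟨_, RSlope.mul hf.rSlope hf.rSlope hC hC hfC hfC⟩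
    have w4 : W12 m (fun x => g x * g x) := ⟨_, RSlope.mul hg.rSlope hg.rSlope hD hD hgD hgD⟩
    have w5 : W12 m (fun x => f x * g x) := ⟨_, RSlope.mul hf.rSlope hg.rSlope hC hD hfC hgD⟩
    have w5' : W12 m (fun x => 2 * (f x * g x)) := w5.const_mul 2
    -- linear algebra
    have e1 : (fun x => (f + g) x * h x) = (fun x => f x * h x) + (fun x => g x * h x) := by
      ext x; simp; ring
    have e2 : (fun x => (f - g) x * h x) = (fun x => f x * h x) + -(fun x => g x * h x) := by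
      ext x; simp; ring
    have e3 : (fun x => (f + g) x * (f + g) x) =
        ((fun x => f x * f x) + (fun x => g x * g x)) + (fun x => 2 * (f x * g x)) := by
      ext x; simp; ring
    have e4 : (fun x => (f - g) x * (f - g) x) =
        ((fun x => f x * f x) + (fun x => g x * g x)) + -(fun x => 2 * (f x * g x)) := by
      ext x; simp; ring
    have n1 : ∀ {a b : M → ℝ}, W12 m a → W12 m b → E m a (-b) = - E m a b := fun ha hb =>
      E_neg_right hQ ha hb
    have n2 : ∀ {a b : M → ℝ}, W12 m a → W12 m b → E m (-a) b = - E m a b := fun ha hb => by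
      rw [E_symm ha.neg hb, n1 hb ha, E_symm hb ha]
    rw [e1, e3, E_add_left hQ hf hg (w1.add w2), E_add_right hQ hf w1 w2,
      E_add_right hQ hg w1 w2, E_add_left hQ (w3.add w4) w5' hh, E_add_left hQ w3 w4 hh] at d1
    rw [e2, e4, sub_eq_add_neg, E_add_left hQ hf hg.neg (w1.add w2.neg),
      E_add_right hQ hf w1 w2.neg, n2 hg (w1.add w2.neg),
      E_add_right hQ hg w1 w2.neg, n1 hf w2, n1 hg w2,
      E_add_left hQ (w3.add w4) w5'.neg hh, E_add_left hQ w3 w4 hh, n2 w5' hh] at d2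
    have hbm : ∀ {G : M → ℝ}, Integrable G m → Integrable (fun x => h x * G x) m := by
      intro G hG
      refine hG.mono (hh.memLp.1.mul hG.1) ?_
      filter_upwards [hh1] with x hx
      rw [norm_mul, Real.norm_eq_abs (h x)]
      calc _ ≤ 1 * ‖G x‖ := by gcongr
        _ = _ := one_mul _
    have eF : (fun x => h x * F x) = fun x =>
        (h x * mslope m (f + g) x ^ 2 + h x * mslope m (f + -g) x ^ 2) -
        (2 * (h x * mslope m f x ^ 2) + 2 * (h x * mslope m g x ^ 2)) := by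
      ext x; simp only [hF, sub_eq_add_neg]; ring
    rw [eF, integral_sub, integral_add (hbm i1) (hbm (by rw [← sub_eq_add_neg]; exact i2)),
      integral_add ((hbm i3).const_mul 2) ((hbm i4).const_mul 2), integral_const_mul,
      integral_const_mul, d1, d2, d3, d4]
    · ring
    · exact (hbm i1).add (hbm (by rw [← sub_eq_add_neg]; exact i2))
    · exact ((hbm i3).const_mul 2).add ((hbm i4).const_mul 2)
  filter_upwards [key] with x hx
  simp only [hF, Pi.zero_apply] at hx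
  linarith

/-- pointwise parallelogram law -/
theorem parallelogram (hfin : ∀ (x : M) (r : ℝ), m (Metric.ball x r) < ∞) (hQ : Quad m)
    {f g : M → ℝ} (hf : W12 m f) (hg : W12 m g) :
    ∀ᵐ x ∂m, mslope m (f + g) x ^ 2 + mslope m (f - g) x ^ 2 =
      2 * mslope m f x ^ 2 + 2 * mslope m g x ^ 2 := by
  set T : ℕ → (M → ℝ) → (M → ℝ) := fun n u x => trunc (n : ℝ) (u x) with hT
  have hn : ∀ n : ℕ, (0 : ℝ) ≤ n := fun n => Nat.cast_nonneg n
  have hWf : ∀ n, W12 m (T n f) := fun n => hf.trunc (hn n)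
  have hWg : ∀ n, W12 m (T n g) := fun n => hg.trunc (hn n)
  have h1 : ∀ᵐ x ∂m, ∀ n : ℕ, mslope m (T n f + T n g) x ^ 2 + mslope m (T n f - T n g) x ^ 2 =
      2 * mslope m (T n f) x ^ 2 + 2 * mslope m (T n g) x ^ 2 := by
    rw [ae_all_iff]; intro n
    exact parallelogram_bdd hfin hQ (hWf n) (hWg n) (hn n) (hn n)
      (Eventually.of_forall fun x => abs_trunc_le (hn n) _)
      (Eventually.of_forall fun x => abs_trunc_le (hn n) _)
  have h2 : ∀ᵐ x ∂m, ∀ n : ℕ, (T n f + T n g) x - (f + g) x = 0 →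
      mslope m (T n f + T n g) x = mslope m (f + g) x := by
    rw [ae_all_iff]; intro n
    exact mslope_eq_of_sub_eq_const ((hWf n).add (hWg n)) (hf.add hg) 0
  have h3 : ∀ᵐ x ∂m, ∀ n : ℕ, (T n f - T n g) x - (f - g) x = 0 →
      mslope m (T n f - T n g) x = mslope m (f - g) x := by
    rw [ae_all_iff]; intro n
    exact mslope_eq_of_sub_eq_const ((hWf n).sub (hWg n)) (hf.sub hg) 0
  have h4 : ∀ᵐ x ∂m, ∀ n : ℕ, (T n f) x - f x = 0 → mslope m (T n f) x = mslope m f x := by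
    rw [ae_all_iff]; intro n
    exact mslope_eq_of_sub_eq_const (hWf n) hf 0
  have h5 : ∀ᵐ x ∂m, ∀ n : ℕ, (T n g) x - g x = 0 → mslope m (T n g) x = mslope m g x := by
    rw [ae_all_iff]; intro n
    exact mslope_eq_of_sub_eq_const (hWg n) hg 0
  filter_upwards [h1, h2, h3, h4, h5] with x a1 a2 a3 a4 a5
  obtain ⟨n, hn1⟩ := exists_nat_ge (max |f x| |g x|)
  have b1 : T n f x = f x := trunc_of_abs_le ((le_max_left _ _).trans hn1)
  have b2 : T n g x = g x := trunc_of_abs_le ((le_max_right _ _).trans hn1)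
  have c1 := a2 n (by simp [b1, b2])
  have c2 := a3 n (by simp [b1, b2])
  have c3 := a4 n (by simp [b1])
  have c4 := a5 n (by simp [b2])
  have := a1 n
  rwa [c1, c2, c3, c4] at this

end Vale.Agent.P233.Met
end

section

open MeasureTheory Filter Topology Set
open scoped ENNReal NNReal

namespace Vale.Agent.P233.Met

variable {M : Type*} [MetricSpace M] [MeasurableSpace M] {m : Measure M}

set_option linter.unusedSectionVars false

/-- the polarization of `|Df|²` -/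
noncomputable def gam (m : Measure M) (f g : M → ℝ) (x : M) : ℝ :=
  (mslope m (f + g) x ^ 2 - mslope m (f - g) x ^ 2) / 4

variable [BorelSpace M]

theorem gam_congr {f g f' g' : M → ℝ} (hf : W12 m f) (hg : W12 m g) (hff' : f =ᵐ[m] f')
    (hgg' : g =ᵐ[m] g') : gam m f g =ᵐ[m] gam m f' g' := by
  have h1 : f + g =ᵐ[m] f' + g' := hff'.add hgg'
  have h2 : f - g =ᵐ[m] f' - g' := hff'.sub hgg'
  filter_upwards [mslope_congr h1 (hf.add hg), mslope_congr h2 (hf.sub hg)] with x hx hy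
  unfold gam
  rw [hx, hy]

theorem gam_self {f : M → ℝ} (hf : W12 m f) : ∀ᵐ x ∂m, gam m f f x = mslope m f x ^ 2 := by
  have e1 : f + f = fun x => 2 * f x := by ext x; simp; ring
  filter_upwards [mslope_const_mul 2 hf, mslope_zero (m := m)] with x hx hy
  unfold gam
  rw [sub_self, hy, e1, hx]
  simp
  ring

theorem gam_symm {f g : M → ℝ} (hf : W12 m f) (hg : W12 m g) :
    ∀ᵐ x ∂m, gam m f g x = gam m g f x := by
  filter_upwards [mslope_neg (hf.sub hg)] with x hx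
  rw [neg_sub] at hx
  unfold gam
  rw [add_comm g f, hx]

theorem abs_gam_le {f g : M → ℝ} (hf : W12 m f) (hg : W12 m g) :
    ∀ᵐ x ∂m, |gam m f g x| ≤ mslope m f x * mslope m g x := by
  have h5 := abs_mslope_sub_le hf hg.neg
  rw [sub_neg_eq_add] at h5
  filter_upwards [mslope_add_le hf hg, mslope_sub_le hf hg, abs_mslope_sub_le hf hg, h5,
    mslope_neg hg, hf.mslope_nonneg, hg.mslope_nonneg, (hf.add hg).mslope_nonneg,
    (hf.sub hg).mslope_nonneg] with x a1 a2 a3 a4 a5 a6 a7 a8 a9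
  rw [a5] at a4
  unfold gam
  have b1 : mslope m (f + g) x ^ 2 ≤ (mslope m f x + mslope m g x) ^ 2 := by gcongr
  have b2 : mslope m (f - g) x ^ 2 ≤ (mslope m f x + mslope m g x) ^ 2 := by gcongr
  have b3 : (mslope m f x - mslope m g x) ^ 2 ≤ mslope m (f - g) x ^ 2 := by
    rw [← sq_abs (mslope m f x - mslope m g x)]; gcongr
  have b4 : (mslope m f x - mslope m g x) ^ 2 ≤ mslope m (f + g) x ^ 2 := by
    rw [← sq_abs (mslope m f x - mslope m g x)]; gcongr
  rw [abs_le]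
  constructor <;> nlinarith

theorem mslope_three (hfin : ∀ (x : M) (r : ℝ), m (Metric.ball x r) < ∞) (hQ : Quad m)
    {f g h : M → ℝ} (hf : W12 m f) (hg : W12 m g) (hh : W12 m h) :
    ∀ᵐ x ∂m, mslope m (f + g + h) x ^ 2 = mslope m (f + g) x ^ 2 + mslope m (g + h) x ^ 2 +
      mslope m (f + h) x ^ 2 - mslope m f x ^ 2 - mslope m g x ^ 2 - mslope m h x ^ 2 := by
  have h1 := parallelogram hfin hQ (hf.add hh) hg
  have h2 := parallelogram hfin hQ (hg.add hh) hf
  have h3 := parallelogram hfin hQ (hf.sub hg) hh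
  have h4 := parallelogram hfin hQ hf hg
  have e1 : f + h + g = f + g + h := by abel
  have e2 : g + h + f = f + g + h := by abel
  have e3 : f + h - g = f - g + h := by abel
  have e4 : f - g - h = -(g + h - f) := by abel
  rw [e1, e3] at h1
  rw [e2] at h2
  rw [e4] at h3
  filter_upwards [h1, h2, h3, h4, mslope_neg ((hg.add hh).sub hf)] with x a1 a2 a3 a4 a5
  rw [a5] at a3
  linarith

theorem gam_add_left (hfin : ∀ (x : M) (r : ℝ), m (Metric.ball x r) < ∞) (hQ : Quad m)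
    {f g h : M → ℝ} (hf : W12 m f) (hg : W12 m g) (hh : W12 m h) :
    ∀ᵐ x ∂m, gam m (f + g) h x = gam m f h x + gam m g h x := by
  have h2 := mslope_three hfin hQ hf hg hh.neg
  have e1 : f + g + -h = f + g - h := by abel
  have e2 : g + -h = g - h := by abel
  have e3 : f + -h = f - h := by abel
  rw [e1, e2, e3] at h2
  filter_upwards [mslope_three hfin hQ hf hg hh, h2, mslope_neg hh] with x a1 a2 a3
  unfold gam
  rw [a3] at a2
  rw [a1, a2]
  ring

theorem gam_neg_left {f g : M → ℝ} (hf : W12 m f) (hg : W12 m g) :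
    ∀ᵐ x ∂m, gam m (-f) g x = -gam m f g x := by
  have e1 : -f + g = -(f - g) := by abel
  have e2 : -f - g = -(f + g) := by abel
  filter_upwards [mslope_neg (hf.sub hg), mslope_neg (hf.add hg)] with x a1 a2
  unfold gam
  rw [e1, e2, a1, a2]
  ring

theorem gam_nat_mul (hfin : ∀ (x : M) (r : ℝ), m (Metric.ball x r) < ∞) (hQ : Quad m)
    {f g : M → ℝ} (hf : W12 m f) (hg : W12 m g) (n : ℕ) :
    ∀ᵐ x ∂m, gam m (fun y => (n : ℝ) * f y) g x = n * gam m f g x := by
  induction n with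
  | zero =>
    have e : (fun y => ((0 : ℕ) : ℝ) * f y) = 0 := by ext y; simp
    rw [e]
    filter_upwards [mslope_neg hg] with x hx
    unfold gam
    rw [zero_add, zero_sub, hx]
    simp
  | succ n ih =>
    have e : (fun y => ((n + 1 : ℕ) : ℝ) * f y) = (fun y => (n : ℝ) * f y) + f := by
      ext y; simp; ring
    rw [e]
    filter_upwards [ih, gam_add_left hfin hQ (hf.const_mul (n : ℝ)) hf hg] with x hx hy
    rw [hy, hx]
    push_cast; ring

theorem gam_rat_mul (hfin : ∀ (x : M) (r : ℝ), m (Metric.ball x r) < ∞) (hQ : Quad m)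
    {f g : M → ℝ} (hf : W12 m f) (hg : W12 m g) (q : ℚ) :
    ∀ᵐ x ∂m, gam m (fun y => (q : ℝ) * f y) g x = q * gam m f g x := by
  -- nonnegative case
  have key : ∀ q : ℚ, 0 ≤ q → ∀ᵐ x ∂m, gam m (fun y => (q : ℝ) * f y) g x = q * gam m f g x := by
    intro q hq
    have hden : (q.den : ℝ) ≠ 0 := by exact_mod_cast q.den_nz
    obtain ⟨k, hk⟩ : ∃ k : ℕ, q.num = k := Int.eq_ofNat_of_zero_le (Rat.num_nonneg.2 hq)
    have hqk : (q : ℝ) * q.den = k := by
      have h1 : q * q.den = q.num := Rat.mul_den_eq_num q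
      rw [hk] at h1
      exact_mod_cast h1
    have h1 := gam_nat_mul hfin hQ (hf.const_mul (q : ℝ)) hg q.den
    have h2 := gam_nat_mul hfin hQ hf hg k
    have e : (fun y => ((q.den : ℕ) : ℝ) * ((q : ℝ) * f y)) = fun y => (k : ℝ) * f y := by
      ext y
      rw [← hqk]; ring
    rw [e] at h1
    filter_upwards [h1, h2] with x a1 a2
    rw [a1] at a2
    have : (q.den : ℝ) * gam m (fun y => (q : ℝ) * f y) g x = (q.den : ℝ) * (q * gam m f g x) := by
      rw [a2, ← hqk]; ring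
    exact mul_left_cancel₀ hden this
  rcases le_total 0 q with hq | hq
  · exact key q hq
  · have h1 := key (-q) (by linarith)
    have e : (fun y => (q : ℝ) * f y) = -(fun y => ((-q : ℚ) : ℝ) * f y) := by
      ext y; simp
    rw [e]
    filter_upwards [h1, gam_neg_left (hf.const_mul ((-q : ℚ) : ℝ)) hg] with x a1 a2
    rw [a2, a1]
    push_cast; ring

theorem gam_const_mul (hfin : ∀ (x : M) (r : ℝ), m (Metric.ball x r) < ∞) (hQ : Quad m)
    {f g : M → ℝ} (hf : W12 m f) (hg : W12 m g) (c : ℝ) :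
    ∀ᵐ x ∂m, gam m (fun y => c * f y) g x = c * gam m f g x := by
  have h1 : ∀ᵐ x ∂m, ∀ q : ℚ, gam m (fun y => (q : ℝ) * f y) g x = q * gam m f g x := by
    rw [ae_all_iff]; intro q; exact gam_rat_mul hfin hQ hf hg q
  have h2 : ∀ᵐ x ∂m, ∀ q : ℚ, |gam m (fun y => (c - q) * f y) g x| ≤
      |c - q| * mslope m f x * mslope m g x := by
    rw [ae_all_iff]; intro q
    filter_upwards [abs_gam_le (hf.const_mul (c - q)) hg, mslope_const_mul (c - q) hf]
      with x a1 a2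
    rwa [a2] at a1
  have h3 : ∀ᵐ x ∂m, ∀ q : ℚ, gam m (fun y => c * f y) g x =
      gam m (fun y => (c - q) * f y) g x + gam m (fun y => (q : ℝ) * f y) g x := by
    rw [ae_all_iff]; intro q
    have e : (fun y => c * f y) = (fun y => (c - q) * f y) + (fun y => (q : ℝ) * f y) := by
      ext y; simp; ring
    rw [e]
    exact gam_add_left hfin hQ (hf.const_mul _) (hf.const_mul _) hg
  filter_upwards [h1, h2, h3, hf.mslope_nonneg, hg.mslope_nonneg] with x a1 a2 a3 a4 a5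
  set G := gam m f g x
  set K := mslope m f x * mslope m g x + |G| with hK
  have hK0 : 0 ≤ K := by (clear * - a4 a5; positivity)
  have h0 : |gam m (fun y => c * f y) g x - c * G| ≤ 0 := by
    refine le_of_forall_pos_le_add fun ε hε => ?_
    obtain ⟨q, hq1, hq2⟩ := exists_rat_btwn (show c - ε / (K + 1) < c by
      have : 0 < ε / (K + 1) := by (clear * - hε a4 a5; positivity)
      linarith)
    have hcq : |c - q| ≤ ε / (K + 1) := by rw [abs_le]; constructor <;> linarith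
    have e : gam m (fun y => c * f y) g x - c * G =
        gam m (fun y => (c - q) * f y) g x - (c - q) * G := by
      rw [a3 q, a1 q]; ring
    rw [e]
    refine (abs_sub _ _).trans ?_
    rw [abs_mul]
    have h6 := a2 q
    calc _ ≤ |c - q| * mslope m f x * mslope m g x + |c - q| * |G| := by gcongr
      _ = |c - q| * K := by rw [hK]; ring
      _ ≤ ε / (K + 1) * K := by gcongr
      _ = ε * (K / (K + 1)) := by ring
      _ ≤ ε * 1 := by
        gcongr
        rw [div_le_one (by (clear * - a4 a5; positivity))]; linarith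
      _ = 0 + ε := by ring
  have := abs_nonpos_iff.1 h0
  linarith

/-- chain rule -/
theorem gam_comp (hfin : ∀ (x : M) (r : ℝ), m (Metric.ball x r) < ∞) (hQ : Quad m)
    {f g : M → ℝ} (hf : W12 m f) (hg : W12 m g) {φ : ℝ → ℝ} (hφ : ContDiff ℝ 1 φ)
    (hφ0 : φ 0 = 0) {L : ℝ≥0} (hL : ∀ t, |deriv φ t| ≤ L) :
    ∀ᵐ x ∂m, gam m (fun y => φ (f y)) g x = deriv φ (f x) * gam m f g x := by
  have hφf := hf.comp hφ hφ0 hL
  have h1 : ∀ᵐ x ∂m, ∀ q : ℚ, gam m (fun y => (q : ℝ) * f y) g x = q * gam m f g x := by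
    rw [ae_all_iff]; intro q; exact gam_rat_mul hfin hQ hf hg q
  have hψ : ∀ q : ℚ, ContDiff ℝ 1 (fun t => φ t - q * t) := fun q =>
    hφ.sub (contDiff_const.mul contDiff_id)
  have hψd : ∀ (q : ℚ) t, deriv (fun t => φ t - q * t) t = deriv φ t - q := by
    intro q t
    have h1 : HasDerivAt (fun t : ℝ => (q : ℝ) * t) ((q : ℝ) * 1) t :=
      (hasDerivAt_id t).const_mul (q : ℝ)
    have h2 : HasDerivAt φ (deriv φ t) t := (hφ.differentiable (by norm_num) t).hasDerivAt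
    have h3 := (h2.sub h1).deriv
    rw [mul_one] at h3
    exact h3
  have hψL : ∀ (q : ℚ) t, |deriv (fun t => φ t - q * t) t| ≤ (L + Real.toNNReal |(q : ℝ)| : ℝ≥0) := by
    intro q t
    rw [hψd]
    refine (abs_sub _ _).trans ?_
    push_cast
    rw [Real.coe_toNNReal _ (abs_nonneg _)]
    gcongr
    exact hL t
  have hψ0 : ∀ q : ℚ, (fun t => φ t - q * t) 0 = 0 := by intro q; simp [hφ0]
  have h2 : ∀ᵐ x ∂m, ∀ q : ℚ, |gam m (fun y => φ (f y) - q * f y) g x| ≤
      |deriv φ (f x) - q| * mslope m f x * mslope m g x := by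
    rw [ae_all_iff]; intro q
    have hw := hf.comp (hψ q) (hψ0 q) (hψL q)
    filter_upwards [abs_gam_le hw hg, mslope_comp hf (hψ q) (hψ0 q) (hψL q)] with x a1 a2
    rw [hψd] at a2
    rw [a2] at a1
    exact a1
  have h3 : ∀ᵐ x ∂m, ∀ q : ℚ, gam m (fun y => φ (f y)) g x =
      gam m (fun y => φ (f y) - q * f y) g x + gam m (fun y => (q : ℝ) * f y) g x := by
    rw [ae_all_iff]; intro q
    have e : (fun y => φ (f y)) = (fun y => φ (f y) - q * f y) + (fun y => (q : ℝ) * f y) := by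
      ext y; simp
    have hw := hf.comp (hψ q) (hψ0 q) (hψL q)
    have := gam_add_left hfin hQ hw (hf.const_mul (q : ℝ)) hg
    rw [← e] at this
    exact this
  filter_upwards [h1, h2, h3, hf.mslope_nonneg, hg.mslope_nonneg] with x a1 a2 a3 a4 a5
  set G := gam m f g x
  set c := deriv φ (f x)
  set K := mslope m f x * mslope m g x + |G| with hK
  have hK0 : 0 ≤ K := by (clear * - a4 a5; positivity)
  have h0 : |gam m (fun y => φ (f y)) g x - c * G| ≤ 0 := by
    refine le_of_forall_pos_le_add fun ε hε => ?_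
    obtain ⟨q, hq1, hq2⟩ := exists_rat_btwn (show c - ε / (K + 1) < c by
      have : 0 < ε / (K + 1) := by (clear * - hε a4 a5; positivity)
      linarith)
    have hcq : |c - q| ≤ ε / (K + 1) := by rw [abs_le]; constructor <;> linarith
    have e : gam m (fun y => φ (f y)) g x - c * G =
        gam m (fun y => φ (f y) - q * f y) g x - (c - q) * G := by
      rw [a3 q, a1 q]; ring
    rw [e]
    refine (abs_sub _ _).trans ?_
    rw [abs_mul]
    have h6 := a2 q
    calc _ ≤ |c - q| * mslope m f x * mslope m g x + |c - q| * |G| := by gcongr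
      _ = |c - q| * K := by rw [hK]; ring
      _ ≤ ε / (K + 1) * K := by gcongr
      _ = ε * (K / (K + 1)) := by ring
      _ ≤ ε * 1 := by
        gcongr
        rw [div_le_one (by (clear * - a4 a5; positivity))]; linarith
      _ = 0 + ε := by ring
  have := abs_nonpos_iff.1 h0
  linarith

end Vale.Agent.P233.Met
end

section

open MeasureTheory Filter Topology Set
open scoped ENNReal NNReal

namespace Vale.Agent.P233.Met

variable {M : Type*} [MetricSpace M] [MeasurableSpace M] {m : Measure M}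

set_option linter.unusedSectionVars false

theorem sq_integral_eq {f : M → ℝ} (hf : MemLp f 2 m) :
    ∫ x, f x ^ 2 ∂m = (eLpNorm f 2 m).toReal ^ 2 := by
  rw [← Lp.norm_toLp f hf, ← real_inner_self_eq_norm_sq, L2.inner_def]
  refine integral_congr_ae ?_
  filter_upwards [hf.coeFn_toLp] with x hx
  rw [hx]
  simp [sq]

theorem eLpNorm_le_of_sq {f : M → ℝ} (hf : MemLp f 2 m) {c : ℝ≥0}
    (h : ∫ x, f x ^ 2 ∂m ≤ (c : ℝ) ^ 2) : eLpNorm f 2 m ≤ c := by
  rw [sq_integral_eq hf] at h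
  have h1 : (eLpNorm f 2 m).toReal ≤ c := (sq_le_sq₀ ENNReal.toReal_nonneg c.coe_nonneg).1 h
  rw [← ENNReal.ofReal_toReal hf.eLpNorm_lt_top.ne, ← ENNReal.ofReal_coe_nnreal]
  exact ENNReal.ofReal_le_ofReal h1

theorem sq_le_of_eLpNorm {f : M → ℝ} (hf : MemLp f 2 m) {c : ℝ≥0}
    (h : eLpNorm f 2 m ≤ c) : ∫ x, f x ^ 2 ∂m ≤ (c : ℝ) ^ 2 := by
  rw [sq_integral_eq hf]
  have h1 : (eLpNorm f 2 m).toReal ≤ c := by
    have := ENNReal.toReal_mono (by simp) h
    simpa using this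
  have h0 := ENNReal.toReal_nonneg (a := eLpNorm f 2 m)
  gcongr

theorem tendsto_sq_of_eLpNorm {u : ℕ → M → ℝ} {f : M → ℝ} (hu : ∀ n, MemLp (u n) 2 m)
    (hf : MemLp f 2 m) (h : Tendsto (fun n => eLpNorm (u n - f) 2 m) atTop (𝓝 0)) :
    Tendsto (fun n => ∫ x, (u n x - f x) ^ 2 ∂m) atTop (𝓝 0) := by
  have h1 : ∀ n, ∫ x, (u n x - f x) ^ 2 ∂m = (eLpNorm (u n - f) 2 m).toReal ^ 2 := fun n =>
    sq_integral_eq ((hu n).sub hf)
  simp_rw [h1]
  have h2 := ((ENNReal.tendsto_toReal (by simp)).comp h).pow 2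
  simpa [Function.comp_def] using h2

theorem tendsto_norm_sq_of_eLpNorm {u : ℕ → M → ℝ} {f : M → ℝ} (hu : ∀ n, MemLp (u n) 2 m)
    (hf : MemLp f 2 m) (h : Tendsto (fun n => eLpNorm (u n - f) 2 m) atTop (𝓝 0)) :
    Tendsto (fun n => ∫ x, (u n x) ^ 2 ∂m) atTop (𝓝 (∫ x, (f x) ^ 2 ∂m)) := by
  have h1 : ∀ n, ∫ x, (u n x) ^ 2 ∂m = ‖(hu n).toLp‖ ^ 2 := fun n => by
    rw [sq_integral_eq (hu n), Lp.norm_toLp]
  have h2 : ∫ x, (f x) ^ 2 ∂m = ‖hf.toLp‖ ^ 2 := by
    rw [sq_integral_eq hf, Lp.norm_toLp]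
  simp_rw [h1]
  rw [h2]
  have h3 : Tendsto (fun n => (hu n).toLp) atTop (𝓝 hf.toLp) := by
    rw [Lp.tendsto_Lp_iff_tendsto_eLpNorm']
    refine h.congr fun n => eLpNorm_congr_ae ?_
    filter_upwards [(hu n).coeFn_toLp, hf.coeFn_toLp] with x hx hy
    simp [hx, hy]
  exact (h3.norm).pow 2

variable [BorelSpace M]

/-- lower semicontinuity of the energy -/
theorem Q_le_of_approx {f : M → ℝ} (hf : MemLp f 2 m) {c : ℝ} (hc : 0 ≤ c)
    (h : ∀ ε : ℝ≥0∞, ε ≠ 0 → ∃ f' : M → ℝ, W12 m f' ∧ eLpNorm (f' - f) 2 m ≤ ε ∧ Q m f' ≤ c) :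
    W12 m f ∧ Q m f ≤ c := by
  have h1 : ∃ G, RSlope m f G ∧ eLpNorm G 2 m ≤ (Real.toNNReal (Real.sqrt c)) := by
    refine exists_rSlope_of_bounded hf fun ε hε => ?_
    obtain ⟨f', h1, h2, h3⟩ := h ε hε
    refine ⟨f', mslope m f', h1.rSlope, h2, eLpNorm_le_of_sq h1.memLp_mslope ?_⟩
    rw [Real.coe_toNNReal _ (Real.sqrt_nonneg _), Real.sq_sqrt hc]
    exact h3
  obtain ⟨G, hG, hGc⟩ := h1
  have hW : W12 m f := ⟨G, hG⟩
  refine ⟨hW, ?_⟩
  have h2 := sq_le_of_eLpNorm hG.2.1 hGc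
  rw [Real.coe_toNNReal _ (Real.sqrt_nonneg _), Real.sq_sqrt hc] at h2
  refine le_trans ?_ h2
  unfold Q
  refine integral_mono_ae (sq_integrable hW) hG.2.1.integrable_sq ?_
  filter_upwards [hG.mslope_le, hW.mslope_nonneg] with x hx hy
  gcongr

/-- completeness of `W^{1,2}` -/
theorem W12_complete (u : ℕ → M → ℝ) (hu : ∀ n, W12 m (u n))
    (hc : ∀ ε > 0, ∃ N, ∀ n ≥ N, ∀ k ≥ N,
      ∫ x, (u n x - u k x) ^ 2 ∂m + Q m (u n - u k) < ε) :
    ∃ f : M → ℝ, W12 m f ∧
      Tendsto (fun n => ∫ x, (u n x - f x) ^ 2 ∂m + Q m (u n - f)) atTop (𝓝 0) := by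
  set U : ℕ → Lp ℝ 2 m := fun n => (hu n).memLp.toLp with hU
  have hUd : ∀ n k, ‖U n - U k‖ ^ 2 = ∫ x, (u n x - u k x) ^ 2 ∂m := by
    intro n k
    rw [hU]
    simp only
    rw [← MemLp.toLp_sub, Lp.norm_toLp]
    exact (sq_integral_eq ((hu n).memLp.sub (hu k).memLp)).symm
  have hcau : CauchySeq U := by
    rw [Metric.cauchySeq_iff]
    intro ε hε
    obtain ⟨N, hN⟩ := hc (ε ^ 2) (by positivity)
    refine ⟨N, fun n hn k hk => ?_⟩
    rw [dist_eq_norm]
    have h1 := hN n hn k hk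
    have h2 : ‖U n - U k‖ ^ 2 < ε ^ 2 := by
      rw [hUd]
      have := Q_nonneg (m := m) (u n - u k)
      linarith
    exact lt_of_pow_lt_pow_left₀ 2 hε.le h2
  obtain ⟨F, hF⟩ := cauchySeq_tendsto_of_complete hcau
  have hFm : MemLp F 2 m := Lp.memLp F
  have hlim : Tendsto (fun n => eLpNorm (u n - ⇑F) 2 m) atTop (𝓝 0) := by
    rw [Lp.tendsto_Lp_iff_tendsto_eLpNorm'] at hF
    refine hF.congr fun n => eLpNorm_congr_ae ?_
    filter_upwards [(hu n).memLp.coeFn_toLp] with x hx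
    simp only [Pi.sub_apply, hU]
    rw [hx]
  -- the key estimate
  have key : ∀ ε > 0, ∃ N, ∀ n ≥ N, W12 m (u n - ⇑F) ∧ Q m (u n - ⇑F) ≤ ε := by
    intro ε hε
    obtain ⟨N, hN⟩ := hc ε hε
    refine ⟨N, fun n hn => ?_⟩
    refine Q_le_of_approx ((hu n).memLp.sub hFm) hε.le fun δ hδ => ?_
    have e1 := (hlim.eventually (ge_mem_nhds (pos_iff_ne_zero.2 hδ)))
    obtain ⟨k, hk1, hk2⟩ := (e1.and (eventually_ge_atTop N)).exists
    refine ⟨u n - u k, (hu n).sub (hu k), ?_, ?_⟩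
    · have e : u n - u k - (u n - ⇑F) = -(u k - ⇑F) := by abel
      rw [e, eLpNorm_neg]
      exact hk1
    · have h1 := hN n hn k hk2
      have h2 : 0 ≤ ∫ x, (u n x - u k x) ^ 2 ∂m := integral_nonneg fun x => sq_nonneg _
      linarith
  obtain ⟨N, hN⟩ := key 1 one_pos
  have hFW : W12 m ⇑F := by
    have h1 := (hu N).sub (hN N le_rfl).1
    have e : u N - (u N - ⇑F) = ⇑F := by abel
    rwa [e] at h1
  refine ⟨F, hFW, ?_⟩
  have h1 := tendsto_sq_of_eLpNorm (fun n => (hu n).memLp) hFm hlim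
  have h2 : Tendsto (fun n => Q m (u n - ⇑F)) atTop (𝓝 0) := by
    rw [Metric.tendsto_atTop]
    intro ε hε
    obtain ⟨N, hN⟩ := key (ε / 2) (by positivity)
    refine ⟨N, fun n hn => ?_⟩
    rw [Real.dist_eq, sub_zero, abs_of_nonneg (Q_nonneg _)]
    linarith only [(hN n hn).2, hε]
  simpa using h1.add h2

/-- density of bounded Lipschitz functions in energy -/
theorem dense_lip (hQ : Quad m) {f : M → ℝ} (hf : W12 m f) {ε : ℝ} (hε : 0 < ε) :
    ∃ u g : M → ℝ, Good m u g ∧ (∃ C, ∀ x, |u x| ≤ C) ∧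
      ∫ x, (f x - u x) ^ 2 ∂m + Q m (f - u) < ε := by
  -- approximating sequence
  have hex : ∀ k : ℕ, ∃ p : (M → ℝ) × (M → ℝ), Good m p.1 p.2 ∧ (∃ C, ∀ x, |p.1 x| ≤ C) ∧
      eLpNorm (p.1 - f) 2 m ≤ ((k : ℝ≥0∞) + 1)⁻¹ ∧
      eLpNorm (p.2 - mslope m f) 2 m ≤ ((k : ℝ≥0∞) + 1)⁻¹ := by
    intro k
    obtain ⟨u, g, h1, h2, h3, h4⟩ := hf.rSlope.exists_bdd (ε := ((k : ℝ≥0∞) + 1)⁻¹)
      (by simp [ENNReal.inv_eq_zero])
    exact ⟨(u, g), h1, h2, h3, h4⟩
  choose p hp1 hp2 hp3 hp4 using hex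
  have hlim0 : Tendsto (fun k : ℕ => ((k : ℝ≥0∞) + 1)⁻¹) atTop (𝓝 0) := by
    have := ENNReal.tendsto_inv_nat_nhds_zero
    have h2 := this.comp (tendsto_add_atTop_nat 1)
    simpa [Function.comp_def] using h2
  have l1 : Tendsto (fun k => eLpNorm ((p k).1 - f) 2 m) atTop (𝓝 0) :=
    tendsto_of_tendsto_of_tendsto_of_le_of_le tendsto_const_nhds hlim0 (fun _ => zero_le) hp3
  have l2 : Tendsto (fun k => eLpNorm ((p k).2 - mslope m f) 2 m) atTop (𝓝 0) :=
    tendsto_of_tendsto_of_tendsto_of_le_of_le tendsto_const_nhds hlim0 (fun _ => zero_le) hp4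
  have hW : ∀ k, W12 m (p k).1 := fun k => ⟨_, (hp1 k).rSlope⟩
  have n1 := tendsto_sq_of_eLpNorm (fun k => (hp1 k).2.1) hf.memLp l1
  have n2 := tendsto_norm_sq_of_eLpNorm (fun k => (hp1 k).2.2.1) hf.memLp_mslope l2
  have hQle : ∀ k, Q m (p k).1 ≤ ∫ x, ((p k).2 x) ^ 2 ∂m := by
    intro k
    unfold Q
    refine integral_mono_ae (sq_integrable (hW k)) (hp1 k).2.2.1.integrable_sq ?_
    filter_upwards [(hp1 k).rSlope.mslope_le, (hW k).mslope_nonneg] with x hx hy
    gcongr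
  -- choose k with small L² error, small gradient excess, and small energy of the difference
  by_contra hcon
  push Not at hcon
  have h1 : ∀ᶠ k in atTop, ∫ x, ((p k).1 x - f x) ^ 2 ∂m < ε / 2 :=
    n1.eventually (gt_mem_nhds (by positivity))
  have h2 : ∀ᶠ k in atTop, ∫ x, ((p k).2 x) ^ 2 ∂m < Q m f + ε / 8 :=
    n2.eventually (gt_mem_nhds (by unfold Q; linarith))
  have h3 : ∀ᶠ k in atTop, Q m ((p k).1 + f) ≤ 4 * Q m f - ε / 4 := by
    filter_upwards [h1, h2] with k hk1 hk2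
    have h4 := hcon (p k).1 (p k).2 (hp1 k) (hp2 k)
    have h5 := hQ (p k).1 f (hW k) hf
    have h6 : Q m (f - (p k).1) = Q m ((p k).1 - f) := Q_sub_comm hf (hW k)
    have h7 : ∫ x, (f x - (p k).1 x) ^ 2 ∂m = ∫ x, ((p k).1 x - f x) ^ 2 ∂m := by
      congr 1; ext x; ring
    rw [h6, h7] at h4
    have h8 := hQle k
    linarith only [h8, h5, h4, hk2, hk1]
  have e : (fun x => 2 * f x) = f + f := by ext x; simp; ring
  have hc0 : 0 ≤ 4 * Q m f - ε / 4 := by
    obtain ⟨k, hk⟩ := h3.exists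
    exact (Q_nonneg _).trans hk
  have h4 := Q_le_of_approx (m := m) (hf.memLp.add hf.memLp) hc0 fun δ hδ => by
    have e1 := (l1.eventually (ge_mem_nhds (pos_iff_ne_zero.2 hδ)))
    obtain ⟨k, hk1, hk2⟩ := (e1.and h3).exists
    refine ⟨(p k).1 + f, (hW k).add hf, ?_, hk2⟩
    have e2 : (p k).1 + f - (f + f) = (p k).1 - f := by abel
    rw [e2]
    exact hk1
  have h5 := Q_const_mul 2 hf
  rw [e] at h5
  rw [h5] at h4
  linarith only [h4.2, hε]

end Vale.Agent.P233.Met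
end

section

open MeasureTheory Filter Topology
open scoped ENNReal NNReal

namespace Vale.Agent.P233

section
variable {M : Type*} [MetricSpace M] [MeasurableSpace M] [BorelSpace M] {m : Measure M}

theorem sob_add_mem {f g : M →ₘ[m] ℝ} (hf : f ∈ (sob m).W) (hg : g ∈ (sob m).W) :
    f + g ∈ (sob m).W :=
  mem_sob_iff.2 (((mem_sob_iff.1 hf).add (mem_sob_iff.1 hg)).congr (AEEqFun.coeFn_add f g).symm)

theorem sob_smul_mem (c : ℝ) {f : M →ₘ[m] ℝ} (hf : f ∈ (sob m).W) : c • f ∈ (sob m).W :=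
  mem_sob_iff.2 (((mem_sob_iff.1 hf).const_mul c).congr (AEEqFun.coeFn_smul c f).symm)

theorem sob_sub_mem {f g : M →ₘ[m] ℝ} (hf : f ∈ (sob m).W) (hg : g ∈ (sob m).W) :
    f - g ∈ (sob m).W :=
  mem_sob_iff.2 (((mem_sob_iff.1 hf).sub (mem_sob_iff.1 hg)).congr (AEEqFun.coeFn_sub f g).symm)

/-- the carre du champ in terms of functions -/
theorem sob_Γ_ae {f g : M →ₘ[m] ℝ} (hf : f ∈ (sob m).W) (hg : g ∈ (sob m).W) :
    ⇑((sob m).Γ f g) =ᵐ[m] Met.gam m f g := by
  have e : (sob m).Γ f g = (4 : ℝ)⁻¹ • (slope (f + g) ^ 2 - slope (f - g) ^ 2) := rfl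
  rw [e]
  filter_upwards [smul_ae (slope (f + g) ^ 2 - slope (f - g) ^ 2) (4 : ℝ)⁻¹,
    sub_ae (slope (f + g) ^ 2) (slope (f - g) ^ 2), sq_ae (slope (f + g)), sq_ae (slope (f - g)),
    slope_ae (sob_add_mem hf hg), slope_ae (sob_sub_mem hf hg),
    Met.mslope_congr (AEEqFun.coeFn_add f g) (mem_sob_iff.1 (sob_add_mem hf hg)),
    Met.mslope_congr (AEEqFun.coeFn_sub f g) (mem_sob_iff.1 (sob_sub_mem hf hg))]
    with x h1 h2 h3 h4 h5 h6 h7 h8
  rw [h1, h2, h3, h4, h5, h6, h7, h8]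
  unfold Met.gam
  ring

theorem sob_Γ_self_ae {f : M →ₘ[m] ℝ} (hf : f ∈ (sob m).W) :
    ∀ᵐ x ∂m, (sob m).Γ f f x = Met.mslope m f x ^ 2 := by
  filter_upwards [sob_Γ_ae hf hf, Met.gam_self (mem_sob_iff.1 hf)] with x h1 h2
  rw [h1, h2]

theorem sob_nrm2 {f : M →ₘ[m] ℝ} (hf : f ∈ (sob m).W) :
    (sob m).nrm2 f = ∫ x, f x ^ 2 ∂m + Met.Q m f := by
  unfold Calc.nrm2 I Met.Q
  congr 1
  · exact integral_congr_ae (sq_ae f)
  · exact integral_congr_ae (sob_Γ_self_ae hf)

theorem sob_nrm2_sub {f : M →ₘ[m] ℝ} (hf : f ∈ (sob m).W) {u : M → ℝ} {v : M →ₘ[m] ℝ}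
    (hv : v ∈ (sob m).W) (huv : ⇑v =ᵐ[m] u) :
    (sob m).nrm2 (f - v) = ∫ x, (f x - u x) ^ 2 ∂m + Met.Q m (f - u) := by
  have h1 := sob_sub_mem hf hv
  rw [sob_nrm2 h1]
  have h2 : ⇑(f - v) =ᵐ[m] ⇑f - u := by
    filter_upwards [AEEqFun.coeFn_sub f v, huv] with x hx hy
    rw [hx]; simp [hy]
  congr 1
  · refine integral_congr_ae ?_
    filter_upwards [h2] with x hx
    rw [hx, Pi.sub_apply]
  · unfold Met.Q
    refine integral_congr_ae ?_
    filter_upwards [Met.mslope_congr h2 (mem_sob_iff.1 h1)] with x hx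
    rw [hx]

/-- class of a Sobolev function -/
theorem exists_class {u : M → ℝ} (hu : Met.W12 m u) :
    ∃ v ∈ (sob m).W, (⇑(v : M →ₘ[m] ℝ) : M → ℝ) =ᵐ[m] u := by
  have hae := AEEqFun.coeFn_mk u hu.memLp.1
  exact ⟨AEEqFun.mk u hu.memLp.1, mem_sob_iff.2 (hu.congr hae.symm), hae⟩

theorem slope_sq_integral {f : M →ₘ[m] ℝ} (hf : f ∈ (sob m).W) {u : M → ℝ} (hu : ⇑f =ᵐ[m] u) :
    ∫ x, (slope f ^ 2) x ∂m = Met.Q m u := by
  unfold Met.Q
  refine integral_congr_ae ?_
  filter_upwards [sq_ae (slope f), slope_ae hf, Met.mslope_congr hu (mem_sob_iff.1 hf)]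
    with x h1 h2 h3
  rw [h1, h2, h3]

theorem quad_of (hq : ∀ f ∈ (sob m).W, ∀ g ∈ (sob m).W,
      ∫ x, (slope (f + g) ^ 2) x ∂m + ∫ x, (slope (f - g) ^ 2) x ∂m
        = 2 * ∫ x, (slope f ^ 2) x ∂m + 2 * ∫ x, (slope g ^ 2) x ∂m) : Met.Quad m := by
  intro f g hf hg
  obtain ⟨F, hF, hFf⟩ := exists_class hf
  obtain ⟨G, hG, hGg⟩ := exists_class hg
  have h1 := hq F hF G hG
  have e1 : ⇑(F + G) =ᵐ[m] f + g := by
    filter_upwards [AEEqFun.coeFn_add F G, hFf, hGg] with x h1 h2 h3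
    rw [h1]; simp [h2, h3]
  have e2 : ⇑(F - G) =ᵐ[m] f - g := by
    filter_upwards [AEEqFun.coeFn_sub F G, hFf, hGg] with x h1 h2 h3
    rw [h1]; simp [h2, h3]
  rw [slope_sq_integral (sob_add_mem hF hG) e1, slope_sq_integral (sob_sub_mem hF hG) e2,
    slope_sq_integral hF hFf, slope_sq_integral hG hGg] at h1
  exact h1

end

variable {M : Type*} [MetricSpace M] [MeasurableSpace M] [BorelSpace M]
  [SecondCountableTopology M] {m : Measure M}

/-- the Sobolev calculus satisfies the axioms -/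
theorem isDir_sob (hfin : ∀ (x : M) (r : ℝ), m (Metric.ball x r) < ∞)
    (hq : ∀ f ∈ (sob m).W, ∀ g ∈ (sob m).W,
      ∫ x, (slope (f + g) ^ 2) x ∂m + ∫ x, (slope (f - g) ^ 2) x ∂m
        = 2 * ∫ x, (slope f ^ 2) x ∂m + 2 * ∫ x, (slope g ^ 2) x ∂m) :
    IsDir (sob m) where
  zero_mem := mem_sob_iff.2 (Met.W12.zero.congr AEEqFun.coeFn_zero.symm)
  add_mem f hf g hg := sob_add_mem hf hg
  smul_mem c f hf := sob_smul_mem c hf
  memLp f hf := (mem_sob_iff.1 hf).memLp
  symm f hf g hg := by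
    rw [eq_iff_ae]
    filter_upwards [sob_Γ_ae hf hg, sob_Γ_ae hg hf,
      Met.gam_symm (mem_sob_iff.1 hf) (mem_sob_iff.1 hg)] with x h1 h2 h3
    rw [h1, h2, h3]
  add_left f hf g hg h hh := by
    have hf' := mem_sob_iff.1 hf
    have hg' := mem_sob_iff.1 hg
    have hh' := mem_sob_iff.1 hh
    rw [eq_iff_ae]
    filter_upwards [sob_Γ_ae (sob_add_mem hf hg) hh, sob_Γ_ae hf hh, sob_Γ_ae hg hh,
      add_ae ((sob m).Γ f h) ((sob m).Γ g h),
      Met.gam_congr (mem_sob_iff.1 (sob_add_mem hf hg)) hh' (AEEqFun.coeFn_add f g)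
        Filter.EventuallyEq.rfl,
      Met.gam_add_left hfin (quad_of hq) hf' hg' hh'] with x h1 h2 h3 h4 h5 h6
    rw [h1, h4, h2, h3, h5, h6]
  smul_left c f hf g hg := by
    have hf' := mem_sob_iff.1 hf
    have hg' := mem_sob_iff.1 hg
    rw [eq_iff_ae]
    filter_upwards [sob_Γ_ae (sob_smul_mem c hf) hg, sob_Γ_ae hf hg,
      smul_ae ((sob m).Γ f g) c,
      Met.gam_congr (mem_sob_iff.1 (sob_smul_mem c hf)) hg' (AEEqFun.coeFn_smul c f)
        Filter.EventuallyEq.rfl,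
      Met.gam_const_mul hfin (quad_of hq) hf' hg' c] with x h1 h2 h3 h5 h6
    rw [h1, h3, h2, h5]
    exact h6
  nonneg f hf := by
    rw [nonneg_iff_ae]
    filter_upwards [sob_Γ_self_ae hf] with x h1
    rw [h1]; positivity
  mem1 f hf := by
    refine (memLp_congr_ae (sob_Γ_self_ae hf)).2 ?_
    rw [memLp_one_iff_integrable]
    exact Met.sq_integrable (mem_sob_iff.1 hf)
  complete u hu hc := by
    obtain ⟨f, hf, hlim⟩ := Met.W12_complete (m := m) (fun n => ⇑(u n))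
      (fun n => mem_sob_iff.1 (hu n)) (by
        intro ε hε
        obtain ⟨N, hN⟩ := hc ε hε
        refine ⟨N, fun n hn k hk => ?_⟩
        have h1 := hN n hn k hk
        rwa [sob_nrm2_sub (hu n) (hu k) Filter.EventuallyEq.rfl] at h1)
    obtain ⟨F, hF, hFf⟩ := exists_class hf
    refine ⟨F, hF, hlim.congr fun n => ?_⟩
    exact (sob_nrm2_sub (hu n) hF hFf).symm
  chain f hf φ φ' hφ hφ' hd h0 hK := by
    have hf' := mem_sob_iff.1 hf
    obtain ⟨K, hK⟩ := hK
    have hder : deriv φ = φ' := funext fun t => (hd t).deriv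
    have hC1 : ContDiff ℝ 1 φ := by
      rw [contDiff_one_iff_deriv]
      exact ⟨fun t => (hd t).differentiableAt, by rw [hder]; exact hφ'⟩
    have hL : ∀ t, |deriv φ t| ≤ (Real.toNNReal K : ℝ) := by
      intro t
      rw [hder]
      exact (hK t).trans (Real.le_coe_toNNReal K)
    have hW := hf'.comp hC1 h0 hL
    have hae : (fun x => φ (f x)) =ᵐ[m] ⇑(AEEqFun.comp φ hφ f) :=
      (AEEqFun.coeFn_comp φ hφ f).symm
    have hmem : AEEqFun.comp φ hφ f ∈ (sob m).W := mem_sob_iff.2 (hW.congr hae)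
    refine ⟨hmem, fun g hg => ?_⟩
    have hg' := mem_sob_iff.1 hg
    rw [eq_iff_ae]
    filter_upwards [sob_Γ_ae hmem hg, sob_Γ_ae hf hg,
      mul_ae (AEEqFun.comp φ' hφ' f) ((sob m).Γ f g), AEEqFun.coeFn_comp φ' hφ' f,
      Met.gam_congr hW hg' hae Filter.EventuallyEq.rfl,
      Met.gam_comp hfin (quad_of hq) hf' hg' hC1 h0 hL] with x h1 h2 h3 h4 h5 h6
    rw [h1, h3, h4, h2, ← h5, h6, hder]
    rfl
  dense_L2 f hf ε hε := dense_L2_sob hfin f hf ε hε

/-- cut-off functions -/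
theorem sob_cutoff (hfin : ∀ (x : M) (r : ℝ), m (Metric.ball x r) < ∞) :
    ∃ η : ℕ → M →ₘ[m] ℝ, (∀ k, η k ∈ (sob m).W ∧ 0 ≤ η k ∧ η k ≤ 1 ∧
      (sob m).Γ (η k) (η k) ≤ ((k : ℝ) + 1)⁻¹ • 1) ∧ (∀ k, η k ≤ η (k + 1)) ∧
      ∀ᵐ x ∂m, Tendsto (fun k => η k x) atTop (𝓝 1) := by
  rcases isEmpty_or_nonempty M with hM | ⟨⟨x₀⟩⟩
  · have h0 : (0 : M →ₘ[m] ℝ) ∈ (sob m).W :=
      mem_sob_iff.2 (Met.W12.zero.congr AEEqFun.coeFn_zero.symm)
    refine ⟨fun _ => 0, fun k => ⟨h0, le_rfl, ?_, ?_⟩, fun k => le_rfl, ?_⟩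
    · rw [le_iff_ae]; filter_upwards with x; exact (hM.false x).elim
    · rw [le_iff_ae]; filter_upwards with x; exact (hM.false x).elim
    · filter_upwards with x; exact (hM.false x).elim
  set w : ℕ → M → ℝ := fun k x => max 0 (min 1 (2 - dist x x₀ / ((k : ℝ) + 1))) with hw
  have hk0 : ∀ k : ℕ, (0 : ℝ) < (k : ℝ) + 1 := fun k => by positivity
  have hlip : ∀ k : ℕ, LipschitzWith (Real.toNNReal ((k : ℝ) + 1)⁻¹) (w k) := by
    intro k
    have h1 : LipschitzWith (Real.toNNReal ((k : ℝ) + 1)⁻¹)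
        (fun x : M => 2 - dist x x₀ / ((k : ℝ) + 1)) := by
      refine LipschitzWith.of_dist_le_mul fun x y => ?_
      rw [Real.dist_eq, Real.coe_toNNReal _ (inv_nonneg.2 (hk0 k).le)]
      have e : 2 - dist x x₀ / ((k : ℝ) + 1) - (2 - dist y x₀ / ((k : ℝ) + 1)) =
          ((k : ℝ) + 1)⁻¹ * (dist y x₀ - dist x x₀) := by ring
      rw [e, abs_mul, abs_of_nonneg (inv_nonneg.2 (hk0 k).le)]
      refine mul_le_mul_of_nonneg_left ?_ (inv_nonneg.2 (hk0 k).le)
      rw [dist_comm x y]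
      exact abs_dist_sub_le y x x₀
    exact (h1.const_min 1).const_max 0
  have hw0 : ∀ k x, 0 ≤ w k x := fun k x => le_max_left _ _
  have hw1 : ∀ k x, w k x ≤ 1 := fun k x => max_le zero_le_one (min_le_left _ _)
  have hsupp : ∀ (k : ℕ) (x : M), x ∉ Metric.ball x₀ (2 * ((k : ℝ) + 1)) → w k x = 0 := by
    intro k x hx
    rw [Metric.mem_ball, not_lt] at hx
    have h1 : 2 ≤ dist x x₀ / ((k : ℝ) + 1) := by
      rw [le_div_iff₀ (hk0 k)]; exact hx
    exact max_eq_left ((min_le_right _ _).trans (by linarith))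
  have hgood : ∀ k, Met.Good m (w k) _ := fun k =>
    Met.good_of_bounded_support hfin (hlip k) (hsupp k)
  have hW : ∀ k, Met.W12 m (w k) := fun k => ⟨_, (hgood k).rSlope⟩
  choose η hη1 hη2 using fun k => exists_class (hW k)
  refine ⟨η, fun k => ⟨hη1 k, ?_, ?_, ?_⟩, fun k => ?_, ?_⟩
  · rw [nonneg_iff_ae]
    filter_upwards [hη2 k] with x hx
    rw [hx]; exact hw0 k x
  · rw [le_iff_ae]
    filter_upwards [hη2 k, one_ae (M := M) (m := m)] with x hx hy
    rw [hx, hy]; exact hw1 k x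
  · have h1 := slope_le_of_lipschitz hfin (hη1 k) (hη2 k) (hlip k)
    rw [Real.coe_toNNReal _ (inv_nonneg.2 (hk0 k).le)] at h1
    rw [le_iff_ae] at h1 ⊢
    filter_upwards [h1, sob_Γ_self_ae (hη1 k), slope_ae (hη1 k),
      smul_ae (1 : M →ₘ[m] ℝ) ((k : ℝ) + 1)⁻¹, one_ae (M := M) (m := m),
      (mem_sob_iff.1 (hη1 k)).mslope_nonneg] with x a1 a2 a3 a4 a5 a6
    rw [a3, a4, a5, mul_one] at a1
    rw [a2, a4, a5, mul_one]
    have h2 : ((k : ℝ) + 1)⁻¹ ≤ 1 := inv_le_one_of_one_le₀ (by linarith [Nat.cast_nonneg (α := ℝ) k])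
    have h3 : (0 : ℝ) ≤ ((k : ℝ) + 1)⁻¹ := inv_nonneg.2 (hk0 k).le
    linarith only [mul_nonneg (sub_nonneg.2 h2) (sub_nonneg.2 h3), mul_nonneg (sub_nonneg.2 a1) (sub_nonneg.2 h3), mul_nonneg (sub_nonneg.2 a1) (sub_nonneg.2 a6)]
  · rw [le_iff_ae]
    filter_upwards [hη2 k, hη2 (k + 1)] with x hx hy
    rw [hx, hy]
    simp only [hw]
    refine max_le_max le_rfl (min_le_min le_rfl ?_)
    push_cast
    have h1 : dist x x₀ / ((k : ℝ) + 1 + 1) ≤ dist x x₀ / ((k : ℝ) + 1) :=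
      div_le_div_of_nonneg_left dist_nonneg (hk0 k) (by linarith)
    linarith
  · filter_upwards [ae_all_iff.2 hη2] with x hx
    obtain ⟨N, hN⟩ := exists_nat_ge (dist x x₀)
    refine tendsto_const_nhds.congr' ?_
    filter_upwards [eventually_ge_atTop N] with k hk
    rw [hx k]
    simp only [hw]
    have h1 : dist x x₀ / ((k : ℝ) + 1) ≤ 1 := by
      rw [div_le_one (hk0 k)]
      have h2 : (N : ℝ) ≤ k := by exact_mod_cast hk
      linarith
    rw [min_eq_left (by linarith), max_eq_right zero_le_one]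

theorem isGamma_sob (hfin : ∀ (x : M) (r : ℝ), m (Metric.ball x r) < ∞)
    (hq : ∀ f ∈ (sob m).W, ∀ g ∈ (sob m).W,
      ∫ x, (slope (f + g) ^ 2) x ∂m + ∫ x, (slope (f - g) ^ 2) x ∂m
        = 2 * ∫ x, (slope f ^ 2) x ∂m + 2 * ∫ x, (slope g ^ 2) x ∂m)
    (hs : ∀ f ∈ (sob m).W, slope f ≤ 1 → ∃ u : M → ℝ, LipschitzWith 1 u ∧ f =ᵐ[m] u) :
    IsGamma (sob m) where
  toIsDir := isDir_sob hfin hq
  dense_lip f hf ε hε := by
    obtain ⟨u, g, h1, ⟨C, hC⟩, h3⟩ := Met.dense_lip (quad_of hq) (mem_sob_iff.1 hf) hε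
    obtain ⟨v, hv, hvu⟩ := exists_class (⟨_, h1.rSlope⟩ : Met.W12 m u)
    obtain ⟨K, hK⟩ := h1.1
    refine ⟨v, hv, ?_, ?_, ?_⟩
    · rw [mem_top_iff]
      refine ⟨C, ?_⟩
      filter_upwards [hvu] with x hx
      rw [hx]; exact hC x
    · rw [mem_top_iff]
      refine ⟨(K : ℝ) ^ 2, ?_⟩
      have h4 := slope_le_of_lipschitz hfin hv hvu hK
      rw [le_iff_ae] at h4
      filter_upwards [h4, sob_Γ_self_ae hv, slope_ae hv,
        smul_ae (1 : M →ₘ[m] ℝ) (K : ℝ), one_ae (M := M) (m := m),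
        (mem_sob_iff.1 hv).mslope_nonneg] with x a1 a2 a3 a4 a5 a6
      rw [a3, a4, a5, mul_one] at a1
      rw [a2, abs_of_nonneg (sq_nonneg _)]
      gcongr
    · rw [sob_nrm2_sub hf hv hvu]
      exact h3
  cutoff := sob_cutoff hfin
  lip_iff f hf := by
    constructor
    · rintro ⟨u, ⟨K, hK⟩, ⟨C, hC⟩, hfu⟩
      refine ⟨?_, ?_⟩
      · rw [mem_top_iff]
        refine ⟨C, ?_⟩
        filter_upwards [hfu] with x hx
        rw [hx]; exact hC x
      · rw [mem_top_iff]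
        refine ⟨(K : ℝ) ^ 2, ?_⟩
        have h4 := slope_le_of_lipschitz hfin hf hfu hK
        rw [le_iff_ae] at h4
        filter_upwards [h4, sob_Γ_self_ae hf, slope_ae hf,
          smul_ae (1 : M →ₘ[m] ℝ) (K : ℝ), one_ae (M := M) (m := m),
          (mem_sob_iff.1 hf).mslope_nonneg] with x a1 a2 a3 a4 a5 a6
        rw [a3, a4, a5, mul_one] at a1
        rw [a2, abs_of_nonneg (sq_nonneg _)]
        gcongr
    · rintro ⟨h1, h2⟩
      obtain ⟨C, hC⟩ := mem_top_iff.1 h1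
      obtain ⟨L, hL⟩ := mem_top_iff.1 h2
      -- scale so that the slope is at most one
      set c : ℝ := 1 + |L| with hc
      have hc1 : 1 ≤ c := by rw [hc]; linarith [abs_nonneg L]
      have hc0 : 0 < c := by linarith
      have hcf : c⁻¹ • f ∈ (sob m).W := sob_smul_mem _ hf
      have hsl : slope (c⁻¹ • f) ≤ 1 := by
        rw [le_iff_ae]
        filter_upwards [slope_ae hcf, one_ae (M := M) (m := m), hL, sob_Γ_self_ae hf,
          Met.mslope_const_mul c⁻¹ (mem_sob_iff.1 hf),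
          Met.mslope_congr (AEEqFun.coeFn_smul c⁻¹ f) (mem_sob_iff.1 hcf),
          (mem_sob_iff.1 hf).mslope_nonneg] with x a1 a2 a3 a4 a5 a6 a7
        rw [a1, a2, a6]
        have a5' : Met.mslope m (c⁻¹ • ⇑f) x = |c⁻¹| * Met.mslope m f x := a5
        rw [a5', abs_of_pos (inv_pos.2 hc0)]
        rw [a4, abs_of_nonneg (sq_nonneg _)] at a3
        rw [inv_mul_le_iff₀ hc0, mul_one]
        have h3 : Met.mslope m f x ^ 2 ≤ c ^ 2 := by
          calc Met.mslope m f x ^ 2 ≤ L := a3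
            _ ≤ |L| := le_abs_self L
            _ ≤ c ^ 2 := by (by_contra nlg; linarith only [nlg, mul_pos (sub_pos.2 (not_le.1 nlg)) (sub_pos.2 hc0), mul_nonneg (sq_nonneg (c : ℝ)) (sub_nonneg.2 (abs_nonneg L)), abs_nonneg L])
        exact (sq_le_sq₀ a7 hc0.le).1 h3
      obtain ⟨u, hu1, hu2⟩ := hs _ hcf hsl
      -- the truncated representative
      refine ⟨fun x => Met.trunc |C| (c * u x), ?_, ⟨|C|, fun x => Met.abs_trunc_le (abs_nonneg C) _⟩,
        ?_⟩
      · have h3 : Met.IsLip (fun x => c * u x) := Met.IsLip.const_mul c ⟨1, hu1⟩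
        exact h3.comp (Met.trunc_lip |C|)
      · filter_upwards [hu2, AEEqFun.coeFn_smul c⁻¹ f, hC] with x a1 a2 a3
        rw [← a1, a2]
        simp only [Pi.smul_apply, smul_eq_mul]
        rw [mul_inv_cancel_left₀ hc0.ne', Met.trunc_of_abs_le (a3.trans (le_abs_self C))]

omit [BorelSpace M] [SecondCountableTopology M] in
theorem sigmaFinite_of_ball (hfin : ∀ (x : M) (r : ℝ), m (Metric.ball x r) < ∞) :
    SigmaFinite m := by
  rcases isEmpty_or_nonempty M with hM | ⟨⟨x₀⟩⟩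
  · have : m = 0 := by
      ext s hs
      have : s = ∅ := Set.eq_empty_of_isEmpty s
      rw [this]; simp
    rw [this]; infer_instance
  · refine ⟨⟨⟨fun n => Metric.ball x₀ n, fun n => trivial, fun n => hfin x₀ n, ?_⟩⟩⟩
    exact Metric.iUnion_ball_nat x₀

end Vale.Agent.P233
end

section

open MeasureTheory Filter Topology
open scoped ENNReal NNReal InnerProductSpace

universe u

namespace Vale.Agent.P233.S

/-! Functions `M → ℝ` are representatives of classes modulo `m`-a.e. equality. -/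

/-- `u k → f` in `L²`. -/
def Conv {M : Type u} {_ : MeasurableSpace M} (m : Measure M) (u : ℕ → M → ℝ) (f : M → ℝ) : Prop :=
  Tendsto (fun k => eLpNorm (fun x => u k x - f x) 2 m) atTop (𝓝 0)

/-- `f ∈ L²`. -/
def L2 {M : Type u} {_ : MeasurableSpace M} (m : Measure M) (f : M → ℝ) : Prop := MemLp f 2 m

/-! ### The minimal relaxed slope -/

section Metric

variable {M : Type u} [MetricSpace M] [MeasurableSpace M] (m : Measure M)

/-- The local Lipschitz constant `limsup_{y → x} |f y - f x| / d(y,x)`. -/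
noncomputable def lipAt (f : M → ℝ) (x : M) : ℝ≥0∞ :=
  limsup (fun y => ENNReal.ofReal (|f y - f x| / dist y x)) (𝓝[≠] x)

/-- `G ∈ L²` is a relaxed slope of `f ∈ L²`: there are Lipschitz `u k ∈ L²` with
`u k → f` in `L²` and `g k ∈ L²` with `lip (u k) ≤ g k` a.e. and `g k → G` in `L²`. -/
def IsRelaxedSlope (f G : M → ℝ) : Prop :=
  L2 m f ∧ L2 m G ∧ ∃ u g : ℕ → M → ℝ, (∀ k, (∃ K, LipschitzWith K (u k)) ∧ L2 m (u k) ∧
    L2 m (g k) ∧ ∀ᵐ x ∂m, 0 ≤ g k x ∧ lipAt (u k) x ≤ ENNReal.ofReal (g k x)) ∧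
    Conv m u f ∧ Conv m g G

/-- `G` is the minimal relaxed slope of `f`. -/
def IsMinSlope (f G : M → ℝ) : Prop :=
  IsRelaxedSlope m f G ∧ ∀ G', IsRelaxedSlope m f G' → G ≤ᵐ[m] G'

open Classical in
/-- The minimal relaxed slope `|Df|`. The Cheeger energy of `f ∈ W^{1,2}` is `½ ∫ |Df|² dm`. -/
noncomputable def slope (f : M → ℝ) : M → ℝ :=
  if h : ∃ G, IsMinSlope m f G then h.choose else fun _ => 0

end Metric

/-- A measure, its Sobolev functions, `Γ f g = ⟨∇f,∇g⟩`, and bounded Lipschitz functions. -/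
structure Calc (M : Type u) where
  meas : MeasurableSpace M
  m : Measure M
  W : (M → ℝ) → Prop
  Γ : (M → ℝ) → (M → ℝ) → M → ℝ
  B : (M → ℝ) → Prop

/-- The Sobolev calculus of a metric measure space: `W^{1,2}(M)`, with `⟨∇f,∇g⟩` given by
polarization of `|Df|²`. -/
noncomputable def sob {M : Type u} [MetricSpace M] [MeasurableSpace M] (m : Measure M) :
    Calc M where
  meas := inferInstance
  m := m
  W := fun f => ∃ G, IsRelaxedSlope m f G
  Γ := fun f g x => (slope m (fun y => f y + g y) x ^ 2 - slope m (fun y => f y - g y) x ^ 2) / 4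
  B := fun f => ∃ u : M → ℝ, (∃ K, LipschitzWith K u) ∧ (∃ K : ℝ, ∀ x, |u x| ≤ K) ∧ f =ᵐ[m] u

/-- The list of the pairs `(a_j, b_j)` stands for the vector field `∑ a_j ∇b_j`. -/
abbrev VF (M : Type u) : Type u := List ((M → ℝ) × (M → ℝ))

namespace Calc

variable {M : Type u} (C : Calc M)

/-- `∫ f dm`. -/
noncomputable def int (f : M → ℝ) : ℝ := ∫ x, f x ∂C.m

/-- `h = Δf`. -/
def IsLap (f h : M → ℝ) : Prop :=
  C.W f ∧ L2 C.m h ∧ ∀ g, C.W g → C.int (C.Γ f g) = -C.int fun x => h x * g x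

open Classical in
/-- `Δf`. -/
noncomputable def lap (f : M → ℝ) : M → ℝ :=
  if h : ∃ h, C.IsLap f h then h.choose else fun _ => 0

/-- The weak Bochner inequality `BE(K,N)`. -/
def BE (K N : ℝ) : Prop :=
  ∀ f h φ ψ b, C.IsLap f h → C.W h → C.IsLap φ ψ →
    (∀ᵐ x ∂C.m, 0 ≤ φ x ∧ φ x ≤ b ∧ |ψ x| ≤ b) →
    C.int (fun x => φ x * (C.Γ f h x + K * C.Γ f f x + h x ^ 2 / N))
      ≤ C.int (fun x => C.Γ f f x * ψ x) / 2

/-- `f ∈ Test(M)`: `f ∈ D(Δ)` is bounded and Lipschitz and `Δf ∈ W^{1,2}`. -/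
def Test (f : M → ℝ) : Prop := C.B f ∧ ∃ h, C.IsLap f h ∧ C.W h

/-- `X ∈ TestV(M)`. -/
def TestV (X : VF M) : Prop := ∀ p ∈ X, C.Test p.1 ∧ C.Test p.2

/-- `⟨X,Y⟩`. -/
noncomputable def ip (X Y : VF M) (x : M) : ℝ :=
  (X.map fun p => (Y.map fun q => p.1 x * q.1 x * C.Γ p.2 q.2 x).sum).sum

/-- `div X`. -/
noncomputable def dv (X : VF M) (x : M) : ℝ :=
  (X.map fun p => C.Γ p.1 p.2 x + p.1 x * C.lap p.2 x).sum

/-- `Hess b (∇g, ∇h)`. -/
noncomputable def hess (b g h : M → ℝ) (x : M) : ℝ :=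
  (C.Γ g (C.Γ b h) x + C.Γ h (C.Γ b g) x - C.Γ b (C.Γ g h) x) / 2

/-- `⟨∇_X Y, Z⟩`, where `⟨∇_X (c ∇d), Z⟩ = ⟨X,∇c⟩ ⟨∇d,Z⟩ + c Hess d (X, Z)`. -/
noncomputable def nab (X Y Z : VF M) (x : M) : ℝ :=
  (X.map fun p => (Y.map fun q => (Z.map fun r =>
    p.1 x * r.1 x * (C.Γ p.2 q.1 x * C.Γ q.2 r.2 x + q.1 x * C.hess q.2 p.2 r.2 x)).sum).sum).sum

section L2TM

variable {H : Type u} [NormedAddCommGroup H] [InnerProductSpace ℝ H] (ι : VF M → H)

/-- `H`, with the map `ι`, is the Hilbert space `L²(TM)`: the completion of `TestV(M)` with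
respect to `∫ ⟨X,Y⟩ dm`. -/
def IsL2TM : Prop :=
  CompleteSpace H ∧ (∀ X Y, C.TestV X → C.TestV Y → ⟪ι X, ι Y⟫_ℝ = C.int (C.ip X Y)) ∧
    ∀ v : H, ∀ ε > 0, ∃ X, C.TestV X ∧ ‖ι X - v‖ < ε

/-- `V ∈ L²(TM)` represents the functional `Φ` on test vector fields. -/
def Reps (Φ : VF M → ℝ) (V : H) : Prop := ∀ Z, C.TestV Z → ⟪V, ι Z⟫_ℝ = Φ Z

open Classical in
/-- The element of `L²(TM)` that represents `Φ`. -/
noncomputable def rep (Φ : VF M → ℝ) : H := if h : ∃ V, C.Reps ι Φ V then h.choose else 0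

/-- `∇_X Y ∈ L²(TM)`: `Z ↦ ∫ ⟨∇_X Y, Z⟩ dm`. -/
noncomputable def cov (X Y : VF M) : H := C.rep ι fun Z => C.int (C.nab X Y Z)

/-- `R(X,Y,Z,W)(f)`, where `V = f W`; the last term is `[X,Y]` paired with `∇Z (·, f W)`. -/
noncomputable def curvAux (X Y Z W V : VF M) (f : M → ℝ) : ℝ :=
  -⟪C.cov ι X V, C.cov ι Y Z⟫_ℝ - C.int (fun x => f x * C.nab Y Z W x * C.dv X x)
    + ⟪C.cov ι Y V, C.cov ι X Z⟫_ℝ + C.int (fun x => f x * C.nab X Z W x * C.dv Y x)
    - ⟪C.cov ι X Y - C.cov ι Y X, C.rep ι fun X' => C.int (C.nab X' Z V)⟫_ℝ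

/-- Gigli's curvature functional `R(X,Y,Z,W)(f)`. -/
noncomputable def curv (X Y Z W : VF M) (f : M → ℝ) : ℝ :=
  C.curvAux ι X Y Z W (W.map fun p => (fun x => f x * p.1 x, p.2)) f

end L2TM

/-- Distributional sectional curvature `≥ κ`: the covariant derivatives of test vector fields
exist in `L²(TM)`, and `R(X,Y,Y,X)(f) ≥ κ ∫ f (|X|²|Y|² - ⟨X,Y⟩²) dm` for all test vector fields
`X`, `Y` and all nonnegative test functions `f`. -/
def DistSecGE (κ : ℝ) : Prop :=
  ∀ (H : Type u) [NormedAddCommGroup H] [InnerProductSpace ℝ H] (ι : VF M → H),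
    C.IsL2TM ι → ∀ X Y, C.TestV X → C.TestV Y →
      (∃ V, C.Reps ι (fun Z => C.int (C.nab X Y Z)) V) ∧
      (∃ V, C.Reps ι (fun Z => C.int (C.nab Z X Y)) V) ∧
      ∀ f, C.Test f → (∀ᵐ x ∂C.m, 0 ≤ f x) →
        κ * C.int (fun x => f x * (C.ip X X x * C.ip Y Y x - C.ip X Y x ^ 2)) ≤ C.curv ι X Y Y X f

end Calc

/-- `RCD(K,N)` for finite `N`, in its Eulerian form. -/
structure IsRCD {M : Type u} [MetricSpace M] [MeasurableSpace M] (m : Measure M) (K N : ℝ) :
    Prop where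
  quadratic : ∀ f g, (sob m).W f → (sob m).W g →
    ∫ x, slope m (fun y => f y + g y) x ^ 2 + slope m (fun y => f y - g y) x ^ 2 ∂m
      = ∫ x, 2 * slope m f x ^ 2 + 2 * slope m g x ^ 2 ∂m
  growth : ∃ (x₀ : M) (c : ℝ), ∀ r > 0,
    m (Metric.ball x₀ r) ≤ ENNReal.ofReal (c * Real.exp (c * r ^ 2))
  sobolev_to_lipschitz : ∀ f, (sob m).W f → (∀ᵐ x ∂m, slope m f x ≤ 1) →
    ∃ u : M → ℝ, LipschitzWith 1 u ∧ f =ᵐ[m] u
  bochner : (sob m).BE K N

end Vale.Agent.P233.S
end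

section

/-!
P233, block TB: the bridge between the statement in terms of functions and the calculus of classes,
for `BE(K,∞)` (port of `BridgeA.lean` and `Bridge.lean`).
-/

open MeasureTheory Filter Topology
open scoped ENNReal NNReal InnerProductSpace

universe u

set_option linter.unusedSectionVars false

namespace Vale.Agent.P233

section A

variable {M : Type u} [MetricSpace M] [MeasurableSpace M] {m : Measure M}

theorem S_slope_eq (f : M → ℝ) : S.slope m f = Met.mslope m f := rfl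

theorem S_W_iff {f : M → ℝ} : (S.sob m).W f ↔ Met.W12 m f := Iff.rfl

theorem S_Γ_eq (f g : M → ℝ) : (S.sob m).Γ f g = Met.gam m f g := rfl

/-- `f` is a representative of `F` -/
def R (f : M → ℝ) (F : M →ₘ[m] ℝ) : Prop := f =ᵐ[m] F

theorem R.coe (F : M →ₘ[m] ℝ) : R (m := m) F F := Filter.EventuallyEq.rfl

theorem R.W_iff {f : M → ℝ} {F : M →ₘ[m] ℝ} (h : R f F) : (S.sob m).W f ↔ F ∈ (sob m).W := by
  rw [S_W_iff, mem_sob_iff]
  exact ⟨fun h1 => h1.congr h, fun h1 => h1.congr h.symm⟩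

theorem S_W_exists {f : M → ℝ} (h : (S.sob m).W f) : ∃ F : M →ₘ[m] ℝ, R f F ∧ F ∈ (sob m).W := by
  have h1 : R f (AEEqFun.mk f (Met.W12.memLp h).1) := (AEEqFun.coeFn_mk f _).symm
  exact ⟨_, h1, h1.W_iff.1 h⟩

theorem S_L2_exists {f : M → ℝ} (h : S.L2 m f) : ∃ F : M →ₘ[m] ℝ, R f F :=
  ⟨AEEqFun.mk f h.1, (AEEqFun.coeFn_mk f _).symm⟩

theorem R.B_iff {f : M → ℝ} {F : M →ₘ[m] ℝ} (h : R f F) : (S.sob m).B f ↔ F ∈ (sob m).B := by
  constructor
  · rintro ⟨u, h1, h2, h3⟩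
    exact ⟨u, h1, h2, h.symm.trans h3⟩
  · rintro ⟨u, h1, h2, h3⟩
    exact ⟨u, h1, h2, h.trans h3⟩

theorem R.add {f g : M → ℝ} {F G : M →ₘ[m] ℝ} (h : R f F) (h' : R g G) :
    R (fun x => f x + g x) (F + G) := by
  filter_upwards [h, h', add_ae F G] with x h1 h2 h3
  rw [h1, h2, h3]

theorem R.sub {f g : M → ℝ} {F G : M →ₘ[m] ℝ} (h : R f F) (h' : R g G) :
    R (fun x => f x - g x) (F - G) := by
  filter_upwards [h, h', sub_ae F G] with x h1 h2 h3
  rw [h1, h2, h3]

theorem R.mul {f g : M → ℝ} {F G : M →ₘ[m] ℝ} (h : R f F) (h' : R g G) :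
    R (fun x => f x * g x) (F * G) := by
  filter_upwards [h, h', mul_ae F G] with x h1 h2 h3
  rw [h1, h2, h3]

theorem R.sq {f : M → ℝ} {F : M →ₘ[m] ℝ} (h : R f F) : R (fun x => f x ^ 2) (F ^ 2) := by
  filter_upwards [h, sq_ae F] with x h1 h2
  rw [h1, h2]

theorem R.smul (c : ℝ) {f : M → ℝ} {F : M →ₘ[m] ℝ} (h : R f F) :
    R (fun x => c * f x) (c • F) := by
  filter_upwards [h, smul_ae F c] with x h1 h2
  rw [h1, h2]

theorem R.zero : R (m := m) (fun _ => 0) 0 := zero_ae.symm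

theorem R.int {f : M → ℝ} {F : M →ₘ[m] ℝ} (h : R f F) : (S.sob m).int f = ∫ x, F x ∂m :=
  integral_congr_ae h

end A

section B

variable {M : Type u} [MetricSpace M] [MeasurableSpace M] [BorelSpace M]
  [SecondCountableTopology M] {m : Measure M}

theorem R.Γ {f g : M → ℝ} {F G : M →ₘ[m] ℝ} (h : R f F) (h' : R g G) (hF : F ∈ (sob m).W)
    (hG : G ∈ (sob m).W) : R ((S.sob m).Γ f g) ((sob m).Γ F G) := by
  rw [S_Γ_eq]
  exact (Met.gam_congr (h.W_iff.2 hF) (h'.W_iff.2 hG) h h').trans (sob_Γ_ae hF hG).symm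

theorem R.slope {f : M → ℝ} {F : M →ₘ[m] ℝ} (h : R f F) (hF : F ∈ (sob m).W) :
    R (S.slope m f) (slope F) := by
  rw [S_slope_eq]
  exact (Met.mslope_congr h (h.W_iff.2 hF)).trans (slope_ae hF).symm

theorem R.isLap_iff {f k : M → ℝ} {F K : M →ₘ[m] ℝ} (h : R f F) (h' : R k K) :
    (S.sob m).IsLap f k ↔ (sob m).IsLap F K := by
  constructor
  · rintro ⟨h1, h2, h3⟩
    have hF := h.W_iff.1 h1
    refine ⟨hF, (memLp_congr_ae h').1 h2, fun G hG => ?_⟩
    have hg := R.coe G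
    have h4 := h3 G (hg.W_iff.2 hG)
    rw [(h.Γ hg hF hG).int, (h'.mul hg).int] at h4
    exact h4
  · rintro ⟨h1, h2, h3⟩
    refine ⟨h.W_iff.2 h1, (memLp_congr_ae h').2 h2, fun g hg => ?_⟩
    obtain ⟨G, hgG, hG⟩ := S_W_exists hg
    rw [(h.Γ hgG h1 hG).int, (h'.mul hgG).int]
    exact h3 G hG

theorem R.lap (hC : IsDir (sob m)) {f : M → ℝ} {F : M →ₘ[m] ℝ} (h : R f F)
    (hF : F ∈ (sob m).Test) : R ((S.sob m).lap f) ((sob m).lap F) := by
  obtain ⟨-, K, hK, -⟩ := hF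
  have h1 : ∃ k, (S.sob m).IsLap f k := ⟨K, (h.isLap_iff (R.coe K)).2 hK⟩
  have h2 : (S.sob m).IsLap f ((S.sob m).lap f) := by
    unfold S.Calc.lap
    rw [dif_pos h1]
    exact h1.choose_spec
  obtain ⟨L, hL⟩ := S_L2_exists h2.2.1
  have h3 := (h.isLap_iff hL).1 h2
  rw [hC.lap_eq h3]
  exact hL

theorem R.test_iff {f : M → ℝ} {F : M →ₘ[m] ℝ} (h : R f F) :
    (S.sob m).Test f ↔ F ∈ (sob m).Test := by
  constructor
  · rintro ⟨h1, k, h2, h3⟩
    obtain ⟨K, hkK, hK⟩ := S_W_exists h3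
    exact ⟨h.B_iff.1 h1, K, (h.isLap_iff hkK).1 h2, hK⟩
  · rintro ⟨h1, K, h2, h3⟩
    exact ⟨h.B_iff.2 h1, K, (h.isLap_iff (R.coe K)).2 h2, (R.coe K).W_iff.2 h3⟩

theorem S_test_exists {f : M → ℝ} (h : (S.sob m).Test f) :
    ∃ F : M →ₘ[m] ℝ, R f F ∧ F ∈ (sob m).Test := by
  obtain ⟨-, k, h2, h3⟩ := id h
  obtain ⟨F, hF, -⟩ := S_W_exists h2.1
  exact ⟨F, hF, hF.test_iff.1 h⟩

theorem BE_of_S {K N : ℝ} (h : (S.sob m).BE K N) : (sob m).BE K N := by
  intro F H Φ Ψ h1 h2 h3 h4 h5 h6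
  obtain ⟨b, hb⟩ := mem_top_iff.1 h5
  obtain ⟨c, hc⟩ := mem_top_iff.1 h6
  have rF := R.coe F
  have rH := R.coe H
  have rΦ := R.coe Φ
  have rΨ := R.coe Ψ
  have h7 := h F H Φ Ψ (max b c) ((rF.isLap_iff rH).2 h1) (rH.W_iff.2 h2)
    ((rΦ.isLap_iff rΨ).2 h3) (by
      filter_upwards [hb, hc, nonneg_iff_ae.1 h4] with x a1 a2 a3
      exact ⟨a3, (le_abs_self _).trans (a1.trans (le_max_left _ _)), a2.trans (le_max_right _ _)⟩)
  have e1 : R (fun x => Φ x * ((S.sob m).Γ F H x + K * (S.sob m).Γ F F x + H x ^ 2 / N))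
      (Φ * ((sob m).Γ F H + K • (sob m).Γ F F + N⁻¹ • H ^ 2)) := by
    refine rΦ.mul (R.add (R.add (rF.Γ rH h1.1 h2) (R.smul K (rF.Γ rF h1.1 h1.1))) ?_)
    filter_upwards [R.smul N⁻¹ rH.sq] with x hx
    rw [← hx]
    ring
  have e2 : R (fun x => (S.sob m).Γ F F x * Ψ x) ((sob m).Γ F F * Ψ) :=
    R.mul (rF.Γ rF h1.1 h1.1) rΨ
  rw [e1.int, e2.int] at h7
  refine h7.trans (le_of_eq ?_)
  rw [integral_congr_ae (smul_ae ((sob m).Γ F F * Ψ) (2 : ℝ)⁻¹), integral_const_mul]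
  ring

theorem isRCD_of_S {K N : ℝ} (h : S.IsRCD m K N) : IsRCD m K N where
  quadratic := by
    intro F hF G hG
    have rF := R.coe F
    have rG := R.coe G
    have h1 := h.quadratic F G (rF.W_iff.2 hF) (rG.W_iff.2 hG)
    have hs := sob_add_mem hF hG
    have hd := sob_sub_mem hF hG
    have a1 := ((rF.add rG).slope hs).sq
    have a2 := ((rF.sub rG).slope hd).sq
    have a3 := (rF.slope hF).sq
    have a4 := (rG.slope hG).sq
    have key : ∀ E : M →ₘ[m] ℝ, E ∈ (sob m).W → Integrable (slope E ^ 2 : M →ₘ[m] ℝ) m := by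
      intro E hE
      exact int_of_mem (mem_sq (exists_minSlope' hE).1.2.1)
    have e1 : ∫ x, S.slope m (fun y => F y + G y) x ^ 2 + S.slope m (fun y => F y - G y) x ^ 2 ∂m
        = ∫ x, (slope (F + G) ^ 2) x ∂m + ∫ x, (slope (F - G) ^ 2) x ∂m := by
      rw [← integral_add (key _ hs) (key _ hd)]
      refine integral_congr_ae ?_
      filter_upwards [a1, a2] with x b1 b2
      rw [b1, b2]
    have e2 : ∫ x, 2 * S.slope m F x ^ 2 + 2 * S.slope m G x ^ 2 ∂m
        = 2 * ∫ x, (slope F ^ 2) x ∂m + 2 * ∫ x, (slope G ^ 2) x ∂m := by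
      rw [← integral_const_mul, ← integral_const_mul,
        ← integral_add ((key _ hF).const_mul 2) ((key _ hG).const_mul 2)]
      refine integral_congr_ae ?_
      filter_upwards [a3, a4] with x b3 b4
      rw [b3, b4]
    rw [← e1, h1, e2]
  growth := h.growth
  sobolev_to_lipschitz := by
    intro F hF h1
    have rF := R.coe F
    refine h.sobolev_to_lipschitz F (rF.W_iff.2 hF) ?_
    filter_upwards [rF.slope hF, le_iff_ae.1 h1, one_ae (M := M) (m := m)] with x b1 b2 b3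
    rw [b1]
    rwa [b3] at b2
  bochner := BE_of_S h.bochner

end B


variable {M : Type u} [MetricSpace M] [MeasurableSpace M] [BorelSpace M]
  [SecondCountableTopology M] {m : Measure M}

/-- pairs of representatives of test functions -/
def RT (p : (M → ℝ) × (M → ℝ)) (q : (M →ₘ[m] ℝ) × (M →ₘ[m] ℝ)) : Prop :=
  R p.1 q.1 ∧ R p.2 q.2 ∧ q.1 ∈ (sob m).Test ∧ q.2 ∈ (sob m).Test

/-- lists of pairs of representatives of test functions -/
def RV (X : S.VF M) (X' : List ((M →ₘ[m] ℝ) × (M →ₘ[m] ℝ))) : Prop :=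
  List.Forall₂ (RT (m := m)) X X'

/-- the list of the representatives -/
noncomputable def coeV (X' : List ((M →ₘ[m] ℝ) × (M →ₘ[m] ℝ))) : S.VF M :=
  X'.map fun (p : (M →ₘ[m] ℝ) × (M →ₘ[m] ℝ)) => ((p.1 : M → ℝ), (p.2 : M → ℝ))

open Classical in
/-- the class of a function -/
noncomputable def cls (m : Measure M) (f : M → ℝ) : M →ₘ[m] ℝ :=
  if h : AEStronglyMeasurable f m then AEEqFun.mk f h else 0

theorem R_cls {f : M → ℝ} {F : M →ₘ[m] ℝ} (h : R f F) : cls m f = F := by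
  have h1 : AEStronglyMeasurable f m := F.aestronglyMeasurable.congr h.symm
  unfold cls
  rw [dif_pos h1]
  exact AEEqFun.ext ((AEEqFun.coeFn_mk f h1).trans h)

/-- the list of the classes -/
noncomputable def clsV (m : Measure M) (X : S.VF M) : List ((M →ₘ[m] ℝ) × (M →ₘ[m] ℝ)) :=
  X.map fun p => (cls m p.1, cls m p.2)

theorem RV_coeV {X' : List ((M →ₘ[m] ℝ) × (M →ₘ[m] ℝ))} (h : (sob m).IsTestV X') :
    RV (coeV X') X' := by
  unfold RV coeV
  induction X' with
  | nil => exact List.Forall₂.nil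
  | cons p X' ih =>
    have hp := h p List.mem_cons_self
    exact List.Forall₂.cons ⟨R.coe _, R.coe _, hp.1, hp.2⟩
      (ih fun q hq => h q (List.mem_cons_of_mem _ hq))

theorem RV_clsV {X : S.VF M} (h : (S.sob m).TestV X) : RV X (clsV m X) := by
  unfold RV clsV
  induction X with
  | nil => exact List.Forall₂.nil
  | cons p X ih =>
    have hp := h p List.mem_cons_self
    obtain ⟨F, hF, hF'⟩ := S_test_exists hp.1
    obtain ⟨G, hG, hG'⟩ := S_test_exists hp.2
    refine List.Forall₂.cons ⟨?_, ?_, ?_, ?_⟩ (ih fun q hq => h q (List.mem_cons_of_mem _ hq))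
    · simp only [R_cls hF]; exact hF
    · simp only [R_cls hG]; exact hG
    · simp only [R_cls hF]; exact hF'
    · simp only [R_cls hG]; exact hG'

theorem RV.testV {X : S.VF M} {X' : List ((M →ₘ[m] ℝ) × (M →ₘ[m] ℝ))} (h : RV X X') :
    (S.sob m).TestV X := by
  unfold RV at h
  induction h with
  | nil => intro p hp; simp at hp
  | cons h1 _ ih =>
    intro p hp
    rcases List.mem_cons.1 hp with rfl | hp
    · exact ⟨h1.1.test_iff.2 h1.2.2.1, h1.2.1.test_iff.2 h1.2.2.2⟩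
    · exact ih p hp

theorem RV.isTestV {X : S.VF M} {X' : List ((M →ₘ[m] ℝ) × (M →ₘ[m] ℝ))} (h : RV X X') :
    (sob m).IsTestV X' := by
  unfold RV at h
  induction h with
  | nil => intro p hp; simp at hp
  | cons h1 _ ih =>
    intro p hp
    rcases List.mem_cons.1 hp with rfl | hp
    · exact ⟨h1.2.2.1, h1.2.2.2⟩
    · exact ih p hp

theorem RV.sum {X : S.VF M} {X' : List ((M →ₘ[m] ℝ) × (M →ₘ[m] ℝ))} (h : RV X X')
    {φ : (M → ℝ) × (M → ℝ) → M → ℝ} {Φ : (M →ₘ[m] ℝ) × (M →ₘ[m] ℝ) → (M →ₘ[m] ℝ)}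
    (hφ : ∀ p q, RT p q → R (φ p) (Φ q)) :
    R (fun x => (X.map fun p => φ p x).sum) (X'.map Φ).sum := by
  unfold RV at h
  induction h with
  | nil => simpa using R.zero
  | cons h1 _ ih =>
    simp only [List.map_cons, List.sum_cons]
    exact R.add (hφ _ _ h1) ih

theorem RV.ip {X Y : S.VF M} {X' Y' : List ((M →ₘ[m] ℝ) × (M →ₘ[m] ℝ))} (hX : RV X X')
    (hY : RV Y Y') (hC : IsGamma (sob m)) : R ((S.sob m).ip X Y) ((sob m).ip X' Y') := by
  unfold S.Calc.ip Calc.ip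
  refine hX.sum (φ := fun p x => (Y.map fun q => p.1 x * q.1 x * (S.sob m).Γ p.2 q.2 x).sum)
    fun p p' hp => ?_
  refine hY.sum (φ := fun q x => p.1 x * q.1 x * (S.sob m).Γ p.2 q.2 x) fun q q' hq => ?_
  exact (hp.1.mul hq.1).mul (hp.2.1.Γ hq.2.1 (hC.test_A hp.2.2.2).1 (hC.test_A hq.2.2.2).1)

theorem RV.dv {X : S.VF M} {X' : List ((M →ₘ[m] ℝ) × (M →ₘ[m] ℝ))} (hX : RV X X')
    (hC : IsGamma (sob m)) : R ((S.sob m).dv X) ((sob m).dv X') := by
  unfold S.Calc.dv Calc.dv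
  refine hX.sum (φ := fun p x => (S.sob m).Γ p.1 p.2 x + p.1 x * (S.sob m).lap p.2 x)
    fun p p' hp => ?_
  exact R.add (hp.1.Γ hp.2.1 (hC.test_A hp.2.2.1).1 (hC.test_A hp.2.2.2).1)
    (hp.1.mul (hp.2.1.lap hC.toIsDir hp.2.2.2))

theorem R.hess {κ : ℝ} (hC : IsGamma (sob m)) (hB : (sob m).BEi κ) {b g h : M → ℝ}
    {b' g' h' : M →ₘ[m] ℝ} (rb : R b b') (rg : R g g') (rh : R h h') (tb : b' ∈ (sob m).Test)
    (tg : g' ∈ (sob m).Test) (th : h' ∈ (sob m).Test) :
    R ((S.sob m).hess b g h) ((sob m).hess b' g' h') := by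
  unfold S.Calc.hess Calc.hess
  have wb := (hC.test_A tb).1
  have wg := (hC.test_A tg).1
  have wh := (hC.test_A th).1
  have e1 := rg.Γ (rb.Γ rh wb wh) wg (hC.Γ_mem hB tb th).1
  have e2 := rh.Γ (rb.Γ rg wb wg) wh (hC.Γ_mem hB tb tg).1
  have e3 := rb.Γ (rg.Γ rh wg wh) wb (hC.Γ_mem hB tg th).1
  filter_upwards [R.smul (2 : ℝ)⁻¹ (R.sub (R.add e1 e2) e3)] with x hx
  rw [← hx]
  ring

theorem RT.nab {κ : ℝ} (hC : IsGamma (sob m)) (hB : (sob m).BEi κ)
    {p q r : (M → ℝ) × (M → ℝ)} {p' q' r' : (M →ₘ[m] ℝ) × (M →ₘ[m] ℝ)} (hp : RT p p')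
    (hq : RT q q') (hr : RT r r') :
    R (fun x => p.1 x * r.1 x * ((S.sob m).Γ p.2 q.1 x * (S.sob m).Γ q.2 r.2 x
      + q.1 x * (S.sob m).hess q.2 p.2 r.2 x))
    (p'.1 * r'.1 * ((sob m).Γ p'.2 q'.1 * (sob m).Γ q'.2 r'.2
      + q'.1 * (sob m).hess q'.2 p'.2 r'.2)) := by
  have p2 := (hC.test_A hp.2.2.2).1
  have q1 := (hC.test_A hq.2.2.1).1
  have q2 := (hC.test_A hq.2.2.2).1
  have r2 := (hC.test_A hr.2.2.2).1
  have a1 := R.Γ hp.2.1 hq.1 p2 q1
  have a2 := R.Γ hq.2.1 hr.2.1 q2 r2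
  have a3 := R.hess hC hB hq.2.1 hp.2.1 hr.2.1 hq.2.2.2 hp.2.2.2 hr.2.2.2
  have a4 := R.add (R.mul a1 a2) (R.mul hq.1 a3)
  exact R.mul (R.mul hp.1 hr.1) a4

theorem RV.nab1 {κ : ℝ} (hC : IsGamma (sob m)) (hB : (sob m).BEi κ) {Z : S.VF M}
    {Z' : List ((M →ₘ[m] ℝ) × (M →ₘ[m] ℝ))} (hZ : RV Z Z') {p q : (M → ℝ) × (M → ℝ)}
    {p' q' : (M →ₘ[m] ℝ) × (M →ₘ[m] ℝ)} (hp : RT p p') (hq : RT q q') :
    R (fun x => (Z.map fun r => p.1 x * r.1 x * ((S.sob m).Γ p.2 q.1 x * (S.sob m).Γ q.2 r.2 x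
        + q.1 x * (S.sob m).hess q.2 p.2 r.2 x)).sum)
      (Z'.map fun r' => p'.1 * r'.1 * ((sob m).Γ p'.2 q'.1 * (sob m).Γ q'.2 r'.2
        + q'.1 * (sob m).hess q'.2 p'.2 r'.2)).sum :=
  RV.sum hZ fun _ _ hr => RT.nab hC hB hp hq hr

theorem RV.nab2 {κ : ℝ} (hC : IsGamma (sob m)) (hB : (sob m).BEi κ) {Y Z : S.VF M}
    {Y' Z' : List ((M →ₘ[m] ℝ) × (M →ₘ[m] ℝ))} (hY : RV Y Y') (hZ : RV Z Z')
    {p : (M → ℝ) × (M → ℝ)} {p' : (M →ₘ[m] ℝ) × (M →ₘ[m] ℝ)} (hp : RT p p') :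
    R (fun x => (Y.map fun q => (Z.map fun r =>
        p.1 x * r.1 x * ((S.sob m).Γ p.2 q.1 x * (S.sob m).Γ q.2 r.2 x
          + q.1 x * (S.sob m).hess q.2 p.2 r.2 x)).sum).sum)
      (Y'.map fun q' => (Z'.map fun r' => p'.1 * r'.1 * ((sob m).Γ p'.2 q'.1 *
        (sob m).Γ q'.2 r'.2 + q'.1 * (sob m).hess q'.2 p'.2 r'.2)).sum).sum :=
  RV.sum hY fun _ _ hq => RV.nab1 hC hB hZ hp hq

theorem RV.nab {κ : ℝ} (hC : IsGamma (sob m)) (hB : (sob m).BEi κ) {X Y Z : S.VF M}
    {X' Y' Z' : List ((M →ₘ[m] ℝ) × (M →ₘ[m] ℝ))} (hX : RV X X') (hY : RV Y Y')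
    (hZ : RV Z Z') : R ((S.sob m).nab X Y Z) ((sob m).nab X' Y' Z') :=
  RV.sum hX fun _ _ hp => RV.nab2 hC hB hY hZ hp

section hilb

variable {H : Type u} [NormedAddCommGroup H] [InnerProductSpace ℝ H]

theorem iota_eq (hC : IsGamma (sob m)) {ι : S.VF M → H} (hι : (S.sob m).IsL2TM ι) {X : S.VF M}
    {X' : List ((M →ₘ[m] ℝ) × (M →ₘ[m] ℝ))} (h : RV X X') : ι X = ι (coeV X') := by
  have h' := RV_coeV h.isTestV
  have i1 := hι.2.1 X X h.testV h.testV
  have i2 := hι.2.1 X (coeV X') h.testV h'.testV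
  have i3 := hι.2.1 (coeV X') (coeV X') h'.testV h'.testV
  rw [(h.ip h hC).int] at i1
  rw [(h.ip h' hC).int] at i2
  rw [(h'.ip h' hC).int] at i3
  rw [← sub_eq_zero, ← norm_eq_zero, ← sq_eq_zero_iff, ← real_inner_self_eq_norm_sq]
  rw [inner_sub_left, inner_sub_right, inner_sub_right, real_inner_comm (ι X) (ι (coeV X')),
    i1, i2, i3]
  ring

theorem isL2TM_coe (hC : IsGamma (sob m)) {ι : S.VF M → H} (hι : (S.sob m).IsL2TM ι) :
    (sob m).IsL2TM (fun X' => ι (coeV X')) := by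
  constructor
  · intro X' Y' hX hY
    have rX := RV_coeV hX
    have rY := RV_coeV hY
    rw [hι.2.1 _ _ rX.testV rY.testV, (rX.ip rY hC).int]
  · intro v
    rw [Metric.mem_closure_iff]
    intro ε hε
    obtain ⟨X, hX, hX'⟩ := hι.2.2 v ε hε
    have r := RV_clsV hX
    refine ⟨ι X, ⟨clsV m X, r.isTestV, (iota_eq hC hι r).symm⟩, ?_⟩
    rw [dist_comm, dist_eq_norm]
    exact hX'

theorem eq_of_reps {ι : List ((M →ₘ[m] ℝ) × (M →ₘ[m] ℝ)) → H} (hι : (sob m).IsL2TM ι) {V V' : H}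
    (h : ∀ X, (sob m).IsTestV X → ⟪V, ι X⟫_ℝ = ⟪V', ι X⟫_ℝ) : V = V' := by
  have h1 : ∀ w : H, ⟪V - V', w⟫_ℝ = 0 := by
    intro w
    have hcl : IsClosed {w : H | ⟪V - V', w⟫_ℝ = 0} :=
      isClosed_eq (by fun_prop) continuous_const
    have hsub : {v | ∃ X, (sob m).IsTestV X ∧ ι X = v} ⊆ {w : H | ⟪V - V', w⟫_ℝ = 0} := by
      rintro _ ⟨X, hX, rfl⟩
      change ⟪V - V', ι X⟫_ℝ = 0
      rw [inner_sub_left]
      rw [h X hX, sub_self]
    exact closure_minimal hsub hcl (hι.2 w)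
  rw [← sub_eq_zero]
  exact inner_self_eq_zero.1 (h1 (V - V'))

theorem reps_iff (hC : IsGamma (sob m)) {ι : S.VF M → H} (hι : (S.sob m).IsL2TM ι)
    {φ : S.VF M → ℝ} {φ' : List ((M →ₘ[m] ℝ) × (M →ₘ[m] ℝ)) → ℝ}
    (hφ : ∀ Z Z', RV Z Z' → φ Z = φ' Z') {V : H} :
    S.Calc.Reps (S.sob m) ι φ V ↔ ∀ Z', (sob m).IsTestV Z' → ⟪V, ι (coeV Z')⟫_ℝ = φ' Z' := by
  constructor
  · intro h Z' hZ'
    have r := RV_coeV hZ'
    rw [h _ r.testV, hφ _ _ r]
  · intro h Z hZ
    have r := RV_clsV hZ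
    rw [iota_eq hC hι r, h _ r.isTestV, hφ _ _ r]

theorem rep_cov {κ : ℝ} (hC : IsGamma (sob m)) (hB : (sob m).BEi κ) {ι : S.VF M → H}
    (hι : (S.sob m).IsL2TM ι) {X Y : S.VF M}
    {X' Y' : List ((M →ₘ[m] ℝ) × (M →ₘ[m] ℝ))} (hX : RV X X') (hY : RV Y Y') :
    (∀ V, (S.sob m).Reps ι (fun Z => (S.sob m).int ((S.sob m).nab X Y Z)) V ↔
      (sob m).IsCov (fun X' => ι (coeV X')) X' Y' V) ∧
    (S.sob m).cov ι X Y = (sob m).cov (fun X' => ι (coeV X')) X' Y' := by
  have key : ∀ V, (S.sob m).Reps ι (fun Z => (S.sob m).int ((S.sob m).nab X Y Z)) V ↔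
      (sob m).IsCov (fun X' => ι (coeV X')) X' Y' V := fun V =>
    reps_iff hC hι (φ' := fun Z' => ∫ x, (sob m).nab X' Y' Z' x ∂m) fun Z Z' hZ =>
      (RV.nab hC hB hX hY hZ).int
  refine ⟨key, ?_⟩
  unfold S.Calc.cov S.Calc.rep Calc.cov
  by_cases h : ∃ V, (S.sob m).Reps ι (fun Z => (S.sob m).int ((S.sob m).nab X Y Z)) V
  · have h' : ∃ V, (sob m).IsCov (fun X' => ι (coeV X')) X' Y' V :=
      ⟨h.choose, (key _).1 h.choose_spec⟩
    rw [dif_pos h, dif_pos h']
    refine eq_of_reps (isL2TM_coe hC hι) fun Z' hZ' => ?_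
    rw [(key _).1 h.choose_spec Z' hZ', h'.choose_spec Z' hZ']
  · have h' : ¬ ∃ V, (sob m).IsCov (fun X' => ι (coeV X')) X' Y' V := by
      rintro ⟨V, hV⟩
      exact h ⟨V, (key V).2 hV⟩
    rw [dif_neg h, dif_neg h']

theorem rep_covT {κ : ℝ} (hC : IsGamma (sob m)) (hB : (sob m).BEi κ) {ι : S.VF M → H}
    (hι : (S.sob m).IsL2TM ι) {Y Z : S.VF M}
    {Y' Z' : List ((M →ₘ[m] ℝ) × (M →ₘ[m] ℝ))} (hY : RV Y Y') (hZ : RV Z Z') :
    (∀ V, (S.sob m).Reps ι (fun X => (S.sob m).int ((S.sob m).nab X Y Z)) V ↔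
      (sob m).IsCovT (fun X' => ι (coeV X')) Y' Z' V) ∧
    S.Calc.rep (S.sob m) ι (fun X => (S.sob m).int ((S.sob m).nab X Y Z))
      = (sob m).covT (fun X' => ι (coeV X')) Y' Z' := by
  have key : ∀ V, (S.sob m).Reps ι (fun X => (S.sob m).int ((S.sob m).nab X Y Z)) V ↔
      (sob m).IsCovT (fun X' => ι (coeV X')) Y' Z' V := fun V =>
    reps_iff hC hι (φ' := fun X' => ∫ x, (sob m).nab X' Y' Z' x ∂m) fun X X' hX =>
      (RV.nab hC hB hX hY hZ).int
  refine ⟨key, ?_⟩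
  unfold S.Calc.rep Calc.covT
  by_cases h : ∃ V, (S.sob m).Reps ι (fun X => (S.sob m).int ((S.sob m).nab X Y Z)) V
  · have h' : ∃ V, (sob m).IsCovT (fun X' => ι (coeV X')) Y' Z' V :=
      ⟨h.choose, (key _).1 h.choose_spec⟩
    rw [dif_pos h, dif_pos h']
    refine eq_of_reps (isL2TM_coe hC hι) fun X' hX' => ?_
    rw [(key _).1 h.choose_spec X' hX', h'.choose_spec X' hX']
  · have h' : ¬ ∃ V, (sob m).IsCovT (fun X' => ι (coeV X')) Y' Z' V := by
      rintro ⟨V, hV⟩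
      exact h ⟨V, (key V).2 hV⟩
    rw [dif_neg h, dif_neg h']

theorem RV_mulV {κ : ℝ} (hC : IsGamma (sob m)) (hB : (sob m).BEi κ) {X : S.VF M}
    {X' : List ((M →ₘ[m] ℝ) × (M →ₘ[m] ℝ))} (hX : RV X X') {f : M → ℝ} {F : M →ₘ[m] ℝ}
    (hf : R f F) (hF : F ∈ (sob m).Test) :
    RV (X.map fun p => (fun x => f x * p.1 x, p.2)) (Calc.mulV F X') := by
  unfold RV Calc.mulV at *
  induction hX with
  | nil => exact List.Forall₂.nil
  | cons h1 _ ih =>
    simp only [List.map_cons]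
    exact List.Forall₂.cons ⟨hf.mul h1.1, h1.2.1, hC.test_mul hB hF h1.2.2.1, h1.2.2.2⟩ ih

theorem curv_coe {κ : ℝ} (hC : IsGamma (sob m)) (hB : (sob m).BEi κ) {ι : S.VF M → H}
    (hι : (S.sob m).IsL2TM ι) {X Y : S.VF M}
    {X' Y' : List ((M →ₘ[m] ℝ) × (M →ₘ[m] ℝ))} (hX : RV X X') (hY : RV Y Y') {f : M → ℝ}
    {F : M →ₘ[m] ℝ} (hf : R f F) (hF : F ∈ (sob m).Test) :
    (S.sob m).curv ι X Y Y X f = (sob m).curv (fun X' => ι (coeV X')) X' Y' Y' X' F := by
  unfold S.Calc.curv S.Calc.curvAux Calc.curv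
  have hV := RV_mulV hC hB hX hf hF
  rw [(rep_cov hC hB hι hX hV).2, (rep_cov hC hB hι hY hY).2, (rep_cov hC hB hι hY hV).2,
    (rep_cov hC hB hι hX hY).2, (rep_cov hC hB hι hY hX).2, (rep_covT hC hB hι hY hV).2]
  have e1 : (S.sob m).int (fun x => f x * (S.sob m).nab Y Y X x * (S.sob m).dv X x)
      = ∫ x, (F * (sob m).nab Y' Y' X' * (sob m).dv X') x ∂m :=
    R.int ((hf.mul (RV.nab hC hB hY hY hX)).mul (hX.dv hC))
  have e2 : (S.sob m).int (fun x => f x * (S.sob m).nab X Y X x * (S.sob m).dv Y x)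
      = ∫ x, (F * (sob m).nab X' Y' X' * (sob m).dv Y') x ∂m :=
    R.int ((hf.mul (RV.nab hC hB hX hY hX)).mul (hY.dv hC))
  rw [e1, e2]

end hilb

/-- The inequality for the classes gives the inequality for functions. -/
theorem distSec_of (m : Measure M) {K N κ : ℝ} (hN : 0 < N) (h : S.IsRCD m K N)
    (H0 : ∀ (H : Type u) [NormedAddCommGroup H] [InnerProductSpace ℝ H] [CompleteSpace H]
      (ι : List ((M →ₘ[m] ℝ) × (M →ₘ[m] ℝ)) → H), (sob m).IsL2TM ι →
      ∀ X Y, (sob m).IsTestV X → (sob m).IsTestV Y →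
        (∃ V, (sob m).IsCov ι X Y V) ∧ (∃ V, (sob m).IsCovT ι X Y V) ∧
        ∀ f ∈ (sob m).Test, 0 ≤ f →
          κ * I (f * ((sob m).ip X X * (sob m).ip Y Y - (sob m).ip X Y ^ 2))
            ≤ (sob m).curv ι X Y Y X f) :
    (S.sob m).DistSecGE κ := by
  have hR := isRCD_of_S h
  have hfin := ball_lt_top_of_growth hR.growth
  have hC : IsGamma (sob m) := isGamma_sob hfin hR.quadratic hR.sobolev_to_lipschitz
  have hB : (sob m).BEi K := IsGamma.bei hC hN hR.bochner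
  intro H _ _ ι hι X Y hX hY
  have := hι.1
  have rX := RV_clsV hX
  have rY := RV_clsV hY
  obtain ⟨⟨V, hV⟩, ⟨V', hV'⟩, h3⟩ := H0 H (fun X' => ι (coeV X')) (isL2TM_coe hC hι)
    (clsV m X) (clsV m Y) rX.isTestV rY.isTestV
  refine ⟨⟨V, ((rep_cov hC hB hι rX rY).1 V).2 hV⟩, ⟨V', ((rep_covT hC hB hι rX rY).1 V').2 hV'⟩,
    ?_⟩
  intro f hf h0
  obtain ⟨F, hF, hF'⟩ := S_test_exists hf
  have h4 := h3 F hF' (nonneg_iff_ae.2 (by
    filter_upwards [h0, hF] with x a1 a2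
    rwa [← a2]))
  rw [curv_coe hC hB hι rX rY hF hF']
  refine le_trans (le_of_eq ?_) h4
  congr 1
  exact R.int (hF.mul (R.sub ((rX.ip rX hC).mul (rY.ip rY hC)) (rX.ip rY hC).sq))

end Vale.Agent.P233
end

section

set_option linter.all false

open MeasureTheory Filter Topology
open scoped ENNReal NNReal

namespace Vale.Agent.P233

/-- one smooth step with levels `1/4` and `3/4` -/
theorem exists_step4 : ∃ h : ℝ → ℝ, ContDiff ℝ 3 h ∧ (∀ x, x ≤ 1 / 4 → h x = 0) ∧
    (∀ x, 3 / 4 ≤ x → h x = 1) ∧ (∀ x, 0 ≤ h x ∧ h x ≤ 1) := by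
  refine ⟨fun x => Real.smoothTransition (2 * x - 1 / 2),
    Real.smoothTransition.contDiff.comp (by fun_prop), fun x hx =>
    Real.smoothTransition.zero_of_nonpos (by linarith), fun x hx =>
    Real.smoothTransition.one_of_one_le (by linarith),
    fun x => ⟨Real.smoothTransition.nonneg _, Real.smoothTransition.le_one _⟩⟩

variable {M : Type*} [MetricSpace M] [SecondCountableTopology M] [MeasurableSpace M]
  [BorelSpace M] {m : Measure M}

/-- the Lipschitz cut-off function -/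
theorem exists_eta (hfin : ∀ (x : M) (r : ℝ), m (Metric.ball x r) < ∞) (x₀ : M) {R : ℝ}
    (hR : 0 < R) : ∃ η ∈ (sob m).W, (∀ᵐ x ∂m, |η x| ≤ 1) ∧
      (∀ᵐ x ∂m, dist x x₀ ≤ 2 * R → η x = 1) ∧ (∀ᵐ x ∂m, 3 * R ≤ dist x x₀ → η x = 0) ∧
      ∀ᵐ x ∂m, |(sob m).Γ η η x| ≤ (R⁻¹) ^ 2 := by
  set w : M → ℝ := fun x => max 0 (min 1 (3 - dist x x₀ / R)) with hw
  have hlip : LipschitzWith (Real.toNNReal R⁻¹) w := by
    have h1 : LipschitzWith (Real.toNNReal R⁻¹) (fun x : M => 3 - dist x x₀ / R) := by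
      refine LipschitzWith.of_dist_le_mul fun x y => ?_
      rw [Real.dist_eq, Real.coe_toNNReal _ (inv_nonneg.2 hR.le)]
      have e : 3 - dist x x₀ / R - (3 - dist y x₀ / R) = R⁻¹ * (dist y x₀ - dist x x₀) := by ring
      rw [e, abs_mul, abs_of_nonneg (inv_nonneg.2 hR.le)]
      refine mul_le_mul_of_nonneg_left ?_ (inv_nonneg.2 hR.le)
      rw [dist_comm x y]
      exact abs_dist_sub_le y x x₀
    exact (h1.const_min 1).const_max 0
  have hw0 : ∀ x, 0 ≤ w x := fun x => le_max_left _ _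
  have hw1 : ∀ x, w x ≤ 1 := fun x => max_le zero_le_one (min_le_left _ _)
  have hz : ∀ x, 3 * R ≤ dist x x₀ → w x = 0 := by
    intro x hx
    have h1 : 3 ≤ dist x x₀ / R := by rw [le_div_iff₀ hR]; exact hx
    exact max_eq_left ((min_le_right _ _).trans (by linarith))
  have ho : ∀ x, dist x x₀ ≤ 2 * R → w x = 1 := by
    intro x hx
    have h1 : dist x x₀ / R ≤ 2 := by rw [div_le_iff₀ hR]; exact hx
    simp only [hw]
    rw [min_eq_left (by linarith), max_eq_right zero_le_one]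
  have hsupp : ∀ x : M, x ∉ Metric.ball x₀ (3 * R) → w x = 0 := by
    intro x hx
    rw [Metric.mem_ball, not_lt] at hx
    exact hz x hx
  have hgood : Met.Good m w _ := Met.good_of_bounded_support hfin hlip hsupp
  have hW : Met.W12 m w := ⟨_, hgood.rSlope⟩
  obtain ⟨η, hη1, hη2⟩ := exists_class hW
  refine ⟨η, hη1, ?_, ?_, ?_, ?_⟩
  · filter_upwards [hη2] with x hx
    rw [hx, abs_of_nonneg (hw0 x)]; exact hw1 x
  · filter_upwards [hη2] with x hx h
    rw [hx]; exact ho x h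
  · filter_upwards [hη2] with x hx h
    rw [hx]; exact hz x h
  · have h1 := slope_le_of_lipschitz hfin hη1 hη2 hlip
    rw [Real.coe_toNNReal _ (inv_nonneg.2 hR.le)] at h1
    rw [le_iff_ae] at h1
    filter_upwards [h1, sob_Γ_self_ae hη1, slope_ae hη1, smul_ae (1 : M →ₘ[m] ℝ) R⁻¹,
      one_ae (M := M) (m := m), (mem_sob_iff.1 hη1).mslope_nonneg] with x a1 a2 a3 a4 a5 a6
    rw [a3, a4, a5, mul_one] at a1
    rw [a2, abs_of_nonneg (sq_nonneg _)]
    exact pow_le_pow_left₀ a6 a1 2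

/-- cut-off functions with bounded Laplacian and bounded support, from the displacement estimate
of the resolvent -/
theorem exists_cutI_of (hfin : ∀ (x : M) (r : ℝ), m (Metric.ball x r) < ∞) (hC : IsGamma (sob m))
    {K : ℝ} (hB : (sob m).BEi K) {μ c : ℝ} (hμ : 0 < μ) (hμK : 1 / 2 ≤ 1 + 2 * μ * K)
    (hc : c ≤ 1 / 4)
    (hJ : ∀ f ∈ (sob m).A, ∀ l : ℝ, 0 ≤ l → (∀ᵐ x ∂m, (sob m).Γ f f x ≤ l ^ 2) →
      ∀ᵐ x ∂m, |(sob m).J μ f x - f x| ≤ c * l) (x₀ : M) :
    ∃ Cc : ℝ, ∀ R : ℝ, 1 ≤ R → ∃ χ ∈ (sob m).TestI, 0 ≤ χ ∧ χ ≤ 1 ∧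
      (∀ᵐ x ∂m, dist x x₀ ≤ R → χ x = 1) ∧ (∃ R', ∀ᵐ x ∂m, R' < dist x x₀ → χ x = 0) ∧
      (∀ᵐ x ∂m, (sob m).Γ χ χ x ≤ Cc / R ^ 2) ∧ (∀ᵐ x ∂m, |(sob m).lap χ x| ≤ Cc / R) := by
  have hD := hC.toIsDir
  haveI : SigmaFinite m := by
    refine ⟨⟨⟨fun n => Metric.ball x₀ n, fun n => trivial, fun n => hfin _ _, ?_⟩⟩⟩
    exact Metric.iUnion_ball_nat x₀
  obtain ⟨h, hh, hh0, hh1, hhb⟩ := exists_step4
  have hh1' : ContDiff ℝ 2 (deriv h) := (contDiff_succ_iff_deriv (n := 2)).1 (by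
    norm_num; exact hh) |>.2.2
  have hh2' : ContDiff ℝ 1 (deriv (deriv h)) := (contDiff_succ_iff_deriv (n := 1)).1 (by
    norm_num; exact hh1') |>.2.2
  obtain ⟨B1, hB1⟩ := (isCompact_Icc (a := (-1 : ℝ)) (b := 1)).exists_bound_of_continuousOn
    hh1'.continuous.continuousOn
  obtain ⟨B2, hB2⟩ := (isCompact_Icc (a := (-1 : ℝ)) (b := 1)).exists_bound_of_continuousOn
    hh2'.continuous.continuousOn
  have hB10 : 0 ≤ B1 := (norm_nonneg _).trans (hB1 0 (by norm_num))
  have hB20 : 0 ≤ B2 := (norm_nonneg _).trans (hB2 0 (by norm_num))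
  refine ⟨max (B1 ^ 2 * 2) (B1 * μ⁻¹ + B2 * 2), fun R hR => ?_⟩
  have hR0 : 0 < R := by linarith
  obtain ⟨η, η1, η2, η3, η4, η5⟩ := exists_eta hfin x₀ hR0
  have ηA : η ∈ (sob m).A := ⟨η1, mem_top_iff.2 ⟨1, η2⟩⟩
  have ηT : MemLp ((sob m).Γ η η) ∞ m := mem_top_iff.2 ⟨_, η5⟩
  have η2' := hC.memLp _ η1
  have hpos : 0 < 1 + 2 * μ * K := by linarith
  set u := (sob m).J μ η with hu
  have uT : u ∈ (sob m).TestI := hC.testI_J hB hμ hpos ηA ηT
  have uW := (hC.test_A uT.1).1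
  have uΓ : ∀ᵐ x ∂m, |(sob m).Γ u u x| ≤ 2 * (R⁻¹) ^ 2 := by
    filter_upwards [hC.J_grad_le hB hμ hpos ηA (sq_nonneg _) η5, hD.Γ_nonneg_ae uW] with x b1 b2
    rw [abs_of_nonneg b2]
    refine b1.trans ?_
    rw [div_le_iff₀ hpos]
    linarith only [mul_nonneg (sub_nonneg.2 hμK) (sq_nonneg R⁻¹)]
  have uη : ∀ᵐ x ∂m, |u x - η x| ≤ c * R⁻¹ := hJ η ηA R⁻¹ (inv_nonneg.2 hR0.le) (by
    filter_upwards [η5] with x hx; exact (le_abs_self _).trans hx)
  have hRi : R⁻¹ ≤ 1 := inv_le_one_of_one_le₀ hR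
  have hRi0 : 0 < R⁻¹ := inv_pos.2 hR0
  have uη' : ∀ᵐ x ∂m, |u x - η x| ≤ 1 / 4 ∧ |u x - η x| ≤ R⁻¹ := by
    filter_upwards [uη] with x hx
    constructor
    · refine hx.trans ?_
      (by_contra nlg; linarith only [nlg, mul_nonneg (sub_nonneg.2 hRi) (le_of_lt (sub_pos.2 hRi0)), mul_nonneg (sub_nonneg.2 hRi) (sub_nonneg.2 hRi), mul_nonneg (sub_nonneg.2 hc) (le_of_lt (sub_pos.2 hRi0)), mul_pos (sub_pos.2 (not_le.1 nlg)) (sub_pos.2 hRi0), mul_nonneg (le_of_lt (sub_pos.2 (not_le.1 nlg))) (sub_nonneg.2 hRi)])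
    · refine hx.trans ?_
      nlinarith
  have ub : ∀ᵐ x ∂m, |u x| ≤ 1 := hD.J_bdd hμ η2' η2
  have ulap : ∀ᵐ x ∂m, |(sob m).lap u x| ≤ μ⁻¹ * R⁻¹ := by
    rw [hD.lap_eq (hD.J_isLap hμ η2')]
    filter_upwards [smul_ae (u - η) μ⁻¹, sub_ae u η, uη'] with x b1 b2 b3
    rw [b1, b2, abs_mul, abs_of_pos (inv_pos.2 hμ)]
    exact mul_le_mul_of_nonneg_left b3.2 (inv_pos.2 hμ).le
  obtain ⟨χ, χ1, χ2, χ3, χ4⟩ := hC.testI_comp hB uT h hh (hh0 0 (by norm_num))
  have χW := (hC.test_A χ1.1).1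
  refine ⟨χ, χ1, ?_, ?_, ?_, ⟨3 * R, ?_⟩, ?_, ?_⟩
  · rw [nonneg_iff_ae]
    filter_upwards [χ2] with x hx
    rw [hx]; exact (hhb _).1
  · rw [le_iff_ae]
    filter_upwards [χ2, one_ae (M := M) (m := m)] with x hx h1
    rw [hx, h1]; exact (hhb _).2
  · filter_upwards [χ2, uη', η3] with x b1 b2 b3 hx
    rw [b1]
    refine hh1 _ ?_
    have h3 := b3 (by linarith only [hx, hR0])
    have h4 := (abs_le.1 b2.1).1
    linarith only [h4, h3]
  · filter_upwards [χ2, uη', η4] with x b1 b2 b3 hx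
    rw [b1]
    refine hh0 _ ?_
    have h3 := b3 hx.le
    have h4 := (abs_le.1 b2.1).2
    linarith only [h4, h3]
  · have hs : (sob m).Γ u χ = (sob m).Γ χ u := hC.symm _ uW _ χW
    filter_upwards [χ3 _ χW, χ3 _ uW, ub, uΓ] with x b1 b2 b3 b4
    rw [b1, hs, b2]
    have b5 := hB1 _ (abs_le.1 b3)
    rw [Real.norm_eq_abs] at b5
    have e : deriv h (u x) * (deriv h (u x) * (sob m).Γ u u x)
        = deriv h (u x) ^ 2 * (sob m).Γ u u x := by ring
    rw [e, div_eq_mul_inv, ← inv_pow]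
    have h6 : deriv h (u x) ^ 2 ≤ B1 ^ 2 := by
      rw [← sq_abs]; exact pow_le_pow_left₀ (abs_nonneg _) b5 2
    calc deriv h (u x) ^ 2 * (sob m).Γ u u x
        ≤ deriv h (u x) ^ 2 * (2 * (R⁻¹) ^ 2) :=
          mul_le_mul_of_nonneg_left ((le_abs_self _).trans b4) (sq_nonneg _)
      _ ≤ B1 ^ 2 * (2 * (R⁻¹) ^ 2) := mul_le_mul_of_nonneg_right h6 (by positivity)
      _ = (B1 ^ 2 * 2) * (R⁻¹) ^ 2 := by ring
      _ ≤ _ := mul_le_mul_of_nonneg_right (le_max_left _ _) (by positivity)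
  · filter_upwards [χ4, ulap, uΓ, ub] with x b1 b2 b3 b4
    rw [b1]
    have c1 := hB1 _ (abs_le.1 b4)
    have c2 := hB2 _ (abs_le.1 b4)
    rw [Real.norm_eq_abs] at c1 c2
    refine (abs_add_le _ _).trans ?_
    rw [abs_mul, abs_mul, div_eq_mul_inv]
    calc |deriv h (u x)| * |(sob m).lap u x| + |deriv (deriv h) (u x)| * |(sob m).Γ u u x|
        ≤ B1 * (μ⁻¹ * R⁻¹) + B2 * (2 * (R⁻¹) ^ 2) :=
          add_le_add (mul_le_mul c1 b2 (abs_nonneg _) hB10)
            (mul_le_mul c2 b3 (abs_nonneg _) hB20)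
      _ ≤ B1 * (μ⁻¹ * R⁻¹) + B2 * (2 * R⁻¹) := by
          have h7 : (R⁻¹) ^ 2 ≤ R⁻¹ := by (by_contra nlg; linarith only [nlg, mul_nonneg (sub_nonneg.2 hRi) (le_of_lt (sub_pos.2 hRi0)), mul_pos (sub_pos.2 (not_le.1 nlg)) (sub_pos.2 hRi0), mul_nonneg (le_of_lt (sub_pos.2 (not_le.1 nlg))) (sub_nonneg.2 hRi)])
          (by_contra nlg; linarith only [nlg, mul_nonneg (sub_nonneg.2 hB20) (sub_nonneg.2 h7), mul_pos (sub_pos.2 (not_le.1 nlg)) (sub_pos.2 hRi0), mul_nonneg (le_of_lt (sub_pos.2 (not_le.1 nlg))) (sub_nonneg.2 hRi)])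
      _ = (B1 * μ⁻¹ + B2 * 2) * R⁻¹ := by ring
      _ ≤ _ := mul_le_mul_of_nonneg_right (le_max_right _ _) hRi0.le

end Vale.Agent.P233
end

section

/-! Local Sobolev-to-Lipschitz property and chains of points. -/

open MeasureTheory Filter Topology
open scoped ENNReal NNReal

namespace Vale.Agent.P233

variable {M : Type*} [MetricSpace M] [MeasurableSpace M] [BorelSpace M] {m : Measure M}

omit [MeasurableSpace M] [BorelSpace M] in
theorem lipschitz_of_abs_sub_le {u : M → ℝ} {G : ℝ} (hG : 0 ≤ G)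
    (h : ∀ x y, |u x - u y| ≤ G * dist x y) : LipschitzWith (Real.toNNReal G) u := by
  refine LipschitzWith.of_dist_le_mul fun x y => ?_
  rw [Real.dist_eq, Real.coe_toNNReal _ hG]
  exact h x y

omit [BorelSpace M] in
theorem le_of_ae_cont [m.IsOpenPosMeasure] {u v : M → ℝ} (hu : Continuous u) (hv : Continuous v)
    (h : ∀ᵐ x ∂m, u x ≤ v x) (x : M) : u x ≤ v x := by
  have h1 : Dense {x | u x ≤ v x} := Measure.dense_of_ae h
  have h2 : IsClosed {x | u x ≤ v x} := isClosed_le hu hv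
  have h3 : x ∈ closure {x | u x ≤ v x} := h1 x
  rwa [h2.closure_eq] at h3

/-- the global Sobolev-to-Lipschitz property, scaled -/
theorem exists_lip_rep
    (hs : ∀ f ∈ (sob m).W, slope f ≤ 1 → ∃ u : M → ℝ, LipschitzWith 1 u ∧ f =ᵐ[m] u)
    {f : M →ₘ[m] ℝ} (hf : f ∈ (sob m).W) {G : ℝ} (hG : 0 < G)
    (h : ∀ᵐ x ∂m, (sob m).Γ f f x ≤ G ^ 2) :
    ∃ u : M → ℝ, (∀ x y, |u x - u y| ≤ G * dist x y) ∧ f =ᵐ[m] u := by
  have hcf : G⁻¹ • f ∈ (sob m).W := sob_smul_mem _ hf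
  have hsl : slope (G⁻¹ • f) ≤ 1 := by
    rw [le_iff_ae]
    filter_upwards [slope_ae hcf, one_ae (M := M) (m := m), h, sob_Γ_self_ae hf,
      Met.mslope_const_mul G⁻¹ (mem_sob_iff.1 hf),
      Met.mslope_congr (AEEqFun.coeFn_smul G⁻¹ f) (mem_sob_iff.1 hcf),
      (mem_sob_iff.1 hf).mslope_nonneg] with x a1 a2 a3 a4 a5 a6 a7
    rw [a1, a2, a6]
    have a5' : Met.mslope m (G⁻¹ • ⇑f) x = |G⁻¹| * Met.mslope m f x := a5
    rw [a5', abs_of_pos (inv_pos.2 hG)]
    rw [a4] at a3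
    rw [inv_mul_le_iff₀ hG, mul_one]
    exact (sq_le_sq₀ a7 hG.le).1 a3
  obtain ⟨u, hu1, hu2⟩ := hs _ hcf hsl
  refine ⟨fun x => G * u x, fun x y => ?_, ?_⟩
  · have h1 := hu1.dist_le_mul x y
    rw [Real.dist_eq, NNReal.coe_one, one_mul] at h1
    have e : G * u x - G * u y = G * (u x - u y) := by ring
    rw [e, abs_mul, abs_of_pos hG]
    exact mul_le_mul_of_nonneg_left h1 hG.le
  · filter_upwards [hu2, smul_ae f G⁻¹] with x a1 a2
    rw [← a1, a2, mul_inv_cancel_left₀ hG.ne']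

/-- local Sobolev-to-Lipschitz property -/
theorem local_stl_pos [m.IsOpenPosMeasure] (hfin : ∀ (x : M) (r : ℝ), m (Metric.ball x r) < ∞)
    (hs : ∀ f ∈ (sob m).W, slope f ≤ 1 → ∃ u : M → ℝ, LipschitzWith 1 u ∧ f =ᵐ[m] u)
    {f : M →ₘ[m] ℝ} (hf : f ∈ (sob m).W) {v : M → ℝ} (hv : Met.IsLip v) (hfv : f =ᵐ[m] v)
    {G R : ℝ} (hG : 0 < G) {x y : M} (hR : 2 * dist x y < R)
    (h : ∀ᵐ z ∂m, dist z x < R → (sob m).Γ f f z ≤ G ^ 2) :
    v y - v x ≤ G * dist x y := by
  have hR0 : 0 < R := lt_of_le_of_lt (by positivity) hR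
  set b : M → ℝ := fun z => G * max (R - dist z x) 0 with hb
  set F : M → ℝ := fun z => min (max (v z - v x) 0) (b z) with hF
  have hb0 : ∀ z, 0 ≤ b z := fun z => mul_nonneg hG.le (le_max_right _ _)
  have hbl : LipschitzWith (Real.toNNReal G) b := by
    refine lipschitz_of_abs_sub_le hG.le fun z w => ?_
    have e : b z - b w = G * (max (R - dist z x) 0 - max (R - dist w x) 0) := by
      simp only [hb]; ring
    rw [e, abs_mul, abs_of_pos hG]
    refine mul_le_mul_of_nonneg_left ?_ hG.le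
    refine (abs_max_sub_max_le_abs _ _ _).trans ?_
    have e2 : R - dist z x - (R - dist w x) = dist w x - dist z x := by ring
    rw [e2, dist_comm z w]
    exact abs_dist_sub_le w z x
  obtain ⟨K, hK⟩ := hv
  have hvl : LipschitzWith K (fun z => v z - v x) := by
    refine LipschitzWith.of_dist_le_mul fun z w => ?_
    rw [Real.dist_eq]
    have e : v z - v x - (v w - v x) = v z - v w := by ring
    rw [e, ← Real.dist_eq]
    exact hK.dist_le_mul z w
  have hFl : LipschitzWith (max K (Real.toNNReal G)) F := by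
    have h1 : LipschitzWith K (fun z => max (v z - v x) 0) := by
      have := hvl.max_const 0
      exact this
    exact h1.min hbl
  have hsuppb : ∀ z, z ∉ Metric.ball x R → b z = 0 := by
    intro z hz
    rw [Metric.mem_ball, not_lt] at hz
    simp only [hb]
    rw [max_eq_right (by linarith), mul_zero]
  have hsuppF : ∀ z, z ∉ Metric.ball x R → F z = 0 := by
    intro z hz
    simp only [hF]
    rw [hsuppb z hz]
    exact min_eq_right (le_max_right _ _)
  have hgF := Met.good_of_bounded_support hfin hFl hsuppF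
  have hgb := Met.good_of_bounded_support hfin hbl hsuppb
  have hFW : Met.W12 m F := ⟨_, hgF.rSlope⟩
  have hbW : Met.W12 m b := ⟨_, hgb.rSlope⟩
  have hbs : ∀ᵐ z ∂m, Met.mslope m b z ≤ G := by
    filter_upwards [hgb.rSlope.mslope_le] with z hz
    refine hz.trans ?_
    rw [Real.coe_toNNReal _ hG.le]
    exact Set.indicator_apply_le' (fun _ => le_rfl) (fun _ => hG.le)
  have hfW := mem_sob_iff.1 hf
  have hFs : ∀ᵐ z ∂m, Met.mslope m F z ≤ G := by
    filter_upwards [Met.mslope_eq_zero_of_eq_const hFW 0,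
      Met.mslope_eq_of_sub_eq_const hFW hbW 0, Met.mslope_eq_of_sub_eq_const hFW hfW (-v x),
      hbs, hfv, h, sob_Γ_self_ae hf, hfW.mslope_nonneg] with z a1 a2 a3 a4 a5 a6 a7 a8
    by_cases h0 : F z = 0
    · rw [a1 h0]; exact hG.le
    by_cases h1 : F z = b z
    · rw [a2 (by rw [h1, sub_self])]; exact a4
    have h2 : F z = max (v z - v x) 0 := by
      rcases min_choice (max (v z - v x) 0) (b z) with h3 | h3
      · exact h3
      · exact absurd h3 h1
    have h3 : F z = v z - v x := by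
      rcases max_choice (v z - v x) 0 with h4 | h4
      · rw [h2, h4]
      · exact absurd (h2.trans h4) h0
    have h5 : dist z x < R := by
      by_contra hcon
      exact h0 (hsuppF z (by rwa [Metric.mem_ball]))
    rw [a3 (by rw [h3, a5]; ring)]
    have h6 := a6 h5
    rw [a7] at h6
    exact (sq_le_sq₀ a8 hG.le).1 h6
  obtain ⟨Fc, hFc, hFcF⟩ := exists_class hFW
  obtain ⟨u, hu1, hu2⟩ := exists_lip_rep hs hFc hG (by
    filter_upwards [sob_Γ_self_ae hFc, Met.mslope_congr hFcF (mem_sob_iff.1 hFc), hFs,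
      hFW.mslope_nonneg] with z a1 a2 a3 a4
    rw [a1, a2]
    gcongr)
  have huF : u = F := by
    refine (Continuous.ae_eq_iff_eq m (lipschitz_of_abs_sub_le hG.le hu1).continuous
      hFl.continuous).1 ?_
    exact hu2.symm.trans hFcF
  have h7 := hu1 y x
  rw [huF] at h7
  have h8 : F x = 0 := by
    simp only [hF]
    rw [sub_self, max_self, min_eq_left (hb0 x)]
  rw [h8, sub_zero, dist_comm y x] at h7
  by_contra hcon
  push Not at hcon
  have hd : 0 ≤ dist x y := dist_nonneg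
  have h9 : G * dist x y < F y := by
    simp only [hF, hb]
    refine lt_min (lt_of_lt_of_le hcon (le_max_left _ _)) ?_
    refine mul_lt_mul_of_pos_left ?_ hG
    refine lt_of_lt_of_le ?_ (le_max_left _ _)
    rw [dist_comm y x]
    linarith
  linarith [le_abs_self (F y)]

theorem local_stl [m.IsOpenPosMeasure] (hfin : ∀ (x : M) (r : ℝ), m (Metric.ball x r) < ∞)
    (hs : ∀ f ∈ (sob m).W, slope f ≤ 1 → ∃ u : M → ℝ, LipschitzWith 1 u ∧ f =ᵐ[m] u)
    {f : M →ₘ[m] ℝ} (hf : f ∈ (sob m).W) {v : M → ℝ} (hv : Met.IsLip v) (hfv : f =ᵐ[m] v)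
    {G R : ℝ} (hG : 0 ≤ G) {x y : M} (hR : 2 * dist x y < R)
    (h : ∀ᵐ z ∂m, dist z x < R → (sob m).Γ f f z ≤ G ^ 2) :
    v y - v x ≤ G * dist x y := by
  have h1 : ∀ δ : ℝ, 0 < δ → v y - v x ≤ (G + δ) * dist x y := by
    intro δ hδ
    refine local_stl_pos hfin hs hf hv hfv (by linarith) hR ?_
    filter_upwards [h] with z hz hzR
    refine (hz hzR).trans ?_
    gcongr
    linarith
  have h2 : Tendsto (fun δ : ℝ => (G + δ) * dist x y) (𝓝[>] 0) (𝓝 (G * dist x y)) := by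
    have : Continuous fun δ : ℝ => (G + δ) * dist x y := by fun_prop
    have h3 := this.tendsto 0
    simp only [add_zero] at h3
    exact h3.mono_left nhdsWithin_le_nhds
  refine ge_of_tendsto h2 ?_
  filter_upwards [self_mem_nhdsWithin] with δ hδ
  exact h1 δ hδ

/-- the bound of an increment by a Lipschitz bound of the squared gradient -/
theorem increment_le [m.IsOpenPosMeasure] (hfin : ∀ (x : M) (r : ℝ), m (Metric.ball x r) < ∞)
    (hs : ∀ f ∈ (sob m).W, slope f ≤ 1 → ∃ u : M → ℝ, LipschitzWith 1 u ∧ f =ᵐ[m] u)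
    {f : M →ₘ[m] ℝ} (hf : f ∈ (sob m).W) {v : M → ℝ} (hv : Met.IsLip v) (hfv : f =ᵐ[m] v)
    {g : M → ℝ} {l c : ℝ} (hl : 0 ≤ l) (hgl : ∀ x y, |g x - g y| ≤ l * dist x y)
    (hg0 : ∀ x, 0 ≤ g x + c) (h : ∀ᵐ z ∂m, (sob m).Γ f f z ≤ g z + c) {τ : ℝ} (hτ : 0 < τ)
    (x y : M) :
    v y - v x ≤ dist x y ^ 2 / (2 * τ) + τ / 2 * (g x + 3 * dist x y * l + c) := by
  have hd : 0 ≤ dist x y := dist_nonneg
  set A : ℝ := g x + 3 * dist x y * l + c with hA
  have hA0 : 0 ≤ A := by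
    have := hg0 x
    have h2 : 0 ≤ 3 * dist x y * l := by positivity
    rw [hA]; linarith
  rcases hd.eq_or_lt with h0 | h0
  · have hxy : x = y := dist_eq_zero.1 h0.symm
    rw [← hxy, sub_self, dist_self]
    have : 0 ≤ τ / 2 * A := by (clear * - hτ hA0; positivity)
    simpa using this
  have h1 : v y - v x ≤ Real.sqrt A * dist x y := by
    refine local_stl hfin hs hf hv hfv (Real.sqrt_nonneg A) (R := 3 * dist x y) (by linarith) ?_
    filter_upwards [h] with z hz hzR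
    rw [Real.sq_sqrt hA0]
    refine hz.trans ?_
    have h2 := (le_abs_self _).trans (hgl z x)
    have h3 : l * dist z x ≤ l * (3 * dist x y) := mul_le_mul_of_nonneg_left hzR.le hl
    rw [hA]
    linarith only [h3, h2]
  refine h1.trans ?_
  have h4 := Real.sq_sqrt hA0
  have h5 : dist x y ^ 2 / (2 * τ) + τ / 2 * A - Real.sqrt A * dist x y =
      (dist x y - τ * Real.sqrt A) ^ 2 / (2 * τ) := by
    generalize Real.sqrt A = q at h4 ⊢
    rw [← h4]
    field_simp
    ring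
  have h6 : 0 ≤ (dist x y - τ * Real.sqrt A) ^ 2 / (2 * τ) := by (clear * - hτ; positivity)
  linarith only [h6, h5]

/-- chains of points -/
theorem chain_bound
    {X : Type*} [MetricSpace X]
    (hgeo : ∀ x y : X, ∀ s t : ℝ, 0 ≤ s → 0 ≤ t → s + t = dist x y →
      ∃ w, dist x w = s ∧ dist w y = t)
    {n : ℕ} (hn : 0 < n) {V : ℕ → X → ℝ} {E : ℝ} (x y : X)
    (hstep : ∀ k < n, ∀ z w, dist z w = dist x y / n → V (k + 1) w - V k z ≤ E) :
    V n y - V 0 x ≤ n * E := by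
  have hn' : (0 : ℝ) < n := by exact_mod_cast hn
  have key : ∀ k ≤ n, ∃ z, dist z y = ((n : ℝ) - k) * (dist x y / n) ∧
      V k z - V 0 x ≤ k * E := by
    intro k
    induction k with
    | zero =>
      intro _
      refine ⟨x, ?_, by simp⟩
      rw [Nat.cast_zero, sub_zero]
      field_simp
    | succ k ih =>
      intro hk
      obtain ⟨z, h1, h2⟩ := ih (by omega)
      have hk' : ((k : ℝ) + 1) ≤ n := by exact_mod_cast hk
      have hs : 0 ≤ dist x y / n := by positivity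
      obtain ⟨w, h3, h4⟩ := hgeo z y (dist x y / n) (((n : ℝ) - (k + 1)) * (dist x y / n)) hs
        (mul_nonneg (by linarith only [hk']) hs) (by rw [h1]; ring)
      refine ⟨w, by rw [h4]; push_cast; ring, ?_⟩
      have h5 := hstep k (by omega) z w h3
      push_cast
      linarith only [h5, h2]
  obtain ⟨z, h1, h2⟩ := key n le_rfl
  rw [sub_self, zero_mul] at h1
  rw [dist_eq_zero.1 h1] at h2
  exact h2

end Vale.Agent.P233
end

section

/-! Pointwise duality for the resolvent scheme. -/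

open MeasureTheory Filter Topology
open scoped ENNReal NNReal

namespace Vale.Agent.P233

variable {M : Type*} [MetricSpace M] [MeasurableSpace M] [BorelSpace M]
  [SecondCountableTopology M] {m : Measure M}

/-- pointwise duality with explicit errors; `r` is the parameter of the mollification `J_r J_r` -/
theorem pt_duality [m.IsOpenPosMeasure] (hfin : ∀ (x : M) (r : ℝ), m (Metric.ball x r) < ∞)
    (hq : ∀ f ∈ (sob m).W, ∀ g ∈ (sob m).W,
      ∫ x, (slope (f + g) ^ 2) x ∂m + ∫ x, (slope (f - g) ^ 2) x ∂m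
        = 2 * ∫ x, (slope f ^ 2) x ∂m + 2 * ∫ x, (slope g ^ 2) x ∂m)
    (hs : ∀ f ∈ (sob m).W, slope f ≤ 1 → ∃ u : M → ℝ, LipschitzWith 1 u ∧ f =ᵐ[m] u)
    {κ : ℝ} (hB : (sob m).BEi κ)
    (hgeo : ∀ x y : M, ∀ s t : ℝ, 0 ≤ s → 0 ≤ t → s + t = dist x y →
      ∃ w, dist x w = s ∧ dist w y = t)
    {u : ℕ → M →ₘ[m] ℝ} {n : ℕ} (hn : 0 < n) {τ c L R r : ℝ} (hτ : 0 < τ) (hc : 0 ≤ c)
    (hL0 : 0 < L) (hr : 0 < r) (hr4 : 4 * |κ| * r ≤ 1)
    (hT : ∀ k ≤ n, u k ∈ (sob m).Test)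
    (hL : ∀ k ≤ n, ∀ᵐ x ∂m, (sob m).Γ (u k) (u k) x ≤ L)
    (hR0 : ∀ᵐ x ∂m, |(sob m).lap (u 0) x| ≤ R) (hRn : ∀ᵐ x ∂m, |(sob m).lap (u n) x| ≤ R)
    (hstep : ∀ k < n, ∀ᵐ x ∂m, u (k + 1) x - u k x
      ≤ τ * (c - (sob m).Γ (u (k + 1)) (u (k + 1)) x / 2))
    {U V : M → ℝ} (hU : Continuous U) (hV : Continuous V) (hU0 : u 0 =ᵐ[m] U)
    (hVn : u n =ᵐ[m] V) (x y : M) :
    V y - U x ≤ dist x y ^ 2 / (2 * (n * τ)) + n * τ * (c + 6 * r * |κ| * L)
      + 3 / 2 * τ * dist x y * (L * Real.sqrt (2 * r⁻¹)) + 4 * r * R := by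
  have hC : IsGamma (sob m) := isGamma_sob hfin hq hs
  have hD := hC.toIsDir
  have hri : 0 < r⁻¹ := inv_pos.2 hr
  have hn' : (0 : ℝ) < n := by exact_mod_cast hn
  set l : ℝ := L * Real.sqrt (2 * r⁻¹) with hl
  have hl0 : 0 < l := by positivity
  have hlsq : l ^ 2 = 2 * r⁻¹ * L ^ 2 := by
    rw [hl, mul_pow, Real.sq_sqrt (by positivity)]; ring
  have huW : ∀ k ≤ n, u k ∈ (sob m).W := fun k hk => (hC.test_A (hT k hk)).1
  have hu2 : ∀ k ≤ n, MemLp (u k) 2 m := fun k hk => hC.memLp _ (huW k hk)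
  have hΓW : ∀ k ≤ n, (sob m).Γ (u k) (u k) ∈ (sob m).W := fun k hk => (hC.Γ_mem hB (hT k hk)
    (hT k hk)).1
  have hΓ2 : ∀ k ≤ n, MemLp ((sob m).Γ (u k) (u k)) 2 m := fun k hk => hC.memLp _ (hΓW k hk)
  have hΓ0 : ∀ k ≤ n, 0 ≤ (sob m).Γ (u k) (u k) := fun k hk => hC.nonneg _ (huW k hk)
  have hΓb : ∀ k ≤ n, ∀ᵐ x ∂m, |(sob m).Γ (u k) (u k) x| ≤ L := fun k hk => by
    filter_upwards [hL k hk, nonneg_iff_ae.1 (hΓ0 k hk)] with x a1 a2
    rwa [abs_of_nonneg a2]
  -- the mollified functions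
  have hJW : ∀ k ≤ n, (sob m).J r ((sob m).J r (u k)) ∈ (sob m).W := fun k hk =>
    hD.J_mem hr (hD.J_mem2 hr (hu2 k hk))
  have hgW : ∀ k ≤ n, (sob m).J r ((sob m).J r ((sob m).Γ (u k) (u k))) ∈ (sob m).W :=
    fun k hk => hD.J_mem hr (hD.J_mem2 hr (hΓ2 k hk))
  have hex1 : ∀ k, ∃ W : M → ℝ, k ≤ n → (∀ x y, |W x - W y| ≤ 2 * Real.sqrt L * dist x y) ∧
      (sob m).J r ((sob m).J r (u k)) =ᵐ[m] W := by
    intro k
    by_cases hk : k ≤ n
    · have h1 := hC.J_Γ_bdd hB hr hr4 (huW k hk) hL0.le (hL k hk)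
      have h2 := hC.J_Γ_bdd hB hr hr4 (hD.J_mem hr (hu2 k hk)) (by positivity) h1
      have hG : 0 < 2 * Real.sqrt L := by positivity
      obtain ⟨W, h3, h4⟩ := exists_lip_rep hs (hJW k hk) hG (by
        filter_upwards [h2] with x hx
        rw [mul_pow, Real.sq_sqrt hL0.le]
        linarith only [hx])
      exact ⟨W, fun _ => ⟨h3, h4⟩⟩
    · exact ⟨0, fun h => absurd h hk⟩
  have hex2 : ∀ k, ∃ g : M → ℝ, k ≤ n → (∀ x y, |g x - g y| ≤ l * dist x y) ∧
      (sob m).J r ((sob m).J r ((sob m).Γ (u k) (u k))) =ᵐ[m] g := by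
    intro k
    by_cases hk : k ≤ n
    · obtain ⟨g, h3, h4⟩ := exists_lip_rep hs (hgW k hk) hl0 (by
        filter_upwards [hC.J2_Γ_bdd hB hr hr4 (hΓ2 k hk) (hΓb k hk)] with x hx
        rw [hlsq]; exact hx)
      exact ⟨g, fun _ => ⟨h3, h4⟩⟩
    · exact ⟨0, fun h => absurd h hk⟩
  choose W hW using hex1
  choose g hg using hex2
  have hWc : ∀ k ≤ n, Continuous (W k) := fun k hk =>
    (lipschitz_of_abs_sub_le (by positivity) (hW k hk).1).continuous
  have hgc : ∀ k ≤ n, Continuous (g k) := fun k hk =>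
    (lipschitz_of_abs_sub_le hl0.le (hg k hk).1).continuous
  -- pointwise properties
  have hg0 : ∀ k ≤ n, ∀ x, 0 ≤ g k x := by
    intro k hk
    refine le_of_ae_cont (m := m) continuous_const (hgc k hk) ?_
    filter_upwards [(hg k hk).2, nonneg_iff_ae.1 (hD.J_nonneg hr (hD.J_mem2 hr (hΓ2 k hk))
      (hD.J_nonneg hr (hΓ2 k hk) (hΓ0 k hk)))] with x a1 a2
    rwa [a1] at a2
  have hst : ∀ k < n, ∀ x, W (k + 1) x - W k x + τ / 2 * g (k + 1) x ≤ τ * c := by
    intro k hk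
    have hk1 : k + 1 ≤ n := hk
    refine le_of_ae_cont (m := m) (((hWc _ hk1).sub (hWc _ hk.le)).add
      (continuous_const.mul (hgc _ hk1))) continuous_const ?_
    have h1 := hD.J2_step hr (hu2 _ hk1) (hu2 _ hk.le) (hΓ2 _ hk1) (t := τ / 2) (c := τ * c)
      (by positivity) (by
        filter_upwards [hstep k hk] with x hx
        linarith only [hx])
    filter_upwards [h1, (hW _ hk1).2, (hW _ hk.le).2, (hg _ hk1).2] with x a1 a2 a3 a4
    rwa [a2, a3, a4] at a1
  have hinc : ∀ k ≤ n, ∀ z w, W k w - W k z ≤ dist z w ^ 2 / (2 * τ) +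
      τ / 2 * (g k z + 3 * dist z w * l + 12 * r * |κ| * L) := by
    intro k hk z w
    have hc1 : 0 ≤ 12 * r * |κ| * L := by (clear * - hr hL0; positivity)
    refine increment_le hfin hs (hJW k hk) ⟨_, lipschitz_of_abs_sub_le (by positivity)
      (hW k hk).1⟩ (hW k hk).2 hl0.le (hg k hk).1 (fun x => add_nonneg (hg0 k hk x) hc1) ?_ hτ z w
    filter_upwards [hC.J2_Γ_le hB hr hr4 (huW k hk) hL0.le (hL k hk), (hg k hk).2] with x a1 a2
    rwa [a2] at a1
  -- the chain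
  have hchain := chain_bound hgeo hn (V := W) (E := (dist x y / n) ^ 2 / (2 * τ) +
    τ / 2 * (3 * (dist x y / n) * l + 12 * r * |κ| * L) + τ * c) x y (by
      intro k hk z w hzw
      have h1 := hinc (k + 1) hk z w
      have h2 := hst k hk z
      rw [hzw] at h1
      linarith only [h2, h1])
  have h0 : |W 0 x - U x| ≤ 2 * r * R := by
    have h1 := hD.J2_sub_self_bdd hr (hC.test_isLap (hT 0 (Nat.zero_le n))) hR0
    refine le_of_ae_cont (m := m) (u := fun x => |W 0 x - U x|) (v := fun _ => 2 * r * R)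
      ((hWc 0 (Nat.zero_le n)).sub hU).abs continuous_const ?_ x
    filter_upwards [h1, (hW 0 (Nat.zero_le n)).2, hU0] with z a1 a2 a3
    rwa [a2, a3] at a1
  have hN : |W n y - V y| ≤ 2 * r * R := by
    have h1 := hD.J2_sub_self_bdd hr (hC.test_isLap (hT n le_rfl)) hRn
    refine le_of_ae_cont (m := m) (u := fun x => |W n x - V x|) (v := fun _ => 2 * r * R)
      ((hWc n le_rfl).sub hV).abs continuous_const ?_ y
    filter_upwards [h1, (hW n le_rfl).2, hVn] with z a1 a2 a3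
    rwa [a2, a3] at a1
  have e : (n : ℝ) * ((dist x y / n) ^ 2 / (2 * τ) +
      τ / 2 * (3 * (dist x y / n) * l + 12 * r * |κ| * L) + τ * c) =
      dist x y ^ 2 / (2 * (n * τ)) + n * τ * (c + 6 * r * |κ| * L) + 3 / 2 * τ * dist x y * l := by
    field_simp
    ring
  rw [e] at hchain
  have h2 := abs_le.1 h0
  have h3 := abs_le.1 hN
  linarith only [h3.1, h2.2, hchain]

/-- POINTWISE DUALITY for the resolvent scheme of the viscous Hamilton-Jacobi equation -/
theorem pt_vhj [m.IsOpenPosMeasure] (hfin : ∀ (x : M) (r : ℝ), m (Metric.ball x r) < ∞)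
    (hq : ∀ f ∈ (sob m).W, ∀ g ∈ (sob m).W,
      ∫ x, (slope (f + g) ^ 2) x ∂m + ∫ x, (slope (f - g) ^ 2) x ∂m
        = 2 * ∫ x, (slope f ^ 2) x ∂m + 2 * ∫ x, (slope g ^ 2) x ∂m)
    (hs : ∀ f ∈ (sob m).W, slope f ≤ 1 → ∃ u : M → ℝ, LipschitzWith 1 u ∧ f =ᵐ[m] u)
    {κ : ℝ} (hB : (sob m).BEi κ)
    (hgeo : ∀ x y : M, ∀ s t : ℝ, 0 ≤ s → 0 ≤ t → s + t = dist x y →
      ∃ w, dist x w = s ∧ dist w y = t)
    {σ ε L Λ D ξ : ℝ} (hσ : 0 ≤ σ) (hε : 0 < ε) (hL : 0 ≤ L) (hΛ : 0 ≤ Λ) (hξ : 0 < ξ) :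
    ∃ n₀ : ℕ, ∀ n ≥ n₀, ∀ u : ℕ → M →ₘ[m] ℝ, (sob m).VHJ σ (ε / n) L Λ D n u →
      ∀ U V : M → ℝ, Continuous U → Continuous V → u 0 =ᵐ[m] U → u n =ᵐ[m] V →
        ∀ x y, V y - U x ≤ dist x y ^ 2 / (2 * ε) + Λ * σ * ε + ξ := by
  have hC : IsGamma (sob m) := isGamma_sob hfin hq hs
  set L' : ℝ := L + 1 with hL'
  have hL'0 : 0 < L' := by linarith
  set A : ℝ := ε * (6 * |κ| * L') + 4 * |D| with hA
  have hA0 : 0 ≤ A := by (clear * - hε hL; positivity)
  set r : ℝ := min (1 / (4 * |κ| + 1)) (ξ / (2 * (A + 1))) with hr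
  have hr0 : 0 < r := lt_min (by positivity) (by positivity)
  have hr1 : 4 * |κ| * r ≤ 1 := by
    calc 4 * |κ| * r ≤ (4 * |κ| + 1) * (1 / (4 * |κ| + 1)) := by
          refine mul_le_mul (by linarith) (min_le_left _ _) hr0.le (by positivity)
      _ = 1 := by field_simp
  have hr2 : r * A ≤ ξ / 2 := by
    calc r * A ≤ ξ / (2 * (A + 1)) * (A + 1) := by
          refine mul_le_mul (min_le_right _ _) (by linarith) hA0 (by (clear * - hξ hε hL; positivity))
      _ = ξ / 2 := by field_simp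
  set l : ℝ := L' * Real.sqrt (2 * r⁻¹) with hl
  have hl0 : 0 ≤ l := by (clear * - hL hξ hε; positivity)
  set Bc : ℝ := 3 / 2 * ε * (2 * ε * Real.sqrt L') * l with hBc
  have hBc0 : 0 ≤ Bc := by (clear * - hε hL hξ; positivity)
  obtain ⟨n₀, hn₀⟩ := exists_nat_ge (Bc / (ξ / 2))
  refine ⟨n₀ + 1, fun n hn u hu U V hU hV hU0 hVn x y => ?_⟩
  have hn1 : 0 < n := by omega
  have hn' : (0 : ℝ) < n := by exact_mod_cast hn1
  have hnn : (n₀ : ℝ) ≤ n := by exact_mod_cast (by omega : n₀ ≤ n)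
  have hτ : 0 < ε / n := by positivity
  have hnτ : (n : ℝ) * (ε / n) = ε := by field_simp
  have hstep : ∀ k < n, ∀ᵐ x ∂m, u (k + 1) x - u k x
      ≤ ε / n * (Λ * σ - (sob m).Γ (u (k + 1)) (u (k + 1)) x / 2) := by
    intro k hk
    filter_upwards [hu.step_le k hk, hu.lap_le (k + 1) hk] with z a1 a2
    refine a1.trans (mul_le_mul_of_nonneg_left ?_ hτ.le)
    have := mul_le_mul_of_nonneg_left a2 hσ
    linarith only [this]
  have hΓL : ∀ k ≤ n, ∀ᵐ x ∂m, (sob m).Γ (u k) (u k) x ≤ L' := fun k hk => by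
    filter_upwards [hu.grad k hk] with z a1
    linarith only [a1]
  have hlapD : ∀ k ≤ n, ∀ᵐ x ∂m, |(sob m).lap (u k) x| ≤ |D| := fun k hk => by
    filter_upwards [hu.lap_abs k hk] with z a1
    exact a1.trans (le_abs_self D)
  have hΛσ : 0 ≤ Λ * σ := mul_nonneg hΛ hσ
  rcases le_or_gt (dist x y) (2 * ε * Real.sqrt L') with hd | hd
  · have h1 := pt_duality hfin hq hs hB hgeo hn1 hτ hΛσ hL'0 hr0 hr1
      (fun k _ => hu.test k) hΓL (hlapD 0 (Nat.zero_le n)) (hlapD n le_rfl) hstep hU hV hU0 hVn x y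
    rw [hnτ] at h1
    have h2 : 3 / 2 * (ε / n) * dist x y * (L' * Real.sqrt (2 * r⁻¹)) ≤ ξ / 2 := by
      calc 3 / 2 * (ε / n) * dist x y * (L' * Real.sqrt (2 * r⁻¹))
          ≤ 3 / 2 * (ε / n) * (2 * ε * Real.sqrt L') * l := by
            rw [← hl]
            gcongr
        _ = Bc / n := by rw [hBc]; ring
        _ ≤ ξ / 2 := by
            rw [div_le_iff₀ hn']
            rw [div_le_iff₀ (by positivity)] at hn₀
            linarith only [mul_nonneg (le_of_lt (sub_pos.2 hξ)) (sub_nonneg.2 hnn), mul_nonneg (mul_self_nonneg (1 : ℝ)) (sub_nonneg.2 hn₀)]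
    have h3 : ε * (Λ * σ + 6 * r * |κ| * L') + 4 * r * |D| = Λ * σ * ε + r * A := by
      rw [hA]; ring
    linarith only [h2, h1, hr2]
  · -- far points
    have hmono : ∀ k ≤ n, ∀ᵐ z ∂m, u k z - u 0 z ≤ k * (ε / n * (Λ * σ)) := by
      intro k
      induction k with
      | zero =>
        intro _
        filter_upwards with z
        simp
      | succ k ih =>
        intro hk
        filter_upwards [ih (by omega), hstep k hk,
          nonneg_iff_ae.1 (hC.nonneg _ (hC.test_A (hu.test (k + 1))).1)] with z a1 a2 a3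
        push_cast
        have : ε / n * (Λ * σ - (sob m).Γ (u (k + 1)) (u (k + 1)) z / 2) ≤ ε / n * (Λ * σ) :=
          mul_le_mul_of_nonneg_left (by linarith only [a3]) hτ.le
        linarith only [this, a2, a1]
    have h1 : V y - U y ≤ Λ * σ * ε := by
      refine le_of_ae_cont (m := m) (u := fun z => V z - U z) (v := fun _ => Λ * σ * ε)
        (hV.sub hU) continuous_const ?_ y
      filter_upwards [hmono n le_rfl, hU0, hVn] with z a1 a2 a3
      rw [a2, a3] at a1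
      have e : (n : ℝ) * (ε / n * (Λ * σ)) = Λ * σ * ε := by field_simp
      rwa [e] at a1
    have hsL : 0 < Real.sqrt L' := Real.sqrt_pos.2 hL'0
    obtain ⟨W, hW1, hW2⟩ := exists_lip_rep hs (hC.test_A (hu.test 0)).1 hsL (by
      filter_upwards [hΓL 0 (Nat.zero_le n)] with z a1
      rwa [Real.sq_sqrt hL'0.le])
    have hWU : W = U := (Continuous.ae_eq_iff_eq m (lipschitz_of_abs_sub_le hsL.le
      hW1).continuous hU).1 (hW2.symm.trans hU0)
    have h2 := (le_abs_self _).trans (hW1 y x)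
    rw [hWU, dist_comm y x] at h2
    have h3 : Real.sqrt L' * dist x y ≤ dist x y ^ 2 / (2 * ε) := by
      rw [le_div_iff₀ (by positivity)]
      have h4 : 0 ≤ dist x y := dist_nonneg
      linarith only [mul_nonneg (le_of_lt (sub_pos.2 hd)) (sub_nonneg.2 h4)]
    linarith only [h3, h2, h1, hξ]

end Vale.Agent.P233
end

section

/-!
# Kuwada's inequality for the Hopf-Lax functions
-/

open MeasureTheory Filter Topology Set
open scoped ENNReal NNReal

universe u

set_option linter.unusedSectionVars false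

namespace Vale.Agent.P233.AB

section pure

/-- the speed `v ≥ 0` with `α v² + 3 β v⁴ = q`. -/
noncomputable def spd (α β q : ℝ) : ℝ := √(2 * q / (α + √(α ^ 2 + 12 * β * q)))

theorem spd_nonneg (α β q : ℝ) : 0 ≤ spd α β q := Real.sqrt_nonneg _

theorem spd_eq {α β q : ℝ} (hα : 0 < α) (hβ : 0 ≤ β) (hq : 0 ≤ q) :
    α * spd α β q ^ 2 + 3 * β * spd α β q ^ 4 = q := by
  have h0 : 0 ≤ α ^ 2 + 12 * β * q := by positivity
  set d := √(α ^ 2 + 12 * β * q) with hd
  have hd0 : 0 ≤ d := Real.sqrt_nonneg _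
  have hd2 : d ^ 2 = α ^ 2 + 12 * β * q := Real.sq_sqrt h0
  have h1 : spd α β q ^ 2 = 2 * q / (α + d) := Real.sq_sqrt (by positivity)
  have h2 : spd α β q ^ 4 = (2 * q / (α + d)) ^ 2 := by
    rw [← h1]; ring
  rw [h1, h2]
  have hne : α + d ≠ 0 := by positivity
  field_simp
  nlinarith

theorem spd_sq_le {α β q : ℝ} (hα : 0 < α) (hβ : 0 ≤ β) (hq : 0 ≤ q) :
    spd α β q ^ 2 ≤ q / α := by
  have h := spd_eq hα hβ hq
  rw [le_div_iff₀ hα]
  have : 0 ≤ 3 * β * spd α β q ^ 4 := by positivity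
  linarith only [this, h]

theorem measurable_spd (α β : ℝ) : Measurable (spd α β) := by
  unfold spd
  fun_prop

/-- Young's inequality for `α v² + β v⁴`. -/
theorem young {α β v w : ℝ} (hα : 0 ≤ α) (hβ : 0 ≤ β) :
    (2 * α * v + 4 * β * v ^ 3) * w
      ≤ (α * v ^ 2 + 3 * β * v ^ 4) + (α * w ^ 2 + β * w ^ 4) := by
  have h1 : 0 ≤ α * (v - w) ^ 2 := by positivity
  have h2 : 0 ≤ β * ((v - w) ^ 2 * (2 * v ^ 2 + (v + w) ^ 2)) := by positivity
  linarith only [h2, h1]

end pure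

section U

variable {M : Type u} [MetricSpace M] {α β K L : ℝ} {h : M → ℝ}

open Classical in
/-- the Hopf-Lax function, extended by `h` to nonpositive times. -/
noncomputable def hlu (α β : ℝ) (h : M → ℝ) (r : ℝ) (x : M) : ℝ :=
  if r ≤ 0 then h x else hl α β h r x

theorem hlu_pos {r : ℝ} (hr : 0 < r) (x : M) : hlu α β h r x = hl α β h r x := by
  unfold hlu
  rw [if_neg (not_le.2 hr)]

theorem hlu_nonpos {r : ℝ} (hr : r ≤ 0) (x : M) : hlu α β h r x = h x := by
  unfold hlu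
  rw [if_pos hr]

namespace Dat

variable (D : Dat α β K L h)
include D

theorem hlu_abs (r : ℝ) (x : M) : |hlu α β h r x| ≤ K := by
  rcases le_or_gt r 0 with hr | hr
  · rw [hlu_nonpos hr]; exact D.hK x
  · rw [hlu_pos hr]; exact D.hl_abs hr x

theorem L_le_cx : L ≤ cx α β L := by
  have hα := D.hα
  have hβ := D.hβ
  have hL0 := D.hL0
  have : 0 ≤ L ^ 2 / (4 * α) + 2 * α * ((L + 1) / α + 2) + 4 * β * ((L + 1) / α + 2) ^ 3 := by
    positivity
  unfold cx
  linarith only [this]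

theorem hlu_lip (r : ℝ) (x y : M) :
    |hlu α β h r x - hlu α β h r y| ≤ cx α β L * dist x y := by
  rcases le_or_gt r 0 with hr | hr
  · rw [hlu_nonpos hr, hlu_nonpos hr]
    exact (D.hL x y).trans (mul_le_mul_of_nonneg_right D.L_le_cx dist_nonneg)
  · rw [hlu_pos hr, hlu_pos hr]; exact D.hl_lip hr x y

theorem hlu_anti {r r' : ℝ} (hrr : r ≤ r') (x : M) : hlu α β h r' x ≤ hlu α β h r x := by
  rcases le_or_gt r' 0 with hr' | hr'
  · rw [hlu_nonpos hr', hlu_nonpos (hrr.trans hr')]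
  · rcases le_or_gt r 0 with hr | hr
    · rw [hlu_pos hr', hlu_nonpos hr]; exact D.hl_le_self hr' x
    · rw [hlu_pos hr', hlu_pos hr]; exact D.hl_anti hr hrr x

theorem hlu_time {r r' : ℝ} (hrr : r ≤ r') (x : M) :
    hlu α β h r x - hlu α β h r' x ≤ ct α β L * (r' - r) := by
  have hct := D.ct_nonneg
  rcases le_or_gt r' 0 with hr' | hr'
  · rw [hlu_nonpos hr', hlu_nonpos (hrr.trans hr'), sub_self]
    exact mul_nonneg hct (by linarith)
  · rcases le_or_gt r 0 with hr | hr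
    · rw [hlu_pos hr', hlu_nonpos hr]
      have h1 := D.hl_ge_self hr' x
      have hα := D.hα
      have hβ := D.hβ
      have hL0 := D.hL0
      have h2 : L ^ 2 / (4 * α) ≤ ct α β L := by
        have e : L ^ 2 / (4 * α) ≤ L ^ 2 / (2 * α) := by
          gcongr; norm_num
        unfold ct
        have : 0 ≤ α * (2 * ((L + 1) / α + 1)) ^ 2 + 3 * β * (2 * ((L + 1) / α + 1)) ^ 4 := by
          positivity
        linarith only [this, e]
      have h3 : L ^ 2 / (4 * α) * r' ≤ ct α β L * (r' - r) := by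
        have : 0 ≤ L ^ 2 / (4 * α) := by positivity
        linarith only [mul_nonneg (sub_nonneg.2 hr) (sub_nonneg.2 this), mul_nonneg (sub_nonneg.2 hr) (sub_nonneg.2 h2), mul_nonneg (le_of_lt (sub_pos.2 hr')) (sub_nonneg.2 h2)]
      linarith
    · rw [hlu_pos hr', hlu_pos hr]; exact D.hl_time hr hrr x

theorem hlu_time_abs (r r' : ℝ) (x : M) :
    |hlu α β h r x - hlu α β h r' x| ≤ ct α β L * |r - r'| := by
  rcases le_total r r' with hrr | hrr
  · have h1 := D.hlu_time hrr x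
    have h2 := D.hlu_anti hrr x
    rw [abs_of_nonneg (by linarith), abs_of_nonpos (by linarith)]
    linarith
  · have h1 := D.hlu_time hrr x
    have h2 := D.hlu_anti hrr x
    rw [abs_of_nonpos (by linarith), abs_of_nonneg (by linarith)]
    linarith

theorem lip_time (x : M) : LipschitzWith (ct α β L).toNNReal fun r => hlu α β h r x := by
  refine LipschitzWith.of_dist_le_mul fun r r' => ?_
  rw [Real.dist_eq, Real.dist_eq, Real.coe_toNNReal _ D.ct_nonneg]
  exact D.hlu_time_abs r r' x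

theorem lip_space (r : ℝ) : LipschitzWith (cx α β L).toNNReal fun x => hlu α β h r x := by
  refine LipschitzWith.of_dist_le_mul fun x y => ?_
  rw [Real.dist_eq, Real.coe_toNNReal _ D.cx_nonneg]
  exact D.hlu_lip r x y

theorem cont : Continuous (Function.uncurry fun (x : M) (r : ℝ) => hlu α β h r x) := by
  exact continuous_prod_of_continuous_lipschitzWith _ (cx α β L).toNNReal
    (fun x => (D.lip_time x).continuous) (fun r => D.lip_space r)

/-- the slope at times of differentiability. -/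
theorem lipAt_hlu {r q : ℝ} {x : M} (hr : 0 < r)
    (hd : HasDerivAt (fun s => hlu α β h s x) q r) :
    q ≤ 0 ∧ lipAt (hlu α β h r) x
      ≤ ENNReal.ofReal (2 * α * spd α β (-q) + 4 * β * spd α β (-q) ^ 3) := by
  have hq : q ≤ 0 := by
    have h1 := hd.tendsto_slope_zero_right
    refine le_of_tendsto h1 ?_
    filter_upwards [self_mem_nhdsWithin] with s hs
    have hs0 : 0 < s := hs
    have h2 := D.hlu_anti (by linarith : r ≤ r + s) x
    rw [smul_eq_mul]
    have : 0 < s⁻¹ := by positivity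
    linarith only [mul_nonneg (sub_nonneg.2 h2) (le_of_lt (sub_pos.2 this))]
  refine ⟨hq, ?_⟩
  have hd' : HasDerivAt (fun s => hl α β h s x) q r := by
    refine hd.congr_of_eventuallyEq ?_
    filter_upwards [lt_mem_nhds hr] with s hs
    exact (hlu_pos hs x).symm
  have h1 := D.lipAt_hl hr (spd_nonneg α β (-q)) hd'
    (spd_eq D.hα D.hβ (by linarith : 0 ≤ -q)).ge
  have h2 : hlu α β h r = hl α β h r := by
    funext y; exact hlu_pos hr y
  rw [h2]
  exact h1

end Dat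

end U

section int

variable {M : Type u} [MetricSpace M] [MeasurableSpace M] [BorelSpace M]
  [SecondCountableTopology M] {m : Measure M} [SFinite m] {α β K L : ℝ} {h : M → ℝ}

namespace Dat

variable (D : Dat α β K L h)
include D

theorem meas_deriv (r : ℝ) : Measurable fun x : M => deriv (fun s => hlu α β h s x) r := by
  have h1 := measurable_deriv_with_param (𝕜 := ℝ) (f := fun (x : M) (s : ℝ) => hlu α β h s x) D.cont
  have h2 : Measurable fun x : M => (x, r) := measurable_prodMk_right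
  exact (h1.comp h2 :)

theorem ae_diff (ε : ℝ) :
    ∀ᵐ t : ℝ, ∀ᵐ x ∂m, DifferentiableAt ℝ (fun s => hlu α β h s x) (ε - t) := by
  have h1 : ∀ᵐ r : ℝ, ∀ᵐ x ∂m, DifferentiableAt ℝ (fun s => hlu α β h s x) r := by
    have hS := measurableSet_of_differentiableAt_with_param (𝕜 := ℝ)
      (f := fun (x : M) (s : ℝ) => hlu α β h s x) D.cont
    have h2 : ∀ᵐ x ∂m, ∀ᵐ r : ℝ, DifferentiableAt ℝ (fun s => hlu α β h s x) r :=
      Eventually.of_forall fun x => (D.lip_time x).ae_differentiableAt_real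
    exact (Measure.ae_ae_comm hS).1 h2
  exact (volume.measurePreserving_sub_left ε).quasiMeasurePreserving.ae h1

theorem deriv_bound {r : ℝ} {x : M} : |deriv (fun s => hlu α β h s x) r| ≤ ct α β L := by
  have h1 := norm_deriv_le_of_lipschitz (x₀ := r) (D.lip_time x)
  rwa [Real.norm_eq_abs, Real.coe_toNNReal _ D.ct_nonneg] at h1

end Dat

/-- the density. -/
noncomputable def rho (F R1 R2 : M → ℝ) (t : ℝ) (x : M) : ℝ := F x + t * R1 x + t ^ 2 / 2 * R2 x

omit [MetricSpace M] [MeasurableSpace M] [BorelSpace M] [SecondCountableTopology M] in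
theorem rho_abs {F R1 R2 : M → ℝ} {t T : ℝ} (ht : |t| ≤ T) (x : M) :
    |rho F R1 R2 t x| ≤ |F x| + T * |R1 x| + T ^ 2 * |R2 x| := by
  unfold rho
  have h1 : |t * R1 x| ≤ T * |R1 x| := by
    rw [abs_mul]; gcongr
  have h2 : |t ^ 2 / 2 * R2 x| ≤ T ^ 2 * |R2 x| := by
    rw [abs_mul]
    gcongr
    rw [abs_of_nonneg (by positivity)]
    have : t ^ 2 ≤ T ^ 2 := by
      rw [← sq_abs t]
      gcongr
    linarith only [sq_nonneg t, this]
  calc |F x + t * R1 x + t ^ 2 / 2 * R2 x| ≤ |F x| + |t * R1 x| + |t ^ 2 / 2 * R2 x| :=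
        abs_add_three _ _ _
    _ ≤ _ := by linarith

omit [MetricSpace M] [MeasurableSpace M] [BorelSpace M] [SecondCountableTopology M] in
theorem rho_sub {F R1 R2 : M → ℝ} {t t' T : ℝ} (ht : |t| ≤ T) (ht' : |t'| ≤ T) (x : M) :
    |rho F R1 R2 t x - rho F R1 R2 t' x| ≤ (|R1 x| + T * |R2 x|) * |t - t'| := by
  have e : rho F R1 R2 t x - rho F R1 R2 t' x = (t - t') * (R1 x + (t + t') / 2 * R2 x) := by
    unfold rho; ring
  rw [e, abs_mul, mul_comm]
  gcongr
  refine (abs_add_le _ _).trans ?_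
  gcongr
  rw [abs_mul]
  gcongr
  rw [abs_div, abs_two, div_le_iff₀ two_pos]
  calc |t + t'| ≤ |t| + |t'| := abs_add_le _ _
    _ ≤ T * 2 := by linarith

omit [MetricSpace M] [BorelSpace M] [SecondCountableTopology M] in
theorem rho_int {F R1 R2 : M → ℝ} (hF : Integrable F m) (h1 : Integrable R1 m)
    (h2 : Integrable R2 m) (t : ℝ) : Integrable (rho F R1 R2 t) m :=
  (hF.add (h1.const_mul t)).add (h2.const_mul (t ^ 2 / 2))

theorem Dat.hl_int (D : Dat α β K L h) {ε : ℝ} (hε : 0 < ε) {F R1 R2 : M → ℝ}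
    (hF : Integrable F m) (h1 : Integrable R1 m) (h2 : Integrable R2 m)
    (hρ : ∀ t ∈ Icc 0 ε, ∀ᵐ x ∂m, 0 ≤ rho F R1 R2 t x)
    (w : ℝ → M → ℝ) (hwm : ∀ t ∈ Icc 0 ε, AEStronglyMeasurable (w t) m)
    (hwi : ∀ t ∈ Icc 0 ε,
      Integrable (fun x => rho F R1 R2 t x * (α * w t x ^ 2 + β * w t x ^ 4)) m)
    (act : ℝ → ℝ) (hai : IntervalIntegrable act volume 0 ε)
    (hact : ∀ t ∈ Icc 0 ε, ∫ x, rho F R1 R2 t x * (α * w t x ^ 2 + β * w t x ^ 4) ∂m ≤ act t)
    (H : ∀ t ∈ Icc 0 ε, ∀ g : M → ℝ, (∃ C, LipschitzWith C g) → (∃ b, ∀ x, |g x| ≤ b) →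
      ∀ ℓ : M → ℝ, Measurable ℓ → (∀ x, 0 ≤ ℓ x) → (∃ b, ∀ x, ℓ x ≤ b) →
      (∀ᵐ x ∂m, lipAt g x ≤ ENNReal.ofReal (ℓ x)) →
      Integrable (fun x => rho F R1 R2 t x * (ℓ x * w t x)) m →
      -∫ x, rho F R1 R2 t x * (ℓ x * w t x) ∂m ≤ ∫ x, g x * (R1 x + t * R2 x) ∂m) :
    ∫ x, hl α β h ε x * F x ∂m
      ≤ ∫ x, h x * rho F R1 R2 ε x ∂m + ∫ t in (0 : ℝ)..ε, act t := by
  have hα := D.hα
  have hβ := D.hβ
  have hct := D.ct_nonneg
  set ρ := rho F R1 R2 with hρdef
  set U := hlu α β h with hU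
  set G : ℝ → ℝ := fun t => ∫ x, U (ε - t) x * ρ t x ∂m with hG
  set bd : M → ℝ := fun x => ct α β L * (|F x| + (ε + 1) * |R1 x| + (ε + 1) ^ 2 * |R2 x|)
    + |K| * (|R1 x| + (ε + 1) * |R2 x|) with hbd
  have hbdi : Integrable bd m := by
    refine Integrable.add (Integrable.const_mul ?_ _) (Integrable.const_mul ?_ _)
    · exact (hF.abs.add (h1.abs.const_mul _)).add (h2.abs.const_mul _)
    · exact h1.abs.add (h2.abs.const_mul _)
  have hbd0 : ∀ x, 0 ≤ bd x := by
    intro x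
    have : 0 ≤ ε + 1 := by linarith
    (clear * - hct hε; positivity)
  have hlip : ∀ t t' : ℝ, |t| ≤ ε + 1 → |t'| ≤ ε + 1 → ∀ x,
      |U (ε - t) x * ρ t x - U (ε - t') x * ρ t' x| ≤ bd x * |t - t'| := by
    intro t t' ht ht' x
    have e : U (ε - t) x * ρ t x - U (ε - t') x * ρ t' x
        = (U (ε - t) x - U (ε - t') x) * ρ t x + U (ε - t') x * (ρ t x - ρ t' x) := by ring
    rw [e]
    have a1 := D.hlu_time_abs (ε - t) (ε - t') x
    have a2 := rho_abs (F := F) (R1 := R1) (R2 := R2) ht x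
    have a3 := rho_sub (F := F) (R1 := R1) (R2 := R2) ht ht' x
    have a4 : |U (ε - t') x| ≤ |K| := (D.hlu_abs _ x).trans (le_abs_self K)
    have a5 : |ε - t - (ε - t')| = |t - t'| := by
      rw [show ε - t - (ε - t') = -(t - t') by ring, abs_neg]
    rw [a5] at a1
    refine (abs_add_le _ _).trans ?_
    rw [abs_mul, abs_mul]
    have b1 : |U (ε - t) x - U (ε - t') x| * |ρ t x| ≤
        (ct α β L * |t - t'|) * (|F x| + (ε + 1) * |R1 x| + (ε + 1) ^ 2 * |R2 x|) := by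
      gcongr
    have b2 : |U (ε - t') x| * |ρ t x - ρ t' x| ≤
        |K| * ((|R1 x| + (ε + 1) * |R2 x|) * |t - t'|) := by
      gcongr
    calc _ ≤ _ := add_le_add b1 b2
      _ = bd x * |t - t'| := by rw [hbd]; ring
  have hUm : ∀ r, Measurable (U r) := fun r => (D.lip_space r).continuous.measurable
  have hint : ∀ t : ℝ, Integrable (fun x => U (ε - t) x * ρ t x) m := by
    intro t
    refine (rho_int hF h1 h2 t).bdd_mul (c := |K|) (hUm _).aestronglyMeasurable ?_
    exact Eventually.of_forall fun x => by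
      rw [Real.norm_eq_abs]; exact (D.hlu_abs _ x).trans (le_abs_self K)
  -- absolute continuity
  have hGlip : LipschitzOnWith (∫ x, bd x ∂m).toNNReal G (uIcc 0 ε) := by
    refine LipschitzOnWith.of_dist_le_mul fun t ht t' ht' => ?_
    rw [uIcc_of_le hε.le] at ht ht'
    rw [Real.dist_eq, Real.dist_eq, Real.coe_toNNReal _ (integral_nonneg hbd0)]
    have ht1 : |t| ≤ ε + 1 := by rw [abs_of_nonneg ht.1]; linarith [ht.2]
    have ht1' : |t'| ≤ ε + 1 := by rw [abs_of_nonneg ht'.1]; linarith [ht'.2]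
    rw [hG]
    dsimp only
    rw [← integral_sub (hint t) (hint t')]
    refine (abs_integral_le_integral_abs).trans ?_
    rw [← integral_mul_const]
    refine integral_mono_ae ((hint t).sub (hint t')).abs (hbdi.mul_const _) ?_
    exact Eventually.of_forall fun x => hlip t t' ht1 ht1' x
  have hAC := hGlip.absolutelyContinuousOnInterval
  have hftc := hAC.integral_deriv_eq_sub
  -- the derivative
  have key : ∀ᵐ t : ℝ, t ∈ Ioo 0 ε → -act t ≤ deriv G t := by
    filter_upwards [D.ae_diff (m := m) ε] with t ht htI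
    have htI' : t ∈ Icc 0 ε := ⟨htI.1.le, htI.2.le⟩
    have hr : 0 < ε - t := by linarith [htI.2]
    set q : M → ℝ := fun x => deriv (fun s => U s x) (ε - t) with hq
    have hqm : Measurable q := D.meas_deriv _
    set F' : M → ℝ := fun x => -q x * ρ t x + U (ε - t) x * (R1 x + t * R2 x) with hF'
    have hqb : ∀ x, |q x| ≤ ct α β L := fun x => D.deriv_bound
    have hi1 : Integrable (fun x => -q x * ρ t x) m := by
      refine (rho_int hF h1 h2 t).bdd_mul (c := ct α β L) hqm.neg.aestronglyMeasurable ?_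
      exact Eventually.of_forall fun x => by
        rw [Real.norm_eq_abs]
        exact (abs_neg (q x)).trans_le (hqb x)
    have hi2 : Integrable (fun x => U (ε - t) x * (R1 x + t * R2 x)) m := by
      refine (h1.add (h2.const_mul t)).bdd_mul (c := |K|) (hUm _).aestronglyMeasurable ?_
      exact Eventually.of_forall fun x => by
        rw [Real.norm_eq_abs]; exact (D.hlu_abs _ x).trans (le_abs_self K)
    have hder : HasDerivAt G (∫ x, F' x ∂m) t := by
      refine (hasDerivAt_integral_of_dominated_loc_of_lip (𝕜 := ℝ) (μ := m)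
        (F := fun t x => U (ε - t) x * ρ t x) (F' := F') (x₀ := t) (bound := bd)
        (s := Ioo 0 ε) (isOpen_Ioo.mem_nhds htI) ?_ (hint t) ?_ ?_ hbdi ?_).2
      · exact Eventually.of_forall fun s => (hint s).aestronglyMeasurable
      · exact (hi1.add hi2).aestronglyMeasurable
      · refine Eventually.of_forall fun x => ?_
        refine LipschitzOnWith.of_dist_le_mul fun s hs s' hs' => ?_
        rw [Real.dist_eq, Real.dist_eq, Real.coe_nnabs, abs_of_nonneg (hbd0 x)]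
        exact hlip s s' (by rw [abs_of_nonneg hs.1.le]; linarith [hs.2])
          (by rw [abs_of_nonneg hs'.1.le]; linarith [hs'.2]) x
      · filter_upwards [ht] with x hx
        have d1 : HasDerivAt (fun s => U (ε - s) x) (-q x) t := by
          have := hx.hasDerivAt.comp_const_sub ε t
          exact this
        have d2 : HasDerivAt (fun s => ρ s x) (R1 x + t * R2 x) t := by
          have e : (fun s => ρ s x) = fun s => F x + s * R1 x + s ^ 2 / 2 * R2 x := rfl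
          rw [e]
          have := (((hasDerivAt_id t).mul_const (R1 x)).const_add (F x)).add
            (((hasDerivAt_pow 2 t).div_const 2).mul_const (R2 x))
          refine this.congr_deriv ?_
          simp
        exact d1.mul d2
    rw [hder.deriv]
    have hsplit : ∫ x, F' x ∂m = ∫ x, -q x * ρ t x ∂m + ∫ x, U (ε - t) x * (R1 x + t * R2 x) ∂m :=
      integral_add hi1 hi2
    rw [hsplit]
    -- the slope
    set v : M → ℝ := fun x => spd α β (-q x) with hv
    set ℓ : M → ℝ := fun x => 2 * α * v x + 4 * β * v x ^ 3 with hℓ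
    have hvm : Measurable v := (measurable_spd α β).comp hqm.neg
    have hv0 : ∀ x, 0 ≤ v x := fun x => spd_nonneg _ _ _
    have hℓm : Measurable ℓ := (hvm.const_mul (2 * α)).add ((hvm.pow_const 3).const_mul (4 * β))
    have hℓ0 : ∀ x, 0 ≤ ℓ x := by
      intro x
      have := hv0 x
      (clear * - hα this hβ; positivity)
    -- the boundedness of the speed
    have hvb : ∀ x, v x ≤ √(ct α β L / α) := by
      intro x
      by_cases hqx : 0 ≤ -q x
      · refine Real.le_sqrt_of_sq_le ((spd_sq_le hα hβ hqx).trans ?_)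
        gcongr
        exact (neg_le_abs _).trans (hqb x)
      · push Not at hqx
        have : v x = 0 := by
          rw [hv]
          dsimp only
          unfold spd
          refine Real.sqrt_eq_zero_of_nonpos ?_
          exact div_nonpos_of_nonpos_of_nonneg (by linarith) (by (clear * - hα; positivity))
        rw [this]
        exact Real.sqrt_nonneg _
    set V := √(ct α β L / α) with hV
    have hV0 : 0 ≤ V := Real.sqrt_nonneg _
    have hℓb : ∀ x, ℓ x ≤ 2 * α * V + 4 * β * V ^ 3 := by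
      intro x
      have := hvb x
      have := hv0 x
      rw [hℓ]
      dsimp only
      gcongr
    have hsl : ∀ᵐ x ∂m, 0 ≤ -q x ∧ lipAt (U (ε - t)) x ≤ ENNReal.ofReal (ℓ x) := by
      filter_upwards [ht] with x hx
      have := D.lipAt_hlu hr hx.hasDerivAt
      exact ⟨by linarith [this.1], this.2⟩
    -- integrability of the mixed term
    have hρt := hρ t htI'
    have hi3 : Integrable (fun x => ρ t x * (ℓ x * w t x)) m := by
      set B := 2 * α * V + 4 * β * V ^ 3 with hB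
      have hB0 : 0 ≤ B := by (clear * - hα hβ; positivity)
      refine Integrable.mono' (g := fun x => B * (ρ t x + α⁻¹ *
        (ρ t x * (α * w t x ^ 2 + β * w t x ^ 4)))) ?_ ?_ ?_
      · exact ((rho_int hF h1 h2 t).add ((hwi t htI').const_mul _)).const_mul _
      · exact (rho_int hF h1 h2 t).aestronglyMeasurable.mul
          (hℓm.aestronglyMeasurable.mul (hwm t htI'))
      · filter_upwards [hρt] with x hx
        rw [Real.norm_eq_abs, abs_mul, abs_mul, abs_of_nonneg hx, abs_of_nonneg (hℓ0 x)]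
        have c1 : |w t x| ≤ 1 + α⁻¹ * (α * w t x ^ 2 + β * w t x ^ 4) := by
          have : α⁻¹ * (α * w t x ^ 2 + β * w t x ^ 4) = w t x ^ 2 + α⁻¹ * (β * w t x ^ 4) := by
            field_simp
          rw [this]
          have : 0 ≤ α⁻¹ * (β * w t x ^ 4) := by (clear * - hα hβ; positivity)
          linarith only [sq_nonneg (|w t x| - 1), sq_abs (w t x), abs_nonneg (w t x), this]
        calc ρ t x * (ℓ x * |w t x|) ≤ ρ t x * (B * (1 + α⁻¹ * (α * w t x ^ 2 + β * w t x ^ 4))) := by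
              have := hℓb x
              have := hℓ0 x
              gcongr
          _ = _ := by ring
    have hH := H t htI' (U (ε - t)) ⟨_, D.lip_space (ε - t)⟩
      ⟨K, fun x => D.hlu_abs _ x⟩ ℓ hℓm hℓ0 ⟨_, hℓb⟩ (hsl.mono fun x hx => hx.2) hi3
    have hpt : ∫ x, ρ t x * (ℓ x * w t x) ∂m ≤ ∫ x, -q x * ρ t x ∂m
        + ∫ x, ρ t x * (α * w t x ^ 2 + β * w t x ^ 4) ∂m := by
      rw [← integral_add hi1 (hwi t htI')]
      refine integral_mono_ae hi3 (hi1.add (hwi t htI')) ?_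
      filter_upwards [hρt, hsl] with x hx hx2
      have y1 := young (v := v x) (w := w t x) hα.le hβ
      have y2 := spd_eq hα hβ hx2.1
      change α * v x ^ 2 + 3 * β * v x ^ 4 = -q x at y2
      rw [y2] at y1
      calc ρ t x * (ℓ x * w t x) ≤ ρ t x * (-q x + (α * w t x ^ 2 + β * w t x ^ 4)) :=
            mul_le_mul_of_nonneg_left y1 hx
        _ = _ := by ring
    have := hact t htI'
    linarith only [this, hpt, hH]
  -- integrate
  have h3 : -∫ t in (0 : ℝ)..ε, act t ≤ ∫ t in (0 : ℝ)..ε, deriv G t := by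
    rw [← intervalIntegral.integral_neg]
    refine intervalIntegral.integral_mono_ae_restrict hε.le hai.neg
      hAC.intervalIntegrable_deriv ?_
    refine (ae_restrict_iff' measurableSet_Icc).2 ?_
    have hz : ∀ᵐ t : ℝ, t ≠ 0 ∧ t ≠ ε := by
      have z1 : ∀ᵐ t : ℝ, t ≠ 0 := by simp [ae_iff]
      have z2 : ∀ᵐ t : ℝ, t ≠ ε := by simp [ae_iff]
      exact z1.and z2
    filter_upwards [key, hz] with t ht1 ht2 ht3
    exact ht1 ⟨lt_of_le_of_ne ht3.1 (Ne.symm ht2.1), lt_of_le_of_ne ht3.2 ht2.2⟩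
  rw [hftc] at h3
  have e1 : G ε = ∫ x, h x * ρ ε x ∂m := by
    rw [hG]
    dsimp only
    refine integral_congr_ae (Eventually.of_forall fun x => ?_)
    dsimp only
    rw [hU, sub_self, hlu_nonpos le_rfl]
  have e2 : G 0 = ∫ x, hl α β h ε x * F x ∂m := by
    rw [hG]
    dsimp only
    refine integral_congr_ae (Eventually.of_forall fun x => ?_)
    dsimp only
    rw [hU, sub_zero, hlu_pos hε, hρdef]
    unfold rho
    ring
  rw [e1, e2] at h3
  linarith

end int

end Vale.Agent.P233.AB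
end

section

/-!
# The Benamou-Brenier upper bound (Kuwada's inequality) in Sobolev form
-/

open MeasureTheory Filter Topology Set
open scoped ENNReal NNReal

set_option linter.unusedSectionVars false

namespace Vale.Agent.P233

universe u

variable {M : Type u} [MetricSpace M] [MeasurableSpace M] [BorelSpace M]
  [SecondCountableTopology M] {m : Measure M}

/-- localization of a bounded Lipschitz function, with its slope. -/
theorem exists_local (hfin : ∀ (x : M) (r : ℝ), m (Metric.ball x r) < ∞) {g : M → ℝ}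
    {Kg : ℝ≥0} (hg : LipschitzWith Kg g) {b : ℝ} (hb : ∀ x, |g x| ≤ b) {ℓ : M → ℝ}
    (hℓm : Measurable ℓ) (hℓ0 : ∀ x, 0 ≤ ℓ x) {b' : ℝ} (hℓb : ∀ x, ℓ x ≤ b')
    (hsl : ∀ᵐ x ∂m, lipAt g x ≤ ENNReal.ofReal (ℓ x)) (x₀ : M) (R : ℝ) :
    ∃ G ∈ (sob m).W, MemLp G ∞ m ∧ MemLp ((sob m).Γ G G) ∞ m ∧
      (∀ᵐ x ∂m, dist x x₀ ≤ R → G x = g x) ∧
      ∀ᵐ x ∂m, dist x x₀ ≤ R → (sob m).Γ G G x ≤ ℓ x ^ 2 := by
  set w : M → ℝ := fun x => Met.cutoff x₀ (R + 1) x * g x with hw
  have hcl : Met.IsLip (Met.cutoff x₀ (R + 1)) := ⟨1, Met.cutoff_lip x₀ (R + 1)⟩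
  obtain ⟨L, hL⟩ : Met.IsLip w := hcl.mul ⟨Kg, hg⟩
    ⟨1, fun x => abs_le.2 ⟨by linarith [Met.cutoff_nonneg x₀ (R + 1) x], Met.cutoff_le_one x₀ _ x⟩⟩
    ⟨b, hb⟩
  have hsupp : ∀ x, x ∉ Metric.ball x₀ (R + 1 + 1) → w x = 0 := by
    intro x hx
    simp only [hw]
    rw [Met.cutoff_eq_zero hx, zero_mul]
  have hgood := Met.good_of_bounded_support hfin hL hsupp
  have heq : ∀ x, dist x x₀ < R + 1 → w x = g x := by
    intro x hx
    simp only [hw]
    rw [Met.cutoff_eq_one hx.le, one_mul]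
  set bf : M → ℝ := fun x => if dist x x₀ < R + 1 then ℓ x else
    (Metric.ball x₀ (R + 1 + 1 + 1)).indicator (fun _ => (L : ℝ)) x with hbf
  have hbm : MeasurableSet {x : M | dist x x₀ < R + 1} :=
    (isOpen_lt (by fun_prop) (by fun_prop)).measurableSet
  have hbmeas : Measurable bf :=
    Measurable.ite hbm hℓm (measurable_const.indicator Metric.isOpen_ball.measurableSet)
  have hb0 : 0 ≤ b' := (hℓ0 x₀).trans (hℓb x₀)
  have hgood2 : Met.Good m w bf := by
    refine Met.Good.mk' hgood.1 hgood.2.1 ?_ ?_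
    · have h1 : MemLp ((Metric.ball x₀ (R + 1 + 1 + 1)).indicator fun _ => (b' + L : ℝ)) 2 m :=
        memLp_indicator_const 2 Metric.isOpen_ball.measurableSet _ (Or.inr (hfin x₀ _).ne)
      refine h1.mono hbmeas.aestronglyMeasurable ?_
      filter_upwards with x
      simp only [hbf]
      split_ifs with hx
      · have : x ∈ Metric.ball x₀ (R + 1 + 1 + 1) := by
          rw [Metric.mem_ball]; linarith
        rw [Set.indicator_of_mem this, Real.norm_eq_abs, Real.norm_eq_abs]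
        rw [abs_of_nonneg (hℓ0 x), abs_of_nonneg (by (clear * - hb0; positivity))]
        linarith [L.coe_nonneg, hℓb x]
      · by_cases hx2 : x ∈ Metric.ball x₀ (R + 1 + 1 + 1)
        · rw [Set.indicator_of_mem hx2, Set.indicator_of_mem hx2, Real.norm_eq_abs,
            Real.norm_eq_abs, abs_of_nonneg L.coe_nonneg, abs_of_nonneg (by positivity)]
          linarith
        · rw [Set.indicator_of_notMem hx2, Set.indicator_of_notMem hx2]
    · filter_upwards [hgood.lipBd, hsl] with x hx hx'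
      simp only [hbf]
      split_ifs with hxn
      · refine ⟨hℓ0 x, ?_⟩
        have h1 := (Met.lipAt_le_ofReal_iff (hℓ0 x)).1 hx'
        intro c hc
        have h2 : ∀ᶠ y in 𝓝 x, dist y x₀ < R + 1 :=
          (continuous_id.dist continuous_const).continuousAt.eventually_lt_const hxn
        filter_upwards [h1 c hc, h2] with y hy hy2
        rwa [heq y hy2, heq x hxn]
      · exact hx
  have hW : Met.W12 m w := ⟨_, hgood2.rSlope⟩
  obtain ⟨G, hG, hGe⟩ := exists_class hW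
  obtain ⟨C, hC⟩ := Met.bdd_of_bounded_support hL hsupp
  refine ⟨G, hG, ?_, ?_, ?_, ?_⟩
  · rw [mem_top_iff]
    refine ⟨C, ?_⟩
    filter_upwards [hGe] with x hx
    rw [hx]; exact hC x
  · rw [mem_top_iff]
    refine ⟨(L : ℝ) ^ 2, ?_⟩
    have h4 := slope_le_of_lipschitz hfin hG hGe hL
    rw [le_iff_ae] at h4
    filter_upwards [h4, sob_Γ_self_ae hG, slope_ae hG,
      smul_ae (1 : M →ₘ[m] ℝ) (L : ℝ), one_ae (M := M) (m := m),
      (mem_sob_iff.1 hG).mslope_nonneg] with x a1 a2 a3 a4 a5 a6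
    rw [a3, a4, a5, mul_one] at a1
    rw [a2, abs_of_nonneg (sq_nonneg _)]
    gcongr
  · filter_upwards [hGe] with x hx hd
    rw [hx]
    exact heq x (by linarith)
  · filter_upwards [sob_Γ_self_ae hG, (mem_sob_iff.1 hG).mslope_nonneg, hgood2.rSlope.mslope_le,
      Met.mslope_congr hGe (mem_sob_iff.1 hG)] with x a1 a2 a3 a4 hd
    rw [a1]
    have h5 : Met.mslope m G x ≤ ℓ x := by
      rw [a4]
      refine a3.trans_eq ?_
      simp only [hbf]
      rw [if_pos (by linarith)]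
    gcongr

/-- **Kuwada's inequality.** -/
theorem bb (hfin : ∀ (x : M) (r : ℝ), m (Metric.ball x r) < ∞)
    {A B ε : ℝ} (hA : 0 < A) (hB : 0 ≤ B) (hε : 0 < ε) {h : M → ℝ}
    (hL : ∃ K, LipschitzWith K h) (hb : ∃ b, ∀ x, |h x| ≤ b)
    {F R1 R2 : M →ₘ[m] ℝ} (hF : MemLp F 1 m) (h1 : MemLp R1 1 m) (h2 : MemLp R2 1 m)
    (hsupp : ∃ (x₀ : M) (R : ℝ), ∀ᵐ x ∂m, R < dist x x₀ → F x = 0 ∧ R1 x = 0 ∧ R2 x = 0)
    (hρ : ∀ t ∈ Icc 0 ε, 0 ≤ F + t • R1 + (t ^ 2 / 2) • R2)
    (Jg : ℝ → (M →ₘ[m] ℝ) → (M →ₘ[m] ℝ)) (v2 : ℝ → (M →ₘ[m] ℝ))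
    (hv2 : ∀ t ∈ Icc 0 ε, 0 ≤ v2 t) (act : ℝ → ℝ)
    (hdiv : ∀ t ∈ Icc 0 ε, ∀ g ∈ (sob m).W, MemLp g ∞ m → MemLp ((sob m).Γ g g) ∞ m →
      MemLp (Jg t g) 1 m ∧ I (g * (R1 + t • R2)) = I (Jg t g))
    (hcs : ∀ t ∈ Icc 0 ε, ∀ g ∈ (sob m).W, MemLp g ∞ m → MemLp ((sob m).Γ g g) ∞ m →
      Jg t g ^ 2 ≤ (F + t • R1 + (t ^ 2 / 2) • R2) ^ 2 * v2 t * (sob m).Γ g g)
    (hact1 : ∀ t ∈ Icc 0 ε,
      MemLp ((F + t • R1 + (t ^ 2 / 2) • R2) * (A • v2 t + B • v2 t ^ 2) : M →ₘ[m] ℝ) 1 m)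
    (hact : ∀ t ∈ Icc 0 ε,
      I ((F + t • R1 + (t ^ 2 / 2) • R2) * (A • v2 t + B • v2 t ^ 2)) ≤ act t)
    (hai : IntervalIntegrable act volume 0 ε) :
    ∫ x, (⨅ y, h y + (A * dist x y ^ 2 / ε + B * dist x y ^ 4 / ε ^ 3)) * F x ∂m
      ≤ ∫ x, h x * (F + ε • R1 + (ε ^ 2 / 2) • R2 : M →ₘ[m] ℝ) x ∂m
        + ∫ t in (0 : ℝ)..ε, act t := by
  obtain ⟨K, hK⟩ := hL
  obtain ⟨b, hb⟩ := hb
  obtain ⟨x₀, R, hsupp⟩ := hsupp
  have : SigmaFinite m := sigmaFinite_of_ball hfin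
  have D : AB.Dat A B b K h := ⟨hA, hB, hb, fun x y => by
    have := hK.dist_le_mul x y
    rwa [Real.dist_eq] at this, K.coe_nonneg⟩
  -- the density, pointwise
  have hrho : ∀ t : ℝ, ∀ᵐ x ∂m, (F + t • R1 + (t ^ 2 / 2) • R2 : M →ₘ[m] ℝ) x
      = AB.rho F R1 R2 t x := by
    intro t
    filter_upwards [add_ae (F + t • R1) ((t ^ 2 / 2) • R2), add_ae F (t • R1), smul_ae R1 t,
      smul_ae R2 (t ^ 2 / 2)] with x e1 e2 e3 e4
    rw [e1, e2, e3, e4]
    rfl
  have hw2 : ∀ t ∈ Icc 0 ε, ∀ᵐ x ∂m, √(v2 t x) ^ 2 = v2 t x := by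
    intro t ht
    filter_upwards [nonneg_iff_ae.1 (hv2 t ht)] with x hx
    exact Real.sq_sqrt hx
  have hdens : ∀ t ∈ Icc 0 ε, ⇑((F + t • R1 + (t ^ 2 / 2) • R2) * (A • v2 t + B • v2 t ^ 2))
      =ᵐ[m] fun x => AB.rho F R1 R2 t x * (A * √(v2 t x) ^ 2 + B * √(v2 t x) ^ 4) := by
    intro t ht
    filter_upwards [hrho t, hw2 t ht, mul_ae (F + t • R1 + (t ^ 2 / 2) • R2)
      (A • v2 t + B • v2 t ^ 2), add_ae (A • v2 t) (B • v2 t ^ 2), smul_ae (v2 t) A,
      smul_ae (v2 t ^ 2) B, sq_ae (v2 t)] with x e1 e2 e3 e4 e5 e6 e7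
    have e8 : √(v2 t x) ^ 4 = v2 t x ^ 2 := by
      rw [show (4 : ℕ) = 2 * 2 by norm_num, pow_mul, e2]
    rw [e3, e4, e5, e6, e7, e1, e2, e8]
  have main := D.hl_int (m := m) hε (F := F) (R1 := R1) (R2 := R2) (int_of_mem hF)
    (int_of_mem h1) (int_of_mem h2) ?_ (fun t x => √(v2 t x)) ?_ ?_ act hai ?_ ?_
  · refine (le_of_eq ?_).trans (main.trans (le_of_eq ?_))
    · rfl
    · congr 1
      refine integral_congr_ae ?_
      filter_upwards [hrho ε] with x hx
      rw [hx]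
  · intro t ht
    filter_upwards [nonneg_iff_ae.1 (hρ t ht), hrho t] with x e1 e2
    rwa [e2] at e1
  · intro t _
    exact (v2 t).aestronglyMeasurable.aemeasurable.sqrt.aestronglyMeasurable
  · intro t ht
    exact (int_of_mem (hact1 t ht)).congr (hdens t ht)
  · intro t ht
    refine (le_of_eq ?_).trans (hact t ht)
    unfold I
    exact (integral_congr_ae (hdens t ht)).symm
  · intro t ht g ⟨Kg, hg⟩ ⟨bg, hbg⟩ ℓ hℓm hℓ0 ⟨b', hℓb⟩ hsl hint
    obtain ⟨G, hG, hG1, hG2, hG3, hG4⟩ := exists_local hfin hg hbg hℓm hℓ0 hℓb hsl x₀ R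
    obtain ⟨hJ1, hJ2⟩ := hdiv t ht G hG hG1 hG2
    have hJ3 := hcs t ht G hG hG1 hG2
    have e1 : ∫ x, g x * (R1 x + t * R2 x) ∂m = I (G * (R1 + t • R2)) := by
      unfold I
      refine integral_congr_ae ?_
      filter_upwards [mul_ae G (R1 + t • R2), add_ae R1 (t • R2), smul_ae R2 t, hG3, hsupp]
        with x a1 a2 a3 a4 a5
      rw [a1, a2, a3]
      rcases le_or_gt (dist x x₀) R with hd | hd
      · rw [a4 hd]
      · rw [(a5 hd).2.1, (a5 hd).2.2]; ring
    rw [e1, hJ2, ← integral_neg]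
    unfold I
    refine integral_mono_ae hint.neg (int_of_mem hJ1) ?_
    filter_upwards [le_iff_ae.1 hJ3, sq_ae (Jg t G),
      mul_ae ((F + t • R1 + (t ^ 2 / 2) • R2) ^ 2 * v2 t) ((sob m).Γ G G),
      mul_ae ((F + t • R1 + (t ^ 2 / 2) • R2) ^ 2) (v2 t), sq_ae (F + t • R1 + (t ^ 2 / 2) • R2),
      hrho t, hG4, hsupp, nonneg_iff_ae.1 (hρ t ht), nonneg_iff_ae.1 (hv2 t ht)]
      with x a1 a2 a3 a4 a5 a6 a7 a8 a9 a10
    rw [a2, a3, a4, a5, a6] at a1
    rw [a6] at a9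
    have hpt : |Jg t G x| ≤ AB.rho F R1 R2 t x * (ℓ x * √(v2 t x)) := by
      have hnn : 0 ≤ AB.rho F R1 R2 t x * (ℓ x * √(v2 t x)) := by
        have := hℓ0 x
        (clear * - a9 this; positivity)
      refine abs_le_of_sq_le_sq (a1.trans ?_) hnn
      have hs := Real.sq_sqrt a10
      rcases le_or_gt (dist x x₀) R with hd | hd
      · calc AB.rho F R1 R2 t x ^ 2 * v2 t x * (sob m).Γ G G x
            ≤ AB.rho F R1 R2 t x ^ 2 * v2 t x * ℓ x ^ 2 := by
              refine mul_le_mul_of_nonneg_left (a7 hd) (by (clear * - a10; positivity))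
          _ = (AB.rho F R1 R2 t x * (ℓ x * √(v2 t x))) ^ 2 := by
              rw [mul_pow, mul_pow, hs]; ring
      · have : AB.rho F R1 R2 t x = 0 := by
          unfold AB.rho
          rw [(a8 hd).1, (a8 hd).2.1, (a8 hd).2.2]; ring
        rw [this]; simp
    have := neg_abs_le (Jg t G x)
    linarith only [this, hpt]

end Vale.Agent.P233
end
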