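import Vale.Agent.P233.MathlibUsed2
import Vale.Agent.P233.Bd3.B4
import Vale.Agent.P233.Bd3.B1
import Vale.Agent.P233.Bd3.B5
import Vale.Agent.P233.Bd3.B3

set_option linter.all false

section

set_option linter.all false

open MeasureTheory Filter Topology
open scoped ENNReal NNReal

namespace Vale.Agent.P233

variable {M : Type*} [MeasurableSpace M] {m : Measure M} {C : Calc m}

/-- convergence of test functions, without the a.e. part -/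
structure Calc.Cw (C : Calc m) (u : ℕ → M →ₘ[m] ℝ) (a : M →ₘ[m] ℝ) : Prop where
  test : ∀ n, u n ∈ C.Test
  lim : a ∈ C.Test
  W : Tendsto (fun n => C.nrm2 (u n - a)) atTop (𝓝 0)
  lap : Tendsto (fun n => I ((C.lap (u n) - C.lap a) ^ 2)) atTop (𝓝 0)
  bd : ∃ L : ℝ, ∀ n, ∀ᵐ x ∂m, C.Γ (u n) (u n) x ≤ L

namespace Calc

variable {u v F : ℕ → M →ₘ[m] ℝ} {a b f : M →ₘ[m] ℝ}

theorem Cw.sub (h : C.Cw u a) {ns : ℕ → ℕ} (hns : StrictMono ns) :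
    C.Cw (fun k => u (ns k)) a :=
  ⟨fun n => h.test _, h.lim, h.W.comp hns.tendsto_atTop, h.lap.comp hns.tendsto_atTop,
    let ⟨L, hL⟩ := h.bd; ⟨L, fun n => hL _⟩⟩

end Calc

namespace IsGamma

variable (hC : IsGamma C) {κ : ℝ} (hB : C.BEi κ)
variable {a b f k : M →ₘ[m] ℝ} {u v F : ℕ → M →ₘ[m] ℝ}

include hC hB

theorem Cv_Cw (h : C.Cv u a) : C.Cw u a := ⟨h.test, h.lim, h.W, h.lap, hC.Cv_bd hB h⟩

/-- the bound for the differences -/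
theorem Cw_bd_sub (h : C.Cw u a) : ∃ K : ℝ, ∀ n, ∀ᵐ x ∂m, C.Γ (u n - a) (u n - a) x ≤ K := by
  have hD := hC.toIsDir
  obtain ⟨K, hK⟩ := h.bd
  obtain ⟨L, hL⟩ := mem_top_iff.1 (hC.test_Γ_top h.lim)
  refine ⟨2 * K + 2 * L, fun n => ?_⟩
  have uW := (hC.test_A (h.test n)).1
  have aW := (hC.test_A h.lim).1
  have e : C.Γ (u n - a) (u n - a) = C.Γ (u n) (u n) - (2 : ℝ) • C.Γ (u n) a + C.Γ a a := by
    rw [hD.Γ_sub_left uW aW (hD.sub_mem uW aW), hD.Γ_sub_right uW uW aW,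
      hD.Γ_sub_right aW uW aW, hC.symm _ aW _ uW]
    algebra
  rw [e]
  filter_upwards [hK n, hL, add_ae (C.Γ (u n) (u n) - (2 : ℝ) • C.Γ (u n) a) (C.Γ a a),
    sub_ae (C.Γ (u n) (u n)) ((2 : ℝ) • C.Γ (u n) a), smul_ae (C.Γ (u n) a) (2 : ℝ),
    hD.Γ_cs_ae uW aW, hD.Γ_nonneg_ae uW, hD.Γ_nonneg_ae aW] with x b1 b2 b3 b4 b5 b6 b7 b8
  rw [b3, b4, b5]
  have b9 := (le_abs_self _).trans b2
  have b10 : -((C.Γ (u n) (u n) x + C.Γ a a x) / 2) ≤ C.Γ (u n) a x := by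
    (by_contra nlg; linarith only [nlg, mul_nonneg (le_of_lt (sub_pos.2 (not_le.1 nlg))) (sub_nonneg.2 b8), mul_nonneg (le_of_lt (sub_pos.2 (not_le.1 nlg))) (sub_nonneg.2 b7), mul_pos (sub_pos.2 (not_le.1 nlg)) (sub_pos.2 (not_le.1 nlg)), sq_nonneg (C.Γ (u n) (u n) x - C.Γ a a x), b6])
  linarith only [b10, b9, b1]

/-- along a common subsequence the gradients converge a.e. -/
theorem exists_common (h1 : C.Cw u a) (h2 : C.Cw v b) (h3 : C.Cw F f)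
    (hFb : ∃ B : ℝ, ∀ n, ∀ᵐ x ∂m, |F n x| ≤ B) :
    ∃ ns : ℕ → ℕ, StrictMono ns ∧ C.Cv (fun k => u (ns k)) a ∧ C.Cv (fun k => v (ns k)) b ∧
      C.Cv (fun k => F (ns k)) f ∧ Tb (fun k => F (ns k)) f := by
  have hD := hC.toIsDir
  have hu := fun n => hD.sub_mem (hC.test_A (h1.test n)).1 (hC.test_A h1.lim).1
  have hv := fun n => hD.sub_mem (hC.test_A (h2.test n)).1 (hC.test_A h2.lim).1
  have hF := fun n => hD.sub_mem (hC.test_A (h3.test n)).1 (hC.test_A h3.lim).1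
  have l1 := hD.tendsto_E_of_nrm2 (fun n => (hC.test_A (h1.test n)).1) (hC.test_A h1.lim).1 h1.W
  have l2 := hD.tendsto_E_of_nrm2 (fun n => (hC.test_A (h2.test n)).1) (hC.test_A h2.lim).1 h2.W
  have l3 := hD.tendsto_E_of_nrm2 (fun n => (hC.test_A (h3.test n)).1) (hC.test_A h3.lim).1 h3.W
  have l4 := hD.tendsto_I_sq_of_nrm2 (fun n => (hC.test_A (h3.test n)).1) (hC.test_A h3.lim).1 h3.W
  have n1 := fun n => hC.mem1 _ (hu n)
  have n2 := fun n => hC.mem1 _ (hv n)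
  have n3 := fun n => hC.mem1 _ (hF n)
  have n4 := fun n => mem_sq (hC.memLp _ (hF n))
  have p1 := fun n => hC.nonneg _ (hu n)
  have p2 := fun n => hC.nonneg _ (hv n)
  have p3 := fun n => hC.nonneg _ (hF n)
  obtain ⟨ns, hns, hae⟩ := exists_subseq_of_I (g := fun n => C.Γ (u n - a) (u n - a)
      + C.Γ (v n - b) (v n - b) + C.Γ (F n - f) (F n - f) + (F n - f) ^ 2)
    (fun n => mem_add (mem_add (mem_add (n1 n) (n2 n)) (n3 n)) (n4 n))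
    (fun n => add_nonneg (add_nonneg (add_nonneg (p1 n) (p2 n)) (p3 n)) (sq_nonneg' _)) (by
      have e : ∀ n, I (C.Γ (u n - a) (u n - a) + C.Γ (v n - b) (v n - b)
          + C.Γ (F n - f) (F n - f) + (F n - f) ^ 2) = I (C.Γ (u n - a) (u n - a))
          + I (C.Γ (v n - b) (v n - b)) + I (C.Γ (F n - f) (F n - f)) + I ((F n - f) ^ 2) := by
        intro n
        rw [I_add (mem_add (mem_add (n1 n) (n2 n)) (n3 n)) (n4 n),
          I_add (mem_add (n1 n) (n2 n)) (n3 n), I_add (n1 n) (n2 n)]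
      simp only [e]
      simpa using ((l1.add l2).add l3).add l4)
  have hall : ∀ᵐ x ∂m, ∀ n, 0 ≤ C.Γ (u n - a) (u n - a) x ∧ 0 ≤ C.Γ (v n - b) (v n - b) x ∧
      0 ≤ C.Γ (F n - f) (F n - f) x ∧ (C.Γ (u n - a) (u n - a) + C.Γ (v n - b) (v n - b)
          + C.Γ (F n - f) (F n - f) + (F n - f) ^ 2 : M →ₘ[m] ℝ) x = C.Γ (u n - a) (u n - a) x
          + C.Γ (v n - b) (v n - b) x + C.Γ (F n - f) (F n - f) x + (F n x - f x) ^ 2 := by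
    rw [ae_all_iff]
    intro n
    filter_upwards [hD.Γ_nonneg_ae (hu n), hD.Γ_nonneg_ae (hv n), hD.Γ_nonneg_ae (hF n),
      add_ae (C.Γ (u n - a) (u n - a) + C.Γ (v n - b) (v n - b) + C.Γ (F n - f) (F n - f))
        ((F n - f) ^ 2), add_ae (C.Γ (u n - a) (u n - a) + C.Γ (v n - b) (v n - b))
        (C.Γ (F n - f) (F n - f)), add_ae (C.Γ (u n - a) (u n - a)) (C.Γ (v n - b) (v n - b)),
      sq_ae (F n - f), sub_ae (F n) f] with x b1 b2 b3 b4 b5 b6 b7 b8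
    refine ⟨b1, b2, b3, ?_⟩
    rw [b4, b5, b6, b7, b8]
  have mk : ∀ {w : ℕ → M →ₘ[m] ℝ} {c : M →ₘ[m] ℝ}, C.Cw w c →
      (∀ᵐ x ∂m, Tendsto (fun k => C.Γ (w (ns k) - c) (w (ns k) - c) x) atTop (𝓝 0)) →
      C.Cv (fun k => w (ns k)) c := by
    intro w c h hx
    have h' := h.sub hns
    exact ⟨h'.test, h'.lim, h'.W, h'.lap, hC.Cw_bd_sub hB h', hx⟩
  refine ⟨ns, hns, mk h1 ?_, mk h2 ?_, mk h3 ?_, ⟨hFb.imp fun B hB n => hB _, ?_⟩⟩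
  · filter_upwards [hae, hall] with x b1 b2
    refine squeeze_zero (fun k => (b2 _).1) (fun k => ?_) b1
    obtain ⟨c1, c2, c3, c4⟩ := b2 (ns k)
    rw [c4]
    linarith only [sq_nonneg (F (ns k) x - f x), c3, c2]
  · filter_upwards [hae, hall] with x b1 b2
    refine squeeze_zero (fun k => (b2 _).2.1) (fun k => ?_) b1
    obtain ⟨c1, c2, c3, c4⟩ := b2 (ns k)
    rw [c4]
    linarith only [sq_nonneg (F (ns k) x - f x), c3, c1]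
  · filter_upwards [hae, hall] with x b1 b2
    refine squeeze_zero (fun k => (b2 _).2.2.1) (fun k => ?_) b1
    obtain ⟨c1, c2, c3, c4⟩ := b2 (ns k)
    rw [c4]
    linarith only [sq_nonneg (F (ns k) x - f x), c2, c1]
  · filter_upwards [hae, hall] with x b1 b2
    have h5 : Tendsto (fun k => (F (ns k) x - f x) ^ 2) atTop (𝓝 0) := by
      refine squeeze_zero (fun k => sq_nonneg _) (fun k => ?_) b1
      obtain ⟨c1, c2, c3, c4⟩ := b2 (ns k)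
      rw [c4]
      linarith
    have h6 := (Real.continuous_sqrt.tendsto 0).comp h5
    simp only [Function.comp_def, Real.sqrt_zero, Real.sqrt_sq_eq_abs] at h6
    have h7 := (tendsto_zero_iff_abs_tendsto_zero _).2 h6
    simpa using h7.add_const (f x)

/-- approximation by test functions with bounded Laplacian -/
theorem Cw_J [SigmaFinite m] (ha : a ∈ C.Test) : ∃ u : ℕ → M →ₘ[m] ℝ, C.Cw u a ∧
    (∀ n, u n ∈ C.TestI) ∧ (∃ B : ℝ, ∀ n, ∀ᵐ x ∂m, |u n x| ≤ B) ∧ (0 ≤ a → ∀ n, 0 ≤ u n) := by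
  have hD := hC.toIsDir
  have aA := hC.test_A ha
  have a2 := hC.memLp _ aA.1
  obtain ⟨B, hBa⟩ := mem_top_iff.1 aA.2
  obtain ⟨L, hL⟩ := mem_top_iff.1 (hC.test_Γ_top ha)
  obtain ⟨N, hN⟩ := exists_nat_ge (4 * |κ|)
  have hl : ∀ n : ℕ, (0 : ℝ) < (((n + N : ℕ) : ℝ) + 1)⁻¹ := fun n => by (clear * -; positivity)
  have hl2 : ∀ n : ℕ, 1 / 2 ≤ 1 + 2 * (((n + N : ℕ) : ℝ) + 1)⁻¹ * κ := by
    intro n
    have h1 : (((n + N : ℕ) : ℝ) + 1)⁻¹ * |κ| ≤ 1 / 4 := by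
      rw [inv_mul_le_iff₀ (by positivity)]
      push_cast
      have : (0 : ℝ) ≤ n := Nat.cast_nonneg n
      linarith only [this, hN]
    have h2 : -|κ| ≤ κ := neg_abs_le κ
    linarith only [mul_nonneg (sub_nonneg.2 h2) (le_of_lt (sub_pos.2 (hl n))), mul_nonneg (mul_self_nonneg (1 : ℝ)) (sub_nonneg.2 h1)]
  have hl3 : ∀ n : ℕ, 0 < 1 + 2 * (((n + N : ℕ) : ℝ) + 1)⁻¹ * κ := fun n => by linarith [hl2 n]
  have hTI := fun n => hC.testI_J hB (hl n) (hl3 n) aA (hC.test_Γ_top ha)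
  refine ⟨fun n => C.J (((n + N : ℕ) : ℝ) + 1)⁻¹ a, ⟨fun n => (hTI n).1, ha, ?_, ?_, ?_⟩, hTI,
    ⟨B, fun n => hD.J_bdd (hl n) a2 hBa⟩, fun h0 n => hD.J_nonneg (hl n) a2 h0⟩
  · exact (tendsto_add_atTop_iff_nat N).2 (hD.J_tendsto_W aA.1)
  · have h1 := (tendsto_add_atTop_iff_nat N).2 (hD.J_tendsto_L2 (hC.test_isLap ha).2.1)
    refine h1.congr fun n => ?_
    rw [hC.lap_J hB (hl n) ha]
  · refine ⟨2 * |L|, fun n => ?_⟩
    filter_upwards [hC.J_grad_le hB (hl n) (hl3 n) aA (abs_nonneg L) (by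
      filter_upwards [hL] with x hx; exact hx.trans (le_abs_self L))] with x hx
    refine hx.trans ?_
    rw [div_le_iff₀ (hl3 n)]
    linarith only [mul_nonneg (sub_nonneg.2 (hl2 n)) (sub_nonneg.2 (abs_nonneg L))]

end IsGamma

end Vale.Agent.P233
end

section

set_option linter.all false

open MeasureTheory Filter Topology
open scoped ENNReal NNReal

namespace Vale.Agent.P233

variable {M : Type*} [MeasurableSpace M] {m : Measure M} {C : Calc m}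

/-- `- ∫ ⟨Y_ab, ∇w⟩` with `Y_ab = ½ (D_a ∇b + D_b ∇a) + ½ F ∇Γ(a,b)`, i.e. the pairing of `w`
with `div Y_ab`. -/
noncomputable def Calc.PP (C : Calc m) (F a b w : M →ₘ[m] ℝ) : ℝ :=
  -(2⁻¹ * I (C.De F a * C.Γ b w)) - 2⁻¹ * I (C.De F b * C.Γ a w) - 2⁻¹ * I (F * C.Γ (C.Γ a b) w)

/-- `½ |∇e|²` -/
noncomputable def Calc.G0 (C : Calc m) (e : M →ₘ[m] ℝ) : M →ₘ[m] ℝ := (2 : ℝ)⁻¹ • C.Γ e e

/-- The limit of the coefficient of `ε³` on the segment from `ε p` in direction `e`. -/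
noncomputable def Calc.k3x (C : Calc m) (F p e h : M →ₘ[m] ℝ) : ℝ :=
  -C.HW e p h F - 2⁻¹ * I (F * C.Γ h h)
    + 2⁻¹ * I (C.De F p * C.Γ p (C.G0 e)) + 4⁻¹ * I (F * C.Γ (C.Γ p p) (C.G0 e))
    + 2⁻¹ * I (C.De F e * C.Γ p (C.G0 e)) + 2⁻¹ * I (F * C.Γ (C.Γ p e) (C.G0 e))
    + 6⁻¹ * I (C.De F e * C.Γ e (C.G0 e)) + 3⁻¹ * I (F * C.Γ (C.G0 e) (C.G0 e))

namespace IsGamma

variable (hC : IsGamma C) {κ : ℝ} (hB : C.BEi κ)
variable {F a b e f g h p u v w : M →ₘ[m] ℝ}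

section one
include hC

theorem De_mem2 (hF : F ∈ C.A) (he : e ∈ C.Test) : MemLp (C.De F e) 2 m := by
  unfold Calc.De
  rw [add_comm]
  refine mem_add (mem_mul_top hF.2 (hC.memLp _ (hC.test_lap_mem he))) ?_
  have h1 := hC.toIsDir.Γ_mem2 (hC.test_A he).1 (hC.test_Γ_top he) hF.1
  rwa [hC.symm _ (hC.test_A he).1 _ hF.1] at h1

/-- `|∫ F Γ(v,w)| ≤ K |∇v| |∇w|` -/
theorem exists_bd_FΓ (hF : MemLp F ∞ m) :
    ∃ K : ℝ, 0 ≤ K ∧ ∀ v ∈ C.W, ∀ w ∈ C.W,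
      |I (F * C.Γ v w)| ≤ K * (Real.sqrt (I (C.Γ v v)) * Real.sqrt (I (C.Γ w w))) := by
  obtain ⟨L, hL⟩ := mem_top_iff.1 hF
  refine ⟨|L|, abs_nonneg _, fun v hv w hw => ?_⟩
  have h1 := hC.toIsDir.int_abs_Γ_le hv hw
  refine le_trans ?_ (mul_le_mul_of_nonneg_left h1 (abs_nonneg _))
  unfold I
  refine abs_integral_le_integral_abs.trans ?_
  rw [← integral_const_mul]
  refine integral_mono_ae (int_of_mem (mem_mul_top hF (hC.toIsDir.Γ_mem1 hv hw))).abs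
    ((int_of_mem (hC.toIsDir.Γ_mem1 hv hw)).abs.const_mul _) ?_
  filter_upwards [hL, mul_ae F (C.Γ v w)] with x h2 h3
  rw [h3, abs_mul]
  exact mul_le_mul_of_nonneg_right (h2.trans (le_abs_self _)) (abs_nonneg _)

variable {w' : ℕ → M →ₘ[m] ℝ} {w0 : M →ₘ[m] ℝ}

end one

include hC hB

theorem G0_mem (he : e ∈ C.Test) : C.G0 e ∈ C.W := hC.smul_mem _ _ (hC.Γ_mem hB he he).1

end IsGamma

end Vale.Agent.P233
end

section

set_option linter.all false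

open MeasureTheory Filter Topology
open scoped ENNReal NNReal

namespace Vale.Agent.P233

variable {M : Type*} [MeasurableSpace M] {m : Measure M} {C : Calc m}

theorem I_bil {u v f g h : M →ₘ[m] ℝ} (hu : MemLp u 2 m) (hv : MemLp v 2 m) (hf : MemLp f 2 m)
    (hg : MemLp g 2 m) (hh : MemLp h 2 m) (x y s t z : ℝ) :
    I ((x • u + y • v) * (s • f + t • g + z • h))
      = x * (s * I (u * f) + t * I (u * g) + z * I (u * h))
        + y * (s * I (v * f) + t * I (v * g) + z * I (v * h)) := by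
  have n1 := mem_smul (x * s) (mem_mul_22 hu hf)
  have n2 := mem_smul (x * t) (mem_mul_22 hu hg)
  have n3 := mem_smul (x * z) (mem_mul_22 hu hh)
  have n4 := mem_smul (y * s) (mem_mul_22 hv hf)
  have n5 := mem_smul (y * t) (mem_mul_22 hv hg)
  have n6 := mem_smul (y * z) (mem_mul_22 hv hh)
  have e : (x • u + y • v) * (s • f + t • g + z • h)
      = (x * s) • (u * f) + (x * t) • (u * g) + (x * z) • (u * h) + (y * s) • (v * f)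
        + (y * t) • (v * g) + (y * z) • (v * h) := by algebra
  rw [e, I_add (mem_add (mem_add (mem_add (mem_add n1 n2) n3) n4) n5) n6,
    I_add (mem_add (mem_add (mem_add n1 n2) n3) n4) n5,
    I_add (mem_add (mem_add n1 n2) n3) n4, I_add (mem_add n1 n2) n3, I_add n1 n2,
    I_smul, I_smul, I_smul, I_smul, I_smul, I_smul]
  ring

namespace IsGamma

variable (hC : IsGamma C) {κ : ℝ} (hB : C.BEi κ)
variable {F a b e f g h p u v w k G r₁ r₂ r₃ : M →ₘ[m] ℝ}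

include hC hB

theorem lin_test (ha : a ∈ C.Test) (hb : b ∈ C.Test) (x y : ℝ) : x • a + y • b ∈ C.Test :=
  hC.test_add hB (hC.test_smul hB x ha) (hC.test_smul hB y hb)

theorem De_lin (hF : F ∈ C.A) (ha : a ∈ C.Test) (hb : b ∈ C.Test) (x y : ℝ) :
    C.De F (x • a + y • b) = x • C.De F a + y • C.De F b := by
  unfold Calc.De
  have aA := hC.test_A ha
  have bA := hC.test_A hb
  rw [hC.lap_add hB (hC.test_smul hB x ha) (hC.test_smul hB y hb), hC.lap_smul hB x ha,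
    hC.lap_smul hB y hb, hC.toIsDir.Γ_add_right hF.1 (hC.smul_mem _ _ aA.1)
    (hC.smul_mem _ _ bA.1), hC.toIsDir.Γ_smul_right _ hF.1 aA.1,
    hC.toIsDir.Γ_smul_right _ hF.1 bA.1]
  algebra

theorem Γ_lin (ha : a ∈ C.Test) (hb : b ∈ C.Test) (x y p q : ℝ) :
    C.Γ (x • a + y • b) (p • a + q • b)
      = (x * p) • C.Γ a a + (x * q + y * p) • C.Γ a b + (y * q) • C.Γ b b := by
  have aA := (hC.test_A ha).1
  have bA := (hC.test_A hb).1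
  have h1 := hC.smul_mem x _ aA
  have h2 := hC.smul_mem y _ bA
  have h3 := hC.smul_mem p _ aA
  have h4 := hC.smul_mem q _ bA
  rw [hC.add_left _ h1 _ h2 _ (hC.add_mem _ h3 _ h4), hC.toIsDir.Γ_add_right h1 h3 h4,
    hC.toIsDir.Γ_add_right h2 h3 h4, hC.smul_left _ _ aA _ h3, hC.smul_left _ _ aA _ h4,
    hC.smul_left _ _ bA _ h3, hC.smul_left _ _ bA _ h4, hC.toIsDir.Γ_smul_right _ aA aA,
    hC.toIsDir.Γ_smul_right _ aA bA, hC.toIsDir.Γ_smul_right _ bA aA,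
    hC.toIsDir.Γ_smul_right _ bA bA, hC.symm _ bA _ aA]
  algebra

end IsGamma

end Vale.Agent.P233
end

section

set_option linter.all false

open MeasureTheory Filter Topology
open scoped ENNReal NNReal

namespace Vale.Agent.P233

variable {M : Type*} [MeasurableSpace M] {m : Measure M} {C : Calc m}

namespace Dat

variable {X : Dat m} {θ : M →ₘ[m] ℝ} {η δ : ℝ}

section
variable (hC : IsGamma C) {κ : ℝ} (hB : C.BEi κ) (hX : X.Ok C θ η δ)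
include hC hB hX

theorem r_bil (ε t : ℝ) (v e w : ℝ × ℝ) :
    X.r C (ε • v + t • e) w = ε • X.r C v w + t • X.r C e w := by
  have hF := (hC.test_A hX.hF.1).1
  have pv := pt_memI hC hB hX v
  have pe := pt_memI hC hB hX e
  have pw := pt_memI hC hB hX w
  have dv := D'_memI hC hB hX v
  have de := D'_memI hC hB hX e
  have dw := D'_memI hC hB hX w
  have gv := G'_memI hC hB hX v w
  have ge := G'_memI hC hB hX e w
  have pvW := (hC.test_A pv.1).1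
  have peW := (hC.test_A pe.1).1
  have pwW := (hC.test_A pw.1).1
  have dvW := (hC.test_A dv.1).1
  have deW := (hC.test_A de.1).1
  have dwW := (hC.test_A dw.1).1
  have gvW := (hC.test_A gv.1).1
  have geW := (hC.test_A ge.1).1
  have hpt : X.pt (ε • v + t • e) = ε • X.pt v + t • X.pt e := by
    rw [pt_add, pt_smul, pt_smul]
  have hD' : X.D' (ε • v + t • e) = ε • X.D' v + t • X.D' e := by
    rw [D'_add, D'_smul, D'_smul]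
  have hG' : X.G' (ε • v + t • e) w = ε • X.G' v w + t • X.G' e w := by
    rw [G'_add]
    simp only [G', Prod.smul_fst, Prod.smul_snd, smul_eq_mul]
    algebra
  rw [r_eq, r_eq, r_eq, hpt, hD', hG']
  unfold Calc.De
  rw [hC.lap_add hB (hC.test_smul hB _ pv.1) (hC.test_smul hB _ pe.1), hC.lap_smul hB _ pv.1,
    hC.lap_smul hB _ pe.1, hC.lap_add hB (hC.test_smul hB _ gv.1) (hC.test_smul hB _ ge.1),
    hC.lap_smul hB _ gv.1, hC.lap_smul hB _ ge.1,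
    hC.add_left _ (hC.smul_mem _ _ dvW) _ (hC.smul_mem _ _ deW) _ pwW,
    hC.smul_left _ _ dvW _ pwW, hC.smul_left _ _ deW _ pwW,
    hC.toIsDir.Γ_add_right dwW (hC.smul_mem _ _ pvW) (hC.smul_mem _ _ peW),
    hC.toIsDir.Γ_smul_right _ dwW pvW, hC.toIsDir.Γ_smul_right _ dwW peW,
    hC.toIsDir.Γ_add_right hF (hC.smul_mem _ _ gvW) (hC.smul_mem _ _ geW),
    hC.toIsDir.Γ_smul_right _ hF gvW, hC.toIsDir.Γ_smul_right _ hF geW]
  algebra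

omit hC hB hX in
theorem r_comm (v w : ℝ × ℝ) : X.r C v w = X.r C w v := by
  rw [r_eq, r_eq, G'_comm X v w, add_comm (C.De (X.D' v) (X.pt w))]

theorem rho_seg (ε t : ℝ) (v e : ℝ × ℝ) :
    X.rho C (ε • v + t • e)
      = segρ X.F (X.D C v) (X.D C e) (X.r C v v) (X.r C v e) (X.r C e e) ε t := by
  have h1 : X.r C (ε • v + t • e) (ε • v + t • e)
      = ε • (ε • X.r C v v + t • X.r C v e) + t • (ε • X.r C v e + t • X.r C e e) := by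
    rw [r_bil hC hB hX ε t v e, r_comm v (ε • v + t • e), r_comm e (ε • v + t • e),
      r_bil hC hB hX ε t v e v, r_bil hC hB hX ε t v e e, r_comm e v]
  unfold rho segρ
  rw [h1, D_add, D_smul, D_smul]
  algebra

/-- the action of a pair is a polynomial in `ε` -/
theorem actP_poly (v e : ℝ × ℝ) {h : M →ₘ[m] ℝ} (hh : h ∈ C.TestI) :
    ∃ c4 c5 : ℝ, ∀ ε : ℝ, X.actP C v e h ε
      = ε / 2 * X.E2 C e e + ε ^ 2 / 2 * (X.X3 C e ((2 : ℝ) • v + e) e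
          + X.W3 C ((2 : ℝ) • v + e) e e)
        + C.k3 X.F (X.pt e) h ((2:ℝ)⁻¹ • X.G' e e) (X.D C v) (X.D C e) (X.r C v v) (X.r C v e)
            (X.r C e e) * ε ^ 3
        + c4 * ε ^ 4 + c5 * ε ^ 5 := by
  have pe := pt_memI hC hB hX e
  have gee := G'_memI hC hB hX e e
  have hG : (2:ℝ)⁻¹ • X.G' e e ∈ C.Test := hC.test_smul hB _ gee.1
  have FA := hC.test_A hX.hF.1
  have ib : ∀ g ∈ C.W, I (g * X.D C e) = -I (X.F * C.Γ (X.pt e) g) := fun g hg =>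
    ibp_D hC hB hX e hg
  have rm : ∀ x y : ℝ × ℝ, MemLp (X.r C x y) 2 m := fun x y =>
    hC.memLp _ (r_memA hC hB hX x y).1
  have Dm : ∀ x : ℝ × ℝ, MemLp (X.D C x) 2 m := fun x => hC.memLp _ (D_memA hC hB hX x).1
  obtain ⟨c4, c5, hc⟩ := hC.seg_int hB (F := X.F) pe.1 hh.1 hG (hC.memLp _ FA.1) (Dm v) (Dm e)
    (rm v v) (rm v e) (rm e e) (ib _ (hC.test_A pe.1).1) (ib _ (hC.test_A hh.1).1)
    (ib _ (hC.test_A hG).1)
  refine ⟨c4, c5, fun ε => ?_⟩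
  have h0 : X.actP C v e h ε = ∫ s in (0:ℝ)..ε, C.act (X.pt e + ε • h - s • ((2:ℝ)⁻¹ • X.G' e e))
      (-X.D C e + ε • X.r C v e + s • X.r C e e)
          (segρ X.F (X.D C v) (X.D C e) (X.r C v v) (X.r C v e) (X.r C e e) ε s) := by
    unfold actP
    congr 1
    funext t
    rw [← rho_seg hC hB hX, r_bil hC hB hX]
    unfold Calc.act ph
    rw [show ε • X.r C v e + t • X.r C e e - X.D C e
      = -X.D C e + ε • X.r C v e + t • X.r C e e by abel]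
    rw [show (t / 2) • X.G' e e = t • ((2:ℝ)⁻¹ • X.G' e e) by rw [smul_smul, div_eq_mul_inv]]
  rw [h0, hc ε]
  have e1 : C.k1 X.F (X.pt e) = 2⁻¹ * X.E2 C e e := rfl
  have hpe := (hC.test_A pe.1).1
  have q1 : I (X.pt e * X.r C v e) = X.X3 C e v e := ibp_r hC hB hX v e hpe
  have q2 : I (X.pt e * X.r C e e) = X.X3 C e e e := ibp_r hC hB hX e e hpe
  have q3 : X.X3 C e ((2 : ℝ) • v + e) e = 2 * X.X3 C e v e + X.X3 C e e e := by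
    have t1 : X.X3 C e ((2 : ℝ) • v + e) e = I (X.pt e * X.r C ((2 : ℝ) • v + e) e) :=
      (ibp_r hC hB hX _ e hpe).symm
    have t2 := r_bil hC hB hX 2 1 v e e
    rw [one_smul, one_smul] at t2
    rw [t1, t2, ← q1, ← q2, mul_add, mul_smul_comm, I_add (mem_smul _ (mem_mul_22
      (hC.memLp _ hpe) (rm v e))) (mem_mul_22 (hC.memLp _ hpe) (rm e e)), I_smul]
  have g22 := hC.test_Γ2 hB pe.1 pe.1
  have q4 : X.W3 C ((2 : ℝ) • v + e) e e = 2 * X.W3 C v e e + X.W3 C e e e := by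
    unfold W3
    rw [D_add, D_smul, add_mul, smul_mul_assoc, I_add (mem_smul _ (mem_mul_22 (Dm v) g22))
      (mem_mul_22 (Dm e) g22), I_smul]
    ring
  have e2 : C.k2 (X.pt e) (X.D C v) (X.D C e) (X.r C v e) (X.r C e e)
      = 2⁻¹ * (X.X3 C e ((2 : ℝ) • v + e) e + X.W3 C ((2 : ℝ) • v + e) e e) := by
    unfold Calc.k2
    rw [q1, q2, q3, q4]
    unfold W3
    ring
  rw [e1, e2]
  ring

end

end Dat

end Vale.Agent.P233
end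

section

set_option linter.all false

open MeasureTheory Filter Topology
open scoped ENNReal NNReal

namespace Vale.Agent.P233

variable {M : Type*} [MeasurableSpace M] {m : Measure M} {C : Calc m}

/-- `∫ D_x Γ(y,g)` -/
noncomputable def Calc.xx (C : Calc m) (F x y g : M →ₘ[m] ℝ) : ℝ := I (C.De F x * C.Γ y g)

/-- `∫ F Γ(g,h)` -/
noncomputable def Calc.yy (C : Calc m) (F g h : M →ₘ[m] ℝ) : ℝ := I (F * C.Γ g h)

namespace IsGamma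

variable (hC : IsGamma C) {κ : ℝ} (hB : C.BEi κ)
variable {F a b e f g h p u v w k G r₁ r₂ r₃ : M →ₘ[m] ℝ}

include hC

theorem yy_comm (hg : g ∈ C.W) (hh : h ∈ C.W) : C.yy F g h = C.yy F h g := by
  unfold Calc.yy; rw [hC.symm _ hg _ hh]

theorem yy_add (hF : F ∈ C.A) (hg : g ∈ C.W) (hh : h ∈ C.W) (hw : w ∈ C.W) :
    C.yy F g (h + w) = C.yy F g h + C.yy F g w := by
  unfold Calc.yy
  rw [hC.toIsDir.Γ_add_right hg hh hw, mul_add, I_add (mem_mul_top hF.2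
    (hC.toIsDir.Γ_mem1 hg hh)) (mem_mul_top hF.2 (hC.toIsDir.Γ_mem1 hg hw))]

theorem yy_smul (c : ℝ) (hg : g ∈ C.W) (hh : h ∈ C.W) :
    C.yy F g (c • h) = c * C.yy F g h := by
  unfold Calc.yy
  rw [hC.toIsDir.Γ_smul_right _ hg hh, ← I_smul]
  congr 1; algebra

theorem xx_add (hF : F ∈ C.A) (ha : a ∈ C.Test) (hb : b ∈ C.Test) (hg : g ∈ C.W) (hh : h ∈ C.W) :
    C.xx F a b (g + h) = C.xx F a b g + C.xx F a b h := by
  unfold Calc.xx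
  have bA := hC.test_A hb
  rw [hC.toIsDir.Γ_add_right bA.1 hg hh, mul_add, I_add
    (mem_mul_22 (hC.De_mem2 hF ha) (hC.toIsDir.Γ_mem2 bA.1 (hC.test_Γ_top hb) hg))
    (mem_mul_22 (hC.De_mem2 hF ha) (hC.toIsDir.Γ_mem2 bA.1 (hC.test_Γ_top hb) hh))]

theorem xx_smul (c : ℝ) (hb : b ∈ C.Test) (hg : g ∈ C.W) :
    C.xx F a b (c • g) = c * C.xx F a b g := by
  unfold Calc.xx
  rw [hC.toIsDir.Γ_smul_right _ (hC.test_A hb).1 hg, ← I_smul]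
  congr 1; algebra

include hB

theorem xx_lin (hF : F ∈ C.A) (ha : a ∈ C.Test) (hb : b ∈ C.Test) (hg : g ∈ C.W) (x y p q : ℝ) :
    C.xx F (x • a + y • b) (p • a + q • b) g
      = x * (p * C.xx F a a g + q * C.xx F a b g) + y * (p * C.xx F b a g + q * C.xx F b b g) := by
  have aA := hC.test_A ha
  have bA := hC.test_A hb
  have Da := hC.De_mem2 hF ha
  have Db := hC.De_mem2 hF hb
  have ga := hC.toIsDir.Γ_mem2 aA.1 (hC.test_Γ_top ha) hg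
  have gb := hC.toIsDir.Γ_mem2 bA.1 (hC.test_Γ_top hb) hg
  unfold Calc.xx
  rw [hC.De_lin hB hF ha hb, hC.add_left _ (hC.smul_mem p _ aA.1) _ (hC.smul_mem q _ bA.1) _ hg,
    hC.smul_left _ _ aA.1 _ hg, hC.smul_left _ _ bA.1 _ hg]
  have := I_bil Da Db ga gb (mem_zero) x y p q 0
  rw [smul_zero, add_zero] at this
  rw [this]
  ring

theorem HW_eq (ha : a ∈ C.Test) (hb : b ∈ C.Test) (hh : h ∈ C.W) :
    C.HW b a h F = 2⁻¹ * (-C.xx F a b h + C.yy F (C.Γ b a) h + C.xx F b a h) := by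
  unfold Calc.HW Calc.xx Calc.yy
  rw [hC.symm _ hh _ (hC.Γ_mem hB hb ha).1, mul_comm (C.Γ b h), mul_comm (C.Γ a h)]

end IsGamma

end Vale.Agent.P233
end

section

set_option linter.all false

open MeasureTheory Filter Topology
open scoped ENNReal NNReal

namespace Vale.Agent.P233

variable {M : Type*} [MeasurableSpace M] {m : Measure M} {C : Calc m}

/-- the norm of `W` -/
noncomputable def Calc.N (C : Calc m) (u : M →ₘ[m] ℝ) : ℝ := Real.sqrt (C.nrm2 u)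

namespace IsGamma

variable (hC : IsGamma C) {κ : ℝ} (hB : C.BEi κ)
variable {F a b e f g h p u v w k G S y z x : M →ₘ[m] ℝ}

include hC

omit hC in
theorem N_nonneg' (u : M →ₘ[m] ℝ) : 0 ≤ C.N u := Real.sqrt_nonneg _

theorem N_add (hf : f ∈ C.W) (hg : g ∈ C.W) : C.N (f + g) ≤ 2 * (C.N f + C.N g) := by
  have h1 := hC.toIsDir.nrm2_nonneg hf
  have h2 := hC.toIsDir.nrm2_nonneg hg
  unfold Calc.N
  refine Real.sqrt_le_iff.2 ⟨by positivity, ?_⟩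
  have h3 := hC.toIsDir.nrm2_add_le hf hg
  linarith only [mul_nonneg (Real.sqrt_nonneg (C.nrm2 f)) (Real.sqrt_nonneg (C.nrm2 g)), Real.sq_sqrt h2, Real.sq_sqrt h1, h3, h2, h1]

theorem N_smul (c : ℝ) (hf : f ∈ C.W) : C.N (c • f) = |c| * C.N f := by
  unfold Calc.N Calc.nrm2
  rw [hC.toIsDir.E_smul c hf]
  have e : (c • f) ^ 2 = (c ^ 2) • f ^ 2 := by algebra
  rw [e, I_smul, ← mul_add, Real.sqrt_mul (sq_nonneg c), Real.sqrt_sq_eq_abs]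

omit hC in
theorem N_le {r : ℝ} (hr : 0 ≤ r) (h : C.nrm2 u ≤ r ^ 2) : C.N u ≤ r :=
  Real.sqrt_le_iff.2 ⟨hr, h⟩

theorem sqrtE_le_N (u : M →ₘ[m] ℝ) : Real.sqrt (I (C.Γ u u)) ≤ C.N u :=
  Real.sqrt_le_sqrt (hC.toIsDir.E_le_nrm2 u)

theorem sqrtI_le_N (hu : u ∈ C.W) : Real.sqrt (I (u ^ 2)) ≤ C.N u :=
  Real.sqrt_le_sqrt (hC.toIsDir.I_sq_le_nrm2 hu)

theorem N_of_sub {c : ℝ} (hu : u ∈ C.W) (hw : w ∈ C.W) (h : C.N (u - w) ≤ c) :
    C.N u ≤ 2 * (C.N w + c) := by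
  have h1 := hC.N_add hw (hC.toIsDir.sub_mem hu hw)
  rw [add_sub_cancel] at h1
  linarith

/-- `|∫ S Γ(y,w)| ≤ L ‖S‖₂ ‖w‖_W` -/
theorem bd1 (hy : y ∈ C.Test) : ∃ L : ℝ, 0 ≤ L ∧ ∀ S : M →ₘ[m] ℝ, MemLp S 2 m → ∀ w ∈ C.W,
    |I (S * C.Γ y w)| ≤ L * (Real.sqrt (I (S ^ 2)) * C.N w) := by
  obtain ⟨L, hL⟩ := mem_top_iff.1 (hC.test_Γ_top hy)
  have yA := hC.test_A hy
  refine ⟨Real.sqrt |L|, by positivity, fun S hS w hw => ?_⟩
  have h2 := hC.toIsDir.Γ_mem2 yA.1 (hC.test_Γ_top hy) hw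
  refine (I_abs_le hS h2).trans ?_
  have h3 : Real.sqrt (I (C.Γ y w ^ 2)) ≤ Real.sqrt |L| * Real.sqrt (I (C.Γ w w)) := by
    rw [← Real.sqrt_mul (abs_nonneg _)]
    refine Real.sqrt_le_sqrt ?_
    rw [← I_smul]
    refine I_mono (mem_sq h2) (mem_smul _ (hC.mem1 w hw)) ?_
    rw [le_iff_ae]
    filter_upwards [hC.toIsDir.Γ_cs_ae yA.1 hw, hC.toIsDir.Γ_nonneg_ae hw, hL,
      sq_ae (C.Γ y w), smul_ae (C.Γ w w) |L|] with x h1 h3 h4 h5 h6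
    rw [h5, h6]
    refine h1.trans (mul_le_mul_of_nonneg_right ?_ h3)
    exact (le_abs_self _).trans (h4.trans (le_abs_self _))
  have h4 := hC.sqrtE_le_N w
  calc Real.sqrt (I (S ^ 2)) * Real.sqrt (I (C.Γ y w ^ 2))
      ≤ Real.sqrt (I (S ^ 2)) * (Real.sqrt |L| * C.N w) := by
        refine mul_le_mul_of_nonneg_left (h3.trans ?_) (Real.sqrt_nonneg _)
        exact mul_le_mul_of_nonneg_left h4 (Real.sqrt_nonneg _)
    _ = _ := by ring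

/-- `|∫ F Γ(v,w)| ≤ L ‖v‖_W ‖w‖_W` -/
theorem bd2 (hF : MemLp F ∞ m) : ∃ L : ℝ, 0 ≤ L ∧ ∀ v ∈ C.W, ∀ w ∈ C.W,
    |I (F * C.Γ v w)| ≤ L * (C.N v * C.N w) := by
  obtain ⟨L, hL0, hL⟩ := hC.exists_bd_FΓ hF
  refine ⟨L, hL0, fun v hv w hw => (hL v hv w hw).trans ?_⟩
  refine mul_le_mul_of_nonneg_left ?_ hL0
  exact mul_le_mul (hC.sqrtE_le_N v) (hC.sqrtE_le_N w) (Real.sqrt_nonneg _) (N_nonneg' v)

/-- perturbation of `∫ S Γ(y,w)` -/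
theorem pert1 (hy : y ∈ C.Test) (hS : MemLp S 2 m) (hw : w ∈ C.W) {c : ℝ} (hc : 0 ≤ c) :
    ∃ K : ℝ, 0 ≤ K ∧ ∀ δ, 0 < δ → δ ≤ 1 → ∀ S' : M →ₘ[m] ℝ, MemLp S' 2 m → ∀ w' ∈ C.W,
      Real.sqrt (I ((S' - S) ^ 2)) ≤ c * δ → C.N (w' - w) ≤ c * δ →
      |I (S' * C.Γ y w') - I (S * C.Γ y w)| ≤ K * δ := by
  obtain ⟨L, hL0, hL⟩ := hC.bd1 hy
  have yA := hC.test_A hy
  refine ⟨L * (c * (2 * (C.N w + c))) + L * (Real.sqrt (I (S ^ 2)) * c), by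
    have := N_nonneg' (C := C) w; (clear * - hL0 hc this; positivity), ?_⟩
  intro δ hδ hδ1 S' hS' w' hw' h1 h2
  have hy2 := hC.test_Γ_top hy
  have n1 := mem_mul_22 (mem_sub hS' hS) (hC.toIsDir.Γ_mem2 yA.1 hy2 hw')
  have hww := hC.toIsDir.sub_mem hw' hw
  have n2 := mem_mul_22 hS (hC.toIsDir.Γ_mem2 yA.1 hy2 hww)
  have m1 := mem_mul_22 hS' (hC.toIsDir.Γ_mem2 yA.1 hy2 hw')
  have m2 := mem_mul_22 hS (hC.toIsDir.Γ_mem2 yA.1 hy2 hw)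
  have e : I (S' * C.Γ y w') - I (S * C.Γ y w)
      = I ((S' - S) * C.Γ y w') + I (S * C.Γ y (w' - w)) := by
    rw [← I_sub m1 m2, ← I_add n1 n2, hC.toIsDir.Γ_sub_right yA.1 hw' hw]
    congr 1; ring
  rw [e]
  have hδc : c * δ ≤ c := by (by_contra nlg; linarith only [nlg, mul_nonneg (sub_nonneg.2 hc) (sub_nonneg.2 hδ1), mul_nonneg (le_of_lt (sub_pos.2 (not_le.1 nlg))) (sub_nonneg.2 hδ1), mul_pos (sub_pos.2 (not_le.1 nlg)) (sub_pos.2 hδ)])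
  have b1 : C.N w' ≤ 2 * (C.N w + c) := hC.N_of_sub hw' hw (h2.trans hδc)
  have b2 := hL _ (mem_sub hS' hS) w' hw'
  have b3 := hL _ hS _ hww
  refine (abs_add_le _ _).trans ?_
  have b4 : L * (Real.sqrt (I ((S' - S) ^ 2)) * C.N w') ≤ L * ((c * δ) * (2 * (C.N w + c))) := by
    refine mul_le_mul_of_nonneg_left ?_ hL0
    exact mul_le_mul h1 b1 (N_nonneg' _) (by positivity)
  have b5 : L * (Real.sqrt (I (S ^ 2)) * C.N (w' - w)) ≤ L * (Real.sqrt (I (S ^ 2)) * (c * δ)) :=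
    mul_le_mul_of_nonneg_left (mul_le_mul_of_nonneg_left h2 (Real.sqrt_nonneg _)) hL0
  linarith only [b5, b4, b3, b2]

/-- perturbation of `∫ F Γ(v,w)` -/
theorem pert2 (hF : MemLp F ∞ m) (hv : v ∈ C.W) (hw : w ∈ C.W) {c : ℝ} (hc : 0 ≤ c) :
    ∃ K : ℝ, 0 ≤ K ∧ ∀ δ, 0 < δ → δ ≤ 1 → ∀ v' ∈ C.W, ∀ w' ∈ C.W,
      C.N (v' - v) ≤ c * δ → C.N (w' - w) ≤ c * δ →
      |I (F * C.Γ v' w') - I (F * C.Γ v w)| ≤ K * δ := by
  obtain ⟨L, hL0, hL⟩ := hC.bd2 hF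
  have Nv := N_nonneg' (C := C) v
  have Nw := N_nonneg' (C := C) w
  refine ⟨L * (c * (2 * (C.N w + c))) + L * (C.N v * c), by positivity, ?_⟩
  intro δ hδ hδ1 v' hv' w' hw' h1 h2
  have hvv := hC.toIsDir.sub_mem hv' hv
  have hww := hC.toIsDir.sub_mem hw' hw
  have n1 := mem_mul_top hF (hC.toIsDir.Γ_mem1 hvv hw')
  have n2 := mem_mul_top hF (hC.toIsDir.Γ_mem1 hv hww)
  have m1 := mem_mul_top hF (hC.toIsDir.Γ_mem1 hv' hw')
  have m2 := mem_mul_top hF (hC.toIsDir.Γ_mem1 hv hw)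
  have e : I (F * C.Γ v' w') - I (F * C.Γ v w)
      = I (F * C.Γ (v' - v) w') + I (F * C.Γ v (w' - w)) := by
    rw [← I_sub m1 m2, ← I_add n1 n2, hC.toIsDir.Γ_sub_right hv hw' hw,
      hC.toIsDir.Γ_sub_left hv' hv hw']
    congr 1; ring
  rw [e]
  have hδc : c * δ ≤ c := by (by_contra nlg; linarith only [nlg, mul_nonneg (sub_nonneg.2 hc) (sub_nonneg.2 hδ1), mul_nonneg (le_of_lt (sub_pos.2 (not_le.1 nlg))) (sub_nonneg.2 hδ1), mul_pos (sub_pos.2 (not_le.1 nlg)) (sub_pos.2 hδ)])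
  have b1 : C.N w' ≤ 2 * (C.N w + c) := hC.N_of_sub hw' hw (h2.trans hδc)
  have b2 := hL _ hvv w' hw'
  have b3 := hL _ hv _ hww
  refine (abs_add_le _ _).trans ?_
  have b4 : L * (C.N (v' - v) * C.N w') ≤ L * ((c * δ) * (2 * (C.N w + c))) := by
    refine mul_le_mul_of_nonneg_left ?_ hL0
    exact mul_le_mul h1 b1 (N_nonneg' _) (by positivity)
  have b5 : L * (C.N v * C.N (w' - w)) ≤ L * (C.N v * (c * δ)) :=
    mul_le_mul_of_nonneg_left (mul_le_mul_of_nonneg_left h2 Nv) hL0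
  linarith only [b5, b4, b3, b2]

end IsGamma

end Vale.Agent.P233
end

section

set_option linter.all false

open MeasureTheory Filter Topology
open scoped ENNReal NNReal

namespace Vale.Agent.P233

variable {M : Type*} [MeasurableSpace M] {m : Measure M} {C : Calc m}

namespace Dat

section close

variable {X : Dat m} {θ : M →ₘ[m] ℝ} {η δ : ℝ}
variable (hC : IsGamma C) {κ : ℝ} (hB : C.BEi κ) (hX : X.Ok C θ η δ)

include hC hB hX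

theorem D'_close (hδ : 0 < δ) (v : ℝ × ℝ) :
    C.N (X.D' v - X.D C v) ≤ 2 * (|v.1| + |v.2|) * δ := by
  have hA := (hC.test_A hX.hA.1).1
  have hBB := (hC.test_A hX.hB.1).1
  have hDa := (De_memA hC hB hX.hF hX.ha).1
  have hDb := (De_memA hC hB hX.hF hX.hb).1
  have sA := hC.toIsDir.sub_mem hA hDa
  have sB := hC.toIsDir.sub_mem hBB hDb
  have e : X.D' v - X.D C v = v.1 • (X.A - C.De X.F X.a) + v.2 • (X.B - C.De X.F X.b) := by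
    unfold D' D; algebra
  rw [e]
  refine (hC.N_add (hC.smul_mem _ _ sA) (hC.smul_mem _ _ sB)).trans ?_
  rw [hC.N_smul _ sA, hC.N_smul _ sB]
  have h1 := IsGamma.N_le hδ.le hX.nA
  have h2 := IsGamma.N_le hδ.le hX.nB
  linarith only [mul_le_mul_of_nonneg_left h2 (abs_nonneg v.2), mul_le_mul_of_nonneg_left h1 (abs_nonneg v.1)]

theorem G'_close (hδ : 0 < δ) (v w : ℝ × ℝ) :
    C.N (X.G' v w - C.Γ (X.pt v) (X.pt w)) ≤
      4 * (|v.1 * w.1| + |v.1 * w.2 + v.2 * w.1| + |v.2 * w.2|) * δ := by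
  have hP := (hC.test_A hX.hP.1).1
  have hQ := (hC.test_A hX.hQ.1).1
  have hR := (hC.test_A hX.hR.1).1
  have s1 := hC.toIsDir.sub_mem hP (hC.Γ_mem hB hX.ha.1 hX.ha.1).1
  have s2 := hC.toIsDir.sub_mem hQ (hC.Γ_mem hB hX.ha.1 hX.hb.1).1
  have s3 := hC.toIsDir.sub_mem hR (hC.Γ_mem hB hX.hb.1 hX.hb.1).1
  have e : X.G' v w - C.Γ (X.pt v) (X.pt w) = ((v.1 * w.1) • (X.P - C.Γ X.a X.a)
      + (v.1 * w.2 + v.2 * w.1) • (X.Q - C.Γ X.a X.b)) + (v.2 * w.2) • (X.R - C.Γ X.b X.b) := by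
    unfold G' pt
    rw [hC.Γ_lin hB hX.ha.1 hX.hb.1]
    algebra
  rw [e]
  have t1 := hC.smul_mem (v.1 * w.1) _ s1
  have t2 := hC.smul_mem (v.1 * w.2 + v.2 * w.1) _ s2
  have t3 := hC.smul_mem (v.2 * w.2) _ s3
  have q1 := hC.N_add (hC.add_mem _ t1 _ t2) t3
  have q2 := hC.N_add t1 t2
  rw [hC.N_smul _ s1, hC.N_smul _ s2] at q2
  rw [hC.N_smul _ s3] at q1
  have h1 := mul_le_mul_of_nonneg_left (IsGamma.N_le hδ.le hX.nP) (abs_nonneg (v.1 * w.1))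
  have h2 := mul_le_mul_of_nonneg_left (IsGamma.N_le hδ.le hX.nQ)
    (abs_nonneg (v.1 * w.2 + v.2 * w.1))
  have h3 := mul_le_mul_of_nonneg_left (IsGamma.N_le hδ.le hX.nR) (abs_nonneg (v.2 * w.2))
  linarith only [mul_nonneg (abs_nonneg (v.2 * w.2)) hδ.le, h3, h2, h1, q2, q1]

theorem I_Yx (x y : ℝ × ℝ) {g : M →ₘ[m] ℝ} (hg : g ∈ C.W) :
    I (X.Y C x y g) = 2⁻¹ * (I (X.D' x * C.Γ (X.pt y) g) + I (X.D' y * C.Γ (X.pt x) g)
      + I (X.F * C.Γ (X.G' x y) g)) := by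
  have hD := hC.toIsDir
  have Pv := pt_memI hC hB hX x
  have Pw := pt_memI hC hB hX y
  have Dv := D'_memI hC hB hX x
  have Dw := D'_memI hC hB hX y
  have Gg := G'_memI hC hB hX x y
  have q1 : MemLp (X.D' x * C.Γ (X.pt y) g : M →ₘ[m] ℝ) 1 m :=
    mem_mul_top (hC.test_A Dv.1).2 (hD.Γ_mem1 (hC.test_A Pw.1).1 hg)
  have q2 : MemLp (X.D' y * C.Γ (X.pt x) g : M →ₘ[m] ℝ) 1 m :=
    mem_mul_top (hC.test_A Dw.1).2 (hD.Γ_mem1 (hC.test_A Pv.1).1 hg)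
  have q3 : MemLp (X.F * C.Γ (X.G' x y) g : M →ₘ[m] ℝ) 1 m :=
    mem_mul_top (hC.test_A hX.hF.1).2 (hD.Γ_mem1 (hC.test_A Gg.1).1 hg)
  unfold Y
  rw [I_smul, I_add (mem_add q1 q2) q3, I_add q1 q2]

end close

section bounds

variable {θ : M →ₘ[m] ℝ} {η : ℝ}
variable (hC : IsGamma C) {κ : ℝ} (hB : C.BEi κ)
variable {a b F w w₁ w₂ : M →ₘ[m] ℝ} (ha : a ∈ C.TestI) (hb : b ∈ C.TestI) (hF : F ∈ C.TestI)

include hC hB ha hb hF

theorem TR (x y : ℝ × ℝ) (hw : w ∈ C.W) {c : ℝ} (hc : 0 ≤ c) :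
    ∃ K : ℝ, 0 ≤ K ∧ ∀ δ, 0 < δ → δ ≤ 1 → ∀ X : Dat m, X.Ok C θ η δ → X.a = a → X.b = b →
      X.F = F → ∀ w' ∈ C.W, C.N (w' - w) ≤ c * δ →
      |I (w' * X.r C x y) - X.RR C x y w| ≤ K * δ := by
  have FA := hC.test_A hF.1
  have lt : ∀ v : ℝ × ℝ, v.1 • a + v.2 • b ∈ C.Test := fun v =>
    hC.lin_test hB ha.1 hb.1 v.1 v.2
  have D2 : ∀ v : ℝ × ℝ, MemLp (v.1 • C.De F a + v.2 • C.De F b : M →ₘ[m] ℝ) 2 m := fun v =>
    mem_add (mem_smul _ (hC.De_mem2 FA ha.1)) (mem_smul _ (hC.De_mem2 FA hb.1))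
  set c' : ℝ := c + 2 * (|x.1| + |x.2|) + 2 * (|y.1| + |y.2|)
    + 4 * (|x.1 * y.1| + |x.1 * y.2 + x.2 * y.1| + |x.2 * y.2|) with hc'
  have hc0 : 0 ≤ c' := by rw [hc']; (clear * - hc; positivity)
  obtain ⟨K1, hK1, h1⟩ := hC.pert1 (lt y) (D2 x) hw hc0
  obtain ⟨K2, hK2, h2⟩ := hC.pert1 (lt x) (D2 y) hw hc0
  obtain ⟨K3, hK3, h3⟩ := hC.pert2 FA.2 (hC.Γ_mem hB (lt x) (lt y)).1 hw hc0
  refine ⟨2⁻¹ * (K1 + K2 + K3), by (clear * - hK1 hK2 hK3; positivity), ?_⟩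
  intro δ hδ hδ1 X hX Xa Xb XF w' hw' hN
  have ex := D'_close hC hB hX hδ x
  have ey := D'_close hC hB hX hδ y
  have eg := G'_close hC hB hX hδ x y
  have Dxm := (D_memA hC hB hX x).1
  have Dym := (D_memA hC hB hX y).1
  have D'xm := (hC.test_A (D'_memI hC hB hX x).1).1
  have D'ym := (hC.test_A (D'_memI hC hB hX y).1).1
  have Gm := (hC.test_A (G'_memI hC hB hX x y).1).1
  have p1 : X.pt x = x.1 • a + x.2 • b := by unfold pt; rw [Xa, Xb]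
  have p2 : X.pt y = y.1 • a + y.2 • b := by unfold pt; rw [Xa, Xb]
  have p3 : X.D C x = x.1 • C.De F a + x.2 • C.De F b := by unfold D; rw [Xa, Xb, XF]
  have p4 : X.D C y = y.1 • C.De F a + y.2 • C.De F b := by unfold D; rw [Xa, Xb, XF]
  have hN' : C.N (w' - w) ≤ c' * δ := by
    refine hN.trans (mul_le_mul_of_nonneg_right ?_ hδ.le)
    rw [hc']
    have : 0 ≤ 2 * (|x.1| + |x.2|) + 2 * (|y.1| + |y.2|)
      + 4 * (|x.1 * y.1| + |x.1 * y.2 + x.2 * y.1| + |x.2 * y.2|) := by (clear * -; positivity)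
    linarith
  have q1 := h1 δ hδ hδ1 (X.D' x) (hC.memLp _ D'xm) w' hw' (by
    rw [← p3]
    refine (hC.sqrtI_le_N (hC.toIsDir.sub_mem D'xm Dxm)).trans (ex.trans
      (mul_le_mul_of_nonneg_right ?_ hδ.le))
    rw [hc']
    have : 0 ≤ 2 * (|y.1| + |y.2|)
      + 4 * (|x.1 * y.1| + |x.1 * y.2 + x.2 * y.1| + |x.2 * y.2|) := by (clear * -; positivity)
    linarith) hN'
  have q2 := h2 δ hδ hδ1 (X.D' y) (hC.memLp _ D'ym) w' hw' (by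
    rw [← p4]
    refine (hC.sqrtI_le_N (hC.toIsDir.sub_mem D'ym Dym)).trans (ey.trans
      (mul_le_mul_of_nonneg_right ?_ hδ.le))
    rw [hc']
    have : 0 ≤ 2 * (|x.1| + |x.2|)
      + 4 * (|x.1 * y.1| + |x.1 * y.2 + x.2 * y.1| + |x.2 * y.2|) := by (clear * -; positivity)
    linarith) hN'
  have q3 := h3 δ hδ hδ1 (X.G' x y) Gm w' hw' (by
    rw [← p1, ← p2]
    refine eg.trans (mul_le_mul_of_nonneg_right ?_ hδ.le)
    rw [hc']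
    have : 0 ≤ 2 * (|x.1| + |x.2|) + 2 * (|y.1| + |y.2|) := by (clear * -; positivity)
    linarith) hN'
  rw [← p2, ← p3] at q1
  rw [← p1, ← p4] at q2
  rw [← p1, ← p2, ← XF] at q3
  rw [ibp_r hC hB hX x y hw', I_Yx hC hB hX x y hw']
  unfold RR
  have e : -(2⁻¹ * (I (X.D' x * C.Γ (X.pt y) w') + I (X.D' y * C.Γ (X.pt x) w')
      + I (X.F * C.Γ (X.G' x y) w'))) - -(2⁻¹ * (I (X.D C x * C.Γ (X.pt y) w)
        + I (X.D C y * C.Γ (X.pt x) w) + I (X.F * C.Γ (C.Γ (X.pt x) (X.pt y)) w)))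
      = -(2⁻¹ * ((I (X.D' x * C.Γ (X.pt y) w') - I (X.D C x * C.Γ (X.pt y) w))
        + (I (X.D' y * C.Γ (X.pt x) w') - I (X.D C y * C.Γ (X.pt x) w))
        + (I (X.F * C.Γ (X.G' x y) w') - I (X.F * C.Γ (C.Γ (X.pt x) (X.pt y)) w)))) := by ring
  rw [e, abs_le]
  rw [abs_le] at q1 q2 q3
  constructor <;> nlinarith [q1.1, q1.2, q2.1, q2.2, q3.1, q3.2]

omit hF in
theorem TD (hF : F ∈ C.TestI) (x y : ℝ × ℝ) (hw : w ∈ C.W) {c : ℝ} (hc : 0 ≤ c) :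
    ∃ K : ℝ, 0 ≤ K ∧ ∀ δ, 0 < δ → δ ≤ 1 → ∀ X : Dat m, X.Ok C θ η δ → X.a = a → X.b = b →
      X.F = F → ∀ w' ∈ C.W, C.N (w' - w) ≤ c * δ →
      |I (X.D C x * C.Γ (X.pt y) w') - I (X.D C x * C.Γ (X.pt y) w)| ≤ K * δ := by
  have FA := hC.test_A hF.1
  have lt : ∀ v : ℝ × ℝ, v.1 • a + v.2 • b ∈ C.Test := fun v =>
    hC.lin_test hB ha.1 hb.1 v.1 v.2
  have D2 : ∀ v : ℝ × ℝ, MemLp (v.1 • C.De F a + v.2 • C.De F b : M →ₘ[m] ℝ) 2 m := fun v =>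
    mem_add (mem_smul _ (hC.De_mem2 FA ha.1)) (mem_smul _ (hC.De_mem2 FA hb.1))
  obtain ⟨K1, hK1, h1⟩ := hC.pert1 (lt y) (D2 x) hw hc
  refine ⟨K1, hK1, ?_⟩
  intro δ hδ hδ1 X hX Xa Xb XF w' hw' hN
  have p2 : X.pt y = y.1 • a + y.2 • b := by unfold pt; rw [Xa, Xb]
  have p3 : X.D C x = x.1 • C.De F a + x.2 • C.De F b := by unfold D; rw [Xa, Xb, XF]
  rw [p2, p3]
  refine h1 δ hδ hδ1 _ (D2 x) w' hw' ?_ hN
  rw [sub_self]
  have : I ((0 : M →ₘ[m] ℝ) ^ 2) = 0 := by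
    rw [show (0 : M →ₘ[m] ℝ) ^ 2 = (0:ℝ) • (0 : M →ₘ[m] ℝ) by simp, I_smul, zero_mul]
  rw [this, Real.sqrt_zero]
  positivity

end bounds

end Dat

end Vale.Agent.P233
end

section

/-! Preparations for the dual potentials of one pair: expansions of the curve of densities. -/

open MeasureTheory Filter Topology
open scoped ENNReal NNReal

namespace Vale.Agent.P233

variable {M : Type*} [MeasurableSpace M] {m : Measure M} {C : Calc m}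

theorem Calc.VHJ.mono {σ τ L Λ D L' Λ' : ℝ} {n : ℕ} {u : ℕ → M →ₘ[m] ℝ}
    (h : C.VHJ σ τ L Λ D n u) (hL : L ≤ L') (hΛ : Λ ≤ Λ') : C.VHJ σ τ L' Λ' D n u :=
  ⟨h.test, fun k hk => (h.grad k hk).mono fun _ hx => hx.trans hL,
    fun k hk => (h.lap_le k hk).mono fun _ hx => hx.trans hΛ, h.lap_abs, h.step_le, h.step_ge⟩

namespace Dat

variable {X : Dat m} {θ : M →ₘ[m] ℝ} {η δ : ℝ}

theorem G'_smul_left (X : Dat m) (t : ℝ) (v w : ℝ × ℝ) : X.G' (t • v) w = t • X.G' v w := by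
  simp only [G', Prod.smul_fst, Prod.smul_snd, smul_eq_mul]
  rw [show t * v.1 * w.1 = t * (v.1 * w.1) by ring,
    show t * v.1 * w.2 + t * v.2 * w.1 = t * (v.1 * w.2 + v.2 * w.1) by ring,
    show t * v.2 * w.2 = t * (v.2 * w.2) by ring]
  simp only [mul_smul, smul_add]

section De
variable (hC : IsGamma C) {κ : ℝ} (hB : C.BEi κ) {f g a b : M →ₘ[m] ℝ}
include hC

theorem e_De_add_left (hf : f ∈ C.W) (hg : g ∈ C.W) (ha : a ∈ C.W) :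
    C.De (f + g) a = C.De f a + C.De g a := by
  unfold Calc.De
  rw [hC.add_left f hf g hg a ha]
  ring

theorem e_De_smul_left (t : ℝ) (hf : f ∈ C.W) (ha : a ∈ C.W) :
    C.De (t • f) a = t • C.De f a := by
  unfold Calc.De
  rw [hC.smul_left t f hf a ha]
  algebra

include hB

theorem e_De_add_right (hf : f ∈ C.W) (ha : a ∈ C.Test) (hb : b ∈ C.Test) :
    C.De f (a + b) = C.De f a + C.De f b := by
  unfold Calc.De
  rw [hC.toIsDir.Γ_add_right hf (hC.test_A ha).1 (hC.test_A hb).1, hC.lap_add hB ha hb]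
  ring

theorem e_De_smul_right (t : ℝ) (hf : f ∈ C.W) (ha : a ∈ C.Test) :
    C.De f (t • a) = t • C.De f a := by
  unfold Calc.De
  rw [hC.toIsDir.Γ_smul_right t hf (hC.test_A ha).1, hC.lap_smul hB t ha]
  algebra

end De

section Ok

variable (hC : IsGamma C) {κ : ℝ} (hB : C.BEi κ) (hX : X.Ok C θ η δ)
include hC hB hX

omit hC hB hX in
theorem e_r_comm (v w : ℝ × ℝ) : X.r C v w = X.r C w v := by
  rw [r_eq, r_eq, G'_comm]
  abel_nf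

theorem e_r_add_left (v w u : ℝ × ℝ) : X.r C (v + w) u = X.r C v u + X.r C w u := by
  have W := fun {f : M →ₘ[m] ℝ} (hf : f ∈ C.TestI) => (hC.test_A hf.1).1
  have P := pt_memI hC hB hX
  have D := D'_memI hC hB hX
  have G := G'_memI hC hB hX
  rw [r_eq, r_eq, r_eq, D'_add, pt_add, G'_add,
    e_De_add_left hC (W (D v)) (W (D w)) (W (P u)),
    e_De_add_right hC hB (W (D u)) (P v).1 (P w).1,
    e_De_add_right hC hB (W hX.hF) (G v u).1 (G w u).1]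
  module

theorem e_r_smul_left (t : ℝ) (v u : ℝ × ℝ) : X.r C (t • v) u = t • X.r C v u := by
  have W := fun {f : M →ₘ[m] ℝ} (hf : f ∈ C.TestI) => (hC.test_A hf.1).1
  have P := pt_memI hC hB hX
  have D := D'_memI hC hB hX
  have G := G'_memI hC hB hX
  rw [r_eq, r_eq, D'_smul, pt_smul, G'_smul_left,
    e_De_smul_left hC t (W (D v)) (W (P u)),
    e_De_smul_right hC hB t (W (D u)) (P v).1,
    e_De_smul_right hC hB t (W hX.hF) (G v u).1]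
  module

theorem e_r_sub (p e : ℝ × ℝ) (t : ℝ) :
    X.r C (p + t • e) e - X.D C e = X.r C p e - X.D C e + t • X.r C e e := by
  rw [e_r_add_left hC hB hX, e_r_smul_left hC hB hX]
  abel

theorem e_rho (p e : ℝ × ℝ) (t : ℝ) :
    X.rho C (p + t • e) = X.rho C p + t • (X.r C p e - X.D C e) + (t ^ 2 / 2) • X.r C e e := by
  have h1 : X.r C (p + t • e) (p + t • e)
      = X.r C p p + (2 * t) • X.r C p e + t ^ 2 • X.r C e e := by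
    rw [e_r_add_left hC hB hX, e_r_smul_left hC hB hX, e_r_comm p, e_r_comm e,
      e_r_add_left hC hB hX, e_r_smul_left hC hB hX, e_r_add_left hC hB hX,
      e_r_smul_left hC hB hX, e_r_comm e p]
    module
  unfold rho
  rw [h1, D_add, D_smul]
  module

theorem e_rho_memA (p : ℝ × ℝ) : X.rho C p ∈ C.A :=
  hC.toIsDir.A_add (hC.toIsDir.A_sub (hC.test_A hX.hF.1) (D_memA hC hB hX p))
    (hC.toIsDir.A_smul _ (r_memA hC hB hX p p))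

omit hC hB hX in
theorem e_ph (e : ℝ × ℝ) (h : M →ₘ[m] ℝ) (ε t : ℝ) :
    X.ph e h ε t = X.pt e + ε • h - t • ((2 : ℝ)⁻¹ • X.G' e e) := by
  unfold ph
  rw [smul_smul, div_eq_mul_inv]

/-- the approximate `Γ(e,e)` is close to `Γ(e,e)` -/
theorem e_close (hδ : 0 ≤ δ) (e : ℝ × ℝ) :
    I (C.Γ ((2 : ℝ)⁻¹ • X.G' e e - (2 : ℝ)⁻¹ • C.Γ (X.pt e) (X.pt e))
      ((2 : ℝ)⁻¹ • X.G' e e - (2 : ℝ)⁻¹ • C.Γ (X.pt e) (X.pt e)))
      ≤ (((|e.1| + |e.2|) ^ 2 + 1) * δ) ^ 2 := by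
  have hD := hC.toIsDir
  have aW := (hC.test_A hX.ha.1).1
  have bW := (hC.test_A hX.hb.1).1
  have gaa := (hC.Γ_mem hB hX.ha.1 hX.ha.1).1
  have gab := (hC.Γ_mem hB hX.ha.1 hX.hb.1).1
  have gbb := (hC.Γ_mem hB hX.hb.1 hX.hb.1).1
  have s1 := hD.sub_mem (hC.test_A hX.hP.1).1 gaa
  have s2 := hD.sub_mem (hC.test_A hX.hQ.1).1 gab
  have s3 := hD.sub_mem (hC.test_A hX.hR.1).1 gbb
  have hΓ : C.Γ (X.pt e) (X.pt e) = (e.1 * e.1) • C.Γ X.a X.a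
      + (e.1 * e.2 + e.2 * e.1) • C.Γ X.a X.b + (e.2 * e.2) • C.Γ X.b X.b := by
    unfold pt
    have a1 := hC.smul_mem e.1 _ aW
    have b1 := hC.smul_mem e.2 _ bW
    rw [hC.add_left _ a1 _ b1 _ (hC.add_mem _ a1 _ b1), hD.Γ_add_right a1 a1 b1,
      hD.Γ_add_right b1 a1 b1, hC.smul_left _ _ aW _ a1, hC.smul_left _ _ aW _ b1,
      hC.smul_left _ _ bW _ a1, hC.smul_left _ _ bW _ b1, hD.Γ_smul_right _ aW aW,
      hD.Γ_smul_right _ aW bW, hD.Γ_smul_right _ bW aW, hD.Γ_smul_right _ bW bW,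
      hC.symm _ bW _ aW]
    module
  have hdiff : (2 : ℝ)⁻¹ • X.G' e e - (2 : ℝ)⁻¹ • C.Γ (X.pt e) (X.pt e)
      = ((2 : ℝ)⁻¹ * (e.1 * e.1)) • (X.P - C.Γ X.a X.a)
        + ((2 : ℝ)⁻¹ * (e.1 * e.2 + e.2 * e.1)) • (X.Q - C.Γ X.a X.b)
        + ((2 : ℝ)⁻¹ * (e.2 * e.2)) • (X.R - C.Γ X.b X.b) := by
    rw [hΓ]
    unfold G'
    module
  have hs : ∀ {f : M →ₘ[m] ℝ}, f ∈ C.W → C.nrm2 f ≤ δ ^ 2 → √(I (C.Γ f f)) ≤ δ := by
    intro f hf hn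
    exact Real.sqrt_le_iff.2 ⟨hδ, (hD.E_le_nrm2 f).trans hn⟩
  have hsm : ∀ (c : ℝ) {f : M →ₘ[m] ℝ}, f ∈ C.W → C.nrm2 f ≤ δ ^ 2 →
      √(I (C.Γ (c • f) (c • f))) ≤ |c| * δ := by
    intro c f hf hn
    rw [hD.E_smul c hf, Real.sqrt_mul (sq_nonneg c), Real.sqrt_sq_eq_abs]
    exact mul_le_mul_of_nonneg_left (hs hf hn) (abs_nonneg c)
  have t1 := hsm ((2 : ℝ)⁻¹ * (e.1 * e.1)) s1 hX.nP
  have t2 := hsm ((2 : ℝ)⁻¹ * (e.1 * e.2 + e.2 * e.1)) s2 hX.nQ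
  have t3 := hsm ((2 : ℝ)⁻¹ * (e.2 * e.2)) s3 hX.nR
  have m1 := hC.smul_mem ((2 : ℝ)⁻¹ * (e.1 * e.1)) _ s1
  have m2 := hC.smul_mem ((2 : ℝ)⁻¹ * (e.1 * e.2 + e.2 * e.1)) _ s2
  have m3 := hC.smul_mem ((2 : ℝ)⁻¹ * (e.2 * e.2)) _ s3
  have t4 := hD.sqrt_E_add_le m1 m2
  have t5 := hD.sqrt_E_add_le (hC.add_mem _ m1 _ m2) m3
  rw [hdiff]
  have c1 : |(2 : ℝ)⁻¹ * (e.1 * e.1)| = |e.1| ^ 2 / 2 := by
    rw [abs_mul, abs_mul, abs_of_pos (by norm_num : (0 : ℝ) < 2⁻¹)]; ring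
  have c2 : |(2 : ℝ)⁻¹ * (e.1 * e.2 + e.2 * e.1)| = |e.1| * |e.2| := by
    have : (2 : ℝ)⁻¹ * (e.1 * e.2 + e.2 * e.1) = e.1 * e.2 := by ring
    rw [this, abs_mul]
  have c3 : |(2 : ℝ)⁻¹ * (e.2 * e.2)| = |e.2| ^ 2 / 2 := by
    rw [abs_mul, abs_mul, abs_of_pos (by norm_num : (0 : ℝ) < 2⁻¹)]; ring
  rw [c1] at t1
  rw [c2] at t2
  rw [c3] at t3
  have t6 : √(I (C.Γ (((2 : ℝ)⁻¹ * (e.1 * e.1)) • (X.P - C.Γ X.a X.a)
        + ((2 : ℝ)⁻¹ * (e.1 * e.2 + e.2 * e.1)) • (X.Q - C.Γ X.a X.b)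
        + ((2 : ℝ)⁻¹ * (e.2 * e.2)) • (X.R - C.Γ X.b X.b))
        (((2 : ℝ)⁻¹ * (e.1 * e.1)) • (X.P - C.Γ X.a X.a)
        + ((2 : ℝ)⁻¹ * (e.1 * e.2 + e.2 * e.1)) • (X.Q - C.Γ X.a X.b)
        + ((2 : ℝ)⁻¹ * (e.2 * e.2)) • (X.R - C.Γ X.b X.b))))
      ≤ ((|e.1| + |e.2|) ^ 2 + 1) * δ := by
    have h1 : 0 ≤ |e.1| * |e.2| := by (clear * -; positivity)
    linarith only [mul_nonneg (sub_nonneg.2 hδ) (sq_nonneg (|e.2|)), mul_nonneg (sub_nonneg.2 hδ) (sq_nonneg (|e.1|)), mul_nonneg (sub_nonneg.2 hδ) (sub_nonneg.2 h1), mul_nonneg (mul_self_nonneg (1 : ℝ)) (sub_nonneg.2 t5), mul_nonneg (mul_self_nonneg (1 : ℝ)) (sub_nonneg.2 t4), mul_nonneg (mul_self_nonneg (1 : ℝ)) (sub_nonneg.2 t3), mul_nonneg (mul_self_nonneg (1 : ℝ)) (sub_nonneg.2 t2), mul_nonneg (mul_self_nonneg (1 : ℝ)) (sub_nonneg.2 t1), mul_nonneg (mul_self_nonneg (1 : ℝ)) (sub_nonneg.2 hδ)]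
  exact (Real.sqrt_le_left (by (clear * - hδ; positivity))).1 t6

end Ok

end Dat

end Vale.Agent.P233
end

section

/-! Mismatch between the flux of the curve of densities of a pair and `ρ ∇φ`. -/

open MeasureTheory Filter Topology
open scoped ENNReal NNReal

namespace Vale.Agent.P233

variable {M : Type*} [MeasurableSpace M] {m : Measure M} {C : Calc m}

namespace AB

theorem mono_bd {s r x B : ℝ} (h0 : 0 ≤ s) (h1 : s ≤ r) (hx : |x| ≤ B) : |s * x| ≤ r * B := by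
  have hB : 0 ≤ B := (abs_nonneg x).trans hx
  rw [abs_mul, abs_of_nonneg h0]
  exact mul_le_mul h1 hx (abs_nonneg _) (h0.trans h1)

theorem pairH_r1 {ε t B p q z : ℝ} (ht0 : 0 ≤ t) (ht : t ≤ ε) (hε : ε ≤ 1)
    (hp : |p| ≤ B) (hq : |q| ≤ B) (hz : |z| ≤ B) : |p + ε * q - t / 2 * z| ≤ 3 * B := by
  have hε0 : 0 ≤ ε := ht0.trans ht
  have a1 := abs_le.1 (mono_bd hε0 hε hq)
  have a2 := abs_le.1 (mono_bd (by positivity : 0 ≤ t / 2) (by linarith : t / 2 ≤ 1) hz)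
  have a3 := abs_le.1 hp
  rw [abs_le]
  constructor
  · linarith only [a3.1, a2.2, a1.1]
  · linarith only [a3.2, a2.1, a1.2]

theorem pairH_r2 {ε t B q z : ℝ} (ht0 : 0 ≤ t) (ht : t ≤ ε)
    (hq : |q| ≤ B) (hz : |z| ≤ B) : |ε * q - t / 2 * z| ≤ ε * (2 * B) := by
  have hε0 : 0 ≤ ε := ht0.trans ht
  have a1 := abs_le.1 (mono_bd hε0 le_rfl hq)
  have a2 := abs_le.1 (mono_bd (by positivity : 0 ≤ t / 2) (by linarith : t / 2 ≤ ε) hz)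
  rw [abs_le]
  constructor
  · linarith only [a2.2, a1.1]
  · linarith only [a2.1, a1.2]

theorem pairH_r3 {ε t N c1 c2 c3 c4 c5 c6 y1 y2 f1 f2 d1 d2 : ℝ} (ht0 : 0 ≤ t) (ht : t ≤ ε)
    (hy1 : |y1| ≤ c1 * N) (hy2 : |y2| ≤ c2 * N) (hf1 : |f1| ≤ c3 * N) (hf2 : |f2| ≤ c4 * N)
    (hd1 : |d1| ≤ c5 * N) (hd2 : |d2| ≤ c6 * N) :
    |-ε * y1 - t * y2 - ε * f1 + t / 2 * f2 + ε * d1 + t * d2|
      ≤ (c1 + c2 + c3 + c4 + c5 + c6) * ε * N := by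
  have hε0 : 0 ≤ ε := ht0.trans ht
  have t2 : t / 2 ≤ ε := by linarith
  have a1 := abs_le.1 (mono_bd hε0 le_rfl hy1)
  have a2 := abs_le.1 (mono_bd ht0 ht hy2)
  have a3 := abs_le.1 (mono_bd hε0 le_rfl hf1)
  have a4 := abs_le.1 (mono_bd (by positivity : 0 ≤ t / 2) t2 hf2)
  have a5 := abs_le.1 (mono_bd hε0 le_rfl hd1)
  have a6 := abs_le.1 (mono_bd ht0 ht hd2)
  rw [abs_le]
  constructor
  · linarith only [a6.1, a5.1, a4.1, a3.2, a2.2, a1.2]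
  · linarith only [a6.2, a5.2, a4.2, a3.1, a2.1, a1.1]

theorem pairH_r4 {ε t B x1 x2 R1 R2 R3 : ℝ} (ht0 : 0 ≤ t) (ht : t ≤ ε)
    (hx1 : |x1| ≤ ε * (2 * B)) (hx2 : |x2| ≤ ε * (2 * B)) (h1 : |R1| ≤ 3 * B)
    (h2 : |R2| ≤ 3 * B) (h3 : |R3| ≤ 3 * B) :
    |ε * x1 + t * x2 - 2⁻¹ * (ε ^ 2 * R1 + 2 * ε * t * R2 + t ^ 2 * R3)| ≤ 10 * ε ^ 2 * B := by
  have hε0 : 0 ≤ ε := ht0.trans ht
  have e2 : ε * t ≤ ε ^ 2 := by linarith only [mul_nonneg (sub_nonneg.2 ht) (sub_nonneg.2 hε0)]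
  have e3 : t ^ 2 ≤ ε ^ 2 := by linarith only [mul_nonneg (sub_nonneg.2 ht) (sub_nonneg.2 hε0), mul_nonneg (sub_nonneg.2 ht0) (sub_nonneg.2 ht)]
  have a1 := abs_le.1 (mono_bd hε0 le_rfl hx1)
  have a2 := abs_le.1 (mono_bd ht0 ht hx2)
  have b1 := abs_le.1 (mono_bd (by positivity : 0 ≤ ε ^ 2) le_rfl h1)
  have b2 := abs_le.1 (mono_bd (by positivity : 0 ≤ ε * t) e2 h2)
  have b3 := abs_le.1 (mono_bd (by positivity : 0 ≤ t ^ 2) e3 h3)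
  rw [abs_le]
  constructor
  · linarith only [b3.2, b2.2, b1.2, a2.1, a1.1]
  · linarith [a1.2, a2.2, b1.1, b2.1, b3.1]

theorem pairH_real {ε t N K c1 c2 c3 c4 c5 c6 y1 y2 f1 f2 d1 d2 s1 s2 s3 s4
    p1 p2 p3 q1 q2 q3 z1 z2 z3 : ℝ} (ht0 : 0 ≤ t) (ht : t ≤ ε) (hε : ε ≤ 1)
    (hK : 10 * K * ε ≤ 1) (hN : 0 ≤ N)
    (hy1 : |y1| ≤ c1 * N) (hy2 : |y2| ≤ c2 * N) (hf1 : |f1| ≤ c3 * N) (hf2 : |f2| ≤ c4 * N)
    (hd1 : |d1| ≤ c5 * N) (hd2 : |d2| ≤ c6 * N)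
    (hs1 : |s1| ≤ K * N) (hs2 : |s2| ≤ K * N) (hs3 : |s3| ≤ K * N) (hs4 : |s4| ≤ K * N)
    (hp1 : |p1| ≤ K * N) (hp2 : |p2| ≤ K * N) (hp3 : |p3| ≤ K * N)
    (hq1 : |q1| ≤ K * N) (hq2 : |q2| ≤ K * N) (hq3 : |q3| ≤ K * N)
    (hz1 : |z1| ≤ K * N) (hz2 : |z2| ≤ K * N) (hz3 : |z3| ≤ K * N) :
    |(-ε * y1 - t * y2 - ε * f1 + t / 2 * f2 + ε * (d1 + (ε * s1 - t / 2 * s3))
      + t * (d2 + (ε * s2 - t / 2 * s4))
      - 2⁻¹ * (ε ^ 2 * (p1 + ε * q1 - t / 2 * z1) + 2 * ε * t * (p2 + ε * q2 - t / 2 * z2)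
        + t ^ 2 * (p3 + ε * q3 - t / 2 * z3)))|
      ≤ (c1 + c2 + c3 + c4 + c5 + c6 + 1) * ε * N := by
  have hε0 : 0 ≤ ε := ht0.trans ht
  have r1 := pairH_r3 ht0 ht hy1 hy2 hf1 hf2 hd1 hd2
  have r2 := pairH_r4 ht0 ht (pairH_r2 ht0 ht hs1 hs3) (pairH_r2 ht0 ht hs2 hs4)
    (pairH_r1 ht0 ht hε hp1 hq1 hz1) (pairH_r1 ht0 ht hε hp2 hq2 hz2)
    (pairH_r1 ht0 ht hε hp3 hq3 hz3)
  have k1 : 10 * ε ^ 2 * (K * N) ≤ ε * N := by
    have : 10 * K * ε * (ε * N) ≤ 1 * (ε * N) :=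
      mul_le_mul_of_nonneg_right hK (mul_nonneg hε0 hN)
    linarith only [this]
  have r3 := abs_add_le (-ε * y1 - t * y2 - ε * f1 + t / 2 * f2 + ε * d1 + t * d2)
    (ε * (ε * s1 - t / 2 * s3) + t * (ε * s2 - t / 2 * s4)
      - 2⁻¹ * (ε ^ 2 * (p1 + ε * q1 - t / 2 * z1) + 2 * ε * t * (p2 + ε * q2 - t / 2 * z2)
        + t ^ 2 * (p3 + ε * q3 - t / 2 * z3)))
  have e0 : (-ε * y1 - t * y2 - ε * f1 + t / 2 * f2 + ε * (d1 + (ε * s1 - t / 2 * s3))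
      + t * (d2 + (ε * s2 - t / 2 * s4))
      - 2⁻¹ * (ε ^ 2 * (p1 + ε * q1 - t / 2 * z1) + 2 * ε * t * (p2 + ε * q2 - t / 2 * z2)
        + t ^ 2 * (p3 + ε * q3 - t / 2 * z3)))
      = (-ε * y1 - t * y2 - ε * f1 + t / 2 * f2 + ε * d1 + t * d2)
      + (ε * (ε * s1 - t / 2 * s3) + t * (ε * s2 - t / 2 * s4)
      - 2⁻¹ * (ε ^ 2 * (p1 + ε * q1 - t / 2 * z1) + 2 * ε * t * (p2 + ε * q2 - t / 2 * z2)
        + t ^ 2 * (p3 + ε * q3 - t / 2 * z3))) := by ring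
  rw [e0]
  refine r3.trans ?_
  linarith only [k1, r2, r1]

end AB

namespace IsGamma

variable (hC : IsGamma C) {κ : ℝ} (hB : C.BEi κ)
variable {F y : M →ₘ[m] ℝ}

include hC

/-- `|∫ S Γ(y,w)| ≤ L ‖S‖₂ |∇w|` -/
theorem bdE1 (hy : y ∈ C.Test) : ∃ L : ℝ, 0 ≤ L ∧ ∀ S : M →ₘ[m] ℝ, MemLp S 2 m → ∀ w ∈ C.W,
    |I (S * C.Γ y w)| ≤ L * (Real.sqrt (I (S ^ 2)) * Real.sqrt (I (C.Γ w w))) := by
  obtain ⟨L, hL⟩ := mem_top_iff.1 (hC.test_Γ_top hy)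
  have yA := hC.test_A hy
  refine ⟨Real.sqrt |L|, by positivity, fun S hS w hw => ?_⟩
  have h2 := hC.toIsDir.Γ_mem2 yA.1 (hC.test_Γ_top hy) hw
  refine (I_abs_le hS h2).trans ?_
  have h3 : Real.sqrt (I (C.Γ y w ^ 2)) ≤ Real.sqrt |L| * Real.sqrt (I (C.Γ w w)) := by
    rw [← Real.sqrt_mul (abs_nonneg _)]
    refine Real.sqrt_le_sqrt ?_
    rw [← I_smul]
    refine I_mono (mem_sq h2) (mem_smul _ (hC.mem1 w hw)) ?_
    rw [le_iff_ae]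
    filter_upwards [hC.toIsDir.Γ_cs_ae yA.1 hw, hC.toIsDir.Γ_nonneg_ae hw, hL,
      sq_ae (C.Γ y w), smul_ae (C.Γ w w) |L|] with x h1 h3 h4 h5 h6
    rw [h5, h6]
    refine h1.trans (mul_le_mul_of_nonneg_right ?_ h3)
    exact (le_abs_self _).trans (h4.trans (le_abs_self _))
  calc Real.sqrt (I (S ^ 2)) * Real.sqrt (I (C.Γ y w ^ 2))
      ≤ Real.sqrt (I (S ^ 2)) * (Real.sqrt |L| * Real.sqrt (I (C.Γ w w))) := by
        exact mul_le_mul_of_nonneg_left h3 (Real.sqrt_nonneg _)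
    _ = _ := by ring

/-- a bound for one function and one coefficient -/
theorem bdE2 {c u : M →ₘ[m] ℝ} (hc : MemLp c ∞ m) (hu : u ∈ C.W) :
    ∃ K : ℝ, 0 ≤ K ∧ ∀ w ∈ C.W, |I (c * C.Γ u w)| ≤ K * Real.sqrt (I (C.Γ w w)) := by
  obtain ⟨K, hK0, hK⟩ := hC.exists_bd_FΓ hc
  refine ⟨K * Real.sqrt (I (C.Γ u u)), by positivity, fun w hw => ?_⟩
  have := hK u hu w hw
  rwa [← mul_assoc] at this

end IsGamma

namespace Dat

variable {X : Dat m} {θ : M →ₘ[m] ℝ} {η δ : ℝ}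

section Ok

variable (hC : IsGamma C) {κ : ℝ} (hB : C.BEi κ)
include hC hB

theorem G'_unif (a b F θ : M →ₘ[m] ℝ) (η : ℝ) (ha : a ∈ C.TestI) (hb : b ∈ C.TestI)
    (v w' : ℝ × ℝ) :
    ∃ c : ℝ, 0 ≤ c ∧ ∀ δ, 0 < δ → δ ≤ 1 → ∀ X : Dat m, X.Ok C θ η δ → X.a = a → X.b = b →
      X.F = F → √(I (C.Γ (X.G' v w') (X.G' v w'))) ≤ c := by
  have hv : v.1 • a + v.2 • b ∈ C.TestI :=
    hC.testI_add hB (hC.testI_smul hB _ ha) (hC.testI_smul hB _ hb)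
  have hw : w'.1 • a + w'.2 • b ∈ C.TestI :=
    hC.testI_add hB (hC.testI_smul hB _ ha) (hC.testI_smul hB _ hb)
  have hΓ := hC.Γ_mem hB hv.1 hw.1
  have n0 := IsGamma.N_nonneg' (C := C) (C.Γ (v.1 • a + v.2 • b) (w'.1 • a + w'.2 • b))
  refine ⟨2 * (C.N (C.Γ (v.1 • a + v.2 • b) (w'.1 • a + w'.2 • b))
    + 4 * (|v.1 * w'.1| + |v.1 * w'.2 + v.2 * w'.1| + |v.2 * w'.2|)), by (clear * - n0; positivity), ?_⟩
  intro δ hδ hδ1 X hX Xa Xb XF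
  have h1 := G'_close hC hB hX hδ v w'
  have e1 : X.pt v = v.1 • a + v.2 • b := by unfold pt; rw [Xa, Xb]
  have e2 : X.pt w' = w'.1 • a + w'.2 • b := by unfold pt; rw [Xa, Xb]
  rw [e1, e2] at h1
  have p0 : 0 ≤ 4 * (|v.1 * w'.1| + |v.1 * w'.2 + v.2 * w'.1| + |v.2 * w'.2|) := by (clear * -; positivity)
  have h2 : C.N (X.G' v w' - C.Γ (v.1 • a + v.2 • b) (w'.1 • a + w'.2 • b))
      ≤ 4 * (|v.1 * w'.1| + |v.1 * w'.2 + v.2 * w'.1| + |v.2 * w'.2|) :=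
    h1.trans (by (by_contra nlg; linarith only [nlg, mul_nonneg (sub_nonneg.2 hδ1) (sub_nonneg.2 p0), mul_nonneg (le_of_lt (sub_pos.2 (not_le.1 nlg))) (sub_nonneg.2 hδ1), mul_pos (sub_pos.2 (not_le.1 nlg)) (sub_pos.2 hδ)]))
  exact (hC.sqrtE_le_N _).trans
    (hC.N_of_sub (hC.test_A (G'_memI hC hB hX v w').1).1 hΓ.1 h2)

theorem D'_unif (a b F θ : M →ₘ[m] ℝ) (η : ℝ) (ha : a ∈ C.TestI) (hb : b ∈ C.TestI)
    (hF : F ∈ C.TestI) (v : ℝ × ℝ) :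
    ∃ c : ℝ, 0 ≤ c ∧ ∀ δ, 0 < δ → δ ≤ 1 → ∀ X : Dat m, X.Ok C θ η δ → X.a = a → X.b = b →
      X.F = F → √(I (X.D' v ^ 2)) ≤ c := by
  have hv : v.1 • C.De F a + v.2 • C.De F b ∈ C.A :=
    hC.toIsDir.A_add (hC.toIsDir.A_smul _ (De_memA hC hB hF ha))
      (hC.toIsDir.A_smul _ (De_memA hC hB hF hb))
  have n0 := IsGamma.N_nonneg' (C := C) (v.1 • C.De F a + v.2 • C.De F b)
  refine ⟨2 * (C.N (v.1 • C.De F a + v.2 • C.De F b) + 2 * (|v.1| + |v.2|)), by positivity, ?_⟩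
  intro δ hδ hδ1 X hX Xa Xb XF
  have h1 := D'_close hC hB hX hδ v
  have e1 : X.D C v = v.1 • C.De F a + v.2 • C.De F b := by unfold D; rw [Xa, Xb, XF]
  rw [e1] at h1
  have p0 : 0 ≤ 2 * (|v.1| + |v.2|) := by positivity
  have h2 : C.N (X.D' v - (v.1 • C.De F a + v.2 • C.De F b)) ≤ 2 * (|v.1| + |v.2|) :=
    h1.trans (by nlinarith)
  have hD' := (hC.test_A (D'_memI hC hB hX v).1).1
  exact (hC.sqrtI_le_N hD').trans (hC.N_of_sub hD' hv.1 h2)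

theorem Y_unif (a b F θ : M →ₘ[m] ℝ) (η : ℝ) (ha : a ∈ C.TestI) (hb : b ∈ C.TestI)
    (hF : F ∈ C.TestI) (v w' : ℝ × ℝ) :
    ∃ c : ℝ, 0 ≤ c ∧ ∀ δ, 0 < δ → δ ≤ 1 → ∀ X : Dat m, X.Ok C θ η δ → X.a = a → X.b = b →
      X.F = F → ∀ w ∈ C.W, |I (X.Y C v w' w)| ≤ c * √(I (C.Γ w w)) := by
  have hv : v.1 • a + v.2 • b ∈ C.TestI :=
    hC.testI_add hB (hC.testI_smul hB _ ha) (hC.testI_smul hB _ hb)
  have hw' : w'.1 • a + w'.2 • b ∈ C.TestI :=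
    hC.testI_add hB (hC.testI_smul hB _ ha) (hC.testI_smul hB _ hb)
  obtain ⟨Lv, hLv0, hLv⟩ := hC.bdE1 hv.1
  obtain ⟨Lw, hLw0, hLw⟩ := hC.bdE1 hw'.1
  obtain ⟨LF, hLF0, hLF⟩ := hC.exists_bd_FΓ (hC.test_A hF.1).2
  obtain ⟨dv, hdv0, hdv⟩ := D'_unif hC hB a b F θ η ha hb hF v
  obtain ⟨dw, hdw0, hdw⟩ := D'_unif hC hB a b F θ η ha hb hF w'
  obtain ⟨gg, hgg0, hgg⟩ := G'_unif hC hB a b F θ η ha hb v w'
  refine ⟨2⁻¹ * (Lw * dv + Lv * dw + LF * gg), by (clear * - hLw0 hdv0 hLv0 hdw0 hLF0 hgg0; positivity), ?_⟩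
  intro δ hδ hδ1 X hX Xa Xb XF w hw
  have hD := hC.toIsDir
  have e1 : X.pt v = v.1 • a + v.2 • b := by unfold pt; rw [Xa, Xb]
  have e2 : X.pt w' = w'.1 • a + w'.2 • b := by unfold pt; rw [Xa, Xb]
  have pv := (hC.test_A (pt_memI hC hB hX v).1).1
  have pw := (hC.test_A (pt_memI hC hB hX w').1).1
  have gW := (hC.test_A (G'_memI hC hB hX v w').1).1
  have D1 := hC.test_A (D'_memI hC hB hX v).1
  have D2 := hC.test_A (D'_memI hC hB hX w').1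
  have h1 := hLw _ (hC.memLp _ D1.1) w hw
  have h2 := hLv _ (hC.memLp _ D2.1) w hw
  have h3 := hLF _ gW w hw
  have b1 := hdv δ hδ hδ1 X hX Xa Xb XF
  have b2 := hdw δ hδ hδ1 X hX Xa Xb XF
  have b3 := hgg δ hδ hδ1 X hX Xa Xb XF
  rw [← e2] at h1
  rw [← e1] at h2
  rw [← XF] at h3
  set N := √(I (C.Γ w w)) with hN
  have hN0 : 0 ≤ N := Real.sqrt_nonneg _
  have q1 : MemLp (X.D' v * C.Γ (X.pt w') w : M →ₘ[m] ℝ) 1 m :=
    mem_mul_top D1.2 (hD.Γ_mem1 pw hw)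
  have q2 : MemLp (X.D' w' * C.Γ (X.pt v) w : M →ₘ[m] ℝ) 1 m :=
    mem_mul_top D2.2 (hD.Γ_mem1 pv hw)
  have q3 : MemLp (X.F * C.Γ (X.G' v w') w : M →ₘ[m] ℝ) 1 m :=
    mem_mul_top (hC.test_A hX.hF.1).2 (hD.Γ_mem1 gW hw)
  unfold Y
  rw [I_smul, I_add (mem_add q1 q2) q3, I_add q1 q2]
  have c1 : |I (X.D' v * C.Γ (X.pt w') w)| ≤ Lw * (dv * N) :=
    h1.trans (mul_le_mul_of_nonneg_left (mul_le_mul_of_nonneg_right b1 hN0) hLw0)
  have c2 : |I (X.D' w' * C.Γ (X.pt v) w)| ≤ Lv * (dw * N) :=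
    h2.trans (mul_le_mul_of_nonneg_left (mul_le_mul_of_nonneg_right b2 hN0) hLv0)
  have c3 : |I (X.F * C.Γ (X.G' v w') w)| ≤ LF * (gg * N) :=
    h3.trans (mul_le_mul_of_nonneg_left (mul_le_mul_of_nonneg_right b3 hN0) hLF0)
  rw [abs_mul, abs_of_pos (by norm_num : (0 : ℝ) < 2⁻¹)]
  have c4 := abs_add_three (I (X.D' v * C.Γ (X.pt w') w)) (I (X.D' w' * C.Γ (X.pt v) w))
    (I (X.F * C.Γ (X.G' v w') w))
  linarith only [c4, c3, c2, c1]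

end Ok

section Ok2

variable (hC : IsGamma C) {κ : ℝ} (hB : C.BEi κ) (hX : X.Ok C θ η δ)
include hC hB hX

/-- expansion in the potential -/
theorem expU (e : ℝ × ℝ) {h w c : M →ₘ[m] ℝ} (hh : h ∈ C.W) (hw : w ∈ C.W) (hc : MemLp c ∞ m)
    (ε t : ℝ) : I (c * C.Γ (X.ph e h ε t) w) = I (c * C.Γ (X.pt e) w) + ε * I (c * C.Γ h w)
      - t / 2 * I (c * C.Γ (X.G' e e) w) := by
  have hD := hC.toIsDir
  have pW := (hC.test_A (pt_memI hC hB hX e).1).1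
  have gW := (hC.test_A (G'_memI hC hB hX e e).1).1
  have m1 := mem_mul_top hc (hD.Γ_mem1 pW hw)
  have m2 := mem_mul_top hc (hD.Γ_mem1 hh hw)
  have m3 := mem_mul_top hc (hD.Γ_mem1 gW hw)
  have e1 : c * C.Γ (X.ph e h ε t) w = (c * C.Γ (X.pt e) w + ε • (c * C.Γ h w))
      - (t / 2) • (c * C.Γ (X.G' e e) w) := by
    unfold ph
    rw [hD.Γ_sub_left (hC.add_mem _ pW _ (hC.smul_mem _ _ hh)) (hC.smul_mem _ _ gW) hw,
      hC.add_left _ pW _ (hC.smul_mem _ _ hh) _ hw, hC.smul_left _ _ hh _ hw,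
      hC.smul_left _ _ gW _ hw]
    algebra
  rw [e1, I_sub (mem_add m1 (mem_smul _ m2)) (mem_smul _ m3), I_add m1 (mem_smul _ m2), I_smul,
    I_smul]

/-- expansion in the density -/
theorem expR (v e : ℝ × ℝ) {u w : M →ₘ[m] ℝ} (hu : u ∈ C.W) (hw : w ∈ C.W) (ε t : ℝ) :
    I (X.rho C (ε • v + t • e) * C.Γ u w) = I (X.F * C.Γ u w) - ε * I (X.D C v * C.Γ u w)
      - t * I (X.D C e * C.Γ u w) + 2⁻¹ * (ε ^ 2 * I (X.r C v v * C.Γ u w)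
        + 2 * ε * t * I (X.r C v e * C.Γ u w) + t ^ 2 * I (X.r C e e * C.Γ u w)) := by
  have hD := hC.toIsDir
  have hg := hD.Γ_mem1 hu hw
  have m0 := mem_mul_top (hC.test_A hX.hF.1).2 hg
  have m1 := mem_mul_top (D_memA hC hB hX v).2 hg
  have m2 := mem_mul_top (D_memA hC hB hX e).2 hg
  have m3 := mem_mul_top (r_memA hC hB hX v v).2 hg
  have m4 := mem_mul_top (r_memA hC hB hX v e).2 hg
  have m5 := mem_mul_top (r_memA hC hB hX e e).2 hg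
  have e1 : X.rho C (ε • v + t • e) * C.Γ u w = (X.F * C.Γ u w - ε • (X.D C v * C.Γ u w)
      - t • (X.D C e * C.Γ u w)) + (2⁻¹ : ℝ) • (ε ^ 2 • (X.r C v v * C.Γ u w)
        + (2 * ε * t) • (X.r C v e * C.Γ u w) + t ^ 2 • (X.r C e e * C.Γ u w)) := by
    rw [e_rho hC hB hX, e_r_smul_left hC hB hX]
    unfold rho
    rw [D_smul, r_smul hC hB hX]
    algebra
  rw [e1, I_add (mem_sub (mem_sub m0 (mem_smul _ m1)) (mem_smul _ m2))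
      (mem_smul _ (mem_add (mem_add (mem_smul _ m3) (mem_smul _ m4)) (mem_smul _ m5))),
    I_sub (mem_sub m0 (mem_smul _ m1)) (mem_smul _ m2), I_sub m0 (mem_smul _ m1), I_smul, I_smul,
    I_smul, I_add (mem_add (mem_smul _ m3) (mem_smul _ m4)) (mem_smul _ m5),
    I_add (mem_smul _ m3) (mem_smul _ m4), I_smul, I_smul, I_smul]

/-- expansion of the divergence -/
theorem expL (v e : ℝ × ℝ) {w : M →ₘ[m] ℝ} (hw : w ∈ C.W) (ε t : ℝ) :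
    I (w * (X.r C (ε • v + t • e) e - X.D C e))
      = I (X.F * C.Γ (X.pt e) w) - ε * I (X.Y C v e w) - t * I (X.Y C e e w) := by
  have w2 := hC.memLp w hw
  have m1 : MemLp (w * X.r C v e : M →ₘ[m] ℝ) 1 m :=
    mem_mul_22 w2 (hC.memLp _ (r_memA hC hB hX v e).1)
  have m2 : MemLp (w * X.r C e e : M →ₘ[m] ℝ) 1 m :=
    mem_mul_22 w2 (hC.memLp _ (r_memA hC hB hX e e).1)
  have m3 : MemLp (w * X.D C e : M →ₘ[m] ℝ) 1 m :=
    mem_mul_22 w2 (hC.memLp _ (D_memA hC hB hX e).1)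
  have e1 : w * (X.r C (ε • v + t • e) e - X.D C e)
      = (ε • (w * X.r C v e) + t • (w * X.r C e e)) - w * X.D C e := by
    rw [e_r_add_left hC hB hX, e_r_smul_left hC hB hX, e_r_smul_left hC hB hX]
    algebra
  rw [e1, I_sub (mem_add (mem_smul _ m1) (mem_smul _ m2)) m3,
    I_add (mem_smul _ m1) (mem_smul _ m2), I_smul, I_smul, ibp_r hC hB hX v e hw,
    ibp_r hC hB hX e e hw, ibp_D hC hB hX e hw]
  ring

/-- bounds with constants which depend on everything -/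
theorem exists_K2 (v e : ℝ × ℝ) {h : M →ₘ[m] ℝ} (hh : h ∈ C.W) : ∃ K : ℝ, 0 ≤ K ∧ ∀ w ∈ C.W,
    ∀ c ∈ ({X.D C v, X.D C e, X.r C v v, X.r C v e, X.r C e e} : Set (M →ₘ[m] ℝ)),
    ∀ u ∈ ({X.pt e, h, X.G' e e} : Set (M →ₘ[m] ℝ)),
      |I (c * C.Γ u w)| ≤ K * √(I (C.Γ w w)) := by
  have pW := (hC.test_A (pt_memI hC hB hX e).1).1
  have gW := (hC.test_A (G'_memI hC hB hX e e).1).1
  have key : ∀ c : M →ₘ[m] ℝ, MemLp c ∞ m → ∃ K : ℝ, 0 ≤ K ∧ ∀ w ∈ C.W,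
      ∀ u ∈ ({X.pt e, h, X.G' e e} : Set (M →ₘ[m] ℝ)),
        |I (c * C.Γ u w)| ≤ K * √(I (C.Γ w w)) := by
    intro c hc
    obtain ⟨K1, h10, h1⟩ := hC.bdE2 hc pW
    obtain ⟨K2, h20, h2⟩ := hC.bdE2 hc hh
    obtain ⟨K3, h30, h3⟩ := hC.bdE2 hc gW
    refine ⟨K1 + K2 + K3, by positivity, fun w hw u hu => ?_⟩
    have hN0 : 0 ≤ √(I (C.Γ w w)) := Real.sqrt_nonneg _
    have z1 := mul_nonneg h10 hN0
    have z2 := mul_nonneg h20 hN0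
    have z3 := mul_nonneg h30 hN0
    simp only [Set.mem_insert_iff, Set.mem_singleton_iff] at hu
    rcases hu with rfl | rfl | rfl
    · refine (h1 w hw).trans ?_
      linarith
    · refine (h2 w hw).trans ?_
      linarith
    · refine (h3 w hw).trans ?_
      linarith
  obtain ⟨K1, h10, h1⟩ := key _ (D_memA hC hB hX v).2
  obtain ⟨K2, h20, h2⟩ := key _ (D_memA hC hB hX e).2
  obtain ⟨K3, h30, h3⟩ := key _ (r_memA hC hB hX v v).2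
  obtain ⟨K4, h40, h4⟩ := key _ (r_memA hC hB hX v e).2
  obtain ⟨K5, h50, h5⟩ := key _ (r_memA hC hB hX e e).2
  refine ⟨K1 + K2 + K3 + K4 + K5, by (clear * - h10 h20 h30 h40 h50; positivity), fun w hw c hc u hu => ?_⟩
  have hN0 : 0 ≤ √(I (C.Γ w w)) := Real.sqrt_nonneg _
  have z1 := mul_nonneg h10 hN0
  have z2 := mul_nonneg h20 hN0
  have z3 := mul_nonneg h30 hN0
  have z4 := mul_nonneg h40 hN0
  have z5 := mul_nonneg h50 hN0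
  simp only [Set.mem_insert_iff, Set.mem_singleton_iff] at hc
  rcases hc with rfl | rfl | rfl | rfl | rfl
  · refine (h1 w hw u hu).trans ?_
    linarith
  · refine (h2 w hw u hu).trans ?_
    linarith
  · refine (h3 w hw u hu).trans ?_
    linarith
  · refine (h4 w hw u hu).trans ?_
    linarith
  · refine (h5 w hw u hu).trans ?_
    linarith

end Ok2

/-- the mismatch -/
theorem pairH_mis (hC : IsGamma C) {K : ℝ} (hB : C.BEi K)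
    (a b F θ g : M →ₘ[m] ℝ) (ha : a ∈ C.TestI) (hb : b ∈ C.TestI) (hF : F ∈ C.TestI)
    (hg : g ∈ C.A) (η : ℝ) (v e : ℝ × ℝ) :
    ∃ CH ≥ 0, ∀ δ, 0 < δ → δ ≤ 1 → ∀ X : Dat m, X.Ok C θ η δ → X.a = a → X.b = b →
      X.F = F → ∀ h ∈ C.TestI, C.nrm2 (h - g) ≤ (2 * δ) ^ 2 →
      ∃ ε₀ > 0, ∀ ε, 0 < ε → ε ≤ ε₀ → ∀ t ∈ Set.Icc 0 ε,
        ∀ w ∈ C.A, MemLp (C.Γ w w) ∞ m →
          |I (w * (X.r C (ε • v + t • e) e - X.D C e))
            - I (X.rho C (ε • v + t • e) * C.Γ (X.ph e h ε t) w)| ≤ CH * ε * √(I (C.Γ w w)) := by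
  obtain ⟨c1, hc1, h1⟩ := Y_unif hC hB a b F θ η ha hb hF v e
  obtain ⟨c2, hc2, h2⟩ := Y_unif hC hB a b F θ η ha hb hF e e
  obtain ⟨LF, hLF0, hLF⟩ := hC.exists_bd_FΓ (hC.test_A hF.1).2
  obtain ⟨gg, hgg0, hgg⟩ := G'_unif hC hB a b F θ η ha hb e e
  have he : e.1 • a + e.2 • b ∈ C.TestI :=
    hC.testI_add hB (hC.testI_smul hB _ ha) (hC.testI_smul hB _ hb)
  have dW : ∀ v : ℝ × ℝ, v.1 • C.De F a + v.2 • C.De F b ∈ C.A := fun v =>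
    hC.toIsDir.A_add (hC.toIsDir.A_smul _ (De_memA hC hB hF ha))
      (hC.toIsDir.A_smul _ (De_memA hC hB hF hb))
  obtain ⟨Le, hLe0, hLe⟩ := hC.bdE1 he.1
  set c3 := LF * (2 * (C.N g + 2)) with hc3
  set c4 := LF * gg with hc4
  set c5 := Le * √(I ((v.1 • C.De F a + v.2 • C.De F b) ^ 2)) with hc5
  set c6 := Le * √(I ((e.1 • C.De F a + e.2 • C.De F b) ^ 2)) with hc6
  have ng := IsGamma.N_nonneg' (C := C) g
  refine ⟨c1 + c2 + c3 + c4 + c5 + c6 + 1, by (clear * - hc1 hc2 hLF0 ng hgg0 hLe0; positivity), ?_⟩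
  intro δ hδ hδ1 X hX Xa Xb XF h hh hn
  have hhW := (hC.test_A hh.1).1
  obtain ⟨K2, hK20, hK2⟩ := exists_K2 hC hB hX v e hhW
  refine ⟨min 1 (1 / (10 * K2 + 1)), lt_min one_pos (by (clear * - hK20; positivity)), ?_⟩
  intro ε hε hε0 t ht w hwA hwT
  have hw := hwA.1
  have hε1 : ε ≤ 1 := hε0.trans (min_le_left _ _)
  have hε2 : ε ≤ 1 / (10 * K2 + 1) := hε0.trans (min_le_right _ _)
  have hε3 : 10 * K2 * ε ≤ 1 := by
    have h3 : ε * (10 * K2 + 1) ≤ 1 := (le_div_iff₀ (by (clear * - hK20; positivity))).1 hε2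
    linarith only [h3, hε]
  have gW := (hC.test_A (G'_memI hC hB hX e e).1).1
  have pW := (hC.test_A (pt_memI hC hB hX e).1).1
  have e1 : X.pt e = e.1 • a + e.2 • b := by unfold pt; rw [Xa, Xb]
  have e2 : ∀ v : ℝ × ℝ, X.D C v = v.1 • C.De F a + v.2 • C.De F b := fun v => by
    unfold D; rw [Xa, Xb, XF]
  have f1 := hLF _ hhW w hw
  have f2 := hLF _ gW w hw
  rw [← XF] at f1 f2
  have f3 : √(I (C.Γ h h)) ≤ 2 * (C.N g + 2) := by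
    have h3 : C.N (h - g) ≤ 2 := by
      have : C.N (h - g) ≤ 2 * δ := IsGamma.N_le (by positivity) hn
      linarith only [this, hδ1]
    exact (hC.sqrtE_le_N _).trans (hC.N_of_sub hhW hg.1 h3)
  have f4 := hgg δ hδ hδ1 X hX Xa Xb XF
  have d1 := hLe _ (hC.memLp _ (D_memA hC hB hX v).1) w hw
  have d2 := hLe _ (hC.memLp _ (D_memA hC hB hX e).1) w hw
  rw [← e1, e2 v] at d1
  rw [← e1, e2 e] at d2
  have y1 := h1 δ hδ hδ1 X hX Xa Xb XF w hw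
  have y2 := h2 δ hδ hδ1 X hX Xa Xb XF w hw
  set N := √(I (C.Γ w w)) with hN
  have hN0 : 0 ≤ N := Real.sqrt_nonneg _
  have g1 : |I (X.F * C.Γ h w)| ≤ c3 * N := by
    refine f1.trans ?_
    rw [hc3, mul_assoc]
    exact mul_le_mul_of_nonneg_left (mul_le_mul_of_nonneg_right f3 hN0) hLF0
  have g2 : |I (X.F * C.Γ (X.G' e e) w)| ≤ c4 * N := by
    refine f2.trans ?_
    rw [hc4, mul_assoc]
    exact mul_le_mul_of_nonneg_left (mul_le_mul_of_nonneg_right f4 hN0) hLF0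
  have g3 : |I (X.D C v * C.Γ (X.pt e) w)| ≤ c5 * N := by
    rw [e2 v, hc5, mul_assoc]
    exact d1
  have g4 : |I (X.D C e * C.Γ (X.pt e) w)| ≤ c6 * N := by
    rw [e2 e, hc6, mul_assoc]
    exact d2
  have k := hK2 w hw
  have m1 : MemLp (X.rho C (ε • v + t • e)) ∞ m := (e_rho_memA hC hB hX _).2
  rw [expL hC hB hX v e hw, expU hC hB hX e hhW hw m1, expR hC hB hX v e pW hw,
    expR hC hB hX v e hhW hw, expR hC hB hX v e gW hw]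
  have fin := AB.pairH_real (y1 := I (X.Y C v e w)) (y2 := I (X.Y C e e w))
    (f1 := I (X.F * C.Γ h w)) (f2 := I (X.F * C.Γ (X.G' e e) w))
    (d1 := I (X.D C v * C.Γ (X.pt e) w)) (d2 := I (X.D C e * C.Γ (X.pt e) w))
    (s1 := I (X.D C v * C.Γ h w)) (s2 := I (X.D C e * C.Γ h w))
    (s3 := I (X.D C v * C.Γ (X.G' e e) w)) (s4 := I (X.D C e * C.Γ (X.G' e e) w))
    (p1 := I (X.r C v v * C.Γ (X.pt e) w)) (p2 := I (X.r C v e * C.Γ (X.pt e) w))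
    (p3 := I (X.r C e e * C.Γ (X.pt e) w))
    (q1 := I (X.r C v v * C.Γ h w)) (q2 := I (X.r C v e * C.Γ h w))
    (q3 := I (X.r C e e * C.Γ h w))
    (z1 := I (X.r C v v * C.Γ (X.G' e e) w)) (z2 := I (X.r C v e * C.Γ (X.G' e e) w))
    (z3 := I (X.r C e e * C.Γ (X.G' e e) w))
    ht.1 ht.2 hε1 hε3 hN0 y1 y2 g1 g2 g3 g4
    (k _ (by simp) _ (by simp)) (k _ (by simp) _ (by simp)) (k _ (by simp) _ (by simp))
    (k _ (by simp) _ (by simp)) (k _ (by simp) _ (by simp)) (k _ (by simp) _ (by simp))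
    (k _ (by simp) _ (by simp)) (k _ (by simp) _ (by simp)) (k _ (by simp) _ (by simp))
    (k _ (by simp) _ (by simp)) (k _ (by simp) _ (by simp)) (k _ (by simp) _ (by simp))
    (k _ (by simp) _ (by simp))
  refine le_trans (le_of_eq ?_) fin
  congr 1
  ring

end Dat

end Vale.Agent.P233
end

section

open MeasureTheory Filter Topology
open scoped ENNReal NNReal

namespace Vale.Agent.P233

variable {M : Type*} [MeasurableSpace M] {m : Measure M} {C : Calc m}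

namespace Dat

variable {X : Dat m} {θ : M →ₘ[m] ℝ} {η δ : ℝ}

section Ok

variable (hC : IsGamma C) {κ : ℝ} (hB : C.BEi κ) (hX : X.Ok C θ η δ)
include hC hB hX

/-- the density of a pair, pointwise -/
theorem rhoP_ae (v e : ℝ × ℝ) (ε t : ℝ) :
    ∀ᵐ x ∂m, X.rho C (ε • v + t • e) x = X.F x - ε * X.D C v x + ε ^ 2 / 2 * X.r C v v x
      + t * (ε * X.r C v e x - X.D C e x) + t ^ 2 / 2 * X.r C e e x := by
  rw [e_rho hC hB hX, e_r_smul_left hC hB hX]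
  filter_upwards [rho_ae hC hB hX ε v,
    add_ae (X.rho C (ε • v) + t • (ε • X.r C v e - X.D C e)) ((t ^ 2 / 2) • X.r C e e),
    add_ae (X.rho C (ε • v)) (t • (ε • X.r C v e - X.D C e)),
    smul_ae (ε • X.r C v e - X.D C e) t, sub_ae (ε • X.r C v e) (X.D C e),
    smul_ae (X.r C v e) ε, smul_ae (X.r C e e) (t ^ 2 / 2)]
    with x a1 a2 a3 a4 a5 a6 a7
  rw [a2, a3, a4, a5, a6, a7, a1]

/-- where `θ ≠ 1`, everything except `F` vanishes -/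
theorem locP_ae (v e : ℝ × ℝ) : ∀ᵐ x ∂m, (θ x = 1 ∧ η ≤ X.F x) ∨
    (0 ≤ X.F x ∧ X.D C v x = 0 ∧ X.D C e x = 0 ∧ X.r C v v x = 0 ∧ X.r C v e x = 0 ∧
      X.r C e e x = 0) := by
  filter_upwards [eq_zero_of_loc (loc_D hC hB hX v), eq_zero_of_loc (loc_D hC hB hX e),
    eq_zero_of_loc (loc_r hC hB hX v v), eq_zero_of_loc (loc_r hC hB hX v e),
    eq_zero_of_loc (loc_r hC hB hX e e), le_iff_ae.1 hX.Fη, smul_ae θ η,
    nonneg_iff_ae.1 hX.hθ0] with x a1 a2 a3 a4 a5 a6 a7 a8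
  rw [a7] at a6
  have hη := hX.hη
  by_cases h : θ x = 1
  · left
    refine ⟨h, ?_⟩
    rw [h, mul_one] at a6
    exact a6
  · right
    exact ⟨(mul_nonneg hη.le a8).trans a6, a1.resolve_left h, a2.resolve_left h,
      a3.resolve_left h, a4.resolve_left h, a5.resolve_left h⟩

/-- one bound for all functions -/
theorem boundP (v e : ℝ × ℝ) : ∃ B : ℝ, 0 ≤ B ∧ ∀ᵐ x ∂m, |X.D C v x| ≤ B ∧
    |X.D C e x| ≤ B ∧ |X.r C v v x| ≤ B ∧ |X.r C v e x| ≤ B ∧ |X.r C e e x| ≤ B := by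
  obtain ⟨K1, h1⟩ := mem_top_iff.1 (D_memA hC hB hX v).2
  obtain ⟨K2, h2⟩ := mem_top_iff.1 (D_memA hC hB hX e).2
  obtain ⟨K3, h3⟩ := mem_top_iff.1 (r_memA hC hB hX v v).2
  obtain ⟨K4, h4⟩ := mem_top_iff.1 (r_memA hC hB hX v e).2
  obtain ⟨K5, h5⟩ := mem_top_iff.1 (r_memA hC hB hX e e).2
  refine ⟨|K1| + |K2| + |K3| + |K4| + |K5|, by (clear * -; positivity), ?_⟩
  filter_upwards [h1, h2, h3, h4, h5] with x b1 b2 b3 b4 b5
  have p1 := abs_nonneg K1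
  have p2 := abs_nonneg K2
  have p3 := abs_nonneg K3
  have p4 := abs_nonneg K4
  have p5 := abs_nonneg K5
  refine ⟨?_, ?_, ?_, ?_, ?_⟩
  · linarith [le_abs_self K1]
  · linarith [le_abs_self K2]
  · linarith [le_abs_self K3]
  · linarith [le_abs_self K4]
  · linarith [le_abs_self K5]

end Ok

/-- the elementary bound -/
theorem _root_.Vale.Agent.P233.AB.rhoP_real {B a b c d f ε t : ℝ} (hB0 : 0 ≤ B) (hε0 : 0 ≤ ε)
    (hε1 : ε ≤ 1) (ht0 : 0 ≤ t) (htε : t ≤ ε) (ha : |a| ≤ B) (hb : |b| ≤ B) (hc : |c| ≤ B)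
    (hd : |d| ≤ B) (hf : |f| ≤ B) :
    |-(ε * a) + ε ^ 2 / 2 * c + t * (ε * d - b) + t ^ 2 / 2 * f| ≤ ε * (4 * (B + 1)) := by
  have ht1 : t ≤ 1 := htε.trans hε1
  have h1 : |ε * a| ≤ ε * B := by
    rw [abs_mul, abs_of_nonneg hε0]; gcongr
  have h2 : |ε ^ 2 / 2 * c| ≤ ε / 2 * B := by
    rw [abs_mul, abs_of_nonneg (by positivity)]
    have : ε ^ 2 / 2 ≤ ε / 2 := by linarith only [mul_nonneg (sub_nonneg.2 hε1) (sub_nonneg.2 htε), mul_nonneg (sub_nonneg.2 hε1) (sub_nonneg.2 ht0)]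
    gcongr
  have h3 : |t * (ε * d - b)| ≤ ε * (2 * B) := by
    rw [abs_mul, abs_of_nonneg ht0]
    have h : |ε * d - b| ≤ 2 * B := by
      refine (abs_sub _ _).trans ?_
      rw [abs_mul, abs_of_nonneg hε0]
      have : ε * |d| ≤ 1 * B := by gcongr
      linarith
    gcongr
  have h4 : |t ^ 2 / 2 * f| ≤ ε / 2 * B := by
    rw [abs_mul, abs_of_nonneg (by positivity)]
    have : t ^ 2 / 2 ≤ ε / 2 := by linarith only [mul_nonneg (sub_nonneg.2 htε) (sub_nonneg.2 ht1), mul_nonneg (sub_nonneg.2 ht0) (sub_nonneg.2 ht1), mul_nonneg (sub_nonneg.2 ht0) (sub_nonneg.2 htε)]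
    gcongr
  rw [abs_le] at h1 h2 h3 h4 ⊢
  constructor
  · nlinarith [mul_nonneg hε0 hB0]
  · nlinarith [mul_nonneg hε0 hB0]

/-- positivity and upper bound of the density of a pair -/
theorem pairH_pos [SigmaFinite m] (hC : IsGamma C) {K : ℝ} (hB : C.BEi K) {θ : M →ₘ[m] ℝ}
    {η δ : ℝ} {X : Dat m} (hX : X.Ok C θ η δ) (v e : ℝ × ℝ) {K0 : ℝ}
    (hK0 : ∀ᵐ x ∂m, X.F x ≤ K0) :
    ∃ ε₀ > (0 : ℝ), ∀ ε, 0 < ε → ε ≤ ε₀ → ∀ t ∈ Set.Icc 0 ε,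
      0 ≤ X.rho C (ε • v + t • e) ∧ (∀ᵐ x ∂m, X.rho C (ε • v + t • e) x ≤ K0 + 1) := by
  obtain ⟨B, hB0, hb⟩ := boundP hC hB hX v e
  have hη := hX.hη
  refine ⟨min 1 (min (η / (4 * (B + 1))) (1 / (4 * (B + 1)))),
    lt_min one_pos (lt_min (by positivity) (by positivity)), ?_⟩
  intro ε hε0 hε t ht
  have hε1 : ε ≤ 1 := hε.trans (min_le_left _ _)
  have hε2 : ε ≤ η / (4 * (B + 1)) := hε.trans ((min_le_right _ _).trans (min_le_left _ _))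
  have hε3 : ε ≤ 1 / (4 * (B + 1)) := hε.trans ((min_le_right _ _).trans (min_le_right _ _))
  rw [le_div_iff₀ (by positivity)] at hε2 hε3
  rw [nonneg_iff_ae, ← eventually_and]
  filter_upwards [hb, locP_ae hC hB hX v e, rhoP_ae hC hB hX v e ε t, hK0] with x b1 b2 b3 b4
  obtain ⟨c1, c2, c3, c4, c5⟩ := b1
  have hr := AB.rhoP_real hB0 hε0.le hε1 ht.1 ht.2 c1 c2 c3 c4 c5
  rw [abs_le] at hr
  rw [b3]
  rcases b2 with ⟨hθ, hF⟩ | ⟨hF, z1, z2, z3, z4, z5⟩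
  · constructor
    · linarith only [hr.1, hF, hε2]
    · linarith only [hr.2, b4, hε3]
  · rw [z1, z2, z3, z4, z5]
    constructor
    · simpa using hF
    · simp only [mul_zero, sub_zero, add_zero]
      linarith only [b4]

end Dat

end Vale.Agent.P233
end

section

open MeasureTheory Filter Topology
open scoped ENNReal NNReal

namespace Vale.Agent.P233

variable {M : Type*} [MeasurableSpace M] {m : Measure M} {C : Calc m}

/-- The curve of densities of a pair: positivity, upper bound and mismatch between its flux and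
`ρ ∇φ`, where the constants `CH` and `Kρ` do not depend on `δ` and on the approximations. -/
theorem Dat.pairH [SigmaFinite m] (hC : IsGamma C) {K : ℝ} (hB : C.BEi K)
    (a b F θ g : M →ₘ[m] ℝ) (hg : g ∈ C.A) (η : ℝ) (v e : ℝ × ℝ) :
    ∃ CH ≥ 0, ∃ Kρ ≥ 0, ∀ δ, 0 < δ → δ ≤ 1 → ∀ X : Dat m, X.Ok C θ η δ → X.a = a → X.b = b →
      X.F = F → ∀ h ∈ C.TestI, C.nrm2 (h - g) ≤ (2 * δ) ^ 2 →
      ∃ ε₀ > 0, ∀ ε, 0 < ε → ε ≤ ε₀ → ∀ t ∈ Set.Icc 0 ε,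
        0 ≤ X.rho C (ε • v + t • e) ∧ (∀ᵐ x ∂m, X.rho C (ε • v + t • e) x ≤ Kρ) ∧
        ∀ w ∈ C.A, MemLp (C.Γ w w) ∞ m →
          |I (w * (X.r C (ε • v + t • e) e - X.D C e))
            - I (X.rho C (ε • v + t • e) * C.Γ (X.ph e h ε t) w)| ≤ CH * ε * √(I (C.Γ w w)) := by
  by_cases hex : ∃ (δ : ℝ) (X : Dat m), X.Ok C θ η δ ∧ X.a = a ∧ X.b = b ∧ X.F = F
  · obtain ⟨δ', X', hX', Xa', Xb', XF'⟩ := hex
    have ha : a ∈ C.TestI := by rw [← Xa']; exact hX'.ha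
    have hb : b ∈ C.TestI := by rw [← Xb']; exact hX'.hb
    have hF : F ∈ C.TestI := by rw [← XF']; exact hX'.hF
    obtain ⟨K0, hK0⟩ := mem_top_iff.1 (hC.test_A hF.1).2
    have hK1 : ∀ᵐ x ∂m, F x ≤ |K0| := by
      filter_upwards [hK0] with x hx
      exact (le_abs_self _).trans (hx.trans (le_abs_self _))
    obtain ⟨CH, hCH, H⟩ := pairH_mis hC hB a b F θ g ha hb hF hg η v e
    refine ⟨CH, hCH, |K0| + 1, by positivity, ?_⟩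
    intro δ hδ hδ1 X hX Xa Xb XF h hh hn
    obtain ⟨ε₁, hε₁, H1⟩ := H δ hδ hδ1 X hX Xa Xb XF h hh hn
    obtain ⟨ε₂, hε₂, H2⟩ := pairH_pos hC hB hX v e (K0 := |K0|) (by rw [XF]; exact hK1)
    refine ⟨min ε₁ ε₂, lt_min hε₁ hε₂, fun ε hε hle t ht => ?_⟩
    obtain ⟨p1, p2⟩ := H2 ε hε (hle.trans (min_le_right _ _)) t ht
    exact ⟨p1, p2, H1 ε hε (hle.trans (min_le_left _ _)) t ht⟩
  · refine ⟨0, le_rfl, 0, le_rfl, ?_⟩
    intro δ hδ hδ1 X hX Xa Xb XF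
    exact absurd ⟨δ, X, hX, Xa, Xb, XF⟩ hex

end Vale.Agent.P233
end

section

set_option linter.all false

open MeasureTheory Filter Topology
open scoped ENNReal NNReal

namespace Vale.Agent.P233

variable {M : Type*} [MeasurableSpace M] {m : Measure M} {C : Calc m}

section three

variable (hC : IsGamma C) {K : ℝ} (hB : C.BEi K) {θ : M →ₘ[m] ℝ} {η δ : ℝ} {X : Dat m}
  (hX : X.Ok C θ η δ)

include hC hB hX

/-- `RR` in terms of `xx`, `yy` -/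
theorem Dat.RRx (v w : ℝ × ℝ) (g : M →ₘ[m] ℝ) :
    X.RR C v w g = -(2⁻¹ * (C.xx X.F (X.pt v) (X.pt w) g + C.xx X.F (X.pt w) (X.pt v) g
      + C.yy X.F (C.Γ (X.pt v) (X.pt w)) g)) := by
  unfold Dat.RR Calc.xx Calc.yy
  rw [Dat.D_eq hC hB hX, Dat.D_eq hC hB hX]

theorem Dat.xx_ptl (v w u : ℝ × ℝ) (s : ℝ) {g : M →ₘ[m] ℝ} (hg : g ∈ C.W) :
    C.xx X.F (X.pt (v + s • w)) (X.pt u) g
      = C.xx X.F (X.pt v) (X.pt u) g + s * C.xx X.F (X.pt w) (X.pt u) g := by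
  have hF := hC.test_A hX.hF.1
  unfold Dat.pt
  simp only [hC.xx_lin hB hF hX.ha.1 hX.hb.1 hg]
  simp
  ring

theorem Dat.xx_ptr (v w u : ℝ × ℝ) (s : ℝ) {g : M →ₘ[m] ℝ} (hg : g ∈ C.W) :
    C.xx X.F (X.pt u) (X.pt (v + s • w)) g
      = C.xx X.F (X.pt u) (X.pt v) g + s * C.xx X.F (X.pt u) (X.pt w) g := by
  have hF := hC.test_A hX.hF.1
  unfold Dat.pt
  simp only [hC.xx_lin hB hF hX.ha.1 hX.hb.1 hg]
  simp
  ring

theorem Dat.P3x (v e : ℝ × ℝ) {g : M →ₘ[m] ℝ} (hg : g ∈ C.W) :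
    X.P3 C v e g = C.k3x X.F (X.pt v) (X.pt e) g := by
  have hF := hC.test_A hX.hF.1
  have hv := (Dat.pt_memI hC hB hX v).1
  have he := (Dat.pt_memI hC hB hX e).1
  have hG := hC.G0_mem hB he
  have vW := (hC.test_A hv).1
  have eW := (hC.test_A he).1
  have gvv := (hC.Γ_mem hB hv hv).1
  have gve := (hC.Γ_mem hB hv he).1
  have gev := (hC.Γ_mem hB he hv).1
  have gee := (hC.Γ_mem hB he he).1
  have e1 : ∀ s : ℝ, g - (s / 2) • X.Ge C e = g + (-s) • C.G0 (X.pt e) := by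
    intro s; unfold Dat.Ge Calc.G0; algebra
  have e2 : X.Ge C e = (2 : ℝ) • C.G0 (X.pt e) := by
    unfold Dat.Ge Calc.G0; algebra
  have hxr : ∀ (u w : ℝ × ℝ) (s : ℝ), C.xx X.F (X.pt u) (X.pt w) (g + (-s) • C.G0 (X.pt e))
      = C.xx X.F (X.pt u) (X.pt w) g - s * C.xx X.F (X.pt u) (X.pt w) (C.G0 (X.pt e)) := by
    intro u w s
    rw [hC.xx_add hF (Dat.pt_memI hC hB hX u).1 (Dat.pt_memI hC hB hX w).1 hg
      (hC.smul_mem _ _ hG), hC.xx_smul _ (Dat.pt_memI hC hB hX w).1 hG]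
    ring
  have hyr : ∀ (f : M →ₘ[m] ℝ) (s : ℝ), f ∈ C.W → C.yy X.F f (g + (-s) • C.G0 (X.pt e))
      = C.yy X.F f g - s * C.yy X.F f (C.G0 (X.pt e)) := by
    intro f s hf
    rw [hC.yy_add hF hf hg (hC.smul_mem _ _ hG), hC.yy_smul _ hf hG]
    ring
  have hpt : ∀ s : ℝ, X.pt (v + s • e) = X.pt v + s • X.pt e := by
    intro s
    unfold Dat.pt; simp only [Prod.fst_add, Prod.snd_add, Prod.smul_fst, Prod.smul_snd, smul_eq_mul]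
    algebra
  have hΓ1 : ∀ s : ℝ, C.Γ (X.pt (v + s • e)) (X.pt e)
      = C.Γ (X.pt v) (X.pt e) + (2 * s) • C.G0 (X.pt e) := by
    intro s
    rw [hpt, hC.add_left _ vW _ (hC.smul_mem _ _ eW) _ eW, hC.smul_left _ _ eW _ eW]
    unfold Calc.G0
    algebra
  have hΓ2 : ∀ s : ℝ, C.Γ (X.pt (v + s • e)) (X.pt (v + s • e))
      = C.Γ (X.pt v) (X.pt v) + (2 * s) • C.Γ (X.pt v) (X.pt e) + (2 * s ^ 2) • C.G0 (X.pt e) := by
    intro s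
    have k1 := hC.smul_mem s _ eW
    rw [hpt, hC.add_left _ vW _ k1 _ (hC.add_mem _ vW _ k1),
      hC.toIsDir.Γ_add_right vW vW k1, hC.toIsDir.Γ_add_right k1 vW k1, hC.smul_left _ _ eW _ vW,
      hC.smul_left _ _ eW _ k1, hC.toIsDir.Γ_smul_right _ vW eW, hC.toIsDir.Γ_smul_right _ eW eW,
      hC.symm _ eW _ vW]
    unfold Calc.G0
    algebra
  have hyl : ∀ (f f' h : M →ₘ[m] ℝ) (s : ℝ), f ∈ C.W → f' ∈ C.W → h ∈ C.W →
      C.yy X.F (f + s • f') h = C.yy X.F f h + s * C.yy X.F f' h := by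
    intro f f' h s hf hf' hh
    rw [hC.yy_comm (hC.add_mem _ hf _ (hC.smul_mem _ _ hf')) hh, hC.yy_add hF hh hf
      (hC.smul_mem _ _ hf'), hC.yy_smul _ hh hf', hC.yy_comm hh hf, hC.yy_comm hh hf']
  have hgs : ∀ s : ℝ, g + (-s) • C.G0 (X.pt e) ∈ C.W := fun s =>
    hC.add_mem _ hg _ (hC.smul_mem _ _ hG)
  -- the integrand
  have hO : ∀ s : ℝ, X.O2 C v e g s =
      (-C.HW (X.pt e) (X.pt v) g X.F - 2⁻¹ * C.yy X.F g g
        + 2⁻¹ * C.xx X.F (X.pt v) (X.pt v) (C.G0 (X.pt e))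
        + 4⁻¹ * C.yy X.F (C.Γ (X.pt v) (X.pt v)) (C.G0 (X.pt e)))
      + (C.xx X.F (X.pt e) (X.pt v) (C.G0 (X.pt e))
        + C.yy X.F (C.Γ (X.pt v) (X.pt e)) (C.G0 (X.pt e))) * s
      + (2⁻¹ * C.xx X.F (X.pt e) (X.pt e) (C.G0 (X.pt e))
        + C.yy X.F (C.G0 (X.pt e)) (C.G0 (X.pt e))) * s ^ 2 := by
    intro s
    have t1 : I (X.D C (v + s • e) * C.Γ (X.pt e) (g + (-s) • C.G0 (X.pt e)))
        = C.xx X.F (X.pt (v + s • e)) (X.pt e) (g + (-s) • C.G0 (X.pt e)) := by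
      rw [Dat.D_eq hC hB hX]; rfl
    have t2 : I (X.F * C.Γ (g + (-s) • C.G0 (X.pt e)) (g + (-s) • C.G0 (X.pt e)))
        = C.yy X.F (g + (-s) • C.G0 (X.pt e)) (g + (-s) • C.G0 (X.pt e)) := rfl
    unfold Dat.O2
    rw [e1, e2, t1, t2, Dat.RRx hC hB hX, Dat.RRx hC hB hX, hΓ1, hΓ2,
      hC.HW_eq hB hv he hg]
    rw [hC.xx_smul _ (Dat.pt_memI hC hB hX _).1 hG, hC.yy_smul _ (hC.add_mem _ (hC.add_mem _ gvv _
      (hC.smul_mem _ _ gve)) _ (hC.smul_mem _ _ hG)) hG]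
    rw [hyl _ _ _ _ (hC.add_mem _ gvv _ (hC.smul_mem _ _ gve)) hG hG, hyl _ _ _ _ gvv gve hG,
      hyl _ _ _ _ gve hG (hgs s), hyl _ _ _ _ hg hG (hgs s)]
    simp only [hxr, hyr _ _ gve, hyr _ _ hG, hyr _ _ hg, Dat.xx_ptl hC hB hX _ _ _ _ hg,
      Dat.xx_ptl hC hB hX _ _ _ _ hG, Dat.xx_ptr hC hB hX _ _ _ _ hg,
      Dat.xx_ptr hC hB hX _ _ _ _ hG]
    rw [hC.yy_comm hG hg, hC.symm _ eW _ vW]
    ring
  have key : X.P3 C v e g =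
      (-C.HW (X.pt e) (X.pt v) g X.F - 2⁻¹ * C.yy X.F g g
        + 2⁻¹ * C.xx X.F (X.pt v) (X.pt v) (C.G0 (X.pt e))
        + 4⁻¹ * C.yy X.F (C.Γ (X.pt v) (X.pt v)) (C.G0 (X.pt e)))
      + (C.xx X.F (X.pt e) (X.pt v) (C.G0 (X.pt e))
        + C.yy X.F (C.Γ (X.pt v) (X.pt e)) (C.G0 (X.pt e))) * 2⁻¹
      + (2⁻¹ * C.xx X.F (X.pt e) (X.pt e) (C.G0 (X.pt e))
        + C.yy X.F (C.G0 (X.pt e)) (C.G0 (X.pt e))) * 3⁻¹ := by
    unfold Dat.P3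
    rw [intervalIntegral.integral_congr (g := fun s : ℝ =>
      (-C.HW (X.pt e) (X.pt v) g X.F - 2⁻¹ * C.yy X.F g g
        + 2⁻¹ * C.xx X.F (X.pt v) (X.pt v) (C.G0 (X.pt e))
        + 4⁻¹ * C.yy X.F (C.Γ (X.pt v) (X.pt v)) (C.G0 (X.pt e)))
      + (C.xx X.F (X.pt e) (X.pt v) (C.G0 (X.pt e))
        + C.yy X.F (C.Γ (X.pt v) (X.pt e)) (C.G0 (X.pt e))) * s
      + (2⁻¹ * C.xx X.F (X.pt e) (X.pt e) (C.G0 (X.pt e))
        + C.yy X.F (C.G0 (X.pt e)) (C.G0 (X.pt e))) * s ^ 2) (fun s _ => hO s)]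
    have := poly_int (-C.HW (X.pt e) (X.pt v) g X.F - 2⁻¹ * C.yy X.F g g
        + 2⁻¹ * C.xx X.F (X.pt v) (X.pt v) (C.G0 (X.pt e))
        + 4⁻¹ * C.yy X.F (C.Γ (X.pt v) (X.pt v)) (C.G0 (X.pt e)))
      (C.xx X.F (X.pt e) (X.pt v) (C.G0 (X.pt e))
        + C.yy X.F (C.Γ (X.pt v) (X.pt e)) (C.G0 (X.pt e)))
      (2⁻¹ * C.xx X.F (X.pt e) (X.pt e) (C.G0 (X.pt e))
        + C.yy X.F (C.G0 (X.pt e)) (C.G0 (X.pt e))) 0 0 1
    simp only [zero_mul, add_zero, one_pow, mul_one, zero_div] at this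
    rw [this]
    ring
  rw [key]
  unfold Calc.k3x Calc.xx Calc.yy
  ring

/-- `P3` as the ideal value of `k3` -/
theorem Dat.P3_ideal (v e : ℝ × ℝ) {g : M →ₘ[m] ℝ} (hg : g ∈ C.W) :
    X.P3 C v e g =
    (X.RR C v e g - 2⁻¹ * I (X.F * C.Γ g g) + I (X.D C v * C.Γ (X.pt e) g)
        - 4⁻¹ * X.RR C v v (X.Ge C e))
    + 2⁻¹ * (X.RR C e e g - X.RR C v e (C.G0 (X.pt e)) + I (X.F * C.Γ g (C.G0 (X.pt e)))
        + I (X.D C e * C.Γ (X.pt e) g) - I (X.D C v * C.Γ (X.pt e) (C.G0 (X.pt e)))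
        - 2⁻¹ * X.RR C v e (X.Ge C e))
    + 3⁻¹ * (-X.RR C e e (C.G0 (X.pt e)) - 2⁻¹ * I (X.F * C.Γ (C.G0 (X.pt e)) (C.G0 (X.pt e)))
        - I (X.D C e * C.Γ (X.pt e) (C.G0 (X.pt e))) - 4⁻¹ * X.RR C e e (X.Ge C e)) := by
  have hF := hC.test_A hX.hF.1
  have hv := (Dat.pt_memI hC hB hX v).1
  have he := (Dat.pt_memI hC hB hX e).1
  have hG := hC.G0_mem hB he
  have vW := (hC.test_A hv).1
  have eW := (hC.test_A he).1
  have gvv := (hC.Γ_mem hB hv hv).1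
  have gve := (hC.Γ_mem hB hv he).1
  have e2 : X.Ge C e = (2 : ℝ) • C.G0 (X.pt e) := by
    unfold Dat.Ge Calc.G0; algebra
  have e3 : C.Γ (X.pt e) (X.pt e) = (2 : ℝ) • C.G0 (X.pt e) := e2
  have t1 : ∀ (x : ℝ × ℝ) (w : M →ₘ[m] ℝ), I (X.D C x * C.Γ (X.pt e) w)
      = C.xx X.F (X.pt x) (X.pt e) w := by
    intro x w
    rw [Dat.D_eq hC hB hX]; rfl
  have t2 : ∀ (u w : M →ₘ[m] ℝ), I (X.F * C.Γ u w) = C.yy X.F u w := fun u w => rfl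
  have t3 : ∀ w ∈ C.W, C.yy X.F ((2:ℝ) • C.G0 (X.pt e)) w = 2 * C.yy X.F (C.G0 (X.pt e)) w := by
    intro w hw
    rw [hC.yy_comm (hC.smul_mem _ _ hG) hw, hC.yy_smul _ hw hG, hC.yy_comm hw hG]
  rw [Dat.P3x hC hB hX v e hg]
  have hk : C.k3x X.F (X.pt v) (X.pt e) g =
      -(2⁻¹ * (-C.xx X.F (X.pt v) (X.pt e) g + C.yy X.F (C.Γ (X.pt v) (X.pt e)) g
        + C.xx X.F (X.pt e) (X.pt v) g))
      - 2⁻¹ * C.yy X.F g g
      + 2⁻¹ * C.xx X.F (X.pt v) (X.pt v) (C.G0 (X.pt e))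
      + 4⁻¹ * C.yy X.F (C.Γ (X.pt v) (X.pt v)) (C.G0 (X.pt e))
      + 2⁻¹ * C.xx X.F (X.pt e) (X.pt v) (C.G0 (X.pt e))
      + 2⁻¹ * C.yy X.F (C.Γ (X.pt v) (X.pt e)) (C.G0 (X.pt e))
      + 6⁻¹ * C.xx X.F (X.pt e) (X.pt e) (C.G0 (X.pt e))
      + 3⁻¹ * C.yy X.F (C.G0 (X.pt e)) (C.G0 (X.pt e)) := by
    have h1 := hC.HW_eq (F := X.F) hB hv he hg
    rw [hC.symm _ eW _ vW] at h1
    rw [← h1]; rfl
  rw [hk]
  simp only [Dat.RRx hC hB hX, t1, t2, e2]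
  rw [e3, t3 _ hg, t3 _ hG, t3 _ (hC.smul_mem _ _ hG)]
  simp only [hC.xx_smul _ hv hG, hC.xx_smul _ he hG, hC.yy_smul _ gvv hG, hC.yy_smul _ gve hG,
    hC.yy_smul _ hG hG]
  rw [hC.yy_comm hG hg]
  ring

end three

theorem N_sub_self (w : M →ₘ[m] ℝ) (hC : IsGamma C) : C.N (w - w) = 0 := by
  have h0 : (0 : M →ₘ[m] ℝ) ∈ C.W := hC.zero_mem
  have := hC.N_smul 0 h0
  rw [sub_self]
  simpa using this

theorem fin_real {A P k K δ ε c4 c5 : ℝ} (hk : |k - P| ≤ K * δ) (hε : 0 < ε) (hε1 : ε ≤ 1) :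
    A + ε ^ 3 * P - K * δ * ε ^ 3 - (|c4| + |c5|) * ε ^ 4 ≤ A + k * ε ^ 3 + c4 * ε ^ 4
      + c5 * ε ^ 5 := by
  have h3 : 0 < ε ^ 3 := by positivity
  have h4 : 0 < ε ^ 4 := by positivity
  have hk' := (abs_le.1 hk).1
  have q1 := mul_le_mul_of_nonneg_right hk' h3.le
  have q2 : -(|c4| * ε ^ 4) ≤ c4 * ε ^ 4 := by
    have := mul_le_mul_of_nonneg_right (neg_abs_le c4) h4.le
    linarith
  have q3 : -(|c5| * ε ^ 4) ≤ c5 * ε ^ 5 := by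
    have h5 : ε ^ 5 = ε ^ 4 * ε := by ring
    have h6 := abs_nonneg c5
    have h7 : |c5| * ε ^ 5 ≤ |c5| * ε ^ 4 := by
      refine mul_le_mul_of_nonneg_left ?_ h6
      rw [h5]; (by_contra nlg; linarith only [nlg, mul_nonneg (sub_nonneg.2 hε1) (le_of_lt (sub_pos.2 h4)), mul_nonneg (le_of_lt (sub_pos.2 (not_le.1 nlg))) (sub_nonneg.2 hε1), mul_pos (sub_pos.2 (not_le.1 nlg)) (sub_pos.2 hε)])
    have h8 := mul_le_mul_of_nonneg_right (neg_abs_le c5) (by positivity : (0:ℝ) ≤ ε ^ 5)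
    linarith
  have e1 : (k - P) * ε ^ 3 = k * ε ^ 3 - ε ^ 3 * P := by ring
  have e2 : (-(K * δ)) * ε ^ 3 = -(K * δ * ε ^ 3) := by ring
  rw [e1, e2] at q1
  linarith

/-- expansion of the action of a pair, with a constant `K₁` that does not depend on `δ` and on the
approximations -/
theorem Dat.pairX [SigmaFinite m] (hC : IsGamma C) {K : ℝ} (hB : C.BEi K)
    (a b F θ g : M →ₘ[m] ℝ) (hg : g ∈ C.A) (η : ℝ) (v e : ℝ × ℝ) :
    ∃ K₁ ≥ 0, ∀ δ, 0 < δ → δ ≤ 1 → ∀ X : Dat m, X.Ok C θ η δ → X.a = a → X.b = b →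
      X.F = F → ∀ h ∈ C.TestI, C.nrm2 (h - g) ≤ (2 * δ) ^ 2 →
      ∃ C₀ ≥ 0, ∀ ε, 0 < ε → ε ≤ 1 →
        ε / 2 * X.E2 C e e + ε ^ 2 / 2 * (X.X3 C e ((2 : ℝ) • v + e) e
          + X.W3 C ((2 : ℝ) • v + e) e e) + ε ^ 3 * X.P3 C v e g - K₁ * δ * ε ^ 3 - C₀ * ε ^ 4
          ≤ X.actP C v e h ε := by
  by_cases hex : a ∈ C.TestI ∧ b ∈ C.TestI ∧ F ∈ C.TestI
  swap
  · refine ⟨0, le_refl _, fun δ _ _ X hX Xa Xb XF => ?_⟩
    exact absurd ⟨Xa ▸ hX.ha, Xb ▸ hX.hb, XF ▸ hX.hF⟩ hex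
  obtain ⟨ha, hb, hF⟩ := hex
  have FA := hC.test_A hF.1
  have pe : e.1 • a + e.2 • b ∈ C.Test := hC.lin_test hB ha.1 hb.1 _ _
  have hG0 := hC.G0_mem hB pe
  have hGe := (hC.Γ_mem hB pe pe).1
  set G0 := C.G0 (e.1 • a + e.2 • b) with hG0d
  set Ge := C.Γ (e.1 • a + e.2 • b) (e.1 • a + e.2 • b) with hGed
  set c : ℝ := 2 + 4 * (|e.1 * e.1| + |e.1 * e.2 + e.2 * e.1| + |e.2 * e.2|) with hcd
  have hc : 0 ≤ c := by rw [hcd]; (clear * -; positivity)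
  obtain ⟨R1, zR1, hR1⟩ := TR (θ := θ) (η := η) hC hB ha hb hF v e hg.1 hc
  obtain ⟨R2, zR2, hR2⟩ := TR (θ := θ) (η := η) hC hB ha hb hF v v hGe hc
  obtain ⟨R3, zR3, hR3⟩ := TR (θ := θ) (η := η) hC hB ha hb hF e e hg.1 hc
  obtain ⟨R4, zR4, hR4⟩ := TR (θ := θ) (η := η) hC hB ha hb hF v e hG0 hc
  obtain ⟨R5, zR5, hR5⟩ := TR (θ := θ) (η := η) hC hB ha hb hF v e hGe hc
  obtain ⟨R6, zR6, hR6⟩ := TR (θ := θ) (η := η) hC hB ha hb hF e e hG0 hc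
  obtain ⟨R7, zR7, hR7⟩ := TR (θ := θ) (η := η) hC hB ha hb hF e e hGe hc
  obtain ⟨T1, zT1, hT1⟩ := TD (θ := θ) (η := η) hC hB ha hb hF v e hg.1 hc
  obtain ⟨T2, zT2, hT2⟩ := TD (θ := θ) (η := η) hC hB ha hb hF e e hg.1 hc
  obtain ⟨T3, zT3, hT3⟩ := TD (θ := θ) (η := η) hC hB ha hb hF v e hG0 hc
  obtain ⟨T4, zT4, hT4⟩ := TD (θ := θ) (η := η) hC hB ha hb hF e e hG0 hc
  obtain ⟨F1, zF1, hF1⟩ := hC.pert2 FA.2 hg.1 hg.1 hc
  obtain ⟨F2, zF2, hF2⟩ := hC.pert2 FA.2 hg.1 hG0 hc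
  obtain ⟨F3, zF3, hF3⟩ := hC.pert2 FA.2 hG0 hG0 hc
  refine ⟨R1 + R2 + R3 + R4 + R5 + R6 + R7 + T1 + T2 + T3 + T4 + F1 + F2 + F3, by (clear * - zR1 zR2 zR3 zR4 zR5 zR6 zR7 zT1 zT2 zT3 zT4 zF1 zF2 zF3; positivity), ?_⟩
  intro δ hδ hδ1 X hX Xa Xb XF h hh hhg
  obtain ⟨c4, c5, hact⟩ := actP_poly hC hB hX v e hh
  refine ⟨|c4| + |c5|, by (clear * -; positivity), fun ε hε hε1 => ?_⟩
  rw [hact ε]
  have hpe : X.pt e = e.1 • a + e.2 • b := by unfold Dat.pt; rw [Xa, Xb]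
  have hGe' : X.Ge C e = Ge := by unfold Dat.Ge; rw [hpe]
  have hG0' : C.G0 (X.pt e) = G0 := by rw [hpe]
  have hhW := (hC.test_A hh.1).1
  have Gm := (hC.test_A (G'_memI hC hB hX e e).1).1
  have Gm2 := hC.smul_mem (2:ℝ)⁻¹ _ Gm
  have n0 : ∀ w : M →ₘ[m] ℝ, C.N (w - w) ≤ c * δ := fun w => by
    rw [N_sub_self w hC]; (clear * - hδ; positivity)
  have nh : C.N (h - g) ≤ c * δ := by
    refine (IsGamma.N_le (by positivity) hhg).trans (mul_le_mul_of_nonneg_right ?_ hδ.le)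
    rw [hcd]
    have : 0 ≤ 4 * (|e.1 * e.1| + |e.1 * e.2 + e.2 * e.1| + |e.2 * e.2|) := by (clear * -; positivity)
    linarith
  have nG : C.N ((2:ℝ)⁻¹ • X.G' e e - G0) ≤ c * δ := by
    have e1 : (2:ℝ)⁻¹ • X.G' e e - G0 = (2:ℝ)⁻¹ • (X.G' e e - C.Γ (X.pt e) (X.pt e)) := by
      rw [hG0d, hpe, smul_sub]; rfl
    have e2 := G'_close hC hB hX hδ e e
    rw [e1, hC.N_smul _ (hC.toIsDir.sub_mem Gm (hC.Γ_mem hB (pt_memI hC hB hX e).1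
      (pt_memI hC hB hX e).1).1)]
    rw [abs_of_pos (by norm_num : (0:ℝ) < 2⁻¹)]
    have e3 : 0 ≤ 4 * (|e.1 * e.1| + |e.1 * e.2 + e.2 * e.1| + |e.2 * e.2|) * δ := by (clear * - hδ; positivity)
    rw [hcd]
    linarith only [e3, e2, hδ]
  have a1 := hR1 δ hδ hδ1 X hX Xa Xb XF h hhW nh
  have a2 := hR2 δ hδ hδ1 X hX Xa Xb XF Ge hGe (n0 _)
  have a3 := hR3 δ hδ hδ1 X hX Xa Xb XF h hhW nh
  have a4 := hR4 δ hδ hδ1 X hX Xa Xb XF _ Gm2 nG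
  have a5 := hR5 δ hδ hδ1 X hX Xa Xb XF Ge hGe (n0 _)
  have a6 := hR6 δ hδ hδ1 X hX Xa Xb XF _ Gm2 nG
  have a7 := hR7 δ hδ hδ1 X hX Xa Xb XF Ge hGe (n0 _)
  have b1 := hT1 δ hδ hδ1 X hX Xa Xb XF h hhW nh
  have b2 := hT2 δ hδ hδ1 X hX Xa Xb XF h hhW nh
  have b3 := hT3 δ hδ hδ1 X hX Xa Xb XF _ Gm2 nG
  have b4 := hT4 δ hδ hδ1 X hX Xa Xb XF _ Gm2 nG
  have f1 := hF1 δ hδ hδ1 h hhW h hhW nh nh
  have f2 := hF2 δ hδ hδ1 h hhW _ Gm2 nh nG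
  have f3 := hF3 δ hδ hδ1 _ Gm2 _ Gm2 nG nG
  rw [← XF] at f1 f2 f3
  have hP := P3_ideal hC hB hX v e hg.1
  rw [hG0', hGe'] at hP
  have hk : |C.k3 X.F (X.pt e) h ((2:ℝ)⁻¹ • X.G' e e) (X.D C v) (X.D C e) (X.r C v v) (X.r C v e)
      (X.r C e e) - X.P3 C v e g|
      ≤ (R1 + R2 + R3 + R4 + R5 + R6 + R7 + T1 + T2 + T3 + T4 + F1 + F2 + F3) * δ := by
    unfold Calc.k3
    have s1 : C.Γ (X.pt e) (X.pt e) = Ge := hGe'
    rw [s1, mul_comm (X.r C v v) Ge, mul_comm (X.r C v e) Ge, mul_comm (X.r C e e) Ge, hP]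
    have := mul_nonneg zR1 hδ.le
    have := mul_nonneg zR2 hδ.le
    have := mul_nonneg zR3 hδ.le
    have := mul_nonneg zR4 hδ.le
    have := mul_nonneg zR5 hδ.le
    have := mul_nonneg zR6 hδ.le
    have := mul_nonneg zR7 hδ.le
    have := mul_nonneg zT1 hδ.le
    have := mul_nonneg zT2 hδ.le
    have := mul_nonneg zT3 hδ.le
    have := mul_nonneg zT4 hδ.le
    have := mul_nonneg zF1 hδ.le
    have := mul_nonneg zF2 hδ.le
    have := mul_nonneg zF3 hδ.le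
    rw [abs_le] at a1 a2 a3 a4 a5 a6 a7 b1 b2 b3 b4 f1 f2 f3 ⊢
    obtain ⟨a1, a1'⟩ := a1
    obtain ⟨a2, a2'⟩ := a2
    obtain ⟨a3, a3'⟩ := a3
    obtain ⟨a4, a4'⟩ := a4
    obtain ⟨a5, a5'⟩ := a5
    obtain ⟨a6, a6'⟩ := a6
    obtain ⟨a7, a7'⟩ := a7
    obtain ⟨b1, b1'⟩ := b1
    obtain ⟨b2, b2'⟩ := b2
    obtain ⟨b3, b3'⟩ := b3
    obtain ⟨b4, b4'⟩ := b4
    obtain ⟨f1, f1'⟩ := f1
    obtain ⟨f2, f2'⟩ := f2
    obtain ⟨f3, f3'⟩ := f3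
    constructor
    · linarith only [f3', f3, f2', f2, f1', f1, b4', b4, b3', b3, b2', b2, b1, a7', a7, a6', a6, a5', a5, a4', a4, a3', a3, a2', a2, a1]
    · linarith
  exact fin_real hk hε hε1

end Vale.Agent.P233
end
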