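import Vale.Agent.P233.MathlibUsed2
import Vale.Agent.P233.Bd3.B1
import Vale.Agent.P233.Bd3.B5
import Vale.Agent.P233.Bd3.B4

set_option linter.all false

section

open MeasureTheory Filter Topology
open scoped ENNReal NNReal InnerProductSpace

namespace Vale.Agent.P233

/-- representation of a functional that is bounded by the norm of a linear map -/
theorem riesz_gen {E R : Type*} [NormedAddCommGroup E] [InnerProductSpace ℝ E] [CompleteSpace E]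
    [AddCommGroup R] [Module ℝ R] (T : R →ₗ[ℝ] E) (L : R →ₗ[ℝ] ℝ) (K A : ℝ) (hA : 0 ≤ A)
    (h : ∀ r, 0 ≤ K + 2 * L r + A * ‖T r‖ ^ 2) :
    ∃ σ ∈ (LinearMap.range T).topologicalClosure, ∀ r, L r = ⟪σ, T r⟫_ℝ := by
  have hK : 0 ≤ K := by simpa using h 0
  have hsq : ∀ r, L r ^ 2 ≤ K * A * ‖T r‖ ^ 2 := by
    intro r
    have h1 : ∀ t : ℝ, 0 ≤ (A * ‖T r‖ ^ 2) * (t * t) + (2 * L r) * t + K := by
      intro t
      have h2 := h (t • r)
      rw [map_smul, map_smul, norm_smul, Real.norm_eq_abs, mul_pow, sq_abs, smul_eq_mul] at h2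
      linarith
    have := discrim_le_zero h1
    unfold discrim at this
    linarith only [this]
  have habs : ∀ r, |L r| ≤ Real.sqrt (K * A) * ‖T r‖ := by
    intro r
    refine abs_le_of_sq_le_sq ?_ (by positivity)
    rw [mul_pow, Real.sq_sqrt (by positivity)]
    exact hsq r
  have hker : LinearMap.ker T ≤ LinearMap.ker L := by
    intro r hr
    rw [LinearMap.mem_ker] at hr ⊢
    have := habs r
    rw [hr, norm_zero, mul_zero] at this
    exact abs_eq_zero.1 (le_antisymm this (abs_nonneg _))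
  let f0 : LinearMap.range T →ₗ[ℝ] ℝ :=
    ((LinearMap.ker T).liftQ L hker).comp T.quotKerEquivRange.symm.toLinearMap
  have hf0 : ∀ r, f0 ⟨T r, LinearMap.mem_range_self T r⟩ = L r := by
    intro r
    change (LinearMap.ker T).liftQ L hker (T.quotKerEquivRange.symm _) = L r
    rw [LinearMap.quotKerEquivRange_symm_apply_image]
    simp
  let f : LinearMap.range T →L[ℝ] ℝ := f0.mkContinuous (Real.sqrt (K * A)) (by
    rintro ⟨_, r, rfl⟩
    rw [Real.norm_eq_abs]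
    have := habs r
    rw [← hf0 r] at this
    exact this)
  obtain ⟨g, hg, -⟩ := exists_extension_norm_eq (LinearMap.range T) f
  set P := (LinearMap.range T).topologicalClosure with hP
  have : CompleteSpace P := (Submodule.isClosed_topologicalClosure _).completeSpace_coe
  set σ₀ := (InnerProductSpace.toDual ℝ E).symm g with hσ₀
  refine ⟨P.starProjection σ₀, Submodule.starProjection_apply_mem P σ₀, fun r => ?_⟩
  have hT : T r ∈ P := Submodule.le_topologicalClosure _ (LinearMap.mem_range_self T r)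
  have h1 : ⟪σ₀, T r⟫_ℝ = L r := by
    rw [hσ₀, InnerProductSpace.toDual_symm_apply]
    have := hg ⟨T r, LinearMap.mem_range_self T r⟩
    exact this.trans (hf0 r)
  have h2 := Submodule.starProjection_inner_eq_zero σ₀ (T r) hT
  rw [inner_sub_left, h1] at h2
  linarith

variable {M : Type*} [MeasurableSpace M] {m : Measure M} {C : Calc m}

theorem fsum_ae {ι : Type*} (s : Finset ι) (f : ι → M →ₘ[m] ℝ) :
    ∀ᵐ x ∂m, (∑ i ∈ s, f i : M →ₘ[m] ℝ) x = ∑ i ∈ s, f i x := by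
  classical
  induction s using Finset.induction_on with
  | empty =>
    filter_upwards [zero_ae (M := M) (m := m)] with x h
    simpa using h
  | insert i s hi ih =>
    filter_upwards [ih, add_ae (f i) (∑ i ∈ s, f i)] with x h1 h2
    rw [Finset.sum_insert hi, Finset.sum_insert hi, h2, h1]

theorem I_fsum {ι : Type*} (s : Finset ι) {f : ι → M →ₘ[m] ℝ} (hf : ∀ i ∈ s, MemLp (f i) 1 m) :
    I (∑ i ∈ s, f i) = ∑ i ∈ s, I (f i) ∧ MemLp (∑ i ∈ s, f i : M →ₘ[m] ℝ) 1 m := by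
  classical
  induction s using Finset.induction_on with
  | empty => simpa using ⟨I_zero, mem_zero⟩
  | insert i s hi ih =>
    obtain ⟨h1, h2⟩ := ih fun j hj => hf j (Finset.mem_insert_of_mem hj)
    have h3 := hf i (Finset.mem_insert_self i s)
    rw [Finset.sum_insert hi, Finset.sum_insert hi, I_add h3 h2, h1]
    exact ⟨rfl, mem_add h3 h2⟩

variable {E : Type*} [NormedAddCommGroup E] [InnerProductSpace ℝ E] {Gr : (M →ₘ[m] ℝ) → M → E}

omit [InnerProductSpace ℝ E] in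
theorem lpsum_ae {ι : Type*} (s : Finset ι) (f : ι → Lp E 2 m) :
    ∀ᵐ x ∂m, (∑ i ∈ s, f i : Lp E 2 m) x = ∑ i ∈ s, f i x := by
  classical
  induction s using Finset.induction_on with
  | empty =>
    filter_upwards [Lp.coeFn_zero E 2 m] with x h
    simpa using h
  | insert i s hi ih =>
    filter_upwards [ih, Lp.coeFn_add (f i) (∑ i ∈ s, f i)] with x h1 h2
    rw [Finset.sum_insert hi, Finset.sum_insert hi, h2, Pi.add_apply, h1]

namespace IsGrad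

variable (hG : IsGrad C Gr)
include hG

/-- `s ∇F` is in `L²` for bounded `s` -/
theorem smul_mem2 {s F : M →ₘ[m] ℝ} (hs : MemLp s ∞ m) (hF : F ∈ C.W) :
    MemLp (fun x => s x • Gr F x) 2 m := by
  have := (hG.mem F hF).smul (p := ∞) (r := 2) hs
  exact this

end IsGrad

namespace IsGamma

variable (hC : IsGamma C) {κ : ℝ} (hB : C.BEi κ) (hG : IsGrad C Gr)
variable {f g h φ ψ b k a c : M →ₘ[m] ℝ}

include hC hB

/-- an `L²` function orthogonal to all test functions vanishes -/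
theorem eq_zero_of_test2 [SigmaFinite m] {G : M →ₘ[m] ℝ} (hG2 : MemLp G 2 m)
    (h : ∀ s ∈ C.Test, I (s * G) = 0) : G = 0 := by
  obtain ⟨χ, Λ, hT, -, -, hconv, -⟩ := hC.exists_cut hB
  have h1 : ∀ k, χ k * G = 0 := fun k => by
    refine hC.eq_zero_of_forall_test hB (mem_mul_22 (hC.memLp _ (hC.tW (hT k))) hG2) fun s hs => ?_
    rw [← mul_assoc]
    exact h _ (hC.test_mul hB hs (hT k))
  have h2 : ∀ᵐ x ∂m, ∀ k, (χ k * G) x = χ k x * G x := ae_all_iff.2 fun k => mul_ae _ _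
  rw [eq_iff_ae]
  filter_upwards [hconv, h2, zero_ae (M := M) (m := m)] with x a1 a2 a3
  rw [a3]
  have a4 : ∀ k, χ k x * G x = 0 := fun k => by rw [← a2 k, h1 k, a3]
  have a5 := a1.mul_const (G x)
  simp only [a4, one_mul] at a5
  exact (tendsto_nhds_unique a5 tendsto_const_nhds)

include hG

/-- the vector fields `∇_{∇a} ∇b` -/
theorem exists_U [SigmaFinite m] [CompleteSpace E] (hb : b ∈ C.Test) (ha : a ∈ C.Test) :
    ∃ u : M → E, MemLp u 2 m ∧ (∀ c ∈ C.Test, ∀ᵐ x ∂m, ⟪u x, Gr c x⟫_ℝ = C.hess b a c x) ∧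
      ∀ ε > 0, ∃ Z, C.IsTestV Z ∧ eLpNorm (fun x => u x - fvec Gr Z x) 2 m < ε := by
  classical
  obtain ⟨L0, hL0⟩ := mem_top_iff.1 (hC.test_Γ_top ha)
  let P := {p : (M →ₘ[m] ℝ) × (M →ₘ[m] ℝ) // p.1 ∈ C.Test ∧ p.2 ∈ C.Test}
  have hP : ∀ p : P, MemLp (fun x => p.1.1 x • Gr p.1.2 x) 2 m := fun p =>
    hG.smul_mem2 (hC.test_A p.2.1).2 (hC.tW p.2.2)
  let v : P → Lp E 2 m := fun p => (hP p).toLp
  let T : (P →₀ ℝ) →ₗ[ℝ] Lp E 2 m := Finsupp.linearCombination ℝ v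
  let L : (P →₀ ℝ) →ₗ[ℝ] ℝ :=
    Finsupp.linearCombination ℝ (fun p : P => I (p.1.1 * C.hess b a p.1.2))
  have hT : ∀ r, ∀ᵐ x ∂m, T r x = ∑ p ∈ r.support, (r p * p.1.1 x) • Gr p.1.2 x := by
    intro r
    have h1 : T r = ∑ p ∈ r.support, r p • v p := by
      change Finsupp.linearCombination ℝ v r = _
      rw [Finsupp.linearCombination_apply, Finsupp.sum]
    have h2 : ∀ᵐ x ∂m, ∀ p : r.support, (r p • v p.1 : Lp E 2 m) x
        = (r p * p.1.1.1 x) • Gr p.1.1.2 x := by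
      rw [ae_all_iff]
      intro p
      filter_upwards [Lp.coeFn_smul (r p) (v p), (hP p).coeFn_toLp] with x a1 a2
      rw [a1, Pi.smul_apply, a2, smul_smul]
    filter_upwards [lpsum_ae r.support (fun p => r p • v p), h2] with x a1 a2
    rw [h1, a1]
    exact Finset.sum_congr rfl fun p hp => a2 ⟨p, hp⟩
  have hL : ∀ r, L r = ∑ p ∈ r.support, r p * I (p.1.1 * C.hess b a p.1.2) := by
    intro r
    change Finsupp.linearCombination ℝ (fun p : P => I (p.1.1 * C.hess b a p.1.2)) r = _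
    rw [Finsupp.linearCombination_apply, Finsupp.sum]
    rfl
  have hpos : ∀ r, 0 ≤ (I (C.lap b ^ 2) - κ * I (C.Γ b b)) / 2 + 2 * L r
      + (2 * |L0|) * ‖T r‖ ^ 2 := by
    intro r
    have sum_eq : ∀ {β : Type _} [AddCommMonoid β] (f : P → β),
        ∑ k : Fin r.support.card, f (r.support.equivFin.symm k) = ∑ i ∈ r.support, f i := by
      intro β _ f
      rw [← Finset.sum_coe_sort r.support f]
      exact Equiv.sum_comp r.support.equivFin.symm (fun i : r.support => f i)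
    have h1 := hC.tensor_ineq_one hB hb (n := r.support.card)
      (F := fun _ => a) (H := fun k => (r.support.equivFin.symm k).1.1.2)
      (s := fun k => r (r.support.equivFin.symm k) • (r.support.equivFin.symm k).1.1.1)
      (fun _ => ha) (fun k => (r.support.equivFin.symm k).1.2.2)
      (fun k => mem_smul _ (hC.test_A (r.support.equivFin.symm k).1.2.1).2)
      (fun k => mem_smul _ (hC.memLp _ (hC.tW (r.support.equivFin.symm k).1.2.1)))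
    have e1 : ∑ k : Fin r.support.card, I ((r (r.support.equivFin.symm k) •
        (r.support.equivFin.symm k).1.1.1) * C.KK b a (r.support.equivFin.symm k).1.1.2)
        = 2 * L r := by
      rw [sum_eq (fun p => I ((r p • p.1.1) * C.KK b a p.1.2)), hL, Finset.mul_sum]
      refine Finset.sum_congr rfl fun p _ => ?_
      unfold Calc.KK
      rw [smul_mul_assoc, mul_smul_comm, I_smul, I_smul]
      ring
    have e2 : ∑ i : Fin r.support.card, ∑ j : Fin r.support.card,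
        I ((r (r.support.equivFin.symm i) • (r.support.equivFin.symm i).1.1.1) *
          (r (r.support.equivFin.symm j) • (r.support.equivFin.symm j).1.1.1) *
          C.MM a (r.support.equivFin.symm i).1.1.2 a (r.support.equivFin.symm j).1.1.2)
        = I (∑ p ∈ r.support, ∑ q ∈ r.support, (r p • p.1.1) * (r q • q.1.1)
          * C.MM a p.1.2 a q.1.2) ∧ MemLp (∑ p ∈ r.support, ∑ q ∈ r.support,
            (r p • p.1.1) * (r q • q.1.1) * C.MM a p.1.2 a q.1.2 : M →ₘ[m] ℝ) 1 m := by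
      have hm : ∀ p q : P, MemLp ((r p • p.1.1) * (r q • q.1.1) * C.MM a p.1.2 a q.1.2
          : M →ₘ[m] ℝ) 1 m := fun p q =>
        mem_mul_top (mem_mul_top (mem_smul _ (hC.test_A p.2.1).2) (mem_smul _ (hC.test_A q.2.1).2))
          (hC.MM_mem1 hB ha p.2.2 ha q.2.2)
      have hm2 : ∀ p : P, MemLp (∑ q ∈ r.support, (r p • p.1.1) * (r q • q.1.1)
          * C.MM a p.1.2 a q.1.2 : M →ₘ[m] ℝ) 1 m := fun p => (I_fsum _ fun q _ => hm p q).2
      refine ⟨?_, (I_fsum _ fun p _ => hm2 p).2⟩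
      rw [(I_fsum _ fun p _ => hm2 p).1, ← sum_eq]
      refine Finset.sum_congr rfl fun i _ => ?_
      rw [(I_fsum _ fun q _ => hm _ q).1, ← sum_eq]
    have e3 : I (∑ p ∈ r.support, ∑ q ∈ r.support, (r p • p.1.1) * (r q • q.1.1)
          * C.MM a p.1.2 a q.1.2) ≤ 2 * |L0| * ‖T r‖ ^ 2 := by
      have n1 : ‖T r‖ ^ 2 = ∫ x, ‖T r x‖ ^ 2 ∂m := by
        rw [← real_inner_self_eq_norm_sq, L2.inner_def]
        refine integral_congr_ae ?_
        filter_upwards with x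
        rw [real_inner_self_eq_norm_sq]
      rw [n1, ← integral_const_mul]
      refine integral_mono_ae (int_of_mem e2.2) ((Lp.memLp (T r)).integrable_norm_pow
        (two_ne_zero)|>.const_mul _) ?_
      have c1 : ∀ᵐ x ∂m, (∑ p ∈ r.support, ∑ q ∈ r.support, (r p • p.1.1) * (r q • q.1.1)
          * C.MM a p.1.2 a q.1.2 : M →ₘ[m] ℝ) x
          = ∑ p ∈ r.support, ∑ q ∈ r.support, (r p * p.1.1 x) * (r q * q.1.1 x)
            * (C.Γ a a x * C.Γ q.1.2 p.1.2 x + C.Γ a p.1.2 x * C.Γ q.1.2 a x) := by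
        have c2 : ∀ᵐ x ∂m, ∀ p : r.support, (∑ q ∈ r.support, (r p • p.1.1.1) * (r q • q.1.1)
            * C.MM a p.1.1.2 a q.1.2 : M →ₘ[m] ℝ) x
            = ∑ q ∈ r.support, ((r p • p.1.1.1) * (r q • q.1.1)
            * C.MM a p.1.1.2 a q.1.2 : M →ₘ[m] ℝ) x := by
          rw [ae_all_iff]; intro p; exact fsum_ae _ _
        have c3 : ∀ᵐ x ∂m, ∀ p q : r.support, ((r p • p.1.1.1) * (r q • q.1.1.1)
            * C.MM a p.1.1.2 a q.1.1.2 : M →ₘ[m] ℝ) x = (r p * p.1.1.1 x) * (r q * q.1.1.1 x)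
            * (C.Γ a a x * C.Γ q.1.1.2 p.1.1.2 x + C.Γ a p.1.1.2 x * C.Γ q.1.1.2 a x) := by
          rw [ae_all_iff]; intro p; rw [ae_all_iff]; intro q
          unfold Calc.MM
          filter_upwards [mul_ae ((r p • p.1.1.1) * (r q • q.1.1.1))
            (C.Γ a a * C.Γ q.1.1.2 p.1.1.2 + C.Γ a p.1.1.2 * C.Γ q.1.1.2 a),
            mul_ae (r p • p.1.1.1) (r q • q.1.1.1), smul_ae p.1.1.1 (r p), smul_ae q.1.1.1 (r q),
            add_ae (C.Γ a a * C.Γ q.1.1.2 p.1.1.2) (C.Γ a p.1.1.2 * C.Γ q.1.1.2 a),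
            mul_ae (C.Γ a a) (C.Γ q.1.1.2 p.1.1.2), mul_ae (C.Γ a p.1.1.2) (C.Γ q.1.1.2 a)]
            with x b1 b2 b3 b4 b5 b6 b7
          rw [b1, b2, b3, b4, b5, b6, b7]
        filter_upwards [fsum_ae r.support (fun p => ∑ q ∈ r.support, (r p • p.1.1) * (r q • q.1.1)
          * C.MM a p.1.2 a q.1.2), c2, c3] with x b1 b2 b3
        rw [b1]
        refine Finset.sum_congr rfl fun p hp => ?_
        rw [b2 ⟨p, hp⟩]
        exact Finset.sum_congr rfl fun q hq => b3 ⟨p, hp⟩ ⟨q, hq⟩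
      have g1 : ∀ᵐ x ∂m, ∀ p q : r.support, ⟪Gr q.1.1.2 x, Gr p.1.1.2 x⟫_ℝ
          = C.Γ q.1.1.2 p.1.1.2 x := by
        rw [ae_all_iff]; intro p; rw [ae_all_iff]; intro q
        exact hG.inner _ (hC.tW q.1.2.2) _ (hC.tW p.1.2.2)
      have g2 : ∀ᵐ x ∂m, ∀ p : r.support, ⟪Gr a x, Gr p.1.1.2 x⟫_ℝ = C.Γ a p.1.1.2 x := by
        rw [ae_all_iff]; intro p
        exact hG.inner _ (hC.tW ha) _ (hC.tW p.1.2.2)
      have g3 : ∀ᵐ x ∂m, ∀ p : r.support, ⟪Gr p.1.1.2 x, Gr a x⟫_ℝ = C.Γ p.1.1.2 a x := by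
        rw [ae_all_iff]; intro p
        exact hG.inner _ (hC.tW p.1.2.2) _ (hC.tW ha)
      filter_upwards [c1, hT r, hL0, g1, g2, g3, hG.inner a (hC.tW ha) a (hC.tW ha)]
        with x b1 b2 b3 b4 b5 b6 b7
      rw [b1, b2]
      set V := ∑ p ∈ r.support, (r p * p.1.1 x) • Gr p.1.2 x with hV
      have d1 : ∑ p ∈ r.support, ∑ q ∈ r.support, (r p * p.1.1 x) * (r q * q.1.1 x)
            * (C.Γ a a x * C.Γ q.1.2 p.1.2 x + C.Γ a p.1.2 x * C.Γ q.1.2 a x)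
          = C.Γ a a x * ⟪V, V⟫_ℝ + ⟪Gr a x, V⟫_ℝ * ⟪V, Gr a x⟫_ℝ := by
        rw [hV]
        simp only [sum_inner, inner_sum, real_inner_smul_left, real_inner_smul_right,
          Finset.mul_sum, Finset.sum_mul]
        rw [Finset.sum_comm, ← Finset.sum_add_distrib]
        refine Finset.sum_congr rfl fun p hp => ?_
        rw [← Finset.sum_add_distrib]
        refine Finset.sum_congr rfl fun q hq => ?_
        rw [b4 ⟨p, hp⟩ ⟨q, hq⟩, b5 ⟨q, hq⟩, b6 ⟨p, hp⟩, hC.symm _ (hC.tW p.2.2) _ (hC.tW q.2.2)]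
        ring
      rw [d1, real_inner_self_eq_norm_sq]
      have d2 : ⟪Gr a x, V⟫_ℝ * ⟪V, Gr a x⟫_ℝ ≤ C.Γ a a x * ‖V‖ ^ 2 := by
        have q1 := real_inner_mul_inner_self_le (Gr a x) V
        rw [b7, real_inner_self_eq_norm_sq, real_inner_comm V (Gr a x)] at q1
        rw [real_inner_comm V (Gr a x)]
        exact q1
      have d3 : C.Γ a a x ≤ |L0| := (le_abs_self _).trans (b3.trans (le_abs_self _))
      have d4 := mul_le_mul_of_nonneg_right d3 (sq_nonneg ‖V‖)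
      linarith
    rw [e1, e2.1] at h1
    linarith only [e3, h1]
  obtain ⟨σ, hσ, hσL⟩ := riesz_gen T L _ _ (by positivity) hpos
  refine ⟨σ, Lp.memLp σ, fun c hc => ?_, fun ε hε => ?_⟩
  · -- the pairing with gradients
    have hm : AEStronglyMeasurable (fun x => ⟪σ x, Gr c x⟫_ℝ) m :=
      (Lp.memLp σ).1.inner (hG.mem c (hC.tW hc)).1
    obtain ⟨K, hK⟩ := mem_top_iff.1 (hC.test_Γ_top hc)
    set G : M →ₘ[m] ℝ := AEEqFun.mk _ hm with hGdef
    have hGx : ∀ᵐ x ∂m, G x = ⟪σ x, Gr c x⟫_ℝ := AEEqFun.coeFn_mk _ _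
    have hG2 : MemLp G 2 m := by
      refine (Lp.memLp σ).of_le_mul (c := Real.sqrt |K|) G.aestronglyMeasurable ?_
      filter_upwards [hGx, hG.inner c (hC.tW hc) c (hC.tW hc), hK] with x a1 a2 a3
      rw [a1, mul_comm]
      refine (norm_inner_le_norm _ _).trans ?_
      refine mul_le_mul_of_nonneg_left ?_ (norm_nonneg _)
      rw [← Real.sqrt_sq (norm_nonneg (Gr c x)), ← real_inner_self_eq_norm_sq, a2]
      exact Real.sqrt_le_sqrt ((le_abs_self _).trans (a3.trans (le_abs_self _)))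
    have hH2 := hC.hess_mem2 hB hb ha hc
    have h0 : G - C.hess b a c = 0 := by
      refine hC.eq_zero_of_test2 hB (mem_sub hG2 hH2) fun s hs => ?_
      have hs2 := hC.memLp _ (hC.tW hs)
      rw [mul_sub, I_sub (mem_mul_22 hs2 hG2) (mem_mul_22 hs2 hH2), sub_eq_zero]
      have h3 := hσL (Finsupp.single ⟨(s, c), hs, hc⟩ 1)
      have h4 : L (Finsupp.single ⟨(s, c), hs, hc⟩ 1) = I (s * C.hess b a c) := by
        change Finsupp.linearCombination ℝ (fun p : P => I (p.1.1 * C.hess b a p.1.2))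
          (Finsupp.single _ 1) = _
        rw [Finsupp.linearCombination_single, one_smul]
      have h5 : T (Finsupp.single ⟨(s, c), hs, hc⟩ 1) = v ⟨(s, c), hs, hc⟩ := by
        change Finsupp.linearCombination ℝ v (Finsupp.single _ 1) = _
        rw [Finsupp.linearCombination_single, one_smul]
      rw [h4, h5, L2.inner_def] at h3
      rw [h3]
      unfold I
      refine integral_congr_ae ?_
      filter_upwards [mul_ae s G, hGx, (hP ⟨(s, c), hs, hc⟩).coeFn_toLp] with x a1 a2 a3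
      rw [a1, a2]
      have a4 : (v ⟨(s, c), hs, hc⟩ : Lp E 2 m) x = s x • Gr c x := a3
      rw [a4, real_inner_smul_right]
    rw [sub_eq_zero] at h0
    filter_upwards [hGx, eq_iff_ae.1 h0] with x a1 a2
    rw [← a1, a2]
  · -- density
    rw [← SetLike.mem_coe, Submodule.topologicalClosure_coe, EMetric.mem_closure_iff] at hσ
    obtain ⟨_, ⟨r, rfl⟩, hr⟩ := hσ ε hε
    refine ⟨r.support.toList.map fun p => (r p • p.1.1, p.1.2), ?_, ?_⟩
    · intro q hq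
      rw [List.mem_map] at hq
      obtain ⟨p, -, rfl⟩ := hq
      exact ⟨hC.test_smul hB _ p.2.1, p.2.2⟩
    · rw [Lp.edist_def] at hr
      refine lt_of_eq_of_lt (eLpNorm_congr_ae ?_) hr
      have h2 : ∀ᵐ x ∂m, ∀ p : r.support, (r p • p.1.1.1 : M →ₘ[m] ℝ) x = r p * p.1.1.1 x := by
        rw [ae_all_iff]; intro p; exact smul_ae _ _
      filter_upwards [hT r, h2] with x a1 a2
      rw [Pi.sub_apply, a1]
      congr 1
      unfold fvec
      rw [List.map_map]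
      rw [← Finset.sum_map_toList]
      congr 1
      refine List.map_congr_left fun p hp => ?_
      simp only [Function.comp]
      rw [a2 ⟨p, by simpa using hp⟩]

end IsGamma

end Vale.Agent.P233
end

section

open MeasureTheory Filter Topology
open scoped ENNReal NNReal InnerProductSpace

namespace Vale.Agent.P233

variable {M : Type*} [MeasurableSpace M] {m : Measure M} {C : Calc m}
variable {E : Type*} [NormedAddCommGroup E] [InnerProductSpace ℝ E] {Gr : (M →ₘ[m] ℝ) → M → E}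

/-- `U b a` is the vector field `∇_{∇a} ∇b` -/
structure IsHU (C : Calc m) (Gr : (M →ₘ[m] ℝ) → M → E)
    (U : (M →ₘ[m] ℝ) → (M →ₘ[m] ℝ) → M → E) : Prop where
  mem : ∀ b ∈ C.Test, ∀ a ∈ C.Test, MemLp (U b a) 2 m
  inner : ∀ b ∈ C.Test, ∀ a ∈ C.Test, ∀ c ∈ C.Test, ∀ᵐ x ∂m, ⟪U b a x, Gr c x⟫_ℝ = C.hess b a c x
  dense : ∀ b ∈ C.Test, ∀ a ∈ C.Test, ∀ ε > 0, ∃ Z, C.IsTestV Z ∧
    eLpNorm (fun x => U b a x - fvec Gr Z x) 2 m < ε

open Classical in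
/-- the class of the function `⟪u,v⟫` -/
noncomputable def ipE (m : Measure M) (u v : M → E) : M →ₘ[m] ℝ :=
  if h : AEStronglyMeasurable (fun x => ⟪u x, v x⟫_ℝ) m then AEEqFun.mk _ h else 0

theorem ipE_ae {u v : M → E} (hu : AEStronglyMeasurable u m) (hv : AEStronglyMeasurable v m) :
    ∀ᵐ x ∂m, ipE m u v x = ⟪u x, v x⟫_ℝ := by
  have h : AEStronglyMeasurable (fun x => ⟪u x, v x⟫_ℝ) m := hu.inner hv
  unfold ipE
  rw [dif_pos h]
  exact AEEqFun.coeFn_mk _ _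

theorem ipE_mem {u v : M → E} (hu : MemLp u 2 m) (hv : MemLp v 2 m) :
    MemLp (ipE m u v) 1 m := by
  have h1 : Integrable (fun x => ⟪u x, v x⟫_ℝ) m := by
    refine (L2.integrable_inner (𝕜 := ℝ) hu.toLp hv.toLp).congr ?_
    filter_upwards [hu.coeFn_toLp, hv.coeFn_toLp] with x a1 a2
    rw [a1, a2]
  refine (memLp_one_iff_integrable.2 h1).ae_eq ?_
  filter_upwards [ipE_ae hu.1 hv.1] with x hx
  rw [hx]

/-- the functions `⟨∇_{∇a} ∇b, ∇_{∇a'} ∇b'⟩` -/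
noncomputable def UUof (m : Measure M) (U : (M →ₘ[m] ℝ) → (M →ₘ[m] ℝ) → M → E) : UUT m :=
  fun b a b' a' => ipE m (U b a) (U b' a')

theorem IsGamma.exists_HU [SigmaFinite m] [CompleteSpace E] (hC : IsGamma C) {κ : ℝ}
    (hB : C.BEi κ) (hG : IsGrad C Gr) :
    ∃ U : (M →ₘ[m] ℝ) → (M →ₘ[m] ℝ) → M → E, IsHU C Gr U := by
  classical
  have h : ∀ b a, ∃ u : M → E, b ∈ C.Test → a ∈ C.Test → MemLp u 2 m ∧
      (∀ c ∈ C.Test, ∀ᵐ x ∂m, ⟪u x, Gr c x⟫_ℝ = C.hess b a c x) ∧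
      ∀ ε > 0, ∃ Z, C.IsTestV Z ∧ eLpNorm (fun x => u x - fvec Gr Z x) 2 m < ε := by
    intro b a
    by_cases hb : b ∈ C.Test
    · by_cases ha : a ∈ C.Test
      · obtain ⟨u, hu⟩ := hC.exists_U hB hG hb ha
        exact ⟨u, fun _ _ => hu⟩
      · exact ⟨0, fun _ h => absurd h ha⟩
    · exact ⟨0, fun h _ => absurd h hb⟩
  choose U hU using h
  exact ⟨U, fun b hb a ha => (hU b a hb ha).1, fun b hb a ha => (hU b a hb ha).2.1,
    fun b hb a ha => (hU b a hb ha).2.2⟩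

end Vale.Agent.P233
end

section

/-!
P233, block GLUE: the curvature functional of a model of `L²(TM)` in terms of the functions
`⟨∇_{∇a} ∇b, ∇_{∇a'} ∇b'⟩`.
-/

open MeasureTheory Filter Topology
open scoped ENNReal NNReal InnerProductSpace

namespace Vale.Agent.P233

variable {M : Type*} [MeasurableSpace M] {m : Measure M} {C : Calc m}
variable {E : Type*} [NormedAddCommGroup E] [InnerProductSpace ℝ E] {Gr : (M →ₘ[m] ℝ) → M → E}
variable {U : (M →ₘ[m] ℝ) → (M →ₘ[m] ℝ) → M → E}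

/-! ### list sums -/

section lists

variable {α β R : Type*}

theorem ls_comm [AddCommMonoid R] (L : List α) (L' : List β) (F : α → β → R) :
    (L.map fun a => (L'.map fun b => F a b).sum).sum
      = (L'.map fun b => (L.map fun a => F a b).sum).sum := by
  induction L with
  | nil => simp
  | cons a L ih => simp only [List.map_cons, List.sum_cons, ih, List.sum_map_add]

theorem ls_neg [AddCommGroup R] (L : List α) (F : α → R) :
    (L.map fun a => -F a).sum = -(L.map F).sum := by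
  induction L with
  | nil => simp
  | cons a L ih => simp only [List.map_cons, List.sum_cons, ih]; abel

theorem ls_sub [AddCommGroup R] (L : List α) (F G : α → R) :
    (L.map fun a => F a - G a).sum = (L.map F).sum - (L.map G).sum := by
  induction L with
  | nil => simp
  | cons a L ih => simp only [List.map_cons, List.sum_cons, ih]; abel

theorem ls_mul [CommRing R] (L : List α) (F : α → R) (c : R) :
    (L.map fun a => c * F a).sum = c * (L.map F).sum := by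
  induction L with
  | nil => simp
  | cons a L ih => simp only [List.map_cons, List.sum_cons, ih]; ring

theorem ls_mul' [CommRing R] (L : List α) (F : α → R) (c : R) :
    (L.map fun a => F a * c).sum = (L.map F).sum * c := by
  induction L with
  | nil => simp
  | cons a L ih => simp only [List.map_cons, List.sum_cons, ih]; ring

theorem ls_congr [AddCommMonoid R] {L : List α} {F G : α → R} (h : ∀ a ∈ L, F a = G a) :
    (L.map F).sum = (L.map G).sum := by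
  rw [List.map_congr_left h]

theorem inner_ls_left {L : List α} {V : α → M → E} {w : M → E} {F : α → M →ₘ[m] ℝ}
    (h : ∀ a ∈ L, ∀ᵐ x ∂m, ⟪V a x, w x⟫_ℝ = F a x) :
    ∀ᵐ x ∂m, ⟪(L.map fun a => V a x).sum, w x⟫_ℝ = (L.map F).sum x := by
  induction L with
  | nil =>
    filter_upwards [zero_ae (M := M) (m := m)] with x hx
    simp only [List.map_nil, List.sum_nil, inner_zero_left]
    exact hx.symm
  | cons a L ih =>
    simp only [List.map_cons, List.sum_cons]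
    filter_upwards [h a List.mem_cons_self, ih fun b hb => h b (List.mem_cons_of_mem _ hb),
      add_ae (F a) (L.map F).sum] with x h1 h2 h3
    rw [h3, inner_add_left, h1, h2]

theorem inner_ls_right {L : List α} {V : α → M → E} {w : M → E} {F : α → M →ₘ[m] ℝ}
    (h : ∀ a ∈ L, ∀ᵐ x ∂m, ⟪w x, V a x⟫_ℝ = F a x) :
    ∀ᵐ x ∂m, ⟪w x, (L.map fun a => V a x).sum⟫_ℝ = (L.map F).sum x := by
  have h1 := inner_ls_left (m := m) (L := L) (V := V) (w := w) (F := F) fun a ha => by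
    filter_upwards [h a ha] with x hx
    rw [real_inner_comm]; exact hx
  filter_upwards [h1] with x hx
  rw [real_inner_comm]; exact hx

theorem mem_ls {p : ℝ≥0∞} {L : List α} {F : α → M →ₘ[m] ℝ} (h : ∀ a ∈ L, MemLp (F a) p m) :
    MemLp ((L.map F).sum : M →ₘ[m] ℝ) p m := by
  induction L with
  | nil => simpa using mem_zero
  | cons a L ih =>
    simp only [List.map_cons, List.sum_cons]
    exact mem_add (h a List.mem_cons_self) (ih fun b hb => h b (List.mem_cons_of_mem _ hb))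

end lists

/-! ### the closure of the test fields -/

/-- `v` is in the closure of the test vector fields in `L²(M;E)` -/
def InCl (C : Calc m) (Gr : (M →ₘ[m] ℝ) → M → E) (v : M → E) : Prop :=
  MemLp v 2 m ∧ ∀ ε > 0, ∃ Z, C.IsTestV Z ∧ eLpNorm (fun x => v x - fvec Gr Z x) 2 m < ε

theorem testV_append {Z Z' : List ((M →ₘ[m] ℝ) × (M →ₘ[m] ℝ))} (h : C.IsTestV Z)
    (h' : C.IsTestV Z') : C.IsTestV (Z ++ Z') := fun r hr =>
  (List.mem_append.1 hr).elim (h r) (h' r)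

theorem testV_nil : C.IsTestV [] := fun r hr => by simp at hr

namespace InCl

variable {v w : M → E}

theorem congr (h : InCl C Gr v) (hw : ∀ᵐ x ∂m, v x = w x) : InCl C Gr w := by
  refine ⟨h.1.ae_eq hw, fun ε hε => ?_⟩
  obtain ⟨Z, hZ, h1⟩ := h.2 ε hε
  refine ⟨Z, hZ, lt_of_eq_of_lt (eLpNorm_congr_ae ?_) h1⟩
  filter_upwards [hw] with x hx
  rw [hx]

theorem zero : InCl C Gr (fun _ => 0) := by
  refine ⟨MemLp.zero, fun ε hε => ⟨[], testV_nil, ?_⟩⟩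
  have : (fun x : M => (0 : E) - fvec Gr [] x) = 0 := by
    funext x; simp [fvec]
  rw [this, eLpNorm_zero]
  exact hε

theorem add (hG : IsGrad C Gr) (hC : IsGamma C) (hv : InCl C Gr v) (hw : InCl C Gr w) :
    InCl C Gr (fun x => v x + w x) := by
  refine ⟨hv.1.add hw.1, fun ε hε => ?_⟩
  obtain ⟨Z, hZ, h1⟩ := hv.2 (ε / 2) (ENNReal.half_pos hε.ne')
  obtain ⟨Z', hZ', h2⟩ := hw.2 (ε / 2) (ENNReal.half_pos hε.ne')
  have mf : ∀ {Z : List ((M →ₘ[m] ℝ) × (M →ₘ[m] ℝ))}, C.IsTestV Z →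
      AEStronglyMeasurable (fvec Gr Z) m := by
    intro Z hZ
    induction Z with
    | nil => rw [IsGrad.fvec_nil]; exact aestronglyMeasurable_zero
    | cons p Z ih =>
      have e : fvec Gr (p :: Z) = fun x => p.1 x • Gr p.2 x + fvec Gr Z x := by
        funext x; exact IsGrad.fvec_cons p Z x
      rw [e]
      exact (p.1.aestronglyMeasurable.smul
        (hG.mem _ (hC.test_A (hZ p List.mem_cons_self).2).1).1).add
        (ih fun q hq => hZ q (List.mem_cons_of_mem _ hq))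
  refine ⟨Z ++ Z', testV_append hZ hZ', ?_⟩
  have e : (fun x => v x + w x - fvec Gr (Z ++ Z') x)
      = (fun x => v x - fvec Gr Z x) + fun x => w x - fvec Gr Z' x := by
    funext x
    rw [Pi.add_apply, IsGrad.fvec_append]
    abel
  rw [e]
  calc eLpNorm ((fun x => v x - fvec Gr Z x) + fun x => w x - fvec Gr Z' x) 2 m
      ≤ _ := eLpNorm_add_le (hv.1.1.sub (mf hZ)) (hw.1.1.sub (mf hZ')) (by norm_num)
    _ < ε / 2 + ε / 2 := ENNReal.add_lt_add h1 h2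
    _ = ε := ENNReal.add_halves ε

theorem ls (hG : IsGrad C Gr) (hC : IsGamma C) {α : Type*} {L : List α} {V : α → M → E}
    (h : ∀ a ∈ L, InCl C Gr (V a)) : InCl C Gr (fun x => (L.map fun a => V a x).sum) := by
  induction L with
  | nil => simpa using zero (C := C) (Gr := Gr)
  | cons a L ih =>
    simp only [List.map_cons, List.sum_cons]
    exact (h a List.mem_cons_self).add hG hC (ih fun b hb => h b (List.mem_cons_of_mem _ hb))

theorem fvec_mulV (a : M →ₘ[m] ℝ) (Z : List ((M →ₘ[m] ℝ) × (M →ₘ[m] ℝ))) :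
    ∀ᵐ x ∂m, fvec Gr (Calc.mulV a Z) x = a x • fvec Gr Z x := by
  induction Z with
  | nil => exact Eventually.of_forall fun x => by simp [Calc.mulV, fvec]
  | cons p Z ih =>
    filter_upwards [ih, mul_ae a p.1] with x h1 h2
    have e : Calc.mulV a (p :: Z) = (a * p.1, p.2) :: Calc.mulV a Z := by
      simp [Calc.mulV]
    rw [e, IsGrad.fvec_cons, IsGrad.fvec_cons, h1, h2, smul_add, mul_smul]

theorem smul_test (hC : IsGamma C) {κ : ℝ} (hB : C.BEi κ) (hv : InCl C Gr v) {a : M →ₘ[m] ℝ}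
    (ha : a ∈ C.Test) : InCl C Gr (fun x => a x • v x) := by
  have haT := (hC.test_A ha).2
  refine ⟨MemLp.smul hv.1 haT, fun ε hε => ?_⟩
  obtain ⟨K, hK⟩ := mem_top_iff.1 haT
  set c : ℝ≥0 := Real.toNNReal K + 1 with hc
  have hc0 : (c : ℝ≥0∞) ≠ 0 := by simp [hc]
  obtain ⟨Z, hZ, h1⟩ := hv.2 (ε / c) (ENNReal.div_pos hε.ne' ENNReal.coe_ne_top)
  refine ⟨Calc.mulV a Z, ?_, ?_⟩
  · intro r hr
    unfold Calc.mulV at hr
    rw [List.mem_map] at hr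
    obtain ⟨s, hs, rfl⟩ := hr
    exact ⟨hC.test_mul hB ha (hZ s hs).1, (hZ s hs).2⟩
  · have h2 : eLpNorm (fun x => a x • v x - fvec Gr (Calc.mulV a Z) x) 2 m
        ≤ c • eLpNorm (fun x => v x - fvec Gr Z x) 2 m := by
      refine eLpNorm_le_nnreal_smul_eLpNorm_of_ae_le_mul ?_ 2
      filter_upwards [fvec_mulV (Gr := Gr) a Z, hK] with x b1 b2
      rw [b1, ← smul_sub, nnnorm_smul]
      refine mul_le_mul_of_nonneg_right ?_ zero_le
      rw [← NNReal.coe_le_coe, coe_nnnorm, Real.norm_eq_abs, hc, NNReal.coe_add, NNReal.coe_one]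
      exact b2.trans ((Real.le_coe_toNNReal K).trans (by linarith))
    refine lt_of_le_of_lt h2 ?_
    rw [ENNReal.smul_def, smul_eq_mul]
    calc (c : ℝ≥0∞) * eLpNorm (fun x => v x - fvec Gr Z x) 2 m < c * (ε / c) :=
          (ENNReal.mul_lt_mul_iff_right hc0 ENNReal.coe_ne_top).2 h1
      _ ≤ ε := ENNReal.mul_div_le

theorem smul_grad [SigmaFinite m] (hC : IsGamma C) {κ : ℝ} (hB : C.BEi κ) (hG : IsGrad C Gr)
    {a b : M →ₘ[m] ℝ} (ha : a ∈ C.A) (hb : b ∈ C.Test) : InCl C Gr (fun x => a x • Gr b x) := by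
  have hbW := (hC.test_A hb).1
  refine ⟨MemLp.smul (hG.mem _ hbW) ha.2, fun ε hε => ?_⟩
  obtain ⟨L, hL⟩ := mem_top_iff.1 (hC.test_Γ_top hb)
  set c : ℝ≥0 := Real.toNNReal (Real.sqrt L) + 1 with hc
  have hc0 : (c : ℝ≥0∞) ≠ 0 := by simp [hc]
  -- a small real number
  obtain ⟨δ, hδ, hδε⟩ : ∃ δ : ℝ, 0 < δ ∧ ENNReal.ofReal δ < ε / c := by
    have hpos : 0 < ε / (c : ℝ≥0∞) := ENNReal.div_pos hε.ne' ENNReal.coe_ne_top
    obtain ⟨r, hr0, hr⟩ := ENNReal.lt_iff_exists_nnreal_btwn.1 hpos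
    refine ⟨r, by exact_mod_cast hr0, ?_⟩
    rw [ENNReal.ofReal_coe_nnreal]
    exact hr
  obtain ⟨g, hg, hg2⟩ := hC.test_dense hB ha.1 (ε := δ ^ 2) (by positivity)
  have hgW := (hC.test_A hg).1
  have hsub := hC.sub_mem hgW ha.1
  refine ⟨[(g, b)], ?_, ?_⟩
  · intro r hr
    simp only [List.mem_singleton] at hr
    rw [hr]; exact ⟨hg, hb⟩
  · have h2 : eLpNorm (fun x => a x • Gr b x - fvec Gr [(g, b)] x) 2 m
        ≤ c • eLpNorm (g - a : M →ₘ[m] ℝ) 2 m := by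
      refine eLpNorm_le_nnreal_smul_eLpNorm_of_ae_le_mul ?_ 2
      filter_upwards [hG.norm_eq hbW, hL, sub_ae g a] with x b1 b2 b3
      have e : a x • Gr b x - fvec Gr [(g, b)] x = -((g - a : M →ₘ[m] ℝ) x • Gr b x) := by
        rw [b3]
        simp only [fvec, List.map_cons, List.map_nil, List.sum_cons, List.sum_nil, add_zero]
        rw [sub_smul]; abel
      rw [e, nnnorm_neg, nnnorm_smul, mul_comm]
      refine mul_le_mul_of_nonneg_right ?_ zero_le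
      rw [← NNReal.coe_le_coe, coe_nnnorm, b1, hc, NNReal.coe_add, NNReal.coe_one]
      have : Real.sqrt (C.Γ b b x) ≤ Real.sqrt L := Real.sqrt_le_sqrt ((le_abs_self _).trans b2)
      exact this.trans ((Real.le_coe_toNNReal _).trans (by linarith))
    have h3 : eLpNorm (g - a : M →ₘ[m] ℝ) 2 m ≤ ENNReal.ofReal δ := by
      have m2 : MemLp (g - a : M →ₘ[m] ℝ) 2 m := hC.memLp _ hsub
      have h4 : I ((g - a) ^ 2) < δ ^ 2 := (hC.I_sq_le_nrm2 hsub).trans_lt hg2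
      have h5 : ‖m2.toLp‖ ^ 2 = I ((g - a) ^ 2) := by
        rw [← real_inner_self_eq_norm_sq, L2.inner_def]
        unfold I
        refine integral_congr_ae ?_
        filter_upwards [m2.coeFn_toLp, sq_ae (g - a)] with x b1 b2
        rw [b1, b2, real_inner_self_eq_norm_sq, Real.norm_eq_abs, sq_abs]
      have h6 : ‖m2.toLp‖ ≤ δ := by
        refine le_of_lt (lt_of_pow_lt_pow_left₀ 2 hδ.le ?_)
        rw [h5]; exact h4
      rw [Lp.norm_toLp] at h6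
      exact (ENNReal.le_ofReal_iff_toReal_le m2.eLpNorm_lt_top.ne hδ.le).2 h6
    refine lt_of_le_of_lt h2 ?_
    rw [ENNReal.smul_def, smul_eq_mul]
    calc (c : ℝ≥0∞) * eLpNorm (g - a : M →ₘ[m] ℝ) 2 m ≤ c * ENNReal.ofReal δ :=
          mul_le_mul_of_nonneg_left h3 zero_le
      _ < c * (ε / c) := (ENNReal.mul_lt_mul_iff_right hc0 ENNReal.coe_ne_top).2 hδε
      _ ≤ ε := ENNReal.mul_div_le

end InCl

/-! ### `L²(M;E)` -/

open Classical in
/-- the class in `L²(M;E)` -/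
noncomputable def lE (m : Measure M) (v : M → E) : Lp E 2 m :=
  if h : MemLp v 2 m then h.toLp v else 0

theorem lE_inner {u v : M → E} (hu : MemLp u 2 m) (hv : MemLp v 2 m) :
    ⟪lE m u, lE m v⟫_ℝ = ∫ x, ⟪u x, v x⟫_ℝ ∂m := by
  unfold lE
  rw [dif_pos hu, dif_pos hv, L2.inner_def]
  refine integral_congr_ae ?_
  filter_upwards [hu.coeFn_toLp, hv.coeFn_toLp] with x a1 a2
  rw [a1, a2]

theorem lE_dist {u v : M → E} (hu : MemLp u 2 m) (hv : MemLp v 2 m) :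
    edist (lE m u) (lE m v) = eLpNorm (fun x => u x - v x) 2 m := by
  unfold lE
  rw [dif_pos hu, dif_pos hv, Lp.edist_toLp_toLp]
  rfl

theorem mem_fvec (hG : IsGrad C Gr) (hC : IsGamma C) {Z : List ((M →ₘ[m] ℝ) × (M →ₘ[m] ℝ))}
    (hZ : C.IsTestV Z) : MemLp (fvec Gr Z) 2 m := by
  induction Z with
  | nil => rw [IsGrad.fvec_nil]; exact MemLp.zero
  | cons p Z ih =>
    have e : fvec Gr (p :: Z) = fun x => p.1 x • Gr p.2 x + fvec Gr Z x := by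
      funext x; exact IsGrad.fvec_cons p Z x
    rw [e]
    exact (MemLp.smul (hG.mem _ (hC.test_A (hZ p List.mem_cons_self).2).1)
      (hC.test_A (hZ p List.mem_cons_self).1).2).add
      (ih fun q hq => hZ q (List.mem_cons_of_mem _ hq))

/-- the representation of a test vector field -/
noncomputable def eE (Gr : (M →ₘ[m] ℝ) → M → E) (Z : List ((M →ₘ[m] ℝ) × (M →ₘ[m] ℝ))) :
    Lp E 2 m := lE m (fvec Gr Z)

section model

variable {H : Type*} [NormedAddCommGroup H] [InnerProductSpace ℝ H]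
  {ι : List ((M →ₘ[m] ℝ) × (M →ₘ[m] ℝ)) → H}

/-- `V ∈ H` corresponds to `v ∈ L²(M;E)` -/
def RepE (C : Calc m) (Gr : (M →ₘ[m] ℝ) → M → E)
    (ι : List ((M →ₘ[m] ℝ) × (M →ₘ[m] ℝ)) → H) (V : H) (v : Lp E 2 m) : Prop :=
  ∃ T : ℕ → List ((M →ₘ[m] ℝ) × (M →ₘ[m] ℝ)), (∀ n, C.IsTestV (T n)) ∧
    Tendsto (fun n => ι (T n)) atTop (𝓝 V) ∧ Tendsto (fun n => eE Gr (T n)) atTop (𝓝 v)

variable {X Y Z : List ((M →ₘ[m] ℝ) × (M →ₘ[m] ℝ))}

theorem iotaE_inner (hG : IsGrad C Gr) (hC : IsGamma C) (hι : C.IsL2TM ι) (hX : C.IsTestV X)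
    (hY : C.IsTestV Y) : ⟪ι X, ι Y⟫_ℝ = ⟪eE Gr X, eE Gr Y⟫_ℝ := by
  unfold eE
  rw [lE_inner (mem_fvec hG hC hX) (mem_fvec hG hC hY), hι.1 X Y hX hY]
  exact (integral_congr_ae (hG.inner_fvec (fun p hp => (hC.test_A (hX p hp).2).1)
    fun p hp => (hC.test_A (hY p hp).2).1)).symm

theorem iotaE_norm_sub (hG : IsGrad C Gr) (hC : IsGamma C) (hι : C.IsL2TM ι) (hX : C.IsTestV X)
    (hY : C.IsTestV Y) : ‖ι X - ι Y‖ = ‖eE Gr X - eE Gr Y‖ := by
  have h1 : ‖ι X - ι Y‖ ^ 2 = ‖eE Gr X - eE Gr Y‖ ^ 2 := by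
    rw [← real_inner_self_eq_norm_sq, ← real_inner_self_eq_norm_sq]
    simp only [inner_sub_left, inner_sub_right]
    rw [iotaE_inner hG hC hι hX hX, iotaE_inner hG hC hι hX hY, iotaE_inner hG hC hι hY hX,
      iotaE_inner hG hC hι hY hY]
  have := abs_eq_abs.2 (sq_eq_sq_iff_eq_or_eq_neg.1 h1)
  rwa [abs_of_nonneg (norm_nonneg _), abs_of_nonneg (norm_nonneg _)] at this

theorem repE_self (hX : C.IsTestV X) : RepE C Gr ι (ι X) (eE Gr X) :=
  ⟨fun _ => X, fun _ => hX, tendsto_const_nhds, tendsto_const_nhds⟩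

theorem repE_inner (hG : IsGrad C Gr) (hC : IsGamma C) (hι : C.IsL2TM ι) {V V' : H}
    {v v' : Lp E 2 m} (h : RepE C Gr ι V v) (h' : RepE C Gr ι V' v') :
    ⟪V, V'⟫_ℝ = ⟪v, v'⟫_ℝ := by
  obtain ⟨T, hT, h1, h2⟩ := h
  obtain ⟨T', hT', h1', h2'⟩ := h'
  have a1 := h1.inner (𝕜 := ℝ) h1'
  have a2 := h2.inner (𝕜 := ℝ) h2'
  refine tendsto_nhds_unique a1 (a2.congr fun n => ?_)
  rw [iotaE_inner hG hC hι (hT n) (hT' n)]

theorem repE_exists [CompleteSpace H] (hG : IsGrad C Gr) (hC : IsGamma C) (hι : C.IsL2TM ι)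
    {v : M → E} (hv : InCl C Gr v) : ∃ V, RepE C Gr ι V (lE m v) := by
  choose T hT hTv using fun n : ℕ => hv.2 (ENNReal.ofReal ((n : ℝ) + 1)⁻¹)
    (ENNReal.ofReal_pos.2 (by positivity))
  have hlim : Tendsto (fun n => eE Gr (T n)) atTop (𝓝 (lE m v)) := by
    rw [tendsto_iff_edist_tendsto_0]
    have h1 : Tendsto (fun n : ℕ => ENNReal.ofReal ((n : ℝ) + 1)⁻¹) atTop (𝓝 0) := by
      have := ENNReal.tendsto_ofReal (tendsto_inv_succ)
      simpa using this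
    refine tendsto_of_tendsto_of_tendsto_of_le_of_le tendsto_const_nhds h1
      (fun n => zero_le) fun n => ?_
    beta_reduce
    unfold eE
    rw [edist_comm, lE_dist hv.1 (mem_fvec hG hC (hT n))]
    exact (hTv n).le
  have hc : CauchySeq (fun n => eE Gr (T n)) := hlim.cauchySeq
  have hc2 : CauchySeq (fun n => ι (T n)) := by
    rw [Metric.cauchySeq_iff] at hc ⊢
    intro ε hε
    obtain ⟨N, hN⟩ := hc ε hε
    refine ⟨N, fun a ha b hb => ?_⟩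
    have := hN a ha b hb
    rw [dist_eq_norm] at this ⊢
    rwa [iotaE_norm_sub hG hC hι (hT a) (hT b)]
  obtain ⟨V, hV⟩ := cauchySeq_tendsto_of_complete hc2
  exact ⟨V, T, hT, hV, hlim⟩

theorem eqE_of_inner (hι : C.IsL2TM ι) {V V' : H}
    (h : ∀ X, C.IsTestV X → ⟪V, ι X⟫_ℝ = ⟪V', ι X⟫_ℝ) : V = V' := by
  have h1 : ∀ w : H, ⟪V - V', w⟫_ℝ = 0 := by
    intro w
    have hcl : IsClosed {w : H | ⟪V - V', w⟫_ℝ = 0} :=
      isClosed_eq (by fun_prop) continuous_const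
    have : closure {v | ∃ X, C.IsTestV X ∧ ι X = v} ⊆ {w : H | ⟪V - V', w⟫_ℝ = 0} := by
      apply hcl.closure_subset_iff.2
      rintro _ ⟨X, hX, rfl⟩
      change ⟪V - V', ι X⟫_ℝ = 0
      rw [inner_sub_left, h X hX, sub_self]
    have h2 := hι.2 w
    exact this h2
  have := h1 (V - V')
  rw [inner_self_eq_zero] at this
  exact sub_eq_zero.1 this

end model

/-! ### covariant derivatives -/

/-- the field `∇_p q` -/
noncomputable def cvT (C : Calc m) (Gr : (M →ₘ[m] ℝ) → M → E)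
    (U : (M →ₘ[m] ℝ) → (M →ₘ[m] ℝ) → M → E) (p q : (M →ₘ[m] ℝ) × (M →ₘ[m] ℝ)) (x : M) : E :=
  p.1 x • (C.Γ p.2 q.1 x • Gr q.2 x + q.1 x • U q.2 p.2 x)

/-- the field `(∇ r)ᵀ s` -/
noncomputable def ctT (C : Calc m) (Gr : (M →ₘ[m] ℝ) → M → E)
    (U : (M →ₘ[m] ℝ) → (M →ₘ[m] ℝ) → M → E) (r s : (M →ₘ[m] ℝ) × (M →ₘ[m] ℝ)) (x : M) : E :=
  s.1 x • (C.Γ r.2 s.2 x • Gr r.1 x + r.1 x • U r.2 s.2 x)

/-- the field `∇_X Y` -/
noncomputable def cvV (C : Calc m) (Gr : (M →ₘ[m] ℝ) → M → E)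
    (U : (M →ₘ[m] ℝ) → (M →ₘ[m] ℝ) → M → E) (X Y : List ((M →ₘ[m] ℝ) × (M →ₘ[m] ℝ)))
    (x : M) : E :=
  (X.map fun p => (Y.map fun q => cvT C Gr U p q x).sum).sum

/-- the field `(∇ Y)ᵀ Z` -/
noncomputable def ctV (C : Calc m) (Gr : (M →ₘ[m] ℝ) → M → E)
    (U : (M →ₘ[m] ℝ) → (M →ₘ[m] ℝ) → M → E) (Y Z : List ((M →ₘ[m] ℝ) × (M →ₘ[m] ℝ)))
    (x : M) : E :=
  (Y.map fun r => (Z.map fun s => ctT C Gr U r s x).sum).sum

/-- a pair of test functions -/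
def TP (C : Calc m) (p : (M →ₘ[m] ℝ) × (M →ₘ[m] ℝ)) : Prop := p.1 ∈ C.Test ∧ p.2 ∈ C.Test

section base

variable {p q r s : (M →ₘ[m] ℝ) × (M →ₘ[m] ℝ)}

theorem cvT_inCl [SigmaFinite m] (hC : IsGamma C) {κ : ℝ} (hB : C.BEi κ) (hG : IsGrad C Gr)
    (hU : IsHU C Gr U) (hp : TP C p) (hq : TP C q) : InCl C Gr (cvT C Gr U p q) := by
  have h1 : InCl C Gr (fun x => (p.1 * C.Γ p.2 q.1 : M →ₘ[m] ℝ) x • Gr q.2 x) :=
    InCl.smul_grad hC hB hG (hC.mul_mem_A (hC.test_A hp.1) (hC.Γ_mem hB hp.2 hq.1)) hq.2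
  have h2 : InCl C Gr (fun x => (p.1 * q.1 : M →ₘ[m] ℝ) x • U q.2 p.2 x) :=
    InCl.smul_test hC hB ⟨hU.mem _ hq.2 _ hp.2, hU.dense _ hq.2 _ hp.2⟩
      (hC.test_mul hB hp.1 hq.1)
  refine (h1.add hG hC h2).congr ?_
  filter_upwards [mul_ae p.1 (C.Γ p.2 q.1), mul_ae p.1 q.1] with x a1 a2
  rw [a1, a2, cvT, smul_add, mul_smul, mul_smul]

theorem ctT_inCl [SigmaFinite m] (hC : IsGamma C) {κ : ℝ} (hB : C.BEi κ) (hG : IsGrad C Gr)
    (hU : IsHU C Gr U) (hr : TP C r) (hs : TP C s) : InCl C Gr (ctT C Gr U r s) := by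
  have h1 : InCl C Gr (fun x => (s.1 * C.Γ r.2 s.2 : M →ₘ[m] ℝ) x • Gr r.1 x) :=
    InCl.smul_grad hC hB hG (hC.mul_mem_A (hC.test_A hs.1) (hC.Γ_mem hB hr.2 hs.2)) hr.1
  have h2 : InCl C Gr (fun x => (s.1 * r.1 : M →ₘ[m] ℝ) x • U r.2 s.2 x) :=
    InCl.smul_test hC hB ⟨hU.mem _ hr.2 _ hs.2, hU.dense _ hr.2 _ hs.2⟩
      (hC.test_mul hB hs.1 hr.1)
  refine (h1.add hG hC h2).congr ?_
  filter_upwards [mul_ae s.1 (C.Γ r.2 s.2), mul_ae s.1 r.1] with x a1 a2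
  rw [a1, a2, ctT, smul_add, mul_smul, mul_smul]

theorem cc_ae (hC : IsGamma C) (hG : IsGrad C Gr) (hU : IsHU C Gr U) (hp : TP C p)
    (hq : TP C q) (hr : TP C r) (hs : TP C s) :
    ∀ᵐ x ∂m, ⟪cvT C Gr U p q x, cvT C Gr U r s x⟫_ℝ = C.ccI (UUof m U) p q r s x := by
  have qW := hC.tW hq.2
  have sW := hC.tW hs.2
  unfold Calc.ccI
  filter_upwards [hG.inner _ qW _ sW, hU.inner _ hs.2 _ hr.2 _ hq.2, hU.inner _ hq.2 _ hp.2 _ hs.2,
    ipE_ae (hU.mem _ hq.2 _ hp.2).1 (hU.mem _ hs.2 _ hr.2).1,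
    mul_ae (p.1 * r.1) (C.Γ p.2 q.1 * C.Γ r.2 s.1 * C.Γ q.2 s.2
      + C.Γ p.2 q.1 * s.1 * C.hess s.2 r.2 q.2 + q.1 * C.Γ r.2 s.1 * C.hess q.2 p.2 s.2
      + q.1 * s.1 * UUof m U q.2 p.2 s.2 r.2),
    add_ae (C.Γ p.2 q.1 * C.Γ r.2 s.1 * C.Γ q.2 s.2 + C.Γ p.2 q.1 * s.1 * C.hess s.2 r.2 q.2
      + q.1 * C.Γ r.2 s.1 * C.hess q.2 p.2 s.2) (q.1 * s.1 * UUof m U q.2 p.2 s.2 r.2),
    add_ae (C.Γ p.2 q.1 * C.Γ r.2 s.1 * C.Γ q.2 s.2 + C.Γ p.2 q.1 * s.1 * C.hess s.2 r.2 q.2)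
      (q.1 * C.Γ r.2 s.1 * C.hess q.2 p.2 s.2),
    add_ae (C.Γ p.2 q.1 * C.Γ r.2 s.1 * C.Γ q.2 s.2) (C.Γ p.2 q.1 * s.1 * C.hess s.2 r.2 q.2),
    mul_ae (C.Γ p.2 q.1 * C.Γ r.2 s.1) (C.Γ q.2 s.2), mul_ae (C.Γ p.2 q.1) (C.Γ r.2 s.1),
    mul_ae (C.Γ p.2 q.1 * s.1) (C.hess s.2 r.2 q.2), mul_ae (C.Γ p.2 q.1) s.1,
    mul_ae (q.1 * C.Γ r.2 s.1) (C.hess q.2 p.2 s.2), mul_ae q.1 (C.Γ r.2 s.1),
    mul_ae (q.1 * s.1) (UUof m U q.2 p.2 s.2 r.2), mul_ae q.1 s.1, mul_ae p.1 r.1]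
    with x a1 a2 a3 a4 b1 b2 b3 b4 b5 b6 b7 b8 b9 b10 b11 b12 b13
  rw [b1, b2, b3, b4, b5, b6, b7, b8, b9, b10, b11, b12, b13]
  have a4' : UUof m U q.2 p.2 s.2 r.2 x = ⟪U q.2 p.2 x, U s.2 r.2 x⟫_ℝ := a4
  rw [a4', ← a1, ← a2, ← a3]
  unfold cvT
  simp only [inner_add_left, inner_add_right, real_inner_smul_left, real_inner_smul_right]
  rw [real_inner_comm (Gr q.2 x) (U s.2 r.2 x)]
  ring

theorem ct_ae (hC : IsGamma C) (hG : IsGrad C Gr) (hU : IsHU C Gr U) (hp : TP C p)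
    (hq : TP C q) (hr : TP C r) (hs : TP C s) :
    ∀ᵐ x ∂m, ⟪cvT C Gr U p q x, ctT C Gr U r s x⟫_ℝ = C.ctI (UUof m U) p q r s x := by
  have qW := hC.tW hq.2
  have rW := hC.tW hr.1
  unfold Calc.ctI
  filter_upwards [hG.inner _ qW _ rW, hU.inner _ hr.2 _ hs.2 _ hq.2, hU.inner _ hq.2 _ hp.2 _ hr.1,
    ipE_ae (hU.mem _ hq.2 _ hp.2).1 (hU.mem _ hr.2 _ hs.2).1,
    mul_ae (p.1 * s.1) (C.Γ p.2 q.1 * (C.Γ r.2 s.2 * C.Γ q.2 r.1 + r.1 * C.hess r.2 s.2 q.2)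
      + q.1 * (C.Γ r.2 s.2 * C.hess q.2 p.2 r.1 + r.1 * UUof m U q.2 p.2 r.2 s.2)),
    add_ae (C.Γ p.2 q.1 * (C.Γ r.2 s.2 * C.Γ q.2 r.1 + r.1 * C.hess r.2 s.2 q.2))
      (q.1 * (C.Γ r.2 s.2 * C.hess q.2 p.2 r.1 + r.1 * UUof m U q.2 p.2 r.2 s.2)),
    mul_ae (C.Γ p.2 q.1) (C.Γ r.2 s.2 * C.Γ q.2 r.1 + r.1 * C.hess r.2 s.2 q.2),
    add_ae (C.Γ r.2 s.2 * C.Γ q.2 r.1) (r.1 * C.hess r.2 s.2 q.2),
    mul_ae (C.Γ r.2 s.2) (C.Γ q.2 r.1), mul_ae r.1 (C.hess r.2 s.2 q.2),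
    mul_ae q.1 (C.Γ r.2 s.2 * C.hess q.2 p.2 r.1 + r.1 * UUof m U q.2 p.2 r.2 s.2),
    add_ae (C.Γ r.2 s.2 * C.hess q.2 p.2 r.1) (r.1 * UUof m U q.2 p.2 r.2 s.2),
    mul_ae (C.Γ r.2 s.2) (C.hess q.2 p.2 r.1), mul_ae r.1 (UUof m U q.2 p.2 r.2 s.2),
    mul_ae p.1 s.1]
    with x a1 a2 a3 a4 b1 b2 b3 b4 b5 b6 b7 b8 b9 b10 b11
  rw [b1, b2, b3, b4, b5, b6, b7, b8, b9, b10, b11]
  have a4' : UUof m U q.2 p.2 r.2 s.2 x = ⟪U q.2 p.2 x, U r.2 s.2 x⟫_ℝ := a4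
  rw [a4', ← a1, ← a2, ← a3]
  unfold cvT ctT
  simp only [inner_add_left, inner_add_right, real_inner_smul_left, real_inner_smul_right]
  rw [real_inner_comm (Gr q.2 x) (U r.2 s.2 x)]
  ring

theorem cn_ae (hC : IsGamma C) (hG : IsGrad C Gr) (hU : IsHU C Gr U) (hp : TP C p)
    (hq : TP C q) (hr : TP C r) :
    ∀ᵐ x ∂m, ⟪cvT C Gr U p q x, r.1 x • Gr r.2 x⟫_ℝ = C.nabI p q r x := by
  unfold Calc.nabI
  filter_upwards [hG.inner _ (hC.tW hq.2) _ (hC.tW hr.2), hU.inner _ hq.2 _ hp.2 _ hr.2,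
    mul_ae (p.1 * r.1) (C.Γ p.2 q.1 * C.Γ q.2 r.2 + q.1 * C.hess q.2 p.2 r.2),
    add_ae (C.Γ p.2 q.1 * C.Γ q.2 r.2) (q.1 * C.hess q.2 p.2 r.2),
    mul_ae (C.Γ p.2 q.1) (C.Γ q.2 r.2), mul_ae q.1 (C.hess q.2 p.2 r.2), mul_ae p.1 r.1]
    with x a1 a2 b1 b2 b3 b4 b5
  rw [b1, b2, b3, b4, b5, ← a1, ← a2]
  unfold cvT
  simp only [inner_add_left, real_inner_smul_left, real_inner_smul_right]
  ring

theorem tn_ae (hC : IsGamma C) {κ : ℝ} (hB : C.BEi κ) (hG : IsGrad C Gr) (hU : IsHU C Gr U)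
    (hp : TP C p) (hq : TP C q) (hr : TP C r) :
    ∀ᵐ x ∂m, ⟪p.1 x • Gr p.2 x, ctT C Gr U q r x⟫_ℝ = C.nabI p q r x := by
  unfold Calc.nabI
  filter_upwards [hG.inner _ (hC.tW hp.2) _ (hC.tW hq.1), hU.inner _ hq.2 _ hr.2 _ hp.2,
    mul_ae (p.1 * r.1) (C.Γ p.2 q.1 * C.Γ q.2 r.2 + q.1 * C.hess q.2 p.2 r.2),
    add_ae (C.Γ p.2 q.1 * C.Γ q.2 r.2) (q.1 * C.hess q.2 p.2 r.2),
    mul_ae (C.Γ p.2 q.1) (C.Γ q.2 r.2), mul_ae q.1 (C.hess q.2 p.2 r.2), mul_ae p.1 r.1]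
    with x a1 a2 b1 b2 b3 b4 b5
  rw [b1, b2, b3, b4, b5, hC.hess_symm hB hq.2 hp.2 hr.2, ← a1, ← a2]
  unfold ctT
  simp only [inner_add_right, real_inner_smul_left, real_inner_smul_right]
  rw [real_inner_comm (Gr p.2 x) (U q.2 r.2 x)]
  ring

end base

section fields

variable {X Y Z W : List ((M →ₘ[m] ℝ) × (M →ₘ[m] ℝ))}

theorem cvV_inCl [SigmaFinite m] (hC : IsGamma C) {κ : ℝ} (hB : C.BEi κ) (hG : IsGrad C Gr)
    (hU : IsHU C Gr U) (hX : C.IsTestV X) (hY : C.IsTestV Y) : InCl C Gr (cvV C Gr U X Y) :=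
  InCl.ls hG hC fun p hp => InCl.ls hG hC fun q hq => cvT_inCl hC hB hG hU (hX p hp) (hY q hq)

theorem ctV_inCl [SigmaFinite m] (hC : IsGamma C) {κ : ℝ} (hB : C.BEi κ) (hG : IsGrad C Gr)
    (hU : IsHU C Gr U) (hX : C.IsTestV X) (hY : C.IsTestV Y) : InCl C Gr (ctV C Gr U X Y) :=
  InCl.ls hG hC fun p hp => InCl.ls hG hC fun q hq => ctT_inCl hC hB hG hU (hX p hp) (hY q hq)

theorem ccV_ae (hC : IsGamma C) (hG : IsGrad C Gr) (hU : IsHU C Gr U) (hX : C.IsTestV X)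
    (hY : C.IsTestV Y) (hZ : C.IsTestV Z) (hW : C.IsTestV W) :
    ∀ᵐ x ∂m, ⟪cvV C Gr U X Y x, cvV C Gr U Z W x⟫_ℝ
      = (X.map fun p => (Y.map fun q => (Z.map fun r => (W.map fun s =>
          C.ccI (UUof m U) p q r s).sum).sum).sum).sum x :=
  inner_ls_left fun p hp => inner_ls_left fun q hq => inner_ls_right fun r hr =>
    inner_ls_right fun s hs => cc_ae hC hG hU (hX p hp) (hY q hq) (hZ r hr) (hW s hs)

theorem ctV_ae (hC : IsGamma C) (hG : IsGrad C Gr) (hU : IsHU C Gr U) (hX : C.IsTestV X)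
    (hY : C.IsTestV Y) (hZ : C.IsTestV Z) (hW : C.IsTestV W) :
    ∀ᵐ x ∂m, ⟪cvV C Gr U X Y x, ctV C Gr U Z W x⟫_ℝ
      = (X.map fun p => (Y.map fun q => (Z.map fun r => (W.map fun s =>
          C.ctI (UUof m U) p q r s).sum).sum).sum).sum x :=
  inner_ls_left fun p hp => inner_ls_left fun q hq => inner_ls_right fun r hr =>
    inner_ls_right fun s hs => ct_ae hC hG hU (hX p hp) (hY q hq) (hZ r hr) (hW s hs)

theorem nabV_ae (hC : IsGamma C) (hG : IsGrad C Gr) (hU : IsHU C Gr U) (hX : C.IsTestV X)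
    (hY : C.IsTestV Y) (hZ : C.IsTestV Z) :
    ∀ᵐ x ∂m, ⟪cvV C Gr U X Y x, fvec Gr Z x⟫_ℝ = C.nab X Y Z x :=
  inner_ls_left fun p hp => inner_ls_left fun q hq => inner_ls_right fun r hr =>
    cn_ae hC hG hU (hX p hp) (hY q hq) (hZ r hr)

theorem nabT_ae (hC : IsGamma C) {κ : ℝ} (hB : C.BEi κ) (hG : IsGrad C Gr) (hU : IsHU C Gr U)
    (hX : C.IsTestV X) (hY : C.IsTestV Y) (hZ : C.IsTestV Z) :
    ∀ᵐ x ∂m, ⟪fvec Gr X x, ctV C Gr U Y Z x⟫_ℝ = C.nab X Y Z x :=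
  inner_ls_left fun p hp => inner_ls_right fun q hq => inner_ls_right fun r hr =>
    tn_ae hC hB hG hU (hX p hp) (hY q hq) (hZ r hr)

variable {H : Type*} [NormedAddCommGroup H] [InnerProductSpace ℝ H] [CompleteSpace H]
  {ι : List ((M →ₘ[m] ℝ) × (M →ₘ[m] ℝ)) → H}

theorem covE_rep [SigmaFinite m] (hC : IsGamma C) {κ : ℝ} (hB : C.BEi κ) (hG : IsGrad C Gr)
    (hU : IsHU C Gr U) (hι : C.IsL2TM ι) (hX : C.IsTestV X) (hY : C.IsTestV Y) :
    (∃ V, C.IsCov ι X Y V) ∧ RepE C Gr ι (C.cov ι X Y) (lE m (cvV C Gr U X Y)) := by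
  have hcl := cvV_inCl hC hB hG hU hX hY
  obtain ⟨V, hV⟩ := repE_exists hG hC hι hcl
  have hcov : C.IsCov ι X Y V := by
    intro Z hZ
    rw [repE_inner hG hC hι hV (repE_self hZ)]
    unfold eE
    rw [lE_inner hcl.1 (mem_fvec hG hC hZ)]
    exact integral_congr_ae (nabV_ae hC hG hU hX hY hZ)
  refine ⟨⟨V, hcov⟩, ?_⟩
  have hex : ∃ V, C.IsCov ι X Y V := ⟨V, hcov⟩
  have e : C.cov ι X Y = V := by
    have h1 : C.cov ι X Y = hex.choose := by unfold Calc.cov; rw [dif_pos hex]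
    rw [h1]
    apply eqE_of_inner hι
    intro Z hZ
    rw [hex.choose_spec Z hZ, hcov Z hZ]
  rw [e]; exact hV

theorem covTE_rep [SigmaFinite m] (hC : IsGamma C) {κ : ℝ} (hB : C.BEi κ) (hG : IsGrad C Gr)
    (hU : IsHU C Gr U) (hι : C.IsL2TM ι) (hY : C.IsTestV Y) (hZ : C.IsTestV Z) :
    (∃ V, C.IsCovT ι Y Z V) ∧ RepE C Gr ι (C.covT ι Y Z) (lE m (ctV C Gr U Y Z)) := by
  have hcl := ctV_inCl hC hB hG hU hY hZ
  obtain ⟨V, hV⟩ := repE_exists hG hC hι hcl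
  have hcov : C.IsCovT ι Y Z V := by
    intro X hX
    rw [real_inner_comm, repE_inner hG hC hι (repE_self hX) hV]
    unfold eE
    rw [lE_inner (mem_fvec hG hC hX) hcl.1]
    exact integral_congr_ae (nabT_ae hC hB hG hU hX hY hZ)
  refine ⟨⟨V, hcov⟩, ?_⟩
  have hex : ∃ V, C.IsCovT ι Y Z V := ⟨V, hcov⟩
  have e : C.covT ι Y Z = V := by
    have h1 : C.covT ι Y Z = hex.choose := by unfold Calc.covT; rw [dif_pos hex]
    rw [h1]
    apply eqE_of_inner hι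
    intro Z hZ
    rw [hex.choose_spec Z hZ, hcov Z hZ]
  rw [e]; exact hV

end fields

/-! ### the curvature functional -/

theorem memI_of_inner {u v : M → E} {F : M →ₘ[m] ℝ} (hu : MemLp u 2 m) (hv : MemLp v 2 m)
    (h : ∀ᵐ x ∂m, ⟪u x, v x⟫_ℝ = F x) : MemLp F 1 m ∧ ⟪lE m u, lE m v⟫_ℝ = I F := by
  constructor
  · have h1 : Integrable (fun x => ⟪u x, v x⟫_ℝ) m := by
      refine (L2.integrable_inner (𝕜 := ℝ) hu.toLp hv.toLp).congr ?_
      filter_upwards [hu.coeFn_toLp, hv.coeFn_toLp] with x a1 a2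
      rw [a1, a2]
    exact (memLp_one_iff_integrable.2 h1).ae_eq h
  · rw [lE_inner hu hv]
    exact integral_congr_ae h

theorem I_comb6 {a b c d e e' : M →ₘ[m] ℝ} (ha : MemLp a 1 m) (hb : MemLp b 1 m)
    (hc : MemLp c 1 m) (hd : MemLp d 1 m) (he : MemLp e 1 m) (he' : MemLp e' 1 m) :
    I (-a - b + c + d - (e - e')) = -I a - I b + I c + I d - (I e - I e') := by
  rw [I_sub (mem_add (mem_add (mem_sub (mem_neg ha) hb) hc) hd) (mem_sub he he'), I_sub he he',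
    I_add (mem_add (mem_sub (mem_neg ha) hb) hc) hd, I_add (mem_sub (mem_neg ha) hb) hc,
    I_sub (mem_neg ha) hb, I_neg]

section curv

variable {X Y Z : List ((M →ₘ[m] ℝ) × (M →ₘ[m] ℝ))} {f : M →ₘ[m] ℝ}

theorem nab_mem2 (hC : IsGamma C) {κ : ℝ} (hB : C.BEi κ) (hX : C.IsTestV X) (hY : C.IsTestV Y)
    (hZ : C.IsTestV Z) : MemLp (C.nab X Y Z) 2 m := by
  unfold Calc.nab
  refine mem_ls fun p hp => mem_ls fun q hq => mem_ls fun r hr => ?_
  refine mem_mul_top (mem_mul_top (hC.test_A (hX p hp).1).2 (hC.test_A (hZ r hr).1).2)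
    (mem_add (mem_mul_top (hC.Γ_mem hB (hX p hp).2 (hY q hq).1).2
      (hC.memLp _ (hC.Γ_mem hB (hY q hq).2 (hZ r hr).2).1))
    (mem_mul_top (hC.test_A (hY q hq).1).2 (hC.hess_mem2 hB (hY q hq).2 (hX p hp).2
      (hZ r hr).2)))

theorem dv_mem2 (hC : IsGamma C) {κ : ℝ} (hB : C.BEi κ) (hX : C.IsTestV X) :
    MemLp (C.dv X) 2 m := by
  unfold Calc.dv
  refine mem_ls fun p hp => ?_
  exact mem_add (hC.memLp _ (hC.Γ_mem hB (hX p hp).1 (hX p hp).2).1)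
    (mem_mul_top (hC.test_A (hX p hp).1).2 (hC.lap2 (hX p hp).2))

theorem mulV_test (hC : IsGamma C) {κ : ℝ} (hB : C.BEi κ) (hX : C.IsTestV X)
    (hf : f ∈ C.Test) : C.IsTestV (Calc.mulV f X) := by
  intro r hr
  unfold Calc.mulV at hr
  rw [List.mem_map] at hr
  obtain ⟨s, hs, rfl⟩ := hr
  exact ⟨hC.test_mul hB hf (hX s hs).1, (hX s hs).2⟩

theorem ls_mulV {R : Type*} [AddCommMonoid R] (f : M →ₘ[m] ℝ)
    (X : List ((M →ₘ[m] ℝ) × (M →ₘ[m] ℝ))) (F : (M →ₘ[m] ℝ) × (M →ₘ[m] ℝ) → R) :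
    ((Calc.mulV f X).map F).sum = (X.map fun s => F (f * s.1, s.2)).sum := by
  unfold Calc.mulV
  rw [List.map_map]
  rfl

/-- the algebraic identity behind the curvature formula -/
theorem om_sum (UU : UUT m) (f : M →ₘ[m] ℝ) (X Y : List ((M →ₘ[m] ℝ) × (M →ₘ[m] ℝ))) :
    (X.map fun p => (Y.map fun q => (Y.map fun r => (X.map fun s =>
      C.omI UU f p q r s).sum).sum).sum).sum =
    -(X.map fun p => ((Calc.mulV f X).map fun s => (Y.map fun q => (Y.map fun r =>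
        C.ccI UU p s q r).sum).sum).sum).sum
      - f * C.nab Y Y X * C.dv X
      + (Y.map fun q => ((Calc.mulV f X).map fun s => (X.map fun p => (Y.map fun r =>
        C.ccI UU q s p r).sum).sum).sum).sum
      + f * C.nab X Y X * C.dv Y
      - ((X.map fun p => (Y.map fun q => (Y.map fun r => ((Calc.mulV f X).map fun s =>
        C.ctI UU p q r s).sum).sum).sum).sum
        - (Y.map fun q => (X.map fun p => (Y.map fun r => ((Calc.mulV f X).map fun s =>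
        C.ctI UU q p r s).sum).sum).sum).sum) := by
  have e1 : (X.map fun p => ((Calc.mulV f X).map fun s => (Y.map fun q => (Y.map fun r =>
        C.ccI UU p s q r).sum).sum).sum).sum
      = (X.map fun p => (Y.map fun q => (Y.map fun r => (X.map fun s =>
        C.ccI UU p (f * s.1, s.2) q r).sum).sum).sum).sum := by
    refine ls_congr fun p _ => ?_
    rw [ls_mulV, ls_comm]
    refine ls_congr fun q _ => ?_
    rw [ls_comm]
  have e2 : (Y.map fun q => ((Calc.mulV f X).map fun s => (X.map fun p => (Y.map fun r =>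
        C.ccI UU q s p r).sum).sum).sum).sum
      = (X.map fun p => (Y.map fun q => (Y.map fun r => (X.map fun s =>
        C.ccI UU q (f * s.1, s.2) p r).sum).sum).sum).sum := by
    rw [ls_comm X Y]
    refine ls_congr fun q _ => ?_
    rw [ls_mulV, ls_comm]
    refine ls_congr fun p _ => ?_
    rw [ls_comm]
  have e3 : (X.map fun p => (Y.map fun q => (Y.map fun r => ((Calc.mulV f X).map fun s =>
        C.ctI UU p q r s).sum).sum).sum).sum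
      = (X.map fun p => (Y.map fun q => (Y.map fun r => (X.map fun s =>
        C.ctI UU p q r (f * s.1, s.2)).sum).sum).sum).sum := by
    simp only [ls_mulV]
  have e4 : (Y.map fun q => (X.map fun p => (Y.map fun r => ((Calc.mulV f X).map fun s =>
        C.ctI UU q p r s).sum).sum).sum).sum
      = (X.map fun p => (Y.map fun q => (Y.map fun r => (X.map fun s =>
        C.ctI UU q p r (f * s.1, s.2)).sum).sum).sum).sum := by
    rw [ls_comm X Y]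
    simp only [ls_mulV]
  have e5 : f * C.nab Y Y X * C.dv X = (X.map fun p => (Y.map fun q => (Y.map fun r =>
      (X.map fun s => f * C.nabI q r s * C.dvI p).sum).sum).sum).sum := by
    simp only [ls_mul', ls_mul]
    rfl
  have e6 : f * C.nab X Y X * C.dv Y = (X.map fun p => (Y.map fun q => (Y.map fun r =>
      (X.map fun s => f * C.nabI p r s * C.dvI q).sum).sum).sum).sum := by
    simp only [ls_mul', ls_mul]
    rfl
  rw [e1, e2, e3, e4, e5, e6]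
  simp only [Calc.omI, ls_sub, List.sum_map_add, ls_neg]

theorem glue {H : Type*} [NormedAddCommGroup H] [InnerProductSpace ℝ H] [CompleteSpace H]
    [SigmaFinite m] (hC : IsGamma C) {κ : ℝ} (hB : C.BEi κ) (hG : IsGrad C Gr)
    (hU : IsHU C Gr U) {ι : List ((M →ₘ[m] ℝ) × (M →ₘ[m] ℝ)) → H} (hι : C.IsL2TM ι)
    (hX : C.IsTestV X) (hY : C.IsTestV Y) :
    (∃ V, C.IsCov ι X Y V) ∧ (∃ V, C.IsCovT ι X Y V) ∧ ∀ f ∈ C.Test,
      C.curv ι X Y Y X f = I ((X.map fun p => (Y.map fun q => (Y.map fun r => (X.map fun s =>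
        C.omI (UUof m U) f p q r s).sum).sum).sum).sum) := by
  refine ⟨(covE_rep hC hB hG hU hι hX hY).1, (covTE_rep hC hB hG hU hι hX hY).1, fun f hf => ?_⟩
  have hV := mulV_test hC hB hX hf
  have r1 := (covE_rep hC hB hG hU hι hX hV).2
  have r2 := (covE_rep hC hB hG hU hι hY hY).2
  have r3 := (covE_rep hC hB hG hU hι hY hV).2
  have r4 := (covE_rep hC hB hG hU hι hX hY).2
  have r5 := (covE_rep hC hB hG hU hι hY hX).2
  have r6 := (covTE_rep hC hB hG hU hι hY hV).2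
  have i1 := repE_inner hG hC hι r1 r2
  have i2 := repE_inner hG hC hι r3 r4
  have i3 := repE_inner hG hC hι r4 r6
  have i4 := repE_inner hG hC hι r5 r6
  have c1 := (cvV_inCl hC hB hG hU hX hV).1
  have c2 := (cvV_inCl hC hB hG hU hY hY).1
  have c3 := (cvV_inCl hC hB hG hU hY hV).1
  have c4 := (cvV_inCl hC hB hG hU hX hY).1
  have c5 := (cvV_inCl hC hB hG hU hY hX).1
  have c6 := (ctV_inCl hC hB hG hU hY hV).1
  obtain ⟨m1, j1⟩ := memI_of_inner c1 c2 (ccV_ae hC hG hU hX hV hY hY)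
  obtain ⟨m2, j2⟩ := memI_of_inner c3 c4 (ccV_ae hC hG hU hY hV hX hY)
  obtain ⟨m3, j3⟩ := memI_of_inner c4 c6 (ctV_ae hC hG hU hX hY hY hV)
  obtain ⟨m4, j4⟩ := memI_of_inner c5 c6 (ctV_ae hC hG hU hY hX hY hV)
  have fT := (hC.test_A hf).2
  have n5 : MemLp (f * C.nab Y Y X * C.dv X) 1 m :=
    mem_mul_22 (mem_mul_top fT (nab_mem2 hC hB hY hY hX)) (dv_mem2 hC hB hX)
  have n6 : MemLp (f * C.nab X Y X * C.dv Y) 1 m :=
    mem_mul_22 (mem_mul_top fT (nab_mem2 hC hB hX hY hX)) (dv_mem2 hC hB hY)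
  have d5 : ∫ x, (f * C.nab Y Y X * C.dv X) x ∂m = I (f * C.nab Y Y X * C.dv X) := rfl
  have d6 : ∫ x, (f * C.nab X Y X * C.dv Y) x ∂m = I (f * C.nab X Y X * C.dv Y) := rfl
  unfold Calc.curv
  rw [inner_sub_left, i1, i2, i3, i4, j1, j2, j3, j4, d5, d6, om_sum,
    ← I_comb6 m1 n5 m2 n6 m3 m4]

end curv

end Vale.Agent.P233
end

section

open MeasureTheory Filter Topology
open scoped ENNReal NNReal InnerProductSpace

namespace Vale.Agent.P233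

variable {M : Type*} [MeasurableSpace M] {m : Measure M} {C : Calc m}
variable {E : Type*} [NormedAddCommGroup E] [InnerProductSpace ℝ E] {Gr : (M →ₘ[m] ℝ) → M → E}

/-- `w` is in the closure of the test vector fields -/
def InClo (C : Calc m) (Gr : (M →ₘ[m] ℝ) → M → E) (w : M → E) : Prop :=
  MemLp w 2 m ∧ ∀ ε > 0, ∃ Z, C.IsTestV Z ∧ eLpNorm (fun x => w x - fvec Gr Z x) 2 m < ε

theorem abs_int_inner_le {u v : M → E} (hu : MemLp u 2 m) (hv : MemLp v 2 m) :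
    |∫ x, ⟪u x, v x⟫_ℝ ∂m| ≤ (eLpNorm u 2 m).toReal * (eLpNorm v 2 m).toReal := by
  have h1 : ∫ x, ⟪u x, v x⟫_ℝ ∂m = ⟪hu.toLp, hv.toLp⟫_ℝ := by
    rw [L2.inner_def]
    refine integral_congr_ae ?_
    filter_upwards [hu.coeFn_toLp, hv.coeFn_toLp] with x a1 a2
    rw [a1, a2]
  rw [h1]
  refine (abs_real_inner_le_norm _ _).trans ?_
  rw [Lp.norm_toLp, Lp.norm_toLp]

theorem int_inner_integrable {u v : M → E} (hu : MemLp u 2 m) (hv : MemLp v 2 m) :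
    Integrable (fun x => ⟪u x, v x⟫_ℝ) m := by
  refine (L2.integrable_inner (𝕜 := ℝ) hu.toLp hv.toLp).congr ?_
  filter_upwards [hu.coeFn_toLp, hv.coeFn_toLp] with x a1 a2
  rw [a1, a2]

theorem eLpNorm_sq_eq {u : M → E} (hu : MemLp u 2 m) :
    (eLpNorm u 2 m).toReal ^ 2 = ∫ x, ‖u x‖ ^ 2 ∂m := by
  rw [← Lp.norm_toLp u hu, ← real_inner_self_eq_norm_sq, L2.inner_def]
  refine integral_congr_ae ?_
  filter_upwards [hu.coeFn_toLp] with x a1
  rw [a1, real_inner_self_eq_norm_sq]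

namespace IsGrad

variable (hG : IsGrad C Gr) (hC : IsGamma C)
include hG hC

theorem bdd {b : M →ₘ[m] ℝ} (hb : b ∈ C.Test) : MemLp (Gr b) ∞ m := by
  obtain ⟨K, hK⟩ := mem_top_iff.1 (hC.test_Γ_top hb)
  refine memLp_top_of_bound (hG.mem b (hC.tW hb)).1 (Real.sqrt |K|) ?_
  filter_upwards [hG.inner b (hC.tW hb) b (hC.tW hb), hK] with x a2 a3
  rw [← Real.sqrt_sq (norm_nonneg (Gr b x)), ← real_inner_self_eq_norm_sq, a2]
  exact Real.sqrt_le_sqrt ((le_abs_self _).trans (a3.trans (le_abs_self _)))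

theorem fvec_mem {Z : List ((M →ₘ[m] ℝ) × (M →ₘ[m] ℝ))} (hZ : C.IsTestV Z) :
    MemLp (fvec Gr Z) 2 m := by
  induction Z with
  | nil => rw [fvec_nil]; exact MemLp.zero
  | cons p Z ih =>
    have h1 := hG.smul_mem2 (hC.test_A (hZ p (by simp)).1).2 (hC.tW (hZ p (by simp)).2)
    have h2 := ih fun q hq => hZ q (by simp [hq])
    refine (h1.add h2).ae_eq ?_
    filter_upwards with x
    rw [fvec_cons]; rfl

omit hG in
theorem fvec_smul {κ : ℝ} (hB : C.BEi κ) (t : ℝ) {Z : List ((M →ₘ[m] ℝ) × (M →ₘ[m] ℝ))}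
    (hZ : C.IsTestV Z) :
    ∃ Z', C.IsTestV Z' ∧ ∀ᵐ x ∂m, fvec Gr Z' x = t • fvec Gr Z x := by
  refine ⟨Z.map fun p => (t • p.1, p.2), ?_, ?_⟩
  · intro q hq
    rw [List.mem_map] at hq
    obtain ⟨p, hp, rfl⟩ := hq
    exact ⟨hC.test_smul hB _ (hZ p hp).1, (hZ p hp).2⟩
  · have h : ∀ᵐ x ∂m, ∀ p ∈ Z, (t • p.1 : M →ₘ[m] ℝ) x = t * p.1 x := by
      induction Z with
      | nil => simp
      | cons p Z ih =>
        filter_upwards [ih (fun q hq => hZ q (by simp [hq])), smul_ae p.1 t] with x a1 a2 q hq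
        rcases List.mem_cons.1 hq with h | h
        · rw [h, a2]
        · exact a1 q h
    filter_upwards [h] with x hx
    unfold fvec
    rw [List.map_map, List.smul_sum, List.map_map]
    congr 1
    refine List.map_congr_left fun p hp => ?_
    simp only [Function.comp]
    rw [hx p hp, smul_smul]

end IsGrad

namespace InClo

variable {u v w : M → E}

theorem add (hG : IsGrad C Gr) (hC : IsGamma C) (hu : InClo C Gr u) (hv : InClo C Gr v) :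
    InClo C Gr (fun x => u x + v x) := by
  refine ⟨hu.1.add hv.1, fun ε hε => ?_⟩
  have hε2 : ε / 2 ≠ 0 := by
    intro h; rw [ENNReal.div_eq_zero_iff] at h; rcases h with h | h
    · exact hε.ne' h
    · exact absurd h (by simp)
  obtain ⟨Z1, h1, h2⟩ := hu.2 (ε / 2) (pos_iff_ne_zero.2 hε2)
  obtain ⟨Z2, h3, h4⟩ := hv.2 (ε / 2) (pos_iff_ne_zero.2 hε2)
  refine ⟨Z1 ++ Z2, fun p hp => ?_, ?_⟩
  · rcases List.mem_append.1 hp with h | h
    · exact h1 p h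
    · exact h3 p h
  · have e : (fun x => u x + v x - fvec Gr (Z1 ++ Z2) x)
        = (fun x => u x - fvec Gr Z1 x) + fun x => v x - fvec Gr Z2 x := by
      funext x
      simp only [Pi.add_apply]
      rw [IsGrad.fvec_append]
      abel
    rw [e]
    refine lt_of_le_of_lt (eLpNorm_add_le ((hu.1.sub (hG.fvec_mem hC h1)).1)
      ((hv.1.sub (hG.fvec_mem hC h3)).1) (by norm_num)) ?_
    calc _ < ε / 2 + ε / 2 := ENNReal.add_lt_add h2 h4
      _ = ε := ENNReal.add_halves ε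

theorem smul {κ : ℝ} (hB : C.BEi κ) (hG : IsGrad C Gr) (hC : IsGamma C) (t : ℝ)
    (hu : InClo C Gr u) : InClo C Gr (fun x => t • u x) := by
  refine ⟨hu.1.const_smul t, fun ε hε => ?_⟩
  have hc : (ENNReal.ofReal (|t| + 1)) ≠ 0 := by
    simp only [ne_eq, ENNReal.ofReal_eq_zero, not_le]; positivity
  have hε2 : ε / ENNReal.ofReal (|t| + 1) ≠ 0 := by
    intro h; rw [ENNReal.div_eq_zero_iff] at h; rcases h with h | h
    · exact hε.ne' h
    · exact ENNReal.ofReal_ne_top h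
  obtain ⟨Z1, h1, h2⟩ := hu.2 _ (pos_iff_ne_zero.2 hε2)
  obtain ⟨Z', h3, h4⟩ := IsGrad.fvec_smul (Gr := Gr) hC hB t h1
  refine ⟨Z', h3, ?_⟩
  have e : eLpNorm (fun x => t • u x - fvec Gr Z' x) 2 m
      = eLpNorm (t • fun x => u x - fvec Gr Z1 x) 2 m := by
    refine eLpNorm_congr_ae ?_
    filter_upwards [h4] with x hx
    rw [hx, Pi.smul_apply, smul_sub]
  rw [e, eLpNorm_const_smul]
  have h5 : ‖t‖ₑ ≤ ENNReal.ofReal (|t| + 1) := by
    rw [← ofReal_norm]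
    exact ENNReal.ofReal_le_ofReal (by rw [Real.norm_eq_abs]; linarith)
  calc ‖t‖ₑ * eLpNorm (fun x => u x - fvec Gr Z1 x) 2 m
      ≤ ENNReal.ofReal (|t| + 1) * eLpNorm (fun x => u x - fvec Gr Z1 x) 2 m := by gcongr
    _ < ENNReal.ofReal (|t| + 1) * (ε / ENNReal.ofReal (|t| + 1)) :=
        ENNReal.mul_lt_mul_right hc ENNReal.ofReal_ne_top h2
    _ = ε := ENNReal.mul_div_cancel hc ENNReal.ofReal_ne_top

/-- an element of the closure that is orthogonal to all gradients vanishes -/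
theorem eq_zero (hG : IsGrad C Gr) (hC : IsGamma C) (hw : InClo C Gr w)
    (h : ∀ c ∈ C.Test, ∀ᵐ x ∂m, ⟪w x, Gr c x⟫_ℝ = 0) : ∀ᵐ x ∂m, w x = 0 := by
  have hf : ∀ Z, C.IsTestV Z → ∀ᵐ x ∂m, ⟪w x, fvec Gr Z x⟫_ℝ = 0 := by
    intro Z hZ
    induction Z with
    | nil =>
      filter_upwards with x
      rw [IsGrad.fvec_nil]; simp
    | cons p Z ih =>
      filter_upwards [ih fun q hq => hZ q (by simp [hq]), h p.2 (hZ p (by simp)).2] with x a1 a2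
      rw [IsGrad.fvec_cons, inner_add_right, a1, real_inner_smul_right, a2]; simp
  have h0 : ∫ x, ‖w x‖ ^ 2 ∂m = 0 := by
    have key : ∀ ε : ℝ, 0 < ε → |∫ x, ‖w x‖ ^ 2 ∂m| ≤ (eLpNorm w 2 m).toReal * ε := by
      intro ε hε
      obtain ⟨Z, hZ, hZε⟩ := hw.2 (ENNReal.ofReal ε) (by simpa using hε)
      have hd : MemLp (fun x => w x - fvec Gr Z x) 2 m := hw.1.sub (hG.fvec_mem hC hZ)
      have e1 : ∫ x, ‖w x‖ ^ 2 ∂m = ∫ x, ⟪w x, w x - fvec Gr Z x⟫_ℝ ∂m := by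
        refine integral_congr_ae ?_
        filter_upwards [hf Z hZ] with x hx
        rw [inner_sub_right, hx, real_inner_self_eq_norm_sq, sub_zero]
      rw [e1]
      refine (abs_int_inner_le hw.1 hd).trans ?_
      refine mul_le_mul_of_nonneg_left ?_ ENNReal.toReal_nonneg
      exact (ENNReal.toReal_le_of_le_ofReal hε.le hZε.le)
    have h1 : |∫ x, ‖w x‖ ^ 2 ∂m| ≤ 0 := by
      refine le_of_forall_pos_le_add fun ε hε => ?_
      refine (key (ε / ((eLpNorm w 2 m).toReal + 1)) (by positivity)).trans ?_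
      rw [zero_add, mul_div_assoc', div_le_iff₀ (by positivity)]
      linarith only [hε]
    exact abs_eq_zero.1 (le_antisymm h1 (abs_nonneg _))
  have h2 := (integral_eq_zero_iff_of_nonneg (fun x => sq_nonneg ‖w x‖)
    (hw.1.integrable_norm_pow two_ne_zero)).1 h0
  filter_upwards [h2] with x hx
  simpa using hx

end InClo

end Vale.Agent.P233
end

section

open MeasureTheory Filter Topology
open scoped ENNReal NNReal InnerProductSpace

namespace Vale.Agent.P233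

variable {M : Type*} [MeasurableSpace M] {m : Measure M} {C : Calc m}
variable {E : Type*} [NormedAddCommGroup E] [InnerProductSpace ℝ E] {Gr : (M →ₘ[m] ℝ) → M → E}
variable {U : (M →ₘ[m] ℝ) → (M →ₘ[m] ℝ) → M → E}

theorem exists_pos_ofReal_lt {ε : ℝ≥0∞} (hε : 0 < ε) : ∃ δ : ℝ, 0 < δ ∧ ENNReal.ofReal δ < ε := by
  by_cases h : ε = ∞
  · exact ⟨1, one_pos, by rw [h]; exact ENNReal.ofReal_lt_top⟩
  · refine ⟨ε.toReal / 2, half_pos (ENNReal.toReal_pos hε.ne' h), ?_⟩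
    rw [ENNReal.ofReal_lt_iff_lt_toReal (by positivity) h]
    exact half_lt_self (ENNReal.toReal_pos hε.ne' h)

theorem eLpNorm_lt_of_int {u : M → E} (hu : MemLp u 2 m) {δ : ℝ} (hδ : 0 < δ)
    (h : ∫ x, ‖u x‖ ^ 2 ∂m < δ ^ 2) : eLpNorm u 2 m < ENNReal.ofReal δ := by
  rw [← eLpNorm_sq_eq hu] at h
  have h1 := lt_of_pow_lt_pow_left₀ 2 hδ.le h
  rwa [ENNReal.lt_ofReal_iff_toReal_lt hu.2.ne]

variable (hC : IsGamma C) {κ : ℝ} (hB : C.BEi κ) (hG : IsGrad C Gr) (hU : IsHU C Gr U)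
variable {f g h φ ψ a b c d a' b' : M →ₘ[m] ℝ}

include hC hB hG in
/-- gradients of Sobolev functions are in the closure of the test fields -/
theorem incl_grad [SigmaFinite m] (hh : h ∈ C.W) : InClo C Gr (Gr h) := by
  refine ⟨hG.mem h hh, fun ε hε => ?_⟩
  obtain ⟨δ, hδ, hδε⟩ := exists_pos_ofReal_lt hε
  obtain ⟨g, hg, hgh⟩ := hC.test_dense hB hh (ε := (δ / 2) ^ 2) (by positivity)
  obtain ⟨χ, Λ, hT, -, hb1, hconv, -⟩ := hC.exists_cut hB
  have gW := hC.tW hg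
  have hgm : MemLp (fun x => Gr g x - Gr h x) 2 m := (hG.mem g gW).sub (hG.mem h hh)
  have e1 : ∫ x, ‖Gr g x - Gr h x‖ ^ 2 ∂m < (δ / 2) ^ 2 := by
    have e2 : ∫ x, ‖Gr g x - Gr h x‖ ^ 2 ∂m = I (C.Γ (g - h) (g - h)) := by
      rw [← hG.int_norm_sq (hC.sub_mem gW hh)]
      refine integral_congr_ae ?_
      filter_upwards [hG.sub hC.toIsDir gW hh] with x hx
      rw [hx]
    rw [e2]
    have h3 := hC.E_le_nrm2 (g - h)
    exact lt_of_le_of_lt h3 hgh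
  have n1 := eLpNorm_lt_of_int hgm (by positivity) e1
  -- cut off
  have hk : Tendsto (fun k => I ((χ k - 1) ^ 2 * C.Γ g g)) atTop (𝓝 0) := by
    have h1 : Tendsto (fun k => I ((χ k - 1) ^ 2 * C.Γ g g)) atTop
        (𝓝 (I (0 * C.Γ g g))) := by
      refine I_tendsto_of_bdd (K := 4) (fun k => ?_) ?_ (hC.mem1 g gW)
      · filter_upwards [hb1 k, sq_ae (χ k - 1), sub_ae (χ k) 1, one_ae (M := M) (m := m)]
          with x a1 a2 a3 a4
        rw [a2, a3, a4, abs_of_nonneg (sq_nonneg _)]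
        rw [abs_le] at a1
        linarith only [mul_nonneg (sub_nonneg.2 a1.1) (sub_nonneg.2 a1.2), mul_nonneg (sub_nonneg.2 a1.1) (sub_nonneg.2 a1.1)]
      · have : ∀ᵐ x ∂m, ∀ k, ((χ k - 1) ^ 2 : M →ₘ[m] ℝ) x = (χ k x - 1) ^ 2 := by
          rw [ae_all_iff]; intro k
          filter_upwards [sq_ae (χ k - 1), sub_ae (χ k) 1, one_ae (M := M) (m := m)]
            with x a2 a3 a4
          rw [a2, a3, a4]
        filter_upwards [hconv, this, zero_ae (M := M) (m := m)] with x a1 a2 a3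
        rw [a3]
        simp only [a2]
        have := (a1.sub_const 1).pow 2
        simpa using this
    rwa [zero_mul, I_zero] at h1
  obtain ⟨k, hk2⟩ := (hk.eventually (gt_mem_nhds (show (0 : ℝ) < (δ / 2) ^ 2 by positivity))).exists
  have hcm : MemLp (fun x => χ k x • Gr g x) 2 m :=
    hG.smul_mem2 (hC.test_A (hT k)).2 gW
  have hdm : MemLp (fun x => χ k x • Gr g x - Gr g x) 2 m := hcm.sub (hG.mem g gW)
  have n2 := eLpNorm_lt_of_int hdm (δ := δ / 2) (by positivity) (by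
    refine lt_of_eq_of_lt (integral_congr_ae ?_) hk2
    filter_upwards [mul_ae ((χ k - 1) ^ 2) (C.Γ g g), sq_ae (χ k - 1), sub_ae (χ k) 1,
      one_ae (M := M) (m := m), hG.norm_sq gW] with x a1 a2 a3 a4 a5
    rw [a1, a2, a3, a4, ← a5]
    have : χ k x • Gr g x - Gr g x = (χ k x - 1) • Gr g x := by rw [sub_smul, one_smul]
    rw [this, norm_smul, mul_pow, Real.norm_eq_abs, sq_abs])
  refine ⟨[(χ k, g)], ?_, ?_⟩
  · intro p hp
    rw [List.mem_singleton] at hp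
    rw [hp]; exact ⟨hT k, hg⟩
  · have e3 : (fun x => Gr h x - fvec Gr [(χ k, g)] x)
        = fun x => -((χ k x • Gr g x - Gr g x) + (Gr g x - Gr h x)) := by
      funext x
      rw [IsGrad.fvec_cons, IsGrad.fvec_nil]
      simp only [Pi.zero_apply, add_zero]
      abel
    rw [e3]
    have e4 : eLpNorm (fun x => -((χ k x • Gr g x - Gr g x) + (Gr g x - Gr h x))) 2 m
        = eLpNorm ((fun x => χ k x • Gr g x - Gr g x) + fun x => Gr g x - Gr h x) 2 m := by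
      rw [← eLpNorm_neg]; congr 1; funext x; simp
    rw [e4]
    refine lt_of_le_of_lt (eLpNorm_add_le hdm.1 hgm.1 (by norm_num)) (lt_trans
      (ENNReal.add_lt_add n2 n1) ?_)
    rw [← ENNReal.ofReal_add (by positivity) (by positivity), add_halves]
    exact hδε

namespace IsHU
include hU

theorem incl (hb : b ∈ C.Test) (ha : a ∈ C.Test) : InClo C Gr (U b a) :=
  ⟨hU.mem b hb a ha, hU.dense b hb a ha⟩

include hC hB hG

theorem lin_b (t : ℝ) (hb : b ∈ C.Test) (hb' : b' ∈ C.Test) (ha : a ∈ C.Test) :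
    ∀ᵐ x ∂m, U (b + t • b') a x = U b a x + t • U b' a x := by
  have hs := hC.test_add hB hb (hC.test_smul hB t hb')
  have i1 := (hU.incl hs ha).add hG hC (((hU.incl hb ha).add hG hC
    ((hU.incl hb' ha).smul hB hG hC t)).smul hB hG hC (-1))
  have h0 := i1.eq_zero hG hC fun c hc => by
    filter_upwards [hU.inner _ hs _ ha _ hc, hU.inner _ hb _ ha _ hc, hU.inner _ hb' _ ha _ hc,
      eq_iff_ae.1 (hC.hess_lin1 hB t hb hb' ha hc), add_ae (C.hess b a c) (t • C.hess b' a c),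
      smul_ae (C.hess b' a c) t] with x a1 a2 a3 a4 a5 a6
    rw [inner_add_left, real_inner_smul_left, inner_add_left, real_inner_smul_left, a1, a2, a3, a4,
      a5, a6]
    ring
  filter_upwards [h0] with x hx
  rw [neg_one_smul, ← sub_eq_add_neg, sub_eq_zero] at hx
  exact hx

theorem lin_a (t : ℝ) (ha : a ∈ C.Test) (ha' : a' ∈ C.Test) (hb : b ∈ C.Test) :
    ∀ᵐ x ∂m, U b (a + t • a') x = U b a x + t • U b a' x := by
  have hs := hC.test_add hB ha (hC.test_smul hB t ha')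
  have i1 := (hU.incl hb hs).add hG hC (((hU.incl hb ha).add hG hC
    ((hU.incl hb ha').smul hB hG hC t)).smul hB hG hC (-1))
  have h0 := i1.eq_zero hG hC fun c hc => by
    filter_upwards [hU.inner _ hb _ hs _ hc, hU.inner _ hb _ ha _ hc, hU.inner _ hb _ ha' _ hc,
      eq_iff_ae.1 (hC.hess_lin2 hB t ha ha' hb hc), add_ae (C.hess b a c) (t • C.hess b a' c),
      smul_ae (C.hess b a' c) t] with x a1 a2 a3 a4 a5 a6
    rw [inner_add_left, real_inner_smul_left, inner_add_left, real_inner_smul_left, a1, a2, a3, a4,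
      a5, a6]
    ring
  filter_upwards [h0] with x hx
  rw [neg_one_smul, ← sub_eq_add_neg, sub_eq_zero] at hx
  exact hx

theorem sym [SigmaFinite m] (ha : a ∈ C.Test) (hb : b ∈ C.Test) :
    ∀ᵐ x ∂m, U a b x + U b a x = Gr (C.Γ a b) x := by
  have hg := (hC.Γ_mem hB ha hb).1
  have i1 := ((hU.incl ha hb).add hG hC (hU.incl hb ha)).add hG hC
    ((incl_grad hC hB hG hg).smul hB hG hC (-1))
  have h0 := i1.eq_zero hG hC fun c hc => by
    have e : C.hess a b c + C.hess b a c = C.Γ c (C.Γ a b) := by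
      unfold Calc.hess
      rw [hC.symm _ (hC.tW hb) _ (hC.tW ha)]
      algebra
    filter_upwards [hU.inner _ ha _ hb _ hc, hU.inner _ hb _ ha _ hc, hG.inner _ hg _ (hC.tW hc),
      eq_iff_ae.1 e, add_ae (C.hess a b c) (C.hess b a c),
      eq_iff_ae.1 (hC.symm _ (hC.tW hc) _ hg)] with x a1 a2 a3 a4 a5 a6
    rw [inner_add_left, real_inner_smul_left, inner_add_left, a1, a2, a3, ← a6, ← a4, a5]
    ring
  filter_upwards [h0] with x hx
  rw [neg_one_smul, ← sub_eq_add_neg, sub_eq_zero] at hx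
  exact hx

/-- `UUof m U` is a good family -/
theorem isUU : C.IsUU (UUof m U) := by
  have hm : ∀ {b a : M →ₘ[m] ℝ}, b ∈ C.Test → a ∈ C.Test → AEStronglyMeasurable (U b a) m :=
    fun hb ha => (hU.mem _ hb _ ha).1
  refine ⟨fun a ha b hb c hc d hd => ipE_mem (hU.mem _ ha _ hb) (hU.mem _ hc _ hd),
    ?_, ?_, ?_, ?_⟩
  · intro a ha a' ha' b hb c hc d hd t
    have hs := hC.test_add hB ha (hC.test_smul hB t ha')
    rw [eq_iff_ae]
    filter_upwards [ipE_ae (hm hs hb) (hm hc hd), ipE_ae (hm ha hb) (hm hc hd),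
      ipE_ae (hm ha' hb) (hm hc hd), hU.lin_b hC hB hG t ha ha' hb,
      add_ae (UUof m U a b c d) (t • UUof m U a' b c d), smul_ae (UUof m U a' b c d) t]
      with x a1 a2 a3 a4 a5 a6
    rw [a5, a6]
    unfold UUof
    rw [a1, a2, a3, a4, inner_add_left, real_inner_smul_left]
  · intro a ha a' ha' b hb c hc d hd t
    have hs := hC.test_add hB ha (hC.test_smul hB t ha')
    rw [eq_iff_ae]
    filter_upwards [ipE_ae (hm hb hs) (hm hc hd), ipE_ae (hm hb ha) (hm hc hd),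
      ipE_ae (hm hb ha') (hm hc hd), hU.lin_a hC hB hG t ha ha' hb,
      add_ae (UUof m U b a c d) (t • UUof m U b a' c d), smul_ae (UUof m U b a' c d) t]
      with x a1 a2 a3 a4 a5 a6
    rw [a5, a6]
    unfold UUof
    rw [a1, a2, a3, a4, inner_add_left, real_inner_smul_left]
  · intro a ha a' ha' b hb c hc d hd t
    have hs := hC.test_add hB ha (hC.test_smul hB t ha')
    rw [eq_iff_ae]
    filter_upwards [ipE_ae (hm hb hc) (hm hs hd), ipE_ae (hm hb hc) (hm ha hd),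
      ipE_ae (hm hb hc) (hm ha' hd), hU.lin_b hC hB hG t ha ha' hd,
      add_ae (UUof m U b c a d) (t • UUof m U b c a' d), smul_ae (UUof m U b c a' d) t]
      with x a1 a2 a3 a4 a5 a6
    rw [a5, a6]
    unfold UUof
    rw [a1, a2, a3, a4, inner_add_right, real_inner_smul_right]
  · intro a ha a' ha' b hb c hc d hd t
    have hs := hC.test_add hB ha (hC.test_smul hB t ha')
    rw [eq_iff_ae]
    filter_upwards [ipE_ae (hm hb hc) (hm hd hs), ipE_ae (hm hb hc) (hm hd ha),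
      ipE_ae (hm hb hc) (hm hd ha'), hU.lin_a hC hB hG t ha ha' hd,
      add_ae (UUof m U b c d a) (t • UUof m U b c d a'), smul_ae (UUof m U b c d a') t]
      with x a1 a2 a3 a4 a5 a6
    rw [a5, a6]
    unfold UUof
    rw [a1, a2, a3, a4, inner_add_right, real_inner_smul_right]

end IsHU

end Vale.Agent.P233
end

section

open MeasureTheory Filter Topology
open scoped ENNReal NNReal InnerProductSpace

namespace Vale.Agent.P233

variable {M : Type*} [MeasurableSpace M] {m : Measure M} {C : Calc m}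
variable {E : Type*} [NormedAddCommGroup E] [InnerProductSpace ℝ E] {Gr : (M →ₘ[m] ℝ) → M → E}
variable {U : (M →ₘ[m] ℝ) → (M →ₘ[m] ℝ) → M → E}

theorem fin_big {p q : ℕ} {G : Fin p → Fin p → Fin q → Fin q → M →ₘ[m] ℝ}
    (hGm : ∀ j l i k, MemLp (G j l i k) 1 m) :
    I (∑ j, ∑ l, ∑ i, ∑ k, G j l i k) = ∑ j, ∑ l, ∑ i, ∑ k, I (G j l i k) := by
  have m1 : ∀ j l i, MemLp (∑ k, G j l i k : M →ₘ[m] ℝ) 1 m := fun j l i =>
    (I_fsum _ fun k _ => hGm j l i k).2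
  have m2 : ∀ j l, MemLp (∑ i, ∑ k, G j l i k : M →ₘ[m] ℝ) 1 m := fun j l =>
    (I_fsum _ fun i _ => m1 j l i).2
  have m3 : ∀ j, MemLp (∑ l, ∑ i, ∑ k, G j l i k : M →ₘ[m] ℝ) 1 m := fun j =>
    (I_fsum _ fun l _ => m2 j l).2
  rw [(I_fsum _ fun j _ => m3 j).1]
  refine Finset.sum_congr rfl fun j _ => ?_
  rw [(I_fsum _ fun l _ => m2 j l).1]
  refine Finset.sum_congr rfl fun l _ => ?_
  rw [(I_fsum _ fun i _ => m1 j l i).1]
  refine Finset.sum_congr rfl fun i _ => ?_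
  rw [(I_fsum _ fun k _ => hGm j l i k).1]

theorem fin_e1 {α : Type*} {β : Type*} [AddCommMonoid β] (X Y : List α)
    (F : α → α → α → α → β) :
    (X.map fun p => (Y.map fun q => (Y.map fun r => (X.map fun s => F p q r s).sum).sum).sum).sum
      = ∑ j : Fin Y.length, ∑ l : Fin Y.length, ∑ i : Fin X.length, ∑ k : Fin X.length,
        F (X[i.1]) (Y[j.1]) (Y[l.1]) (X[k.1]) := by
  have hs : ∀ (Z : List α) (g : α → β), (Z.map g).sum = ∑ i : Fin Z.length, g (Z[i.1]) :=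
    fun Z g => (Fin.sum_univ_fun_getElem Z g).symm
  simp only [hs]
  rw [Finset.sum_comm]
  refine Finset.sum_congr rfl fun j _ => ?_
  rw [Finset.sum_comm]

theorem fin_ip (C : Calc m) (Z Z' : List ((M →ₘ[m] ℝ) × (M →ₘ[m] ℝ))) : C.ip Z Z'
    = ∑ i : Fin Z.length, ∑ j : Fin Z'.length, (Z[i.1]).1 * (Z'[j.1]).1
      * C.Γ (Z[i.1]).2 (Z'[j.1]).2 := by
  unfold Calc.ip
  rw [← Fin.sum_univ_fun_getElem Z]
  refine Finset.sum_congr rfl fun i _ => ?_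
  rw [← Fin.sum_univ_fun_getElem Z']

/-- The `κ` integrand of a quadruple. -/
noncomputable def finW (C : Calc m) (f : M →ₘ[m] ℝ) (p q r s : (M →ₘ[m] ℝ) × (M →ₘ[m] ℝ)) :
    M →ₘ[m] ℝ :=
  f * (q.1 * r.1) * (p.1 * s.1) * (C.Γ p.2 s.2 * C.Γ q.2 r.2 - C.Γ p.2 q.2 * C.Γ s.2 r.2)

theorem fin_e2 (C : Calc m) (f : M →ₘ[m] ℝ) (X Y : List ((M →ₘ[m] ℝ) × (M →ₘ[m] ℝ))) :
    f * (C.ip X X * C.ip Y Y - C.ip X Y ^ 2)
      = ∑ j : Fin Y.length, ∑ l : Fin Y.length, ∑ i : Fin X.length, ∑ k : Fin X.length,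
        finW C f (X[i.1]) (Y[j.1]) (Y[l.1]) (X[k.1]) := by
  rw [fin_ip C X X, fin_ip C Y Y, fin_ip C X Y]
  have h3 : ∀ (j l : Fin Y.length) (i k : Fin X.length),
      finW C f (X[i.1]) (Y[j.1]) (Y[l.1]) (X[k.1])
      = f * (((X[i.1]).1 * (X[k.1]).1 * C.Γ (X[i.1]).2 (X[k.1]).2)
          * ((Y[j.1]).1 * (Y[l.1]).1 * C.Γ (Y[j.1]).2 (Y[l.1]).2))
        - f * (((X[i.1]).1 * (Y[j.1]).1 * C.Γ (X[i.1]).2 (Y[j.1]).2)
          * ((X[k.1]).1 * (Y[l.1]).1 * C.Γ (X[k.1]).2 (Y[l.1]).2)) := by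
    intro j l i k
    unfold finW
    ring
  simp only [h3, Finset.sum_sub_distrib, ← Finset.mul_sum, ← Finset.sum_mul]
  rw [mul_sub]
  congr 1
  congr 1
  rw [sq]
  congr 1 <;> exact Finset.sum_comm

theorem fin_term [SigmaFinite m] (hC : IsGamma C) {κ κ' : ℝ} (hB : C.BEi κ) {UU : UUT m}
    (hUU : C.IsUU UU) {f : M →ₘ[m] ℝ} (hf : f ∈ C.Test)
    {p q r s : (M →ₘ[m] ℝ) × (M →ₘ[m] ℝ)} (hp : p.1 ∈ C.Test ∧ p.2 ∈ C.Test)
    (hq : q.1 ∈ C.Test ∧ q.2 ∈ C.Test) (hr : r.1 ∈ C.Test ∧ r.2 ∈ C.Test)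
    (hs : s.1 ∈ C.Test ∧ s.2 ∈ C.Test) :
    MemLp (finW C f p q r s) 1 m ∧ MemLp (C.omI UU f p q r s) 1 m ∧
      I (C.rkI UU κ' p.2 q.2 r.2 s.2 (f * (q.1 * r.1) * (p.1 * s.1)))
        = I (C.omI UU f p q r s) - κ' * I (finW C f p q r s) := by
  have hφA : f * (q.1 * r.1) * (p.1 * s.1) ∈ C.A :=
    hC.mul_mem_A (hC.mul_mem_A (hC.test_A hf) (hC.mul_mem_A (hC.test_A hq.1) (hC.test_A hr.1)))
      (hC.mul_mem_A (hC.test_A hp.1) (hC.test_A hs.1))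
  have hWm : MemLp (finW C f p q r s) 1 m := by
    refine mem_mul_top hφA.2 (mem_sub ?_ ?_)
    · exact mem_mul_top (hC.Γ_mem hB hp.2 hs.2).2 (hC.Γ_mem1 (hC.tW hq.2) (hC.tW hr.2))
    · exact mem_mul_top (hC.Γ_mem hB hp.2 hq.2).2 (hC.Γ_mem1 (hC.tW hs.2) (hC.tW hr.2))
  obtain ⟨h1, h2⟩ := hC.I_omI hB (UU := UU) hf hp.1 hq.1 hr.1 hs.1 hp.2 hq.2 hr.2 hs.2 hUU.mem
  refine ⟨hWm, h1, ?_⟩
  have h3 : f * s.1 * p.1 * q.1 * r.1 = f * (q.1 * r.1) * (p.1 * s.1) := by ring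
  rw [h3] at h2
  have h4 : I (C.omI UU f p q r s)
      = I (C.rrI UU p.2 q.2 r.2 s.2 (f * (q.1 * r.1) * (p.1 * s.1))) := h2
  rw [h4]
  unfold finW at hWm ⊢
  unfold Calc.rkI
  rw [I_sub (hC.rrI_mem hB hp.2 hq.2 hr.2 hs.2 hφA hUU.mem) (mem_smul _ hWm), I_smul]

/-- The abstract final step: from gradients to the curvature functional of test fields. -/
theorem fin_abs {H : Type*} [NormedAddCommGroup H] [InnerProductSpace ℝ H] [CompleteSpace H]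
    [SigmaFinite m] (hC : IsGamma C) {κ κ' : ℝ} (hB : C.BEi κ) (hG : IsGrad C Gr)
    (hU : IsHU C Gr U) {ι : List ((M →ₘ[m] ℝ) × (M →ₘ[m] ℝ)) → H} (hι : C.IsL2TM ι)
    (hpos : ∀ a ∈ C.Test, ∀ b ∈ C.Test, ∀ f ∈ C.Test, 0 ≤ f →
      0 ≤ I (C.rkI (UUof m U) κ' a b b a f))
    {X Y : List ((M →ₘ[m] ℝ) × (M →ₘ[m] ℝ))}
    (hX : C.IsTestV X) (hY : C.IsTestV Y) :
    (∃ V, C.IsCov ι X Y V) ∧ (∃ V, C.IsCovT ι X Y V) ∧
      ∀ f ∈ C.Test, 0 ≤ f → κ' * I (f * (C.ip X X * C.ip Y Y - C.ip X Y ^ 2))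
        ≤ C.curv ι X Y Y X f := by
  obtain ⟨g1, g2, g3⟩ := glue hC hB hG hU hι hX hY
  refine ⟨g1, g2, fun f hf hf0 => ?_⟩
  rw [g3 f hf, fin_e1, fin_e2]
  have hUU := hU.isUU hC hB hG
  have hX' : ∀ i : Fin X.length, (X[i.1]).1 ∈ C.Test ∧ (X[i.1]).2 ∈ C.Test :=
    fun i => hX _ (List.getElem_mem _)
  have hY' : ∀ i : Fin Y.length, (Y[i.1]).1 ∈ C.Test ∧ (Y[i.1]).2 ∈ C.Test :=
    fun i => hY _ (List.getElem_mem _)
  have key := hC.fields_of_gradients hB hUU (κ' := κ') hpos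
    (d := fun i : Fin X.length => (X[i.1]).2) (x := fun i : Fin X.length => (X[i.1]).1)
    (e := fun i : Fin Y.length => (Y[i.1]).2) (y := fun i : Fin Y.length => (Y[i.1]).1)
    (fun i => (hX' i).2) (fun i => (hY' i).2) (fun i => (hX' i).1) (fun i => (hY' i).1) hf hf0
  have ht := fun (j l : Fin Y.length) (i k : Fin X.length) =>
    fin_term hC hB (κ' := κ') hUU hf (hX' i) (hY' j) (hY' l) (hX' k)
  rw [fin_big fun j l i k => (ht j l i k).1, fin_big fun j l i k => (ht j l i k).2.1]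
  have h5 : ∀ (j l : Fin Y.length) (i k : Fin X.length),
      I (C.rkI (UUof m U) κ' (X[i.1]).2 (Y[j.1]).2 (Y[l.1]).2 (X[k.1]).2
        (f * ((Y[j.1]).1 * (Y[l.1]).1) * ((X[i.1]).1 * (X[k.1]).1)))
      = I (C.omI (UUof m U) f (X[i.1]) (Y[j.1]) (Y[l.1]) (X[k.1]))
        - κ' * I (finW C f (X[i.1]) (Y[j.1]) (Y[l.1]) (X[k.1])) :=
    fun j l i k => (ht j l i k).2.2
  simp only [h5, Finset.sum_sub_distrib, ← Finset.mul_sum] at key
  linarith

end Vale.Agent.P233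
end

section

open MeasureTheory Filter Topology
open scoped ENNReal NNReal InnerProductSpace

namespace Vale.Agent.P233

variable {M : Type*} [MeasurableSpace M] {m : Measure M} {C : Calc m}
variable {E : Type*} [NormedAddCommGroup E] [InnerProductSpace ℝ E] {Gr : (M →ₘ[m] ℝ) → M → E}
variable {U : (M →ₘ[m] ℝ) → (M →ₘ[m] ℝ) → M → E}
variable (hC : IsGamma C) {κ : ℝ} (hB : C.BEi κ) (hG : IsGrad C Gr) (hU : IsHU C Gr U)
variable {f g h φ ψ a b c d a' b' : M →ₘ[m] ℝ}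

theorem smul_memE {s : M →ₘ[m] ℝ} (hs : MemLp s ∞ m) {u : M → E} (hu : MemLp u 2 m) :
    MemLp (fun x => s x • u x) 2 m := by
  have := hu.smul (p := ∞) (r := 2) hs
  exact this

theorem smul_memE' {s : M →ₘ[m] ℝ} (hs : MemLp s 2 m) {u : M → E} (hu : MemLp u ∞ m) :
    MemLp (fun x => s x • u x) 2 m := by
  have := hu.smul (p := 2) (r := 2) hs
  exact this

include hC hB hG in
/-- a continuous functional on gradients that vanishes on test functions vanishes -/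
theorem dens_grad [SigmaFinite m] {w : M → E} (hw : MemLp w 2 m)
    (h0 : ∀ g ∈ C.Test, ∫ x, ⟪w x, Gr g x⟫_ℝ ∂m = 0) (hh : h ∈ C.W) :
    ∫ x, ⟪w x, Gr h x⟫_ℝ ∂m = 0 := by
  have key : ∀ ε : ℝ, 0 < ε → |∫ x, ⟪w x, Gr h x⟫_ℝ ∂m| ≤ (eLpNorm w 2 m).toReal * ε := by
    intro ε hε
    obtain ⟨g, hg, hgh⟩ := hC.test_dense hB hh (ε := ε ^ 2) (by positivity)
    have gW := hC.tW hg
    have hd := hG.mem _ (hC.sub_mem gW hh)
    have e1 : ∫ x, ⟪w x, Gr h x⟫_ℝ ∂m = -∫ x, ⟪w x, Gr (g - h) x⟫_ℝ ∂m := by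
      have e2 : ∫ x, ⟪w x, Gr (g - h) x⟫_ℝ ∂m
          = ∫ x, (⟪w x, Gr g x⟫_ℝ - ⟪w x, Gr h x⟫_ℝ) ∂m := by
        refine integral_congr_ae ?_
        filter_upwards [hG.sub hC.toIsDir gW hh] with x hx
        rw [hx, inner_sub_right]
      rw [e2, integral_sub (int_inner_integrable hw (hG.mem g gW))
        (int_inner_integrable hw (hG.mem h hh)), h0 g hg]
      ring
    rw [e1, abs_neg]
    refine (abs_int_inner_le hw hd).trans ?_
    refine mul_le_mul_of_nonneg_left ?_ ENNReal.toReal_nonneg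
    have h3 : (eLpNorm (Gr (g - h)) 2 m).toReal ^ 2 ≤ ε ^ 2 := by
      rw [eLpNorm_sq_eq hd, hG.int_norm_sq (hC.sub_mem gW hh)]
      exact ((hC.E_le_nrm2 (g - h)).trans hgh.le)
    exact le_of_sq_le_sq h3 hε.le
  have h1 : |∫ x, ⟪w x, Gr h x⟫_ℝ ∂m| ≤ 0 := by
    refine le_of_forall_pos_le_add fun ε hε => ?_
    refine (key (ε / ((eLpNorm w 2 m).toReal + 1)) (by positivity)).trans ?_
    rw [zero_add, mul_div_assoc', div_le_iff₀ (by positivity)]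
    linarith only [hε]
  exact abs_eq_zero.1 (le_antisymm h1 (abs_nonneg _))

include hU hC hB hG in
/-- the functional `HW` is `∫ φ ⟨∇_a b, ∇h⟩` -/
theorem HW_eq_ip [SigmaFinite m] (hb : b ∈ C.Test) (ha : a ∈ C.Test) (hφ : φ ∈ C.A)
    (hh : h ∈ C.W) : C.HW b a h φ = I (φ * ipE m (U b a) (Gr h)) := by
  have bW := hC.tW hb
  have aW := hC.tW ha
  have hba := (hC.Γ_mem hB hb ha).1
  have hDa := hC.mem_De hφ ha
  have hDb := hC.mem_De hφ hb
  -- the field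
  set w : M → E := fun x => (2 : ℝ)⁻¹ • (-(C.De φ a x • Gr b x) + φ x • Gr (C.Γ b a) x
    + C.De φ b x • Gr a x) - φ x • U b a x with hw
  have w1 : MemLp (fun x => C.De φ a x • Gr b x) 2 m := smul_memE' hDa (hG.bdd hC hb)
  have w2 : MemLp (fun x => φ x • Gr (C.Γ b a) x) 2 m := smul_memE hφ.2 (hG.mem _ hba)
  have w3 : MemLp (fun x => C.De φ b x • Gr a x) 2 m := smul_memE' hDb (hG.bdd hC ha)
  have w4 : MemLp (fun x => φ x • U b a x) 2 m := smul_memE hφ.2 (hU.mem b hb a ha)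
  have hwm : MemLp w 2 m := (((w1.neg.add w2).add w3).const_smul (2 : ℝ)⁻¹).sub w4
  have key : ∀ g ∈ C.W, ∫ x, ⟪w x, Gr g x⟫_ℝ ∂m = C.HW b a g φ - I (φ * ipE m (U b a) (Gr g)) := by
    intro g hg
    have i1 := int_inner_integrable w1 (hG.mem g hg)
    have i2 := int_inner_integrable w2 (hG.mem g hg)
    have i3 := int_inner_integrable w3 (hG.mem g hg)
    have i4 := int_inner_integrable w4 (hG.mem g hg)
    have e : ∀ x, ⟪w x, Gr g x⟫_ℝ = (2 : ℝ)⁻¹ * (-⟪C.De φ a x • Gr b x, Gr g x⟫_ℝ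
        + ⟪φ x • Gr (C.Γ b a) x, Gr g x⟫_ℝ + ⟪C.De φ b x • Gr a x, Gr g x⟫_ℝ)
        - ⟪φ x • U b a x, Gr g x⟫_ℝ := by
      intro x
      rw [hw]
      simp only [inner_sub_left, real_inner_smul_left, inner_add_left, inner_neg_left]
    have k1 : Integrable (fun x => -⟪C.De φ a x • Gr b x, Gr g x⟫_ℝ) m := i1.neg
    have k12 : Integrable (fun x => -⟪C.De φ a x • Gr b x, Gr g x⟫_ℝ
        + ⟪φ x • Gr (C.Γ b a) x, Gr g x⟫_ℝ) m := k1.add i2
    have k123 : Integrable (fun x => -⟪C.De φ a x • Gr b x, Gr g x⟫_ℝ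
        + ⟪φ x • Gr (C.Γ b a) x, Gr g x⟫_ℝ + ⟪C.De φ b x • Gr a x, Gr g x⟫_ℝ) m := k12.add i3
    have k5 := k123.const_mul (2 : ℝ)⁻¹
    simp only [e]
    rw [integral_sub k5 i4, integral_const_mul, integral_add k12 i3, integral_add k1 i2,
      integral_neg]
    have j1 : ∫ x, ⟪C.De φ a x • Gr b x, Gr g x⟫_ℝ ∂m = I (C.Γ b g * C.De φ a) := by
      refine integral_congr_ae ?_
      filter_upwards [hG.inner b bW g hg, mul_ae (C.Γ b g) (C.De φ a)] with x a1 a2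
      rw [real_inner_smul_left, a1, a2, mul_comm]
    have j2 : ∫ x, ⟪φ x • Gr (C.Γ b a) x, Gr g x⟫_ℝ ∂m = I (φ * C.Γ g (C.Γ b a)) := by
      refine integral_congr_ae ?_
      filter_upwards [hG.inner _ hba g hg, mul_ae φ (C.Γ g (C.Γ b a)),
        eq_iff_ae.1 (hC.symm _ hg _ hba)] with x a1 a2 a3
      rw [real_inner_smul_left, a1, a2, a3]
    have j3 : ∫ x, ⟪C.De φ b x • Gr a x, Gr g x⟫_ℝ ∂m = I (C.Γ a g * C.De φ b) := by
      refine integral_congr_ae ?_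
      filter_upwards [hG.inner a aW g hg, mul_ae (C.Γ a g) (C.De φ b)] with x a1 a2
      rw [real_inner_smul_left, a1, a2, mul_comm]
    have j4 : ∫ x, ⟪φ x • U b a x, Gr g x⟫_ℝ ∂m = I (φ * ipE m (U b a) (Gr g)) := by
      refine integral_congr_ae ?_
      filter_upwards [ipE_ae (hU.mem b hb a ha).1 (hG.mem g hg).1,
        mul_ae φ (ipE m (U b a) (Gr g))] with x a1 a2
      rw [real_inner_smul_left, a2, a1]
    rw [j1, j2, j3, j4]
    unfold Calc.HW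
    ring
  have h0 : ∀ g ∈ C.Test, ∫ x, ⟪w x, Gr g x⟫_ℝ ∂m = 0 := by
    intro g hg
    rw [key g (hC.tW hg)]
    have gA := hC.test_A hg
    have e1 : I (φ * ipE m (U b a) (Gr g)) = I (φ * C.hess b a g) := by
      congr 2
      rw [eq_iff_ae]
      filter_upwards [ipE_ae (hU.mem b hb a ha).1 (hG.mem g gA.1).1, hU.inner b hb a ha g hg]
        with x a1 a2
      rw [a1, a2]
    have hbg := hC.Γ_mem hB hb hg
    have hag := hC.Γ_mem hB ha hg
    have s1 := hC.ibp' ha hφ hbg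
    have s2 := hC.ibp' hb hφ hag
    have m1 := hC.ibp_mem ha hφ hbg
    have m2 := hC.ibp_mem hb hφ hag
    have m3 : MemLp (φ * C.hess b a g : M →ₘ[m] ℝ) 1 m :=
      mem_mul_22 (hC.memLp _ hφ.1) (hC.hess_mem2 hB hb ha hg)
    have n1 : MemLp (C.Γ b g * C.De φ a : M →ₘ[m] ℝ) 1 m := mem_mul_22 (hC.memLp _ hbg.1) hDa
    have n2 : MemLp (φ * C.Γ g (C.Γ b a) : M →ₘ[m] ℝ) 1 m :=
      mem_mul_22 (hC.memLp _ hφ.1) (hC.Γ_mem2 gA.1 (hC.test_Γ_top hg) hba)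
    have n3 : MemLp (C.Γ a g * C.De φ b : M →ₘ[m] ℝ) 1 m := mem_mul_22 (hC.memLp _ hag.1) hDb
    have e2 : (2 : ℝ) • (φ * C.hess b a g) = (φ * C.Γ g (C.Γ b a)) - C.Γ b g * C.De φ a
        + C.Γ a g * C.De φ b + (φ * C.Γ a (C.Γ b g) + C.Γ b g * C.Γ a φ
          + φ * C.Γ b g * C.lap a) - (φ * C.Γ b (C.Γ a g) + C.Γ a g * C.Γ b φ
          + φ * C.Γ a g * C.lap b) := by
      unfold Calc.hess Calc.De
      rw [hC.symm _ aW _ hφ.1, hC.symm _ bW _ hφ.1]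
      algebra
    have e3 := congrArg I e2
    rw [I_smul, I_sub (mem_add (mem_add (mem_sub n2 n1) n3) m1) m2,
      I_add (mem_add (mem_sub n2 n1) n3) m1, I_add (mem_sub n2 n1) n3, I_sub n2 n1, s1, s2] at e3
    rw [e1]
    unfold Calc.HW
    linarith
  have h1 := dens_grad hC hB hG hwm h0 hh
  rw [key h hh] at h1
  linarith

include hU hC hB hG in
/-- `R(∇a,∇b,∇b,∇a)(φ) + 3 ∫ φ |∇_a b|² = S0 a b φ` -/
theorem S0_eq_rr [SigmaFinite m] (hb : b ∈ C.Test) (ha : a ∈ C.Test) (hφ : φ ∈ C.A) :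
    C.S0 a b φ = I (C.rrI (UUof m U) a b b a φ) + 3 * I (φ * UUof m U b a b a) := by
  have hab := (hC.Γ_mem hB ha hb).1
  have hUU := hU.isUU hC hB hG
  have hm : ∀ {b a : M →ₘ[m] ℝ}, b ∈ C.Test → a ∈ C.Test → AEStronglyMeasurable (U b a) m :=
    fun hb ha => (hU.mem _ hb _ ha).1
  unfold Calc.S0
  rw [HW_eq_ip hC hB hG hU hb ha hφ hab]
  have e1 : φ * C.Γ (C.Γ a a) (C.Γ b b) = (4 : ℝ) • (φ * UUof m U a a b b) := by
    rw [eq_iff_ae]
    have haa := (hC.Γ_mem hB ha ha).1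
    have hbb := (hC.Γ_mem hB hb hb).1
    filter_upwards [mul_ae φ (C.Γ (C.Γ a a) (C.Γ b b)), hG.inner _ haa _ hbb,
      hU.sym hC hB hG ha ha, hU.sym hC hB hG hb hb, smul_ae (φ * UUof m U a a b b) (4 : ℝ),
      mul_ae φ (UUof m U a a b b), ipE_ae (hm ha ha) (hm hb hb)] with x a1 a2 a3 a4 a5 a6 a7
    rw [a1, ← a2, ← a3, ← a4, a5, a6]
    unfold UUof
    rw [a7, ← two_smul ℝ (U a a x), ← two_smul ℝ (U b b x), real_inner_smul_left,
      real_inner_smul_right]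
    ring
  have e2 : φ * ipE m (U b a) (Gr (C.Γ a b)) = φ * (UUof m U a b b a + UUof m U b a b a) := by
    rw [eq_iff_ae]
    filter_upwards [mul_ae φ (ipE m (U b a) (Gr (C.Γ a b))),
      ipE_ae (hm hb ha) (hG.mem _ hab).1, hU.sym hC hB hG ha hb,
      mul_ae φ (UUof m U a b b a + UUof m U b a b a), add_ae (UUof m U a b b a) (UUof m U b a b a),
      ipE_ae (hm ha hb) (hm hb ha), ipE_ae (hm hb ha) (hm hb ha)] with x a1 a2 a3 a4 a5 a6 a7
    rw [a1, a2, ← a3, a4, a5]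
    unfold UUof
    rw [a6, a7, inner_add_right, real_inner_comm (U a b x) (U b a x)]
  have mm : ∀ {p q r s : M →ₘ[m] ℝ}, p ∈ C.Test → q ∈ C.Test → r ∈ C.Test → s ∈ C.Test →
      MemLp (φ * UUof m U p q r s : M →ₘ[m] ℝ) 1 m := fun hp hq hr hs =>
    mem_mul_top hφ.2 (hUU.mem _ hp _ hq _ hr _ hs)
  have e3 : C.rrI (UUof m U) a b b a φ = -(C.De φ a * C.hess b b a) + C.De φ b * C.hess b a a
      + (-(φ * UUof m U a a b b) + (2 : ℝ) • (φ * UUof m U a b b a)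
        - φ * UUof m U b a b a) := by
    unfold Calc.rrI
    algebra
  have n1 : MemLp (C.De φ a * C.hess b b a : M →ₘ[m] ℝ) 1 m :=
    mem_mul_22 (hC.mem_De hφ ha) (hC.hess_mem2 hB hb hb ha)
  have n2 : MemLp (C.De φ b * C.hess b a a : M →ₘ[m] ℝ) 1 m :=
    mem_mul_22 (hC.mem_De hφ hb) (hC.hess_mem2 hB hb ha ha)
  have k1 := mm ha ha hb hb
  have k2 := mm ha hb hb ha
  have k3 := mm hb ha hb ha
  rw [e3, e1, e2, I_smul, mul_add, I_add k2 k3, I_add (mem_add (mem_neg n1) n2)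
    (mem_sub (mem_add (mem_neg k1) (mem_smul _ k2)) k3), I_add (mem_neg n1) n2,
    I_sub (mem_add (mem_neg k1) (mem_smul _ k2)) k3, I_add (mem_neg k1) (mem_smul _ k2),
    I_neg, I_neg, I_smul, hC.hess_symm hB hb hb ha]
  ring

end Vale.Agent.P233
end

section

open MeasureTheory Filter Topology
open scoped ENNReal NNReal InnerProductSpace

namespace Vale.Agent.P233

variable {M : Type*} [MeasurableSpace M] {m : Measure M} {C : Calc m}
variable {E : Type*} [NormedAddCommGroup E] [InnerProductSpace ℝ E] {Gr : (M →ₘ[m] ℝ) → M → E}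
variable {U : (M →ₘ[m] ℝ) → (M →ₘ[m] ℝ) → M → E}

/-- `∫ φ |v|²` -/
noncomputable def nE (m : Measure M) (φ : M →ₘ[m] ℝ) (v : M → E) : ℝ := ∫ x, φ x * ‖v x‖ ^ 2 ∂m

omit [InnerProductSpace ℝ E] in
theorem nE_int {φ : M →ₘ[m] ℝ} (hφ : MemLp φ ∞ m) {v : M → E} (hv : MemLp v 2 m) :
    Integrable (fun x => φ x * ‖v x‖ ^ 2) m := by
  obtain ⟨K, hK⟩ := mem_top_iff.1 hφ
  exact (hv.integrable_norm_pow two_ne_zero).bdd_mul hφ.1 (c := K)
    (by filter_upwards [hK] with x hx; rwa [Real.norm_eq_abs])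

theorem ip_int {φ : M →ₘ[m] ℝ} (hφ : MemLp φ ∞ m) {u v : M → E} (hu : MemLp u 2 m)
    (hv : MemLp v 2 m) : Integrable (fun x => φ x * ⟪u x, v x⟫_ℝ) m := by
  obtain ⟨K, hK⟩ := mem_top_iff.1 hφ
  exact (int_inner_integrable hu hv).bdd_mul hφ.1 (c := K)
    (by filter_upwards [hK] with x hx; rwa [Real.norm_eq_abs])

/-- expansion of `∫ φ |v + ψ w|²` -/
theorem nE_expand {φ ψ : M →ₘ[m] ℝ} (hφ : MemLp φ ∞ m) (hψ : MemLp ψ ∞ m) {v w : M → E}
    (hv : MemLp v 2 m) (hw : MemLp w 2 m) :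
    nE m φ (fun x => v x + ψ x • w x) = nE m φ v + 2 * (∫ x, (φ * ψ) x * ⟪v x, w x⟫_ℝ ∂m)
      + nE m (φ * ψ ^ 2) w := by
  have hφψ : MemLp (φ * ψ : M →ₘ[m] ℝ) ∞ m := mem_mul_top hφ hψ
  have hφψ2 : MemLp (φ * ψ ^ 2 : M →ₘ[m] ℝ) ∞ m :=
    mem_mul_top hφ (by rw [sq]; exact mem_mul_top hψ hψ)
  unfold nE
  rw [← integral_const_mul, ← integral_add (nE_int hφ hv) ((ip_int hφψ hv hw).const_mul 2)]
  have h3 : Integrable (fun x => φ x * ‖v x‖ ^ 2 + 2 * ((φ * ψ) x * ⟪v x, w x⟫_ℝ)) m :=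
    (nE_int hφ hv).add ((ip_int hφψ hv hw).const_mul 2)
  rw [← integral_add h3 (nE_int hφψ2 hw)]
  refine integral_congr_ae ?_
  filter_upwards [mul_ae φ ψ, mul_ae φ (ψ ^ 2), sq_ae ψ] with x a1 a2 a3
  rw [a1, a2, a3, norm_add_sq_real, real_inner_smul_right, norm_smul, Real.norm_eq_abs, mul_pow,
    sq_abs]
  ring

theorem nE_lin {φ φ' : M →ₘ[m] ℝ} (hφ : MemLp φ ∞ m) (hφ' : MemLp φ' ∞ m) (t : ℝ) {v : M → E}
    (hv : MemLp v 2 m) : nE m (φ + t • φ') v = nE m φ v + t * nE m φ' v := by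
  unfold nE
  rw [← integral_const_mul, ← integral_add (nE_int hφ hv) ((nE_int hφ' hv).const_mul t)]
  refine integral_congr_ae ?_
  filter_upwards [add_ae φ (t • φ'), smul_ae φ' t] with x a1 a2
  rw [a1, a2]; ring

theorem ip_lin {φ φ' : M →ₘ[m] ℝ} (hφ : MemLp φ ∞ m) (hφ' : MemLp φ' ∞ m) (t : ℝ) {u v : M → E}
    (hu : MemLp u 2 m) (hv : MemLp v 2 m) :
    ∫ x, (φ + t • φ') x * ⟪u x, v x⟫_ℝ ∂m
      = ∫ x, φ x * ⟪u x, v x⟫_ℝ ∂m + t * ∫ x, φ' x * ⟪u x, v x⟫_ℝ ∂m := by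
  rw [← integral_const_mul, ← integral_add (ip_int hφ hu hv) ((ip_int hφ' hu hv).const_mul t)]
  refine integral_congr_ae ?_
  filter_upwards [add_ae φ (t • φ'), smul_ae φ' t] with x a1 a2
  rw [a1, a2]; ring

theorem nE_le {φ : M →ₘ[m] ℝ} {K : ℝ} (hK : ∀ᵐ x ∂m, |φ x| ≤ K) (hφ : MemLp φ ∞ m) {v : M → E}
    (hv : MemLp v 2 m) : nE m φ v ≤ K * (eLpNorm v 2 m).toReal ^ 2 := by
  rw [eLpNorm_sq_eq hv, ← integral_const_mul]
  refine integral_mono_ae (nE_int hφ hv) ((hv.integrable_norm_pow two_ne_zero).const_mul K) ?_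
  filter_upwards [hK] with x hx
  exact mul_le_mul_of_nonneg_right ((le_abs_self _).trans hx) (sq_nonneg _)

variable (hC : IsGamma C) {κ κ' K : ℝ} (hB : C.BEi κ) (hG : IsGrad C Gr) (hU : IsHU C Gr U)
variable {f g h φ ψ a b c d a' b' k : M →ₘ[m] ℝ}

include hC hB hG hU

/-- the core inequality in terms of `U` -/
theorem core_form [SigmaFinite m] (ha : a ∈ C.Test) (hb : b ∈ C.Test) (hφ : φ ∈ C.A)
    (h : C.CoreAt κ' K a b φ) (hk : k ∈ C.Test) {t₁ t₂ t₃ : ℝ} (h1 : 0 ≤ t₁) (h2 : 0 ≤ t₂)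
    (h3 : 0 ≤ t₃) :
    0 ≤ I (C.rkI (UUof m U) κ' a b b a φ) + 3 * nE m φ (fun x => U b a x + Gr k x)
      + K * (I (φ * (C.Γ a a - t₁ • 1) ^ 2) + I (φ * (C.Γ b b - t₂ • 1) ^ 2)
          + I (φ * (C.Γ (a + b) (a + b) - t₃ • 1) ^ 2)) := by
  have h4 := h k hk t₁ t₂ t₃ h1 h2 h3
  have hUU := hU.isUU hC hB hG
  have hUm := hU.mem b hb a ha
  have hkm := hG.mem k (hC.tW hk)
  rw [S0_eq_rr hC hB hG hU hb ha hφ, HW_eq_ip hC hB hG hU hb ha hφ (hC.tW hk)] at h4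
  have e1 : I (C.rkI (UUof m U) κ' a b b a φ) = I (C.rrI (UUof m U) a b b a φ)
      - κ' * I (φ * (C.Γ a a * C.Γ b b - C.Γ a b ^ 2)) := by
    have hm : MemLp (φ * (C.Γ a a * C.Γ b b - C.Γ a b * C.Γ a b) : M →ₘ[m] ℝ) 1 m := by
      refine mem_mul_top hφ.2 (mem_sub (mem_mul_top (hC.Γ_mem hB ha ha).2
        (hC.Γ_mem1 (hC.tW hb) (hC.tW hb))) (mem_mul_top (hC.Γ_mem hB ha hb).2
        (hC.Γ_mem1 (hC.tW ha) (hC.tW hb))))
    unfold Calc.rkI
    rw [I_sub (hC.rrI_mem hB ha hb hb ha hφ hUU.mem) (mem_smul _ hm), I_smul, sq]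
  have e2 : nE m φ (fun x => U b a x + Gr k x) = I (φ * UUof m U b a b a)
      + 2 * I (φ * ipE m (U b a) (Gr k)) + I (φ * C.Γ k k) := by
    have h1 : (fun x => U b a x + Gr k x) = fun x => U b a x + (Gr k x) := rfl
    have i1 : Integrable (fun x => φ x * ‖U b a x‖ ^ 2) m := nE_int hφ.2 hUm
    have i2 : Integrable (fun x => φ x * ⟪U b a x, Gr k x⟫_ℝ) m := ip_int hφ.2 hUm hkm
    have i3 : Integrable (fun x => φ x * ‖Gr k x‖ ^ 2) m := nE_int hφ.2 hkm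
    have e3 : nE m φ (fun x => U b a x + Gr k x) = ∫ x, φ x * ‖U b a x‖ ^ 2 ∂m
        + 2 * ∫ x, φ x * ⟪U b a x, Gr k x⟫_ℝ ∂m + ∫ x, φ x * ‖Gr k x‖ ^ 2 ∂m := by
      unfold nE
      rw [← integral_const_mul, ← integral_add i1 (i2.const_mul 2)]
      have i4 : Integrable (fun x => φ x * ‖U b a x‖ ^ 2 + 2 * (φ x * ⟪U b a x, Gr k x⟫_ℝ)) m :=
        i1.add (i2.const_mul 2)
      rw [← integral_add i4 i3]
      refine integral_congr_ae ?_
      filter_upwards with x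
      rw [norm_add_sq_real]; ring
    rw [e3]
    congr 1
    · congr 1
      · refine integral_congr_ae ?_
        filter_upwards [mul_ae φ (UUof m U b a b a), ipE_ae hUm.1 hUm.1] with x a1 a2
        rw [a1]
        unfold UUof
        rw [a2, real_inner_self_eq_norm_sq]
      · congr 1
        refine integral_congr_ae ?_
        filter_upwards [mul_ae φ (ipE m (U b a) (Gr k)), ipE_ae hUm.1 hkm.1] with x a1 a2
        rw [a1, a2]
    · refine integral_congr_ae ?_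
      filter_upwards [mul_ae φ (C.Γ k k), hG.norm_sq (hC.tW hk)] with x a1 a2
      rw [a1, a2]
  rw [e1, e2]
  linarith

variable {S T : Set (M →ₘ[m] ℝ)}

/-- localisation in the potential -/
theorem loc_step [SigmaFinite m] (hST : IsMod S T) (hTA : ∀ f ∈ T, f ∈ C.A)
    (ha : a ∈ C.Test) (hb : b ∈ C.Test) {v : M → E} (hv : MemLp v 2 m)
    (H : ∀ k ∈ C.Test, ∀ φ ∈ T, 0 ≤ φ → 0 ≤ I (C.rkI (UUof m U) κ' a b b a φ)
      + 3 * nE m φ (fun x => v x + Gr k x)) {α β : M →ₘ[m] ℝ} (hα : α ∈ S) (hβ : β ∈ C.Test) :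
    ∀ k ∈ C.Test, ∀ φ ∈ T, 0 ≤ φ → 0 ≤ I (C.rkI (UUof m U) κ' a b b a φ)
      + 3 * nE m φ (fun x => (v x + α x • Gr β x) + Gr k x) := by
  intro k hk φ hφ hφ0
  have hUU := hU.isUU hC hB hG
  have hαT := hST.topS α hα
  have hkm := hG.mem k (hC.tW hk)
  have hβm := hG.mem β (hC.tW hβ)
  have hvk : MemLp (fun x => v x + Gr k x) 2 m := hv.add hkm
  have linI : ∀ φ ∈ T, ∀ ψ ∈ T, ∀ t : ℝ, I (C.rkI (UUof m U) κ' a b b a (φ + t • ψ))
      = I (C.rkI (UUof m U) κ' a b b a φ) + t * I (C.rkI (UUof m U) κ' a b b a ψ) := by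
    intro φ hφ ψ hψ t
    rw [hC.rkI_linφ t ha hb (hTA φ hφ).1 (hTA ψ hψ).1,
      I_add (hC.rkI_mem hB hUU ha hb hb ha (hTA φ hφ))
        (mem_smul _ (hC.rkI_mem hB hUU ha hb hb ha (hTA ψ hψ))), I_smul]
  have z0 : I (C.rkI (UUof m U) κ' a b b a 0) = 0 := by
    have := linI 0 hST.zero 0 hST.zero 1
    simpa using this
  have nz : ∀ w : M → E, nE m (0 : M →ₘ[m] ℝ) w = 0 := by
    intro w
    unfold nE
    rw [← integral_zero M ℝ (μ := m)]
    refine integral_congr_ae ?_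
    filter_upwards [zero_ae (M := M) (m := m)] with x hx
    rw [hx, zero_mul]
  have ipz : ∀ u w : M → E, ∫ x, (0 : M →ₘ[m] ℝ) x * ⟪u x, w x⟫_ℝ ∂m = 0 := by
    intro u w
    rw [← integral_zero M ℝ (μ := m)]
    refine integral_congr_ae ?_
    filter_upwards [zero_ae (M := M) (m := m)] with x hx
    rw [hx, zero_mul]
  have key := hST.bernstein
    (P0 := fun φ => I (C.rkI (UUof m U) κ' a b b a φ) + 3 * nE m φ (fun x => v x + Gr k x))
    (P1 := fun φ => 6 * ∫ x, φ x * ⟪v x + Gr k x, Gr β x⟫_ℝ ∂m)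
    (P2 := fun φ => 3 * nE m φ (Gr β)) ?_ ?_ ?_ ?_ ?_ ?_ ?_ (hST.AP_of_A hα) hφ hφ0
  · have e := nE_expand (hTA φ hφ).2 hαT hvk hβm
    have e' : (fun x => (v x + α x • Gr β x) + Gr k x)
        = fun x => (v x + Gr k x) + α x • Gr β x := by
      funext x; abel
    rw [e', e]
    linarith
  · intro φ hφ ψ hψ
    have h1 := linI φ hφ ψ hψ 1
    have h2 := nE_lin (hTA φ hφ).2 (hTA ψ hψ).2 1 hvk
    rw [one_smul, one_mul] at h1 h2
    simp only [h1, h2]; ring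
  · intro φ hφ ψ hψ
    have h2 := ip_lin (hTA φ hφ).2 (hTA ψ hψ).2 1 hvk hβm
    rw [one_smul, one_mul] at h2
    simp only [h2]; ring
  · intro φ hφ ψ hψ
    have h2 := nE_lin (hTA φ hφ).2 (hTA ψ hψ).2 1 hβm
    rw [one_smul, one_mul] at h2
    simp only [h2]; ring
  · intro t φ hφ
    have h1 := linI 0 hST.zero φ hφ t
    have h2 := nE_lin (hTA 0 hST.zero).2 (hTA φ hφ).2 t hvk
    rw [zero_add, z0, zero_add] at h1
    rw [zero_add, nz, zero_add] at h2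
    simp only [h1, h2]; ring
  · intro t φ hφ
    have h2 := ip_lin (hTA 0 hST.zero).2 (hTA φ hφ).2 t hvk hβm
    rw [zero_add, ipz, zero_add] at h2
    simp only [h2]; ring
  · intro t φ hφ
    have h2 := nE_lin (hTA 0 hST.zero).2 (hTA φ hφ).2 t hβm
    rw [zero_add, nz, zero_add] at h2
    simp only [h2]; ring
  · intro c φ hφ hφ0
    have hs := hC.test_add hB hk (hC.test_smul hB c hβ)
    have h1 := H _ hs φ hφ hφ0
    have e : nE m φ (fun x => v x + Gr (k + c • β) x)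
        = nE m φ (fun x => v x + Gr k x) + 2 * (∫ x, φ x * ⟪v x + Gr k x, Gr β x⟫_ℝ ∂m) * c
          + c ^ 2 * nE m φ (Gr β) := by
      have i1 := nE_int (hTA φ hφ).2 hvk
      have i2 := ip_int (hTA φ hφ).2 hvk hβm
      have i3 := nE_int (hTA φ hφ).2 hβm
      have e1 : nE m φ (fun x => v x + Gr (k + c • β) x)
          = ∫ x, (φ x * ‖v x + Gr k x‖ ^ 2 + (2 * c) * (φ x * ⟪v x + Gr k x, Gr β x⟫_ℝ)
            + c ^ 2 * (φ x * ‖Gr β x‖ ^ 2)) ∂m := by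
        refine integral_congr_ae ?_
        filter_upwards [hG.add hC.toIsDir (hC.tW hk) (hC.smul_mem c _ (hC.tW hβ)),
          hG.smul hC.toIsDir c (hC.tW hβ)] with x a1 a2
        have a3 : v x + Gr (k + c • β) x = (v x + Gr k x) + c • Gr β x := by
          rw [a1, a2]; abel
        rw [a3, norm_add_sq_real, real_inner_smul_right, norm_smul, Real.norm_eq_abs, mul_pow,
          sq_abs]
        ring
      have i4 : Integrable (fun x => φ x * ‖v x + Gr k x‖ ^ 2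
          + (2 * c) * (φ x * ⟪v x + Gr k x, Gr β x⟫_ℝ)) m := i1.add (i2.const_mul _)
      rw [e1, integral_add i4 (i3.const_mul _), integral_add i1 (i2.const_mul _),
        integral_const_mul, integral_const_mul]
      unfold nE
      ring
    rw [e] at h1
    linarith

end Vale.Agent.P233
end

section

open MeasureTheory Filter Topology
open scoped ENNReal NNReal InnerProductSpace

namespace Vale.Agent.P233

variable {M : Type*} [MeasurableSpace M] {m : Measure M} {C : Calc m}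
variable {E : Type*} [NormedAddCommGroup E] [InnerProductSpace ℝ E] {Gr : (M →ₘ[m] ℝ) → M → E}
variable {U : (M →ₘ[m] ℝ) → (M →ₘ[m] ℝ) → M → E}
variable {S T : Set (M →ₘ[m] ℝ)}
variable (hC : IsGamma C) {κ κ' K : ℝ} (hB : C.BEi κ) (hG : IsGrad C Gr) (hU : IsHU C Gr U)
variable {a b : M →ₘ[m] ℝ}

include hC hG in
/-- fields with coefficients in a dense class are dense -/
theorem fvec_approx (hST : IsMod S T)
    (hSd : ∀ f ∈ C.W, ∀ ε > 0, ∃ g ∈ S, g ∈ C.W ∧ C.nrm2 (g - f) < ε) :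
    ∀ (Z : List ((M →ₘ[m] ℝ) × (M →ₘ[m] ℝ))), C.IsTestV Z → ∀ ε : ℝ, 0 < ε →
      ∃ Z' : List ((M →ₘ[m] ℝ) × (M →ₘ[m] ℝ)), (∀ p ∈ Z', p.1 ∈ S ∧ p.2 ∈ C.Test) ∧
        MemLp (fvec Gr Z') 2 m ∧
        eLpNorm (fun x => fvec Gr Z x - fvec Gr Z' x) 2 m < ENNReal.ofReal ε := by
  intro Z
  induction Z with
  | nil =>
    intro _ ε hε
    refine ⟨[], by simp, ?_, ?_⟩
    · rw [IsGrad.fvec_nil]; exact MemLp.zero
    · have : (fun x => fvec Gr ([] : List ((M →ₘ[m] ℝ) × (M →ₘ[m] ℝ))) x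
          - fvec Gr ([] : List ((M →ₘ[m] ℝ) × (M →ₘ[m] ℝ))) x) = 0 := by
        funext x; simp
      rw [this, eLpNorm_zero]
      simpa using hε
  | cons p Z ih =>
    intro hZ ε hε
    have hZ' : C.IsTestV Z := fun q hq => hZ q (by simp [hq])
    obtain ⟨hp1, hp2⟩ := hZ p (by simp)
    obtain ⟨Z1, h1, h2, h3⟩ := ih hZ' (ε / 2) (by positivity)
    obtain ⟨L, hL⟩ := mem_top_iff.1 (hC.test_Γ_top hp2)
    obtain ⟨α, hα, hαW, hαε⟩ := hSd p.1 (hC.tW hp1) ((ε / 2) ^ 2 / (|L| + 1)) (by positivity)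
    have hαm := hST.topS α hα
    have m1 := smul_memE hαm (hG.mem _ (hC.tW hp2))
    have m0 := smul_memE (hC.test_A hp1).2 (hG.mem _ (hC.tW hp2))
    have hd : MemLp (fun x => p.1 x • Gr p.2 x - α x • Gr p.2 x) 2 m := m0.sub m1
    refine ⟨(α, p.2) :: Z1, ?_, ?_, ?_⟩
    · intro q hq
      rcases List.mem_cons.1 hq with h | h
      · rw [h]; exact ⟨hα, hp2⟩
      · exact h1 q h
    · refine (m1.add h2).ae_eq ?_
      filter_upwards with x
      rw [IsGrad.fvec_cons]; rfl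
    · have n1 : eLpNorm (fun x => p.1 x • Gr p.2 x - α x • Gr p.2 x) 2 m
          < ENNReal.ofReal (ε / 2) := by
        refine eLpNorm_lt_of_int hd (by positivity) ?_
        have e1 : ∫ x, ‖p.1 x • Gr p.2 x - α x • Gr p.2 x‖ ^ 2 ∂m
            ≤ |L| * I ((α - p.1) ^ 2) := by
          unfold I
          rw [← integral_const_mul]
          refine integral_mono_ae (hd.integrable_norm_pow two_ne_zero)
            ((int_of_mem (mem_sq (mem_sub (hC.memLp _ hαW) (hC.memLp _ (hC.tW hp1))))).const_mul _)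
            ?_
          filter_upwards [sq_ae (α - p.1), sub_ae α p.1, hL, hG.norm_sq (hC.tW hp2)]
            with x a1 a2 a3 a4
          rw [a1, a2, ← sub_smul, norm_smul, mul_pow, a4, Real.norm_eq_abs, sq_abs]
          have : C.Γ p.2 p.2 x ≤ |L| := (le_abs_self _).trans (a3.trans (le_abs_self _))
          linarith only [mul_le_mul_of_nonneg_right this (sq_nonneg (p.1 x - α x))]
        have e2 : I ((α - p.1) ^ 2) < (ε / 2) ^ 2 / (|L| + 1) :=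
          lt_of_le_of_lt (hC.I_sq_le_nrm2 (hC.sub_mem hαW (hC.tW hp1))) hαε
        refine lt_of_le_of_lt e1 ?_
        calc |L| * I ((α - p.1) ^ 2) ≤ |L| * ((ε / 2) ^ 2 / (|L| + 1)) := by gcongr
          _ = |L| / (|L| + 1) * (ε / 2) ^ 2 := by ring
          _ < 1 * (ε / 2) ^ 2 := by
              refine mul_lt_mul_of_pos_right ?_ (by positivity)
              rw [div_lt_one (by positivity)]; linarith
          _ = (ε / 2) ^ 2 := one_mul _
      have e3 : (fun x => fvec Gr (p :: Z) x - fvec Gr ((α, p.2) :: Z1) x)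
          = (fun x => p.1 x • Gr p.2 x - α x • Gr p.2 x)
            + fun x => fvec Gr Z x - fvec Gr Z1 x := by
        funext x
        rw [IsGrad.fvec_cons, IsGrad.fvec_cons, Pi.add_apply]
        abel
      rw [e3]
      refine lt_of_le_of_lt (eLpNorm_add_le hd.1 ((hG.fvec_mem hC hZ').sub h2).1 (by norm_num)) ?_
      calc _ < ENNReal.ofReal (ε / 2) + ENNReal.ofReal (ε / 2) := ENNReal.add_lt_add n1 h3
        _ = ENNReal.ofReal ε := by
            rw [← ENNReal.ofReal_add (by positivity) (by positivity), add_halves]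

include hC hB hG hU

/-- localisation in the potential, for lists -/
theorem loc_list [SigmaFinite m] (hST : IsMod S T) (hTA : ∀ f ∈ T, f ∈ C.A)
    (ha : a ∈ C.Test) (hb : b ∈ C.Test)
    (H : ∀ k ∈ C.Test, ∀ φ ∈ T, 0 ≤ φ → 0 ≤ I (C.rkI (UUof m U) κ' a b b a φ)
      + 3 * nE m φ (fun x => U b a x + Gr k x)) :
    ∀ (Z : List ((M →ₘ[m] ℝ) × (M →ₘ[m] ℝ))), (∀ p ∈ Z, p.1 ∈ S ∧ p.2 ∈ C.Test) →
      MemLp (fun x => U b a x + fvec Gr Z x) 2 m ∧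
      ∀ k ∈ C.Test, ∀ φ ∈ T, 0 ≤ φ → 0 ≤ I (C.rkI (UUof m U) κ' a b b a φ)
        + 3 * nE m φ (fun x => (U b a x + fvec Gr Z x) + Gr k x) := by
  intro Z
  induction Z with
  | nil =>
    intro _
    have e : (fun x => U b a x + fvec Gr ([] : List ((M →ₘ[m] ℝ) × (M →ₘ[m] ℝ))) x) = U b a := by
      funext x; rw [IsGrad.fvec_nil]; simp
    have e' : ∀ k, (fun x => (U b a x + fvec Gr ([] : List ((M →ₘ[m] ℝ) × (M →ₘ[m] ℝ))) x)
        + Gr k x) = fun x => U b a x + Gr k x := by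
      intro k; funext x; rw [IsGrad.fvec_nil]; simp
    refine ⟨by rw [e]; exact hU.mem b hb a ha, fun k hk φ hφ hφ0 => ?_⟩
    rw [e' k]
    exact H k hk φ hφ hφ0
  | cons p Z ih =>
    intro hZ
    obtain ⟨h1, h2⟩ := ih fun q hq => hZ q (by simp [hq])
    obtain ⟨hp1, hp2⟩ := hZ p (by simp)
    have h3 := loc_step hC hB hG hU hST hTA ha hb h1 h2 hp1 hp2
    have e : ∀ x, U b a x + fvec Gr (p :: Z) x = (U b a x + fvec Gr Z x) + p.1 x • Gr p.2 x := by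
      intro x; rw [IsGrad.fvec_cons]; abel
    refine ⟨?_, fun k hk φ hφ hφ0 => ?_⟩
    · simp only [e]
      exact h1.add (smul_memE (hST.topS _ hp1) (hG.mem _ (hC.tW hp2)))
    · simp only [e]
      exact h3 k hk φ hφ hφ0

/-- localisation in the potential: conclusion -/
theorem loc_all [SigmaFinite m] (hST : IsMod S T) (hTA : ∀ f ∈ T, f ∈ C.A)
    (hSd : ∀ f ∈ C.W, ∀ ε > 0, ∃ g ∈ S, g ∈ C.W ∧ C.nrm2 (g - f) < ε)
    (ha : a ∈ C.Test) (hb : b ∈ C.Test)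
    (H : ∀ k ∈ C.Test, ∀ φ ∈ T, 0 ≤ φ → 0 ≤ I (C.rkI (UUof m U) κ' a b b a φ)
      + 3 * nE m φ (fun x => U b a x + Gr k x)) :
    ∀ φ ∈ T, 0 ≤ φ → 0 ≤ I (C.rkI (UUof m U) κ' a b b a φ) := by
  intro φ hφ hφ0
  obtain ⟨L, hL⟩ := mem_top_iff.1 (hTA φ hφ).2
  refine le_of_forall_pos_le_add fun ε hε => ?_
  set δ : ℝ := Real.sqrt (ε / (3 * |L| + 1)) with hδ
  have hδ0 : 0 < δ := Real.sqrt_pos.2 (by positivity)
  -- approximate `-U`
  have hi := (hU.incl hb ha).smul hB hG hC (-1)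
  obtain ⟨Z, hZ, hZε⟩ := hi.2 (ENNReal.ofReal (δ / 2)) (by simpa using by (clear * - hε; positivity))
  obtain ⟨Z', h1, h2, h3⟩ := fvec_approx hC hG hST hSd Z hZ (δ / 2) (by (clear * - hε; positivity))
  obtain ⟨h4, h5⟩ := loc_list (κ' := κ') hC hB hG hU hST hTA ha hb H Z' h1
  have h6 := h5 0 (hC.test_zero hB) φ hφ hφ0
  have e1 : nE m φ (fun x => (U b a x + fvec Gr Z' x) + Gr 0 x)
      = nE m φ (fun x => U b a x + fvec Gr Z' x) := by
    unfold nE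
    refine integral_congr_ae ?_
    filter_upwards [hG.zero hC.toIsDir] with x hx
    rw [hx, add_zero]
  rw [e1] at h6
  have h7 := nE_le hL (hTA φ hφ).2 h4
  have h8 : (eLpNorm (fun x => U b a x + fvec Gr Z' x) 2 m).toReal ≤ δ := by
    have e2 : (fun x => U b a x + fvec Gr Z' x) = fun x => -(((-1 : ℝ) • U b a x - fvec Gr Z x)
        + (fvec Gr Z x - fvec Gr Z' x)) := by
      funext x
      rw [neg_one_smul]; abel
    have e3 : eLpNorm (fun x => U b a x + fvec Gr Z' x) 2 m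
        = eLpNorm ((fun x => (-1 : ℝ) • U b a x - fvec Gr Z x)
          + fun x => fvec Gr Z x - fvec Gr Z' x) 2 m := by
      rw [e2, ← eLpNorm_neg]; congr 1; funext x
      simp only [Pi.neg_apply, Pi.add_apply, neg_neg]
    rw [e3]
    have hm1 : MemLp (fun x => (-1 : ℝ) • U b a x - fvec Gr Z x) 2 m :=
      hi.1.sub (hG.fvec_mem hC hZ)
    have hm2 : MemLp (fun x => fvec Gr Z x - fvec Gr Z' x) 2 m := (hG.fvec_mem hC hZ).sub h2
    refine ENNReal.toReal_le_of_le_ofReal hδ0.le ?_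
    refine (eLpNorm_add_le hm1.1 hm2.1 (by norm_num)).trans ?_
    calc _ ≤ ENNReal.ofReal (δ / 2) + ENNReal.ofReal (δ / 2) := add_le_add hZε.le h3.le
      _ = ENNReal.ofReal δ := by
          rw [← ENNReal.ofReal_add (by positivity) (by positivity), add_halves]
  have h9 : (eLpNorm (fun x => U b a x + fvec Gr Z' x) 2 m).toReal ^ 2 ≤ ε / (3 * |L| + 1) := by
    rw [← Real.sq_sqrt (show 0 ≤ ε / (3 * |L| + 1) by (clear * - hε; positivity))]
    exact pow_le_pow_left₀ ENNReal.toReal_nonneg h8 2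
  have h10 : 3 * nE m φ (fun x => U b a x + fvec Gr Z' x) ≤ ε := by
    calc 3 * nE m φ (fun x => U b a x + fvec Gr Z' x)
        ≤ 3 * (L * (eLpNorm (fun x => U b a x + fvec Gr Z' x) 2 m).toReal ^ 2) := by gcongr
      _ ≤ 3 * (|L| * (ε / (3 * |L| + 1))) := by
          have : L * (eLpNorm (fun x => U b a x + fvec Gr Z' x) 2 m).toReal ^ 2
              ≤ |L| * (ε / (3 * |L| + 1)) :=
            mul_le_mul (le_abs_self L) h9 (sq_nonneg _) (abs_nonneg _)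
          linarith only [this]
      _ = (3 * |L|) / (3 * |L| + 1) * ε := by ring
      _ ≤ 1 * ε := by
          refine mul_le_mul_of_nonneg_right ?_ hε.le
          rw [div_le_one (by (clear * -; positivity))]; linarith
      _ = ε := one_mul ε
  linarith

end Vale.Agent.P233
end

section

set_option linter.all false

open MeasureTheory Filter Topology
open scoped ENNReal NNReal InnerProductSpace

namespace Vale.Agent.P233

variable {M : Type*} [MeasurableSpace M] {m : Measure M} {C : Calc m}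
variable {E : Type*} [NormedAddCommGroup E] [InnerProductSpace ℝ E]

/-! ### convergence of vector fields -/

/-- convergence in `L²(M;E)` -/
structure TE (m : Measure M) (w : ℕ → M → E) (w0 : M → E) : Prop where
  mem : ∀ n, MemLp (w n) 2 m
  mem' : MemLp w0 2 m
  lim : Tendsto (fun n => ∫ x, ‖w n x - w0 x‖ ^ 2 ∂m) atTop (𝓝 0)

section basic

variable {u v w0 v0 : M → E} {w w' : ℕ → M → E}

omit [InnerProductSpace ℝ E] in
theorem n2_int (hu : MemLp u 2 m) : Integrable (fun x => ‖u x‖ ^ 2) m :=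
  (memLp_two_iff_integrable_sq_norm hu.1).1 hu

omit [InnerProductSpace ℝ E] in
theorem n2_nonneg (u : M → E) : 0 ≤ ∫ x, ‖u x‖ ^ 2 ∂m := integral_nonneg fun x => by positivity

theorem n2_eq (hu : MemLp u 2 m) : ∫ x, ‖u x‖ ^ 2 ∂m = (eLpNorm u 2 m).toReal ^ 2 := by
  rw [← Lp.norm_toLp u hu, ← real_inner_self_eq_norm_sq, L2.inner_def]
  refine integral_congr_ae ?_
  filter_upwards [hu.coeFn_toLp] with x hx
  rw [hx, real_inner_self_eq_norm_sq]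

omit [InnerProductSpace ℝ E] in
theorem n2_add_le (hu : MemLp u 2 m) (hv : MemLp v 2 m) :
    ∫ x, ‖u x + v x‖ ^ 2 ∂m ≤ 2 * ∫ x, ‖u x‖ ^ 2 ∂m + 2 * ∫ x, ‖v x‖ ^ 2 ∂m := by
  rw [← integral_const_mul, ← integral_const_mul,
    ← integral_add ((n2_int hu).const_mul _) ((n2_int hv).const_mul _)]
  refine integral_mono_ae (n2_int (hu.add hv)) (((n2_int hu).const_mul _).add
    ((n2_int hv).const_mul _)) ?_
  filter_upwards with x
  have h1 := norm_add_le (u x) (v x)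
  have h2 : ‖u x + v x‖ ^ 2 ≤ (‖u x‖ + ‖v x‖) ^ 2 := by gcongr
  linarith only [sq_nonneg (‖u x‖ - ‖v x‖), h2]

theorem int_inner2 (hu : MemLp u 2 m) (hv : MemLp v 2 m) :
    Integrable (fun x => ⟪u x, v x⟫_ℝ) m := by
  refine (L2.integrable_inner (𝕜 := ℝ) hu.toLp hv.toLp).congr ?_
  filter_upwards [hu.coeFn_toLp, hv.coeFn_toLp] with x a1 a2
  rw [a1, a2]

theorem cs_E (hu : MemLp u 2 m) (hv : MemLp v 2 m) :
    |∫ x, ⟪u x, v x⟫_ℝ ∂m| ≤ √(∫ x, ‖u x‖ ^ 2 ∂m) * √(∫ x, ‖v x‖ ^ 2 ∂m) := by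
  have e1 : ∫ x, ⟪u x, v x⟫_ℝ ∂m = ⟪hu.toLp, hv.toLp⟫_ℝ := by
    rw [L2.inner_def]
    refine integral_congr_ae ?_
    filter_upwards [hu.coeFn_toLp, hv.coeFn_toLp] with x a1 a2
    rw [a1, a2]
  rw [e1, n2_eq hu, n2_eq hv, Real.sqrt_sq ENNReal.toReal_nonneg,
    Real.sqrt_sq ENNReal.toReal_nonneg, ← Lp.norm_toLp u hu, ← Lp.norm_toLp v hv]
  exact abs_real_inner_le_norm _ _

omit [InnerProductSpace ℝ E] in
theorem TE.const (hu : MemLp u 2 m) : TE m (fun _ => u) u :=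
  ⟨fun _ => hu, hu, by simp⟩

omit [InnerProductSpace ℝ E] in
theorem TE.add (h1 : TE m w w0) (h2 : TE m w' v0) :
    TE m (fun n x => w n x + w' n x) (fun x => w0 x + v0 x) := by
  refine ⟨fun n => (h1.mem n).add (h2.mem n), h1.mem'.add h2.mem', ?_⟩
  refine squeeze_zero (fun n => n2_nonneg _) (fun n => ?_)
    (by simpa using (h1.lim.const_mul 2).add (h2.lim.const_mul 2))
  have h3 := n2_add_le ((h1.mem n).sub h1.mem') ((h2.mem n).sub h2.mem')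
  refine le_trans (le_of_eq ?_) h3
  refine integral_congr_ae ?_
  filter_upwards with x
  simp only [Pi.sub_apply]
  congr 2
  abel

theorem TE.smul (c : ℝ) (h1 : TE m w w0) : TE m (fun n x => c • w n x) (fun x => c • w0 x) := by
  refine ⟨fun n => (h1.mem n).const_smul c, h1.mem'.const_smul c, ?_⟩
  have h2 := h1.lim.const_mul (c ^ 2)
  rw [mul_zero] at h2
  refine h2.congr fun n => ?_
  rw [← integral_const_mul]
  refine integral_congr_ae ?_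
  filter_upwards with x
  rw [← smul_sub, norm_smul, mul_pow, Real.norm_eq_abs, sq_abs]

theorem TE.inner_lim (h1 : TE m w w0) (h2 : TE m w' v0) :
    Tendsto (fun n => ∫ x, ⟪w n x, w' n x⟫_ℝ ∂m) atTop (𝓝 (∫ x, ⟪w0 x, v0 x⟫_ℝ ∂m)) := by
  rw [tendsto_iff_dist_tendsto_zero]
  have l1 := (Real.continuous_sqrt.tendsto 0).comp h1.lim
  have l2 := (Real.continuous_sqrt.tendsto 0).comp h2.lim
  simp only [Real.sqrt_zero, Function.comp_def] at l1 l2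
  have hlim : Tendsto (fun n => √(∫ x, ‖w n x - w0 x‖ ^ 2 ∂m) * √(∫ x, ‖w' n x - v0 x‖ ^ 2 ∂m)
      + √(∫ x, ‖w n x - w0 x‖ ^ 2 ∂m) * √(∫ x, ‖v0 x‖ ^ 2 ∂m)
      + √(∫ x, ‖w0 x‖ ^ 2 ∂m) * √(∫ x, ‖w' n x - v0 x‖ ^ 2 ∂m)) atTop (𝓝 0) := by
    have := ((l1.mul l2).add (l1.mul_const (√(∫ x, ‖v0 x‖ ^ 2 ∂m)))).add
      (l2.const_mul (√(∫ x, ‖w0 x‖ ^ 2 ∂m)))
    simpa using this
  refine squeeze_zero (fun n => dist_nonneg) (fun n => ?_) hlim
  have a1 := (h1.mem n).sub h1.mem'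
  have a2 := (h2.mem n).sub h2.mem'
  have i1 := int_inner2 a1 a2
  have i2 := int_inner2 a1 h2.mem'
  have i3 := int_inner2 h1.mem' a2
  have i4 := int_inner2 h1.mem' h2.mem'
  have e : ∫ x, ⟪w n x, w' n x⟫_ℝ ∂m = ∫ x, ⟪(w n - w0) x, (w' n - v0) x⟫_ℝ ∂m
      + ∫ x, ⟪(w n - w0) x, v0 x⟫_ℝ ∂m + ∫ x, ⟪w0 x, (w' n - v0) x⟫_ℝ ∂m
      + ∫ x, ⟪w0 x, v0 x⟫_ℝ ∂m := by
    have i12 : Integrable (fun x => ⟪(w n - w0) x, (w' n - v0) x⟫_ℝ + ⟪(w n - w0) x, v0 x⟫_ℝ) m :=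
      i1.add i2
    have i123 : Integrable (fun x => ⟪(w n - w0) x, (w' n - v0) x⟫_ℝ + ⟪(w n - w0) x, v0 x⟫_ℝ
      + ⟪w0 x, (w' n - v0) x⟫_ℝ) m := i12.add i3
    rw [← integral_add i1 i2, ← integral_add i12 i3, ← integral_add i123 i4]
    refine integral_congr_ae ?_
    filter_upwards with x
    simp only [Pi.sub_apply, Pi.add_apply, inner_sub_left, inner_sub_right]
    ring
  rw [Real.dist_eq, e, add_sub_cancel_right]
  refine (abs_add_le _ _).trans (add_le_add ((abs_add_le _ _).trans (add_le_add ?_ ?_)) ?_)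
  · exact cs_E a1 a2
  · exact cs_E a1 h2.mem'
  · exact cs_E h1.mem' a2

/-- bounded multipliers -/
theorem TE.mul {F : ℕ → M →ₘ[m] ℝ} {f : M →ₘ[m] ℝ} (hF : Tb F f) (h1 : TE m w w0) :
    TE m (fun n x => F n x • w n x) (fun x => f x • w0 x) := by
  have mm : ∀ {G : M →ₘ[m] ℝ} {z : M → E}, MemLp G ∞ m → MemLp z 2 m →
      MemLp (fun x => G x • z x) 2 m := fun hG hz => hz.smul (p := ∞) (r := 2) hG
  refine ⟨fun n => mm (hF.mem n) (h1.mem n), mm hF.mem' h1.mem', ?_⟩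
  obtain ⟨K, hK⟩ := hF.bd
  have hf := hF.bd' hK
  have l1 : Tendsto (fun n => ∫ x, ‖(F n x - f x) • w0 x‖ ^ 2 ∂m) atTop (𝓝 0) := by
    have := tendsto_integral_of_dominated_convergence (μ := m)
      (F := fun n x => ‖(F n x - f x) • w0 x‖ ^ 2) (f := fun _ => (0 : ℝ))
      (fun x => (2 * |K|) ^ 2 * ‖w0 x‖ ^ 2) (fun n => ?_) ((n2_int h1.mem').const_mul _)
      (fun n => ?_) ?_
    · simpa using this
    · exact ((((F n).aestronglyMeasurable.sub f.aestronglyMeasurable).smul h1.mem'.1).norm.pow 2)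
    · filter_upwards [hK n, hf] with x a1 a2
      rw [Real.norm_eq_abs, abs_of_nonneg (by positivity), norm_smul, mul_pow, Real.norm_eq_abs,
        sq_abs]
      have a3 : |F n x - f x| ≤ 2 * |K| := by
        have a4 := abs_sub (F n x) (f x)
        have a5 := le_abs_self K
        linarith
      have a6 : (F n x - f x) ^ 2 ≤ (2 * |K|) ^ 2 := by
        rw [← sq_abs (F n x - f x)]
        gcongr
      gcongr
    · filter_upwards [hF.lim] with x a1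
      have a2 : Tendsto (fun n => ‖(F n x - f x) • w0 x‖ ^ 2) atTop
          (𝓝 (‖(f x - f x) • w0 x‖ ^ 2)) :=
        (((a1.sub_const (f x)).smul_const (w0 x)).norm).pow 2
      simpa using a2
  have l2 := (h1.lim.const_mul (K ^ 2))
  rw [mul_zero] at l2
  refine squeeze_zero (fun n => n2_nonneg _) (fun n => ?_)
    (by simpa using (l2.const_mul 2).add (l1.const_mul 2))
  have a1 := (h1.mem n).sub h1.mem'
  have a2 := mm (hF.mem n) a1
  have a3 : MemLp (fun x => (F n x - f x) • w0 x) 2 m := by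
    have := (mm (hF.mem n) h1.mem').sub (mm hF.mem' h1.mem')
    refine this.ae_eq ?_
    filter_upwards with x
    simp only [Pi.sub_apply, sub_smul]
  have h3 := n2_add_le a2 a3
  have h4 : ∫ x, ‖F n x • (w n - w0) x‖ ^ 2 ∂m ≤ K ^ 2 * ∫ x, ‖w n x - w0 x‖ ^ 2 ∂m := by
    rw [← integral_const_mul]
    refine integral_mono_ae (n2_int a2) ((n2_int a1).const_mul _) ?_
    filter_upwards [hK n] with x b1
    rw [norm_smul, mul_pow, Real.norm_eq_abs]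
    have b2 : |F n x| ^ 2 ≤ K ^ 2 := by
      rw [← sq_abs K]
      have := b1.trans (le_abs_self K)
      gcongr
    exact mul_le_mul_of_nonneg_right b2 (by positivity)
  have h5 : ∫ x, ‖F n x • w n x - f x • w0 x‖ ^ 2 ∂m =
      ∫ x, ‖F n x • (w n - w0) x + (F n x - f x) • w0 x‖ ^ 2 ∂m := by
    refine integral_congr_ae ?_
    filter_upwards with x
    congr 2
    simp only [Pi.sub_apply, smul_sub, sub_smul]
    abel
  rw [h5]
  linarith

theorem TE.ip {F : ℕ → M →ₘ[m] ℝ} {f : M →ₘ[m] ℝ} (hF : Tb F f) (h1 : TE m w w0)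
    (h2 : TE m w' v0) :
    Tendsto (fun n => I (F n * ipE m (w n) (w' n))) atTop (𝓝 (I (f * ipE m w0 v0))) := by
  have e : ∀ {G : M →ₘ[m] ℝ} {y z : M → E}, MemLp y 2 m → MemLp z 2 m →
      I (G * ipE m y z) = ∫ x, ⟪G x • y x, z x⟫_ℝ ∂m := by
    intro G y z hy hz
    refine integral_congr_ae ?_
    filter_upwards [mul_ae G (ipE m y z), ipE_ae hy.1 hz.1] with x a1 a2
    rw [a1, a2, real_inner_smul_left]
  rw [e h1.mem' h2.mem']
  refine ((h1.mul hF).inner_lim h2).congr fun n => ?_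
  rw [e (h1.mem n) (h2.mem n)]

end basic

/-! ### the closure of the test fields -/

section inF

variable {Gr : (M →ₘ[m] ℝ) → M → E}

/-- the closure of the test fields -/
def InF (C : Calc m) (Gr : (M →ₘ[m] ℝ) → M → E) (w : M → E) : Prop :=
  ∃ Z : ℕ → List ((M →ₘ[m] ℝ) × (M →ₘ[m] ℝ)), (∀ n, C.IsTestV (Z n)) ∧
    TE m (fun n => fvec Gr (Z n)) w

variable (hC : IsGamma C) (hG : IsGrad C Gr)
include hC hG

theorem IsGamma.fvec_mem {Z : List ((M →ₘ[m] ℝ) × (M →ₘ[m] ℝ))} (hZ : C.IsTestV Z) :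
    MemLp (fvec Gr Z) 2 m := by
  induction Z with
  | nil => rw [IsGrad.fvec_nil]; exact MemLp.zero
  | cons p Z ih =>
    have h1 : fvec Gr (p :: Z) = (fun x => p.1 x • Gr p.2 x) + fvec Gr Z := by
      funext x; rw [IsGrad.fvec_cons]; rfl
    rw [h1]
    exact (hG.smul_mem2 (hC.test_A (hZ p List.mem_cons_self).1).2
      (hC.tW (hZ p List.mem_cons_self).2)).add (ih fun q hq => hZ q (List.mem_cons_of_mem _ hq))

omit hG in
theorem IsGamma.fvec_smul {κ : ℝ} (hB : C.BEi κ) (t : ℝ)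
    {Z : List ((M →ₘ[m] ℝ) × (M →ₘ[m] ℝ))} (hZ : C.IsTestV Z) :
    ∃ Z', C.IsTestV Z' ∧ ∀ᵐ x ∂m, fvec Gr Z' x = t • fvec Gr Z x := by
  refine ⟨Z.map fun p => (t • p.1, p.2), ?_, ?_⟩
  · intro q hq
    rw [List.mem_map] at hq
    obtain ⟨p, hp, rfl⟩ := hq
    exact ⟨hC.test_smul hB _ (hZ p hp).1, (hZ p hp).2⟩
  · clear hZ
    induction Z with
    | nil => filter_upwards with x; simp [fvec]
    | cons p Z ih =>
      filter_upwards [ih, smul_ae p.1 t] with x h1 h2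
      rw [List.map_cons, IsGrad.fvec_cons, IsGrad.fvec_cons, h1, h2, smul_add, smul_smul]

theorem IsGamma.inF_of_dense {w : M → E} (hw : MemLp w 2 m)
    (h : ∀ ε > 0, ∃ Z, C.IsTestV Z ∧ eLpNorm (fun x => w x - fvec Gr Z x) 2 m < ε) :
    InF C Gr w := by
  choose Z hZ1 hZ2 using fun n : ℕ => h (ENNReal.ofReal (((n : ℝ) + 1)⁻¹)) (by positivity)
  refine ⟨Z, hZ1, fun n => hC.fvec_mem hG (hZ1 n), hw, ?_⟩
  have h3 : ∀ n, ∫ x, ‖fvec Gr (Z n) x - w x‖ ^ 2 ∂m ≤ (((n : ℝ) + 1)⁻¹) ^ 2 := by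
    intro n
    have h4 := hw.sub (hC.fvec_mem hG (hZ1 n))
    have h5 : ∫ x, ‖fvec Gr (Z n) x - w x‖ ^ 2 ∂m = ∫ x, ‖(w - fvec Gr (Z n)) x‖ ^ 2 ∂m := by
      refine integral_congr_ae ?_
      filter_upwards with x
      rw [Pi.sub_apply, norm_sub_rev]
    rw [h5, n2_eq h4]
    have h6 : (eLpNorm (w - fvec Gr (Z n)) 2 m).toReal ≤ ((n : ℝ) + 1)⁻¹ := by
      refine ENNReal.toReal_le_of_le_ofReal (by positivity) ?_
      exact (hZ2 n).le
    gcongr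
  refine squeeze_zero (fun n => n2_nonneg _) h3 ?_
  simpa using tendsto_inv_succ.pow 2

theorem InF.closed {w : ℕ → M → E} {w0 : M → E} (hw : ∀ n, InF C Gr (w n)) (h : TE m w w0) :
    InF C Gr w0 := by
  have h1 : ∀ n, ∃ Z, C.IsTestV Z ∧ ∫ x, ‖fvec Gr Z x - w n x‖ ^ 2 ∂m < ((n : ℝ) + 1)⁻¹ := by
    intro n
    obtain ⟨Z, hZ1, hZ2⟩ := hw n
    obtain ⟨k, hk⟩ := (hZ2.lim.eventually (gt_mem_nhds (show (0 : ℝ) < ((n : ℝ) + 1)⁻¹ by
      positivity))).exists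
    exact ⟨Z k, hZ1 k, hk⟩
  choose Z hZ1 hZ2 using h1
  refine ⟨Z, hZ1, fun n => hC.fvec_mem hG (hZ1 n), h.mem', ?_⟩
  refine squeeze_zero (fun n => n2_nonneg _) (fun n => ?_)
    (by simpa using (tendsto_inv_succ.const_mul 2).add (h.lim.const_mul 2))
  have h3 := n2_add_le ((hC.fvec_mem hG (hZ1 n)).sub (h.mem n)) ((h.mem n).sub h.mem')
  have h4 : ∫ x, ‖fvec Gr (Z n) x - w0 x‖ ^ 2 ∂m =
      ∫ x, ‖(fvec Gr (Z n) - w n) x + (w n - w0) x‖ ^ 2 ∂m := by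
    refine integral_congr_ae ?_
    filter_upwards with x
    simp only [Pi.sub_apply]
    congr 2
    abel
  rw [h4]
  have h5 := (hZ2 n).le
  simp only [Pi.sub_apply] at h3 ⊢
  linarith only [h5, h3]

omit hC hG in
theorem InF.add {w w' : M → E} (h : InF C Gr w) (h' : InF C Gr w') :
    InF C Gr (fun x => w x + w' x) := by
  obtain ⟨Z, hZ1, hZ2⟩ := h
  obtain ⟨Z', hZ1', hZ2'⟩ := h'
  refine ⟨fun n => Z n ++ Z' n, fun n p hp => ?_, ?_⟩
  · rcases List.mem_append.1 hp with hp | hp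
    · exact hZ1 n p hp
    · exact hZ1' n p hp
  · have h1 := hZ2.add hZ2'
    have h2 : (fun n => fvec Gr (Z n ++ Z' n)) = fun n x => fvec Gr (Z n) x + fvec Gr (Z' n) x := by
      funext n x; exact IsGrad.fvec_append _ _ _
    rw [h2]; exact h1

theorem InF.smul {κ : ℝ} (hB : C.BEi κ) (t : ℝ) {w : M → E} (h : InF C Gr w) :
    InF C Gr (fun x => t • w x) := by
  obtain ⟨Z, hZ1, hZ2⟩ := h
  choose Z' hZ' hZ'2 using fun n => hC.fvec_smul (Gr := Gr) hB t (hZ1 n)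
  refine ⟨Z', hZ', fun n => hC.fvec_mem hG (hZ' n), hZ2.mem'.const_smul t, ?_⟩
  refine (hZ2.smul t).lim.congr fun n => ?_
  refine integral_congr_ae ?_
  filter_upwards [hZ'2 n] with x hx
  rw [hx]

theorem InF.eq_zero {w : M → E} (h : InF C Gr w)
    (h0 : ∀ c ∈ C.Test, ∀ᵐ x ∂m, ⟪w x, Gr c x⟫_ℝ = 0) : ∀ᵐ x ∂m, w x = 0 := by
  obtain ⟨Z, hZ1, hZ2⟩ := h
  have h1 : ∀ Z, C.IsTestV Z → ∀ᵐ x ∂m, ⟪w x, fvec Gr Z x⟫_ℝ = 0 := by
    intro Z hZ
    induction Z with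
    | nil => filter_upwards with x; simp [fvec]
    | cons p Z ih =>
      filter_upwards [ih fun q hq => hZ q (List.mem_cons_of_mem _ hq),
        h0 p.2 (hZ p List.mem_cons_self).2] with x a1 a2
      rw [IsGrad.fvec_cons, inner_add_right, real_inner_smul_right, a1, a2]
      simp
  have h2 := (TE.const hZ2.mem').inner_lim hZ2
  have h3 : ∀ n, ∫ x, ⟪w x, fvec Gr (Z n) x⟫_ℝ ∂m = 0 := by
    intro n
    rw [integral_congr_ae (h1 (Z n) (hZ1 n))]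
    simp
  simp only [h3] at h2
  have h4 := tendsto_nhds_unique h2 tendsto_const_nhds
  have h5 : ∫ x, ‖w x‖ ^ 2 ∂m = 0 := by
    rw [← h4]
    refine integral_congr_ae ?_
    filter_upwards with x
    rw [real_inner_self_eq_norm_sq]
  have h6 := (integral_eq_zero_iff_of_nonneg (fun x => by positivity) (n2_int hZ2.mem')).1 h5
  filter_upwards [h6] with x hx
  simpa using hx

theorem IsGamma.inF_Gr_test [SigmaFinite m] {κ : ℝ} (hB : C.BEi κ) {h : M →ₘ[m] ℝ}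
    (hh : h ∈ C.Test) : InF C Gr (Gr h) := by
  obtain ⟨χ, Λ, hT, h0, hb1, hconv, -⟩ := hC.exists_cut hB
  refine ⟨fun k => [(χ k, h)], fun k p hp => ?_, ?_⟩
  · rw [List.mem_singleton] at hp
    subst hp
    exact ⟨hT k, hh⟩
  · have hb : Tb χ (1 : M →ₘ[m] ℝ) := ⟨⟨1, hb1⟩, by
      filter_upwards [hconv, one_ae (M := M) (m := m)] with x a1 a2
      rw [a2]; exact a1⟩
    have h1 := (TE.const (hG.mem h (hC.tW hh))).mul hb
    refine ⟨fun k => ?_, hG.mem h (hC.tW hh), h1.lim.congr fun k => ?_⟩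
    · exact hC.fvec_mem hG fun p hp => by
        rw [List.mem_singleton] at hp
        subst hp
        exact ⟨hT k, hh⟩
    · refine integral_congr_ae ?_
      filter_upwards [one_ae (M := M) (m := m)] with x a1
      rw [a1, one_smul]
      simp [fvec]

/-- gradients of Sobolev functions are limits of test fields -/
theorem IsGamma.inF_Gr [SigmaFinite m] {κ : ℝ} (hB : C.BEi κ) {g : M →ₘ[m] ℝ} (hg : g ∈ C.W) :
    InF C Gr (Gr g) := by
  choose v hv1 hv2 using fun n : ℕ => hC.test_dense hB hg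
    (show (0 : ℝ) < ((n : ℝ) + 1)⁻¹ by positivity)
  have hvW := fun n => hC.tW (hv1 n)
  refine InF.closed hC hG (fun n => hC.inF_Gr_test hG hB (hv1 n)) ⟨fun n => hG.mem _ (hvW n),
    hG.mem g hg, ?_⟩
  refine squeeze_zero (fun n => n2_nonneg _) (fun n => ?_) tendsto_inv_succ
  have h1 := hC.sub_mem (hvW n) hg
  have h2 : ∫ x, ‖Gr (v n) x - Gr g x‖ ^ 2 ∂m = I (C.Γ (v n - g) (v n - g)) := by
    rw [← hG.int_norm_sq h1]
    refine integral_congr_ae ?_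
    filter_upwards [hG.sub hC.toIsDir (hvW n) hg] with x hx
    rw [hx]
  rw [h2]
  exact (hC.toIsDir.E_le_nrm2 _).trans (hv2 n).le

end inF

end Vale.Agent.P233
end

section

open MeasureTheory Filter Topology
open scoped ENNReal NNReal

namespace Vale.Agent.P233

variable {M : Type*} [MeasurableSpace M] {m : Measure M} {C : Calc m}

/-- `∫ φ Γ(x,y)` -/
noncomputable def Calc.BB (C : Calc m) (φ x y : M →ₘ[m] ℝ) : ℝ := I (φ * C.Γ x y)

namespace IsDir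

variable (hC : IsDir C) {φ ψ x y z w : M →ₘ[m] ℝ}
include hC

theorem BB_mem (hφ : MemLp φ ∞ m) (hx : x ∈ C.W) (hy : y ∈ C.W) :
    MemLp (φ * C.Γ x y : M →ₘ[m] ℝ) 1 m := mem_mul_top hφ (hC.Γ_mem1 hx hy)

theorem BB_comm (φ : M →ₘ[m] ℝ) (hx : x ∈ C.W) (hy : y ∈ C.W) : C.BB φ x y = C.BB φ y x := by
  unfold Calc.BB
  rw [hC.symm x hx y hy]

theorem BB_add_l (hφ : MemLp φ ∞ m) (hx : x ∈ C.W) (hy : y ∈ C.W) (hz : z ∈ C.W) :
    C.BB φ (x + y) z = C.BB φ x z + C.BB φ y z := by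
  unfold Calc.BB
  rw [hC.add_left x hx y hy z hz, mul_add, I_add (hC.BB_mem hφ hx hz) (hC.BB_mem hφ hy hz)]

theorem BB_smul_l (c : ℝ) (φ : M →ₘ[m] ℝ) (hx : x ∈ C.W) (hz : z ∈ C.W) :
    C.BB φ (c • x) z = c * C.BB φ x z := by
  unfold Calc.BB
  rw [hC.smul_left c x hx z hz, mul_smul_comm, I_smul]

theorem BB_lin2_l (hφ : MemLp φ ∞ m) (c d : ℝ) (hx : x ∈ C.W) (hy : y ∈ C.W) (hz : z ∈ C.W) :
    C.BB φ (c • x + d • y) z = c * C.BB φ x z + d * C.BB φ y z := by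
  rw [hC.BB_add_l hφ (hC.smul_mem c x hx) (hC.smul_mem d y hy) hz, hC.BB_smul_l c φ hx hz,
    hC.BB_smul_l d φ hy hz]

theorem BB_lin2_r (hφ : MemLp φ ∞ m) (c d : ℝ) (hx : x ∈ C.W) (hy : y ∈ C.W) (hz : z ∈ C.W) :
    C.BB φ z (c • x + d • y) = c * C.BB φ z x + d * C.BB φ z y := by
  rw [hC.BB_comm φ hz (hC.add_mem _ (hC.smul_mem c x hx) _ (hC.smul_mem d y hy)),
    hC.BB_lin2_l hφ c d hx hy hz, hC.BB_comm φ hx hz, hC.BB_comm φ hy hz]

theorem BB_lin3_l (hφ : MemLp φ ∞ m) (c d e : ℝ) (hx : x ∈ C.W) (hy : y ∈ C.W) (hw : w ∈ C.W)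
    (hz : z ∈ C.W) : C.BB φ (c • x + d • y + e • w) z
      = c * C.BB φ x z + d * C.BB φ y z + e * C.BB φ w z := by
  rw [hC.BB_add_l hφ (hC.add_mem _ (hC.smul_mem c x hx) _ (hC.smul_mem d y hy))
    (hC.smul_mem e w hw) hz, hC.BB_lin2_l hφ c d hx hy hz, hC.BB_smul_l e φ hw hz]

theorem BB_lin3_r (hφ : MemLp φ ∞ m) (c d e : ℝ) (hx : x ∈ C.W) (hy : y ∈ C.W) (hw : w ∈ C.W)
    (hz : z ∈ C.W) : C.BB φ z (c • x + d • y + e • w)
      = c * C.BB φ z x + d * C.BB φ z y + e * C.BB φ z w := by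
  rw [hC.BB_comm φ hz (hC.add_mem _ (hC.add_mem _ (hC.smul_mem c x hx) _ (hC.smul_mem d y hy)) _
    (hC.smul_mem e w hw)), hC.BB_lin3_l hφ c d e hx hy hw hz, hC.BB_comm φ hx hz,
    hC.BB_comm φ hy hz, hC.BB_comm φ hw hz]

/-- `g - s G` in the second slot -/
theorem BB_sub_r (hφ : MemLp φ ∞ m) (s : ℝ) (hx : x ∈ C.W) (hy : y ∈ C.W) (hz : z ∈ C.W) :
    C.BB φ z (x - s • y) = C.BB φ z x - s * C.BB φ z y := by
  have h := hC.BB_lin2_r hφ 1 (-s) hx hy hz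
  rw [one_smul, neg_smul, ← sub_eq_add_neg] at h
  rw [h]
  ring

theorem BB_sub_l (hφ : MemLp φ ∞ m) (s : ℝ) (hx : x ∈ C.W) (hy : y ∈ C.W) (hz : z ∈ C.W) :
    C.BB φ (x - s • y) z = C.BB φ x z - s * C.BB φ y z := by
  rw [hC.BB_comm φ (hC.sub_mem hx (hC.smul_mem s y hy)) hz, hC.BB_sub_r hφ s hx hy hz,
    hC.BB_comm φ hz hx, hC.BB_comm φ hz hy]

theorem BB_lin_φ (hφ : MemLp φ ∞ m) (hψ : MemLp ψ ∞ m) (c d : ℝ) (hx : x ∈ C.W) (hy : y ∈ C.W) :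
    C.BB (c • φ + d • ψ) x y = c * C.BB φ x y + d * C.BB ψ x y := by
  unfold Calc.BB
  rw [add_mul, smul_mul_assoc, smul_mul_assoc, I_add (mem_smul _ (hC.BB_mem hφ hx hy))
    (mem_smul _ (hC.BB_mem hψ hx hy)), I_smul, I_smul]

end IsDir

namespace Dat

variable {X : Dat m}

/-- the memberships that are used in the algebra -/
structure Mem (X : Dat m) (C : Calc m) : Prop where
  a : X.a ∈ C.W
  b : X.b ∈ C.W
  p : C.Γ X.a X.a ∈ C.W
  q : C.Γ X.a X.b ∈ C.W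
  r : C.Γ X.b X.b ∈ C.W
  P : X.P ∈ C.W
  Q : X.Q ∈ C.W
  R : X.R ∈ C.W
  F : MemLp X.F ∞ m
  A : MemLp X.A ∞ m
  B : MemLp X.B ∞ m
  Da : MemLp (C.De X.F X.a) ∞ m
  Db : MemLp (C.De X.F X.b) ∞ m

theorem Ok.mem (hC : IsGamma C) {K : ℝ} (hB : C.BEi K) {θ : M →ₘ[m] ℝ} {η δ : ℝ}
    (hX : X.Ok C θ η δ) : X.Mem C := by
  have hD := hC.toIsDir
  have hDe : ∀ {x : M →ₘ[m] ℝ}, x ∈ C.TestI → MemLp (C.De X.F x) ∞ m := by
    intro x hx
    exact mem_add (hD.Γ_memTop (hC.test_A hX.hF.1).1 (hC.test_Γ_top hX.hF.1) (hC.test_A hx.1).1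
      (hC.test_Γ_top hx.1)) (mem_mul_top (hC.test_A hX.hF.1).2 hx.2)
  exact ⟨(hC.test_A hX.ha.1).1, (hC.test_A hX.hb.1).1, (hC.Γ_mem hB hX.ha.1 hX.ha.1).1,
    (hC.Γ_mem hB hX.ha.1 hX.hb.1).1, (hC.Γ_mem hB hX.hb.1 hX.hb.1).1, (hC.test_A hX.hP.1).1,
    (hC.test_A hX.hQ.1).1, (hC.test_A hX.hR.1).1, (hC.test_A hX.hF.1).2, (hC.test_A hX.hA.1).2,
    (hC.test_A hX.hB.1).2, hDe hX.ha, hDe hX.hb⟩

section formulas

variable (hC : IsDir C) (hM : X.Mem C)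
include hC hM

theorem pt_mem (v : ℝ × ℝ) : X.pt v ∈ C.W :=
  hC.add_mem _ (hC.smul_mem _ _ hM.a) _ (hC.smul_mem _ _ hM.b)

theorem Γ_pt (v w : ℝ × ℝ) : C.Γ (X.pt v) (X.pt w) = (v.1 * w.1) • C.Γ X.a X.a
    + (v.1 * w.2 + v.2 * w.1) • C.Γ X.a X.b + (v.2 * w.2) • C.Γ X.b X.b := by
  have ha := hM.a
  have hb := hM.b
  have hw := pt_mem hC hM w
  unfold pt at hw ⊢
  rw [hC.add_left _ (hC.smul_mem _ _ ha) _ (hC.smul_mem _ _ hb) _ hw,
    hC.smul_left _ _ ha _ hw, hC.smul_left _ _ hb _ hw,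
    hC.Γ_add_right ha (hC.smul_mem _ _ ha) (hC.smul_mem _ _ hb),
    hC.Γ_add_right hb (hC.smul_mem _ _ ha) (hC.smul_mem _ _ hb),
    hC.Γ_smul_right _ ha ha, hC.Γ_smul_right _ ha hb, hC.Γ_smul_right _ hb ha,
    hC.Γ_smul_right _ hb hb, hC.symm _ hb _ ha]
  module

theorem Ge_mem (e : ℝ × ℝ) : X.Ge C e ∈ C.W := by
  unfold Ge
  rw [Γ_pt hC hM]
  exact hC.add_mem _ (hC.add_mem _ (hC.smul_mem _ _ hM.p) _ (hC.smul_mem _ _ hM.q)) _
    (hC.smul_mem _ _ hM.r)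

theorem BB_pt_l {φ g : M →ₘ[m] ℝ} (hφ : MemLp φ ∞ m) (v : ℝ × ℝ) (hg : g ∈ C.W) :
    C.BB φ (X.pt v) g = v.1 * C.BB φ X.a g + v.2 * C.BB φ X.b g :=
  hC.BB_lin2_l hφ _ _ hM.a hM.b hg

theorem BB_D {x y : M →ₘ[m] ℝ} (v : ℝ × ℝ) (hx : x ∈ C.W) (hy : y ∈ C.W) :
    C.BB (X.D C v) x y = v.1 * C.BB (C.De X.F X.a) x y + v.2 * C.BB (C.De X.F X.b) x y :=
  hC.BB_lin_φ hM.Da hM.Db _ _ hx hy

omit hC in
theorem D'_top (v : ℝ × ℝ) : MemLp (X.D' v) ∞ m :=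
  mem_add (mem_smul _ hM.A) (mem_smul _ hM.B)

theorem BB_D' {x y : M →ₘ[m] ℝ} (v : ℝ × ℝ) (hx : x ∈ C.W) (hy : y ∈ C.W) :
    C.BB (X.D' v) x y = v.1 * C.BB X.A x y + v.2 * C.BB X.B x y :=
  hC.BB_lin_φ hM.A hM.B _ _ hx hy

theorem G'_mem (v w : ℝ × ℝ) : X.G' v w ∈ C.W :=
  hC.add_mem _ (hC.add_mem _ (hC.smul_mem _ _ hM.P) _ (hC.smul_mem _ _ hM.Q)) _
    (hC.smul_mem _ _ hM.R)

theorem E2_eq (v w : ℝ × ℝ) : X.E2 C v w = v.1 * w.1 * C.BB X.F X.a X.a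
    + (v.1 * w.2 + v.2 * w.1) * C.BB X.F X.a X.b + v.2 * w.2 * C.BB X.F X.b X.b := by
  have ha := hM.a
  have hb := hM.b
  change C.BB X.F (X.pt v) (X.pt w) = _
  rw [BB_pt_l hC hM hM.F v (pt_mem hC hM w), hC.BB_comm _ ha (pt_mem hC hM w),
    hC.BB_comm _ hb (pt_mem hC hM w), BB_pt_l hC hM hM.F w ha, BB_pt_l hC hM hM.F w hb,
    hC.BB_comm _ hb ha]
  ring

theorem W3_eq (u v w : ℝ × ℝ) : X.W3 C u v w = 2⁻¹ * (u.1 * (v.1 * w.1 * C.BB (C.De X.F X.a) X.a X.a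
    + (v.1 * w.2 + v.2 * w.1) * C.BB (C.De X.F X.a) X.a X.b
    + v.2 * w.2 * C.BB (C.De X.F X.a) X.b X.b)
    + u.2 * (v.1 * w.1 * C.BB (C.De X.F X.b) X.a X.a
    + (v.1 * w.2 + v.2 * w.1) * C.BB (C.De X.F X.b) X.a X.b
    + v.2 * w.2 * C.BB (C.De X.F X.b) X.b X.b)) := by
  have ha := hM.a
  have hb := hM.b
  have hw := pt_mem hC hM w
  change 2⁻¹ * C.BB (X.D C u) (X.pt v) (X.pt w) = _
  rw [BB_D hC hM u (pt_mem hC hM v) hw, BB_pt_l hC hM hM.Da v hw, BB_pt_l hC hM hM.Db v hw,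
    hC.BB_comm _ ha hw, hC.BB_comm _ hb hw, hC.BB_comm _ ha hw, hC.BB_comm _ hb hw,
    BB_pt_l hC hM hM.Da w ha, BB_pt_l hC hM hM.Da w hb, BB_pt_l hC hM hM.Db w ha,
    BB_pt_l hC hM hM.Db w hb, hC.BB_comm _ hb ha, hC.BB_comm _ hb ha]
  ring

/-- `∫ ⟨Y_{vw}, ∇g⟩` -/
theorem I_Y (v w : ℝ × ℝ) {g : M →ₘ[m] ℝ} (hg : g ∈ C.W) : I (X.Y C v w g) =
    2⁻¹ * (C.BB (X.D' v) (X.pt w) g + C.BB (X.D' w) (X.pt v) g + C.BB X.F (X.G' v w) g) := by
  unfold Y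
  have h1 := hC.BB_mem (D'_top hM v) (pt_mem hC hM w) hg
  have h2 := hC.BB_mem (D'_top hM w) (pt_mem hC hM v) hg
  have h3 := hC.BB_mem hM.F (G'_mem hC hM v w) hg
  rw [I_smul, I_add (mem_add h1 h2) h3, I_add h1 h2]
  rfl

theorem X3_eq (u v w : ℝ × ℝ) : X.X3 C u v w = -(2⁻¹ *
    ((v.1 * (w.1 * (u.1 * C.BB X.A X.a X.a + u.2 * C.BB X.A X.a X.b)
        + w.2 * (u.1 * C.BB X.A X.a X.b + u.2 * C.BB X.A X.b X.b))
      + v.2 * (w.1 * (u.1 * C.BB X.B X.a X.a + u.2 * C.BB X.B X.a X.b)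
        + w.2 * (u.1 * C.BB X.B X.a X.b + u.2 * C.BB X.B X.b X.b)))
    + (w.1 * (v.1 * (u.1 * C.BB X.A X.a X.a + u.2 * C.BB X.A X.a X.b)
        + v.2 * (u.1 * C.BB X.A X.a X.b + u.2 * C.BB X.A X.b X.b))
      + w.2 * (v.1 * (u.1 * C.BB X.B X.a X.a + u.2 * C.BB X.B X.a X.b)
        + v.2 * (u.1 * C.BB X.B X.a X.b + u.2 * C.BB X.B X.b X.b)))
    + (v.1 * w.1 * (u.1 * C.BB X.F X.P X.a + u.2 * C.BB X.F X.P X.b)
      + (v.1 * w.2 + v.2 * w.1) * (u.1 * C.BB X.F X.Q X.a + u.2 * C.BB X.F X.Q X.b)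
      + v.2 * w.2 * (u.1 * C.BB X.F X.R X.a + u.2 * C.BB X.F X.R X.b)))) := by
  have ha := hM.a
  have hb := hM.b
  have hu := pt_mem hC hM u
  have key : ∀ {φ x : M →ₘ[m] ℝ}, MemLp φ ∞ m → x ∈ C.W →
      C.BB φ x (X.pt u) = u.1 * C.BB φ x X.a + u.2 * C.BB φ x X.b := fun hφ hx =>
    hC.BB_lin2_r hφ _ _ ha hb hx
  unfold X3
  rw [I_Y hC hM v w hu, BB_D' hC hM v (pt_mem hC hM w) hu, BB_D' hC hM w (pt_mem hC hM v) hu,
    BB_pt_l hC hM hM.A w hu, BB_pt_l hC hM hM.B w hu, BB_pt_l hC hM hM.A v hu,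
    BB_pt_l hC hM hM.B v hu, key hM.A ha, key hM.A hb, key hM.B ha, key hM.B hb,
    hC.BB_comm X.A hb ha, hC.BB_comm X.B hb ha]
  have h3 : C.BB X.F (X.G' v w) (X.pt u) = v.1 * w.1 * C.BB X.F X.P (X.pt u)
      + (v.1 * w.2 + v.2 * w.1) * C.BB X.F X.Q (X.pt u) + v.2 * w.2 * C.BB X.F X.R (X.pt u) :=
    hC.BB_lin3_l hM.F _ _ _ hM.P hM.Q hM.R hu
  rw [h3, key hM.F hM.P, key hM.F hM.Q, key hM.F hM.R]

/-- `RR` in terms of `BB` -/
theorem RR_eq (v w : ℝ × ℝ) {g : M →ₘ[m] ℝ} (hg : g ∈ C.W) : X.RR C v w g = -(2⁻¹ *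
    ((v.1 * (w.1 * C.BB (C.De X.F X.a) X.a g + w.2 * C.BB (C.De X.F X.a) X.b g)
      + v.2 * (w.1 * C.BB (C.De X.F X.b) X.a g + w.2 * C.BB (C.De X.F X.b) X.b g))
    + (w.1 * (v.1 * C.BB (C.De X.F X.a) X.a g + v.2 * C.BB (C.De X.F X.a) X.b g)
      + w.2 * (v.1 * C.BB (C.De X.F X.b) X.a g + v.2 * C.BB (C.De X.F X.b) X.b g))
    + (v.1 * w.1 * C.BB X.F (C.Γ X.a X.a) g + (v.1 * w.2 + v.2 * w.1) * C.BB X.F (C.Γ X.a X.b) g
      + v.2 * w.2 * C.BB X.F (C.Γ X.b X.b) g))) := by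
  change -(2⁻¹ * (C.BB (X.D C v) (X.pt w) g + C.BB (X.D C w) (X.pt v) g
    + C.BB X.F (C.Γ (X.pt v) (X.pt w)) g)) = _
  rw [Γ_pt hC hM, hC.BB_lin3_l hM.F _ _ _ hM.p hM.q hM.r hg,
    BB_D hC hM v (pt_mem hC hM w) hg, BB_D hC hM w (pt_mem hC hM v) hg,
    BB_pt_l hC hM hM.Da w hg, BB_pt_l hC hM hM.Db w hg, BB_pt_l hC hM hM.Da v hg,
    BB_pt_l hC hM hM.Db v hg]

/-- a functional applied to `Ge` -/
theorem BB_Ge {φ x : M →ₘ[m] ℝ} (hφ : MemLp φ ∞ m) (hx : x ∈ C.W) (e : ℝ × ℝ) :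
    C.BB φ x (X.Ge C e) = e.1 * e.1 * C.BB φ x (C.Γ X.a X.a)
      + (e.1 * e.2 + e.2 * e.1) * C.BB φ x (C.Γ X.a X.b)
      + e.2 * e.2 * C.BB φ x (C.Γ X.b X.b) := by
  unfold Ge
  rw [Γ_pt hC hM]
  exact hC.BB_lin3_r hφ _ _ _ hM.p hM.q hM.r hx

/-- the integrand of order two as an explicit polynomial -/
theorem O2_eq (v e : ℝ × ℝ) {g : M →ₘ[m] ℝ} (hg : g ∈ C.W) (s : ℝ) : X.O2 C v e g s =
    (X.RR C (v + s • e) e g - (s / 2) * X.RR C (v + s • e) e (X.Ge C e))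
    + ((v.1 + s * e.1) * (e.1 * (C.BB (C.De X.F X.a) X.a g
          - (s / 2) * C.BB (C.De X.F X.a) X.a (X.Ge C e))
        + e.2 * (C.BB (C.De X.F X.a) X.b g - (s / 2) * C.BB (C.De X.F X.a) X.b (X.Ge C e)))
      + (v.2 + s * e.2) * (e.1 * (C.BB (C.De X.F X.b) X.a g
          - (s / 2) * C.BB (C.De X.F X.b) X.a (X.Ge C e))
        + e.2 * (C.BB (C.De X.F X.b) X.b g - (s / 2) * C.BB (C.De X.F X.b) X.b (X.Ge C e))))
    - 2⁻¹ * (C.BB X.F g g - s * C.BB X.F g (X.Ge C e)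
      + s ^ 2 / 4 * C.BB X.F (X.Ge C e) (X.Ge C e))
    - 4⁻¹ * X.RR C (v + s • e) (v + s • e) (X.Ge C e) := by
  have ha := hM.a
  have hb := hM.b
  have hG := Ge_mem hC hM e
  have hgs : g - (s / 2) • X.Ge C e ∈ C.W := hC.sub_mem hg (hC.smul_mem _ _ hG)
  change X.RR C (v + s • e) e (g - (s / 2) • X.Ge C e)
    + C.BB (X.D C (v + s • e)) (X.pt e) (g - (s / 2) • X.Ge C e)
    - 2⁻¹ * C.BB X.F (g - (s / 2) • X.Ge C e) (g - (s / 2) • X.Ge C e)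
    - 4⁻¹ * X.RR C (v + s • e) (v + s • e) (X.Ge C e) = _
  have e1 : X.RR C (v + s • e) e (g - (s / 2) • X.Ge C e)
      = X.RR C (v + s • e) e g - (s / 2) * X.RR C (v + s • e) e (X.Ge C e) := by
    rw [RR_eq hC hM _ _ hgs, RR_eq hC hM _ _ hg, RR_eq hC hM _ _ hG]
    simp only [hC.BB_sub_r hM.Da _ hg hG ha, hC.BB_sub_r hM.Da _ hg hG hb,
      hC.BB_sub_r hM.Db _ hg hG ha, hC.BB_sub_r hM.Db _ hg hG hb,
      hC.BB_sub_r hM.F _ hg hG hM.p, hC.BB_sub_r hM.F _ hg hG hM.q, hC.BB_sub_r hM.F _ hg hG hM.r]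
    ring
  have e2 : C.BB X.F (g - (s / 2) • X.Ge C e) (g - (s / 2) • X.Ge C e)
      = C.BB X.F g g - s * C.BB X.F g (X.Ge C e)
        + s ^ 2 / 4 * C.BB X.F (X.Ge C e) (X.Ge C e) := by
    rw [hC.BB_sub_l hM.F _ hg hG hgs, hC.BB_sub_r hM.F _ hg hG hg, hC.BB_sub_r hM.F _ hg hG hG,
      hC.BB_comm X.F hG hg]
    ring
  rw [e1, e2, BB_D hC hM _ (pt_mem hC hM e) hgs, BB_pt_l hC hM hM.Da e hgs,
    BB_pt_l hC hM hM.Db e hgs, hC.BB_sub_r hM.Da _ hg hG ha, hC.BB_sub_r hM.Da _ hg hG hb,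
    hC.BB_sub_r hM.Db _ hg hG ha, hC.BB_sub_r hM.Db _ hg hG hb]
  simp only [Prod.fst_add, Prod.snd_add, Prod.smul_fst, Prod.smul_snd, smul_eq_mul]

/-- Simpson's rule is exact -/
theorem P3_eq (v e : ℝ × ℝ) {g : M →ₘ[m] ℝ} (hg : g ∈ C.W) : X.P3 C v e g
    = (X.O2 C v e g 0 + 4 * X.O2 C v e g (1 / 2) + X.O2 C v e g 1) / 6 := by
  have hG := Ge_mem hC hM e
  have h : ∀ s : ℝ, X.O2 C v e g s = X.O2 C v e g 0
      + (-3 * X.O2 C v e g 0 + 4 * X.O2 C v e g (1 / 2) - X.O2 C v e g 1) * s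
      + (2 * X.O2 C v e g 0 - 4 * X.O2 C v e g (1 / 2) + 2 * X.O2 C v e g 1) * s ^ 2 := by
    intro s
    simp only [O2_eq hC hM _ _ hg, RR_eq hC hM _ _ hg, RR_eq hC hM _ _ hG, Prod.fst_add,
      Prod.snd_add, Prod.smul_fst, Prod.smul_snd, smul_eq_mul]
    ring
  unfold P3
  rw [intervalIntegral.integral_congr (g := fun s => X.O2 C v e g 0
      + (-3 * X.O2 C v e g 0 + 4 * X.O2 C v e g (1 / 2) - X.O2 C v e g 1) * s
      + (2 * X.O2 C v e g 0 - 4 * X.O2 C v e g (1 / 2) + 2 * X.O2 C v e g 1) * s ^ 2)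
      (fun s _ => h s)]
  have i1 : ∀ c : ℝ, IntervalIntegrable (fun s : ℝ => c * s) volume 0 1 := fun c =>
    (continuous_const.mul continuous_id).intervalIntegrable _ _
  have i2 : ∀ c : ℝ, IntervalIntegrable (fun s : ℝ => c * s ^ 2) volume 0 1 := fun c =>
    (by fun_prop : Continuous fun s : ℝ => c * s ^ 2).intervalIntegrable _ _
  have i0 : ∀ c : ℝ, IntervalIntegrable (fun _ : ℝ => c) volume 0 1 := fun c =>
    intervalIntegrable_const
  rw [intervalIntegral.integral_add ((i0 _).add (i1 _)) (i2 _),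
    intervalIntegral.integral_add (i0 _) (i1 _), intervalIntegral.integral_const,
    intervalIntegral.integral_const_mul, intervalIntegral.integral_const_mul, integral_id,
    integral_pow]
  norm_num
  ring

theorem C3_eq (e : ℝ × ℝ) : X.C3 C e = 12⁻¹ * (C.BB X.F (X.Ge C e) (X.Ge C e)
    + (e.1 * (e.1 * C.BB (C.De X.F X.a) X.a (X.Ge C e) + e.2 * C.BB (C.De X.F X.a) X.b (X.Ge C e))
      + e.2 * (e.1 * C.BB (C.De X.F X.b) X.a (X.Ge C e)
        + e.2 * C.BB (C.De X.F X.b) X.b (X.Ge C e)))) := by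
  have hG := Ge_mem hC hM e
  change 12⁻¹ * (C.BB X.F (X.Ge C e) (X.Ge C e) + C.BB (X.D C e) (X.pt e) (X.Ge C e)) = _
  rw [BB_D hC hM _ (pt_mem hC hM e) hG, BB_pt_l hC hM hM.Da e hG, BB_pt_l hC hM hM.Db e hG]

/-- `BB F Ge Ge` -/
theorem BB_GeGe (e : ℝ × ℝ) : C.BB X.F (X.Ge C e) (X.Ge C e) =
    (e.1 * e.1) * ((e.1 * e.1) * C.BB X.F (C.Γ X.a X.a) (C.Γ X.a X.a)
      + (e.1 * e.2 + e.2 * e.1) * C.BB X.F (C.Γ X.a X.a) (C.Γ X.a X.b)
      + (e.2 * e.2) * C.BB X.F (C.Γ X.a X.a) (C.Γ X.b X.b))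
    + (e.1 * e.2 + e.2 * e.1) * ((e.1 * e.1) * C.BB X.F (C.Γ X.a X.a) (C.Γ X.a X.b)
      + (e.1 * e.2 + e.2 * e.1) * C.BB X.F (C.Γ X.a X.b) (C.Γ X.a X.b)
      + (e.2 * e.2) * C.BB X.F (C.Γ X.a X.b) (C.Γ X.b X.b))
    + (e.2 * e.2) * ((e.1 * e.1) * C.BB X.F (C.Γ X.a X.a) (C.Γ X.b X.b)
      + (e.1 * e.2 + e.2 * e.1) * C.BB X.F (C.Γ X.a X.b) (C.Γ X.b X.b)
      + (e.2 * e.2) * C.BB X.F (C.Γ X.b X.b) (C.Γ X.b X.b)) := by
  have hG := Ge_mem hC hM e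
  rw [BB_Ge hC hM hM.F hG, hC.BB_comm X.F hG hM.p, hC.BB_comm X.F hG hM.q,
    hC.BB_comm X.F hG hM.r, BB_Ge hC hM hM.F hM.p, BB_Ge hC hM hM.F hM.q, BB_Ge hC hM hM.F hM.r,
    hC.BB_comm X.F hM.q hM.p, hC.BB_comm X.F hM.r hM.p, hC.BB_comm X.F hM.r hM.q]

/-- `P3` for `g = c₀ k + x Γ(a,a) + y Γ(a,b) + z Γ(b,b)`: the values of `BB` -/
theorem BB_g {φ x k : M →ₘ[m] ℝ} (hφ : MemLp φ ∞ m) (hx : x ∈ C.W) (hk : k ∈ C.W)
    (c₀ c₁ c₂ c₃ : ℝ) :
    C.BB φ x (c₀ • k + c₁ • C.Γ X.a X.a + c₂ • C.Γ X.a X.b + c₃ • C.Γ X.b X.b)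
      = c₀ * C.BB φ x k + c₁ * C.BB φ x (C.Γ X.a X.a) + c₂ * C.BB φ x (C.Γ X.a X.b)
        + c₃ * C.BB φ x (C.Γ X.b X.b) := by
  have h3 := hC.add_mem _ (hC.add_mem _ (hC.smul_mem c₀ _ hk) _ (hC.smul_mem c₁ _ hM.p)) _
    (hC.smul_mem c₂ _ hM.q)
  have h := hC.BB_lin2_r hφ 1 c₃ h3 hM.r hx
  rw [one_smul] at h
  rw [h, hC.BB_lin3_r hφ _ _ _ hk hM.p hM.q hx]
  ring

theorem BB_g_l {φ x k : M →ₘ[m] ℝ} (hφ : MemLp φ ∞ m) (hx : x ∈ C.W) (hk : k ∈ C.W)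
    (c₀ c₁ c₂ c₃ : ℝ) :
    C.BB φ (c₀ • k + c₁ • C.Γ X.a X.a + c₂ • C.Γ X.a X.b + c₃ • C.Γ X.b X.b) x
      = c₀ * C.BB φ k x + c₁ * C.BB φ (C.Γ X.a X.a) x + c₂ * C.BB φ (C.Γ X.a X.b) x
        + c₃ * C.BB φ (C.Γ X.b X.b) x := by
  have h3 := hC.add_mem _ (hC.add_mem _ (hC.smul_mem c₀ _ hk) _ (hC.smul_mem c₁ _ hM.p)) _
    (hC.smul_mem c₂ _ hM.q)
  rw [hC.BB_comm φ (hC.add_mem _ h3 _ (hC.smul_mem c₃ _ hM.r)) hx, BB_g hC hM hφ hx hk,
    hC.BB_comm φ hx hk, hC.BB_comm φ hx hM.p, hC.BB_comm φ hx hM.q, hC.BB_comm φ hx hM.r]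

theorem HW_eq {k : M →ₘ[m] ℝ} (_hk : k ∈ C.W) : C.HW X.b X.a k X.F
    = 2⁻¹ * (-C.BB (C.De X.F X.a) X.b k + C.BB X.F k (C.Γ X.a X.b)
      + C.BB (C.De X.F X.b) X.a k) := by
  unfold Calc.HW Calc.BB
  rw [hC.symm _ hM.b _ hM.a, mul_comm (C.Γ X.b k), mul_comm (C.Γ X.a k)]

theorem S0_eq : C.S0 X.a X.b X.F = -(2⁻¹ * C.BB (C.De X.F X.a) X.a (C.Γ X.b X.b))
    + (C.BB (C.De X.F X.b) X.a (C.Γ X.a X.b) - 2⁻¹ * C.BB (C.De X.F X.b) X.b (C.Γ X.a X.a))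
    + (-C.BB (C.De X.F X.a) X.b (C.Γ X.a X.b) + C.BB X.F (C.Γ X.a X.b) (C.Γ X.a X.b)
      + C.BB (C.De X.F X.b) X.a (C.Γ X.a X.b))
    - 4⁻¹ * C.BB X.F (C.Γ X.a X.a) (C.Γ X.b X.b) := by
  unfold Calc.S0
  have h1 : I (C.De X.F X.a * C.hess X.b X.a X.b)
      = 2⁻¹ * C.BB (C.De X.F X.a) X.a (C.Γ X.b X.b) := by
    unfold Calc.hess Calc.BB
    rw [hC.symm _ hM.b _ hM.a, add_sub_cancel_right, mul_smul_comm, I_smul]
  have h2 : I (C.De X.F X.b * C.hess X.b X.a X.a)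
      = C.BB (C.De X.F X.b) X.a (C.Γ X.a X.b)
        - 2⁻¹ * C.BB (C.De X.F X.b) X.b (C.Γ X.a X.a) := by
    have m1 := hC.BB_mem hM.Db hM.a hM.q
    have m2 := hC.BB_mem hM.Db hM.b hM.p
    unfold Calc.hess Calc.BB
    rw [hC.symm _ hM.b _ hM.a, mul_smul_comm, I_smul, mul_sub, mul_add,
      I_sub (mem_add m1 m1) m2, I_add m1 m1]
    ring
  rw [h1, h2, HW_eq hC hM hM.q]
  unfold Calc.BB
  ring

end formulas

end Dat

theorem dir0 : dir 0 = (1, 0) := rfl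
theorem dir1 : dir 1 = (0, 1) := rfl
theorem dir2 : dir 2 = (-1, -1) := rfl

/-- the coefficients of `ε` cancel -/
theorem Dat.alg1 (hC : IsGamma C) {K : ℝ} (hB : C.BEi K) {θ : M →ₘ[m] ℝ} {η δ : ℝ} {X : Dat m}
    (hX : X.Ok C θ η δ) :
    X.E2 C (dir 0) (dir 0) + X.E2 C (dir 1) (dir 1) + X.E2 C (dir 2) (dir 2)
      = 3⁻¹ * (X.E2 C (dir 1 - dir 0) (dir 1 - dir 0) + X.E2 C (dir 2 - dir 0) (dir 2 - dir 0)
        + X.E2 C (dir 2 - dir 1) (dir 2 - dir 1)) := by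
  have hM := hX.mem hC hB
  have hD := hC.toIsDir
  simp only [Dat.E2_eq hD hM, Prod.fst_sub, Prod.snd_sub, dir0, dir1, dir2]
  ring

/-- the coefficients of `ε²` cancel -/
theorem Dat.alg2 (hC : IsGamma C) {K : ℝ} (hB : C.BEi K) {θ : M →ₘ[m] ℝ} {η δ : ℝ} {X : Dat m}
    (hX : X.Ok C θ η δ) :
    (X.X3 C (dir 0) (dir 0) (dir 0) + X.W3 C (dir 0) (dir 0) (dir 0))
      + (X.X3 C (dir 1) (dir 1) (dir 1) + X.W3 C (dir 1) (dir 1) (dir 1))
      + (X.X3 C (dir 2) (dir 2) (dir 2) + X.W3 C (dir 2) (dir 2) (dir 2))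
      = 3⁻¹ * ((X.X3 C (dir 1 - dir 0) ((2 : ℝ) • dir 0 + (dir 1 - dir 0)) (dir 1 - dir 0)
          + X.W3 C ((2 : ℝ) • dir 0 + (dir 1 - dir 0)) (dir 1 - dir 0) (dir 1 - dir 0))
        + (X.X3 C (dir 2 - dir 0) ((2 : ℝ) • dir 0 + (dir 2 - dir 0)) (dir 2 - dir 0)
          + X.W3 C ((2 : ℝ) • dir 0 + (dir 2 - dir 0)) (dir 2 - dir 0) (dir 2 - dir 0))
        + (X.X3 C (dir 2 - dir 1) ((2 : ℝ) • dir 1 + (dir 2 - dir 1)) (dir 2 - dir 1)
          + X.W3 C ((2 : ℝ) • dir 1 + (dir 2 - dir 1)) (dir 2 - dir 1) (dir 2 - dir 1))) := by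
  have hM := hX.mem hC hB
  have hD := hC.toIsDir
  simp only [Dat.X3_eq hD hM, Dat.W3_eq hD hM, Prod.fst_sub, Prod.snd_sub, Prod.fst_add,
    Prod.snd_add, Prod.smul_fst, Prod.smul_snd, smul_eq_mul, dir0, dir1, dir2]
  ring

/-- the coefficient of `ε³` -/
theorem Dat.alg3 (hC : IsGamma C) {K : ℝ} (hB : C.BEi K) {θ : M →ₘ[m] ℝ} {η δ : ℝ} {X : Dat m}
    (hX : X.Ok C θ η δ) {k : M →ₘ[m] ℝ} (hk : k ∈ C.Test) :
    6 * (X.C3 C (dir 0) + X.C3 C (dir 1) + X.C3 C (dir 2)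
      - 3⁻¹ * (X.P3 C (dir 0) (dir 1 - dir 0) (k + (2 : ℝ)⁻¹ • C.Γ X.a X.a)
        + X.P3 C (dir 0) (dir 2 - dir 0) (C.Γ X.a X.a - k)
        + X.P3 C (dir 1) (dir 2 - dir 1) (k + C.Γ X.a X.b + C.Γ X.b X.b)))
      = C.S0 X.a X.b X.F + 6 * C.HW X.b X.a k X.F + 3 * I (X.F * C.Γ k k) := by
  have hM := hX.mem hC hB
  have hD := hC.toIsDir
  have hkW : k ∈ C.W := (hC.test_A hk).1
  have hW : ∀ c₀ c₁ c₂ c₃ : ℝ,
      c₀ • k + c₁ • C.Γ X.a X.a + c₂ • C.Γ X.a X.b + c₃ • C.Γ X.b X.b ∈ C.W := fun c₀ c₁ c₂ c₃ =>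
    hD.add_mem _ (hD.add_mem _ (hD.add_mem _ (hD.smul_mem c₀ _ hkW) _ (hD.smul_mem c₁ _ hM.p)) _
      (hD.smul_mem c₂ _ hM.q)) _ (hD.smul_mem c₃ _ hM.r)
  have e1 : k + (2 : ℝ)⁻¹ • C.Γ X.a X.a = (1 : ℝ) • k + (2⁻¹ : ℝ) • C.Γ X.a X.a
      + (0 : ℝ) • C.Γ X.a X.b + (0 : ℝ) • C.Γ X.b X.b := by module
  have e2 : C.Γ X.a X.a - k = (-1 : ℝ) • k + (1 : ℝ) • C.Γ X.a X.a
      + (0 : ℝ) • C.Γ X.a X.b + (0 : ℝ) • C.Γ X.b X.b := by module
  have e3 : k + C.Γ X.a X.b + C.Γ X.b X.b = (1 : ℝ) • k + (0 : ℝ) • C.Γ X.a X.a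
      + (1 : ℝ) • C.Γ X.a X.b + (1 : ℝ) • C.Γ X.b X.b := by module
  have g1 := fun (φ x : M →ₘ[m] ℝ) (hφ : MemLp φ ∞ m) (hx : x ∈ C.W) (c₀ c₁ c₂ c₃ : ℝ) =>
    Dat.BB_g hD hM (k := k) hφ hx hkW c₀ c₁ c₂ c₃
  have g2 := fun (x : M →ₘ[m] ℝ) (hx : x ∈ C.W) (c₀ c₁ c₂ c₃ : ℝ) =>
    Dat.BB_g_l hD hM (k := k) hM.F hx hkW c₀ c₁ c₂ c₃
  have G := fun (c₀ c₁ c₂ c₃ : ℝ) (e : ℝ × ℝ) => Dat.BB_Ge hD hM hM.F (hW c₀ c₁ c₂ c₃) e
  have gg := fun (c₀ c₁ c₂ c₃ : ℝ) => g2 _ (hW c₀ c₁ c₂ c₃) c₀ c₁ c₂ c₃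
  have key : ∀ (v e : ℝ × ℝ) (c₀ c₁ c₂ c₃ : ℝ), X.P3 C v e
      (c₀ • k + c₁ • C.Γ X.a X.a + c₂ • C.Γ X.a X.b + c₃ • C.Γ X.b X.b) = _ :=
    fun v e c₀ c₁ c₂ c₃ => Dat.P3_eq hD hM v e (hW c₀ c₁ c₂ c₃)
  rw [e1, e2, e3, key, key, key]
  have HH : I (X.F * C.Γ k k) = C.BB X.F k k := rfl
  rw [HH, Dat.S0_eq hD hM, Dat.HW_eq hD hM hkW]
  simp only [fun v e c₀ c₁ c₂ c₃ => Dat.O2_eq hD hM v e (hW c₀ c₁ c₂ c₃),
    fun v e c₀ c₁ c₂ c₃ => Dat.RR_eq hD hM v e (hW c₀ c₁ c₂ c₃),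
    fun v e e' => Dat.RR_eq hD hM v e (Dat.Ge_mem hD hM e'), Dat.C3_eq hD hM,
    Dat.BB_GeGe hD hM, G, gg, Dat.BB_Ge hD hM hM.Da hM.a, Dat.BB_Ge hD hM hM.Da hM.b,
    Dat.BB_Ge hD hM hM.Db hM.a, Dat.BB_Ge hD hM hM.Db hM.b, Dat.BB_Ge hD hM hM.F hM.p,
    Dat.BB_Ge hD hM hM.F hM.q, Dat.BB_Ge hD hM hM.F hM.r, g1 _ _ hM.Da hM.a, g1 _ _ hM.Da hM.b,
    g1 _ _ hM.Db hM.a, g1 _ _ hM.Db hM.b, g1 _ _ hM.F hM.p, g1 _ _ hM.F hM.q, g1 _ _ hM.F hM.r,
    g1 _ _ hM.F hkW, g2 _ hM.p, g2 _ hM.q, g2 _ hM.r, hD.BB_comm X.F hM.p hkW,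
    hD.BB_comm X.F hM.q hkW, hD.BB_comm X.F hM.r hkW, hD.BB_comm X.F hM.q hM.p,
    hD.BB_comm X.F hM.r hM.p, hD.BB_comm X.F hM.r hM.q, Prod.fst_sub, Prod.snd_sub, Prod.fst_add,
    Prod.snd_add, Prod.smul_fst, Prod.smul_snd, smul_eq_mul, dir0, dir1, dir2]
  ring

end Vale.Agent.P233
end
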