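import Vale.Agent.P233.MathlibUsed2
import Vale.Agent.P233.Bd3.B1
import Vale.Agent.P233.Bd3.B3
import Vale.Agent.P233.Bd3.B4
import Vale.Agent.P233.Bd3.B5

set_option linter.all false

section

set_option linter.all false

open MeasureTheory Filter Topology
open scoped ENNReal NNReal

namespace Vale.Agent.P233

variable {M : Type*} [MeasurableSpace M] {m : Measure M} {C : Calc m}

/-- a pointwise bound from integrated bounds, for functions in `L²` -/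
theorem le_const_of_forall2 {F : M →ₘ[m] ℝ} (hF : MemLp F 2 m) {K : ℝ} (hK : 0 ≤ K)
    (h : ∀ ψ : M →ₘ[m] ℝ, 0 ≤ ψ → MemLp ψ 2 m → MemLp ψ 1 m → MemLp ψ ∞ m →
      I (F * ψ) ≤ K * I ψ) : ∀ᵐ x ∂m, F x ≤ K := by
  have hFm : StronglyMeasurable (F : M → ℝ) := AEEqFun.stronglyMeasurable F
  have key : ∀ n : ℕ, m {x | K + ((n : ℝ) + 1)⁻¹ < F x} = 0 := by
    intro n
    set ε : ℝ := ((n : ℝ) + 1)⁻¹ with hε
    have hε0 : 0 < ε := by positivity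
    set S : Set M := {x | K + ε < F x} with hS
    have hSm : MeasurableSet S := measurableSet_lt measurable_const hFm.measurable
    have hSfin : m S < ∞ := by
      have h1 : S ⊆ {x | ENNReal.ofReal ε ≤ ‖F x‖ₑ} := by
        intro x hx
        have hx' : K + ε < F x := hx
        show ENNReal.ofReal ε ≤ ‖F x‖ₑ
        rw [Real.enorm_eq_ofReal (by linarith)]
        exact ENNReal.ofReal_le_ofReal (by linarith)
      exact (measure_mono h1).trans_lt (hF.meas_ge_lt_top' (by norm_num) (by norm_num)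
        (by simpa using hε0))
    have hind : ∀ p : ℝ≥0∞, MemLp (S.indicator (fun _ => (1 : ℝ))) p m := fun p =>
      memLp_indicator_const p hSm 1 (Or.inr hSfin.ne)
    set χ : M →ₘ[m] ℝ := AEEqFun.mk _ (hind 2).1 with hχ
    have hχae := AEEqFun.coeFn_mk _ (hind 2).1
    have hχp : ∀ p : ℝ≥0∞, MemLp χ p m := fun p => (memLp_congr_ae hχae).2 (hind p)
    have h1 := h χ (by
      rw [nonneg_iff_ae]
      filter_upwards [hχae] with x hx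
      rw [hχ, hx]
      exact Set.indicator_nonneg (fun _ _ => zero_le_one) x) (hχp 2) (hχp 1) (hχp ∞)
    have hFint : Integrable (fun x => S.indicator F x) m := by
      refine (int_of_mem (mem_mul_22 hF (hχp 2))).congr ?_
      filter_upwards [mul_ae F χ, hχae] with x a1 a2
      rw [a1, hχ, a2]
      by_cases hx : x ∈ S
      · rw [Set.indicator_of_mem hx, Set.indicator_of_mem hx, mul_one]
      · rw [Set.indicator_of_notMem hx, Set.indicator_of_notMem hx, mul_zero]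
    have h5 : I (F * χ) = ∫ x in S, F x ∂m := by
      rw [← integral_indicator hSm]
      unfold I
      refine integral_congr_ae ?_
      filter_upwards [mul_ae F χ, hχae] with x a1 a2
      rw [a1, hχ, a2]
      by_cases hx : x ∈ S
      · rw [Set.indicator_of_mem hx, Set.indicator_of_mem hx, mul_one]
      · rw [Set.indicator_of_notMem hx, Set.indicator_of_notMem hx, mul_zero]
    have h6 : I χ = m.real S := by
      unfold I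
      rw [integral_congr_ae hχae, integral_indicator hSm, setIntegral_const, smul_eq_mul, mul_one]
    have h7 : ∫ x in S, (K + ε) ∂m ≤ ∫ x in S, F x ∂m := by
      refine setIntegral_mono_on ?_ ((integrable_indicator_iff hSm).1 hFint) hSm
        fun x hx => le_of_lt hx
      exact integrableOn_const (hs := hSfin.ne)
    rw [setIntegral_const, smul_eq_mul] at h7
    rw [h5, h6] at h1
    have h8 : m.real S ≤ 0 := by
      have h9 : 0 ≤ m.real S := measureReal_nonneg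
      by_contra hcon
      push Not at hcon
      linarith only [mul_pos (sub_pos.2 hε0) (sub_pos.2 hcon), h7, h1]
    exact (measureReal_eq_zero_iff hSfin.ne).1 (le_antisymm h8 measureReal_nonneg)
  have h9 : ∀ᵐ x ∂m, ∀ n : ℕ, ¬ (K + ((n : ℝ) + 1)⁻¹ < F x) := by
    rw [ae_all_iff]
    intro n
    exact measure_eq_zero_iff_ae_notMem.1 (key n)
  filter_upwards [h9] with x hx
  by_contra hcon
  push Not at hcon
  obtain ⟨n, hn⟩ := exists_nat_one_div_lt (show (0 : ℝ) < F x - K by linarith)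
  rw [one_div] at hn
  exact hx n (by linarith)

namespace IsGamma

variable (hC : IsGamma C) {k N : ℝ}
variable {f g h φ ψ : M →ₘ[m] ℝ}

include hC

/-- weighted Cauchy-Schwarz -/
theorem cs_weight (hh : MemLp h 2 m) (hφ0 : 0 ≤ φ) (hφt : MemLp φ ∞ m) (hφ1 : MemLp φ 1 m)
    (hφ2 : MemLp φ 2 m) : I (h * φ) ^ 2 ≤ I (φ * h ^ 2) * I φ := by
  have n1 : MemLp (φ * h ^ 2 : M →ₘ[m] ℝ) 1 m := mem_mul_top hφt (mem_sq hh)
  have n2 : MemLp (h * φ : M →ₘ[m] ℝ) 1 m := mem_mul_22 hh hφ2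
  refine disc_of_forall fun t => ?_
  have e : φ * (h + t • 1) ^ 2 = φ * h ^ 2 + (2 * t) • (h * φ) + t ^ 2 • φ := by algebra
  have h1 : 0 ≤ I (φ * (h + t • 1) ^ 2) := I_nonneg (mul_nonneg hφ0 (sq_nonneg' _))
  rw [e, I_add (mem_add n1 (mem_smul _ n2)) (mem_smul _ hφ1), I_add n1 (mem_smul _ n2), I_smul,
    I_smul] at h1
  linarith

/-- one doubling step -/
theorem J_step [SigmaFinite m] (hk : 0 ≤ k) (hN : 0 < N) (hB : C.BE (-k) N) (hf : f ∈ C.A)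
    {l : ℝ} (hl : 0 ≤ l) (hf' : ∀ᵐ x ∂m, C.Γ f f x ≤ l ^ 2) {μ : ℝ} (hμ : 0 < μ)
    (hμk : 8 * μ * k ≤ 1) :
    ∀ᵐ x ∂m, |C.J (2 * μ) f x - C.J μ f x| ≤ l * √(N * μ / 2) := by
  have hD := hC.toIsDir
  have hf2 := hC.memLp _ hf.1
  have h2μ : 0 < 2 * μ := by linarith
  have hLap := hD.J_isLap hμ hf2
  set u := C.J μ f with hu
  set h := μ⁻¹ • (u - f) with hh
  have huW : u ∈ C.W := hLap.1
  have hhW : h ∈ C.W := hD.smul_mem _ _ (hD.sub_mem huW hf.1)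
  have hh2 := hC.memLp _ hhW
  -- the weak estimate
  have key : ∀ ψ : M →ₘ[m] ℝ, 0 ≤ ψ → MemLp ψ 2 m → MemLp ψ 1 m → MemLp ψ ∞ m →
      |I (h * C.J (2 * μ) ψ)| ≤ l * √(N / (2 * μ)) * I ψ := by
    intro ψ h0 h2 h1 ht
    have φLap := hD.J_isLap h2μ h2
    have φ0 := hD.J_nonneg h2μ h2 h0
    obtain ⟨B, hBψ⟩ := mem_top_iff.1 ht
    have φb := hD.J_bdd h2μ h2 hBψ
    have φ1 := hD.J_L1 h2μ h2 h1 h0
    set φ := C.J (2 * μ) ψ with hφ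
    have φt : MemLp φ ∞ m := mem_top_iff.2 ⟨B, φb⟩
    have φ2 : MemLp φ 2 m := hC.memLp _ φLap.1
    have hbe : I (φ * (C.Γ u h + (-k) • C.Γ u u + N⁻¹ • h ^ 2)) ≤
        I ((2 : ℝ)⁻¹ • (C.Γ u u * ((2 * μ)⁻¹ • (φ - ψ)))) :=
      hB u h φ _ hLap hhW φLap φ0 φt (mem_smul _ (mem_sub φt ht))
    have hΓuu := hC.mem1 u huW
    have hΓff := hC.mem1 f hf.1
    have n1 : MemLp (φ * C.Γ u u) 1 m := mem_mul_top φt hΓuu
    have n2 : MemLp (φ * C.Γ f f) 1 m := mem_mul_top φt hΓff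
    have n3 : MemLp (φ * h ^ 2 : M →ₘ[m] ℝ) 1 m := mem_mul_top φt (mem_sq hh2)
    have n4 : MemLp (C.Γ u u * ψ) 1 m := mem_top_mul hΓuu ht
    -- lower bound of the left hand side
    have hlow : I (φ * (((2 * μ)⁻¹ - k) • C.Γ u u - (2 * μ)⁻¹ • C.Γ f f + N⁻¹ • h ^ 2)) ≤
        I (φ * (C.Γ u h + (-k) • C.Γ u u + N⁻¹ • h ^ 2)) := by
      refine I_mono (mem_mul_top φt (mem_add (mem_sub (mem_smul _ hΓuu) (mem_smul _ hΓff))
        (mem_smul _ (mem_sq hh2)))) (mem_mul_top φt (mem_add (mem_add (hC.Γ_mem1 huW hhW)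
        (mem_smul _ hΓuu)) (mem_smul _ (mem_sq hh2)))) ?_
      refine mul_le_mul_of_nonneg_left ?_ φ0
      have e2 : C.Γ u h = μ⁻¹ • (C.Γ u u - C.Γ u f) := by
        rw [hh, hD.Γ_smul_right _ huW (hD.sub_mem huW hf.1), hD.Γ_sub_right huW huW hf.1]
      have hnn := hC.nonneg _ (hD.sub_mem huW hf.1)
      rw [hD.Γ_sub_left huW hf.1 (hD.sub_mem huW hf.1), hD.Γ_sub_right huW huW hf.1,
        hD.Γ_sub_right hf.1 huW hf.1, hD.symm f hf.1 u huW] at hnn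
      have hnn2 := smul_nonneg' (show 0 ≤ (2 * μ)⁻¹ by positivity) hnn
      rw [← sub_nonneg, e2]
      have e3 : μ⁻¹ • (C.Γ u u - C.Γ u f) + (-k) • C.Γ u u + N⁻¹ • h ^ 2
          - (((2 * μ)⁻¹ - k) • C.Γ u u - (2 * μ)⁻¹ • C.Γ f f + N⁻¹ • h ^ 2)
          = (2 * μ)⁻¹ • (C.Γ u u - C.Γ u f - (C.Γ u f - C.Γ f f)) := by
        have : μ⁻¹ = 2 * (2 * μ)⁻¹ := by field_simp
        rw [this]
        algebra
      rw [e3]
      exact hnn2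
    have eL : I (φ * (((2 * μ)⁻¹ - k) • C.Γ u u - (2 * μ)⁻¹ • C.Γ f f + N⁻¹ • h ^ 2)) =
        ((2 * μ)⁻¹ - k) * I (φ * C.Γ u u) - (2 * μ)⁻¹ * I (φ * C.Γ f f) + N⁻¹ * I (φ * h ^ 2) := by
      rw [← I_smul, ← I_smul, ← I_smul, ← I_sub (mem_smul _ n1) (mem_smul _ n2),
        ← I_add (mem_sub (mem_smul _ n1) (mem_smul _ n2)) (mem_smul _ n3)]
      congr 1
      algebra
    have eR : I ((2 : ℝ)⁻¹ • (C.Γ u u * ((2 * μ)⁻¹ • (φ - ψ)))) =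
        (2 : ℝ)⁻¹ * (2 * μ)⁻¹ * (I (φ * C.Γ u u) - I (C.Γ u u * ψ)) := by
      rw [← I_sub n1 n4, ← I_smul]
      congr 1
      algebra
    rw [eL] at hlow
    rw [eR] at hbe
    have p1 : 0 ≤ I (φ * C.Γ u u) := I_nonneg (mul_nonneg φ0 (hC.nonneg _ huW))
    have p2 : 0 ≤ I (C.Γ u u * ψ) := I_nonneg (mul_nonneg (hC.nonneg _ huW) h0)
    have p3 : I (φ * C.Γ f f) ≤ l ^ 2 * I ψ := by
      calc I (φ * C.Γ f f) ≤ I (l ^ 2 • φ) := by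
            refine I_mono n2 (mem_smul _ φ1.1) ?_
            rw [le_iff_ae]
            filter_upwards [mul_ae φ (C.Γ f f), smul_ae φ (l ^ 2), nonneg_iff_ae.1 φ0, hf']
              with x a1 a2 a3 a4
            rw [a1, a2, mul_comm (l ^ 2)]
            exact mul_le_mul_of_nonneg_left a4 a3
        _ = l ^ 2 * I φ := I_smul _
        _ ≤ l ^ 2 * I ψ := mul_le_mul_of_nonneg_left φ1.2 (sq_nonneg _)
    have hkk : 0 ≤ (2 * μ)⁻¹ - k - (2 : ℝ)⁻¹ * (2 * μ)⁻¹ := by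
      have e : (2 * μ)⁻¹ - k - (2 : ℝ)⁻¹ * (2 * μ)⁻¹ = (1 - 4 * μ * k) / (4 * μ) := by
        field_simp; ring
      rw [e]
      have : 0 ≤ 1 - 4 * μ * k := by linarith only [hμk]
      (clear * - this hμ; positivity)
    have hmain : N⁻¹ * I (φ * h ^ 2) ≤ (2 * μ)⁻¹ * (l ^ 2 * I ψ) := by
      have h5 := mul_nonneg hkk p1
      have h6 : (2 * μ)⁻¹ * I (φ * C.Γ f f) ≤ (2 * μ)⁻¹ * (l ^ 2 * I ψ) :=
        mul_le_mul_of_nonneg_left p3 (by positivity)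
      have h7 : 0 ≤ (2 : ℝ)⁻¹ * (2 * μ)⁻¹ * I (C.Γ u u * ψ) := by (clear * - hμ p2; positivity)
      linarith only [h7, h6, h5, hlow, hbe]
    have hI0 : 0 ≤ I ψ := I_nonneg h0
    have hIφ : 0 ≤ I φ := I_nonneg φ0
    have hcs := hC.cs_weight hh2 φ0 φt φ1.1 φ2
    have h8 : I (φ * h ^ 2) ≤ N / (2 * μ) * l ^ 2 * I ψ := by
      have h9 := mul_le_mul_of_nonneg_left hmain hN.le
      rw [← mul_assoc, mul_inv_cancel₀ hN.ne', one_mul] at h9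
      refine h9.trans (le_of_eq ?_)
      ring
    have h10 : 0 ≤ I (φ * h ^ 2) := I_nonneg (mul_nonneg φ0 (sq_nonneg' _))
    refine abs_le_of_sq_le_sq ?_ (by (clear * - hl hN hμ hI0; positivity))
    rw [mul_pow, mul_pow, Real.sq_sqrt (by positivity)]
    calc I (h * φ) ^ 2 ≤ I (φ * h ^ 2) * I φ := hcs
      _ ≤ (N / (2 * μ) * l ^ 2 * I ψ) * I ψ := mul_le_mul h8 φ1.2 hIφ (by (clear * - hN hμ hI0; positivity))
      _ = l ^ 2 * (N / (2 * μ)) * I ψ ^ 2 := by ring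
  -- the pointwise estimate
  have hF2 : MemLp (C.J (2 * μ) h) 2 m := hD.J_mem2 h2μ hh2
  have hc : 0 ≤ l * √(N / (2 * μ)) := by positivity
  have up : ∀ᵐ x ∂m, C.J (2 * μ) h x ≤ l * √(N / (2 * μ)) := by
    refine le_const_of_forall2 hF2 hc fun ψ h0 h2 h1 ht => ?_
    rw [hD.J_symm h2μ hh2 h2]
    exact (le_abs_self _).trans (key ψ h0 h2 h1 ht)
  have lo : ∀ᵐ x ∂m, (-C.J (2 * μ) h : M →ₘ[m] ℝ) x ≤ l * √(N / (2 * μ)) := by
    refine le_const_of_forall2 (mem_neg hF2) hc fun ψ h0 h2 h1 ht => ?_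
    rw [neg_mul, I_neg, hD.J_symm h2μ hh2 h2]
    exact (neg_le_abs _).trans (key ψ h0 h2 h1 ht)
  -- the resolvent identity
  have hid : C.J (2 * μ) f - u = μ • C.J (2 * μ) h := by
    rw [← hD.J_smul h2μ μ hh2]
    symm
    refine hD.J_eq h2μ ⟨hD.sub_mem (hD.J_mem h2μ hf2) huW, fun g hg => ?_⟩
    have hg2 := hC.memLp g hg
    have a1 := (hD.J_spec h2μ hf2).2 g hg
    have a2 := (hD.J_spec hμ hf2).2 g hg
    rw [← hu] at a2
    have vW := hD.J_mem h2μ hf2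
    have hv2 := hC.memLp _ vW
    have hu2 := hC.memLp _ huW
    have e1 : μ • h = u - f := by rw [hh, smul_smul, mul_inv_cancel₀ hμ.ne', one_smul]
    rw [e1, sub_mul, sub_mul, I_sub (mem_mul_22 hv2 hg2) (mem_mul_22 hu2 hg2),
      I_sub (mem_mul_22 hu2 hg2) (mem_mul_22 hf2 hg2), hD.Γ_sub_left vW huW hg,
      I_sub (hD.Γ_mem1 vW hg) (hD.Γ_mem1 huW hg)]
    linarith
  have hs : μ * √(N / (2 * μ)) = √(N * μ / 2) := by
    have h3 : N * μ / 2 = μ ^ 2 * (N / (2 * μ)) := by field_simp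
    rw [h3, Real.sqrt_mul (sq_nonneg _), Real.sqrt_sq hμ.le]
  filter_upwards [up, lo, neg_ae (C.J (2 * μ) h), sub_ae (C.J (2 * μ) f) u,
    smul_ae (C.J (2 * μ) h) μ, eq_iff_ae.1 hid] with x b1 b2 b3 b4 b5 b6
  rw [b3] at b2
  rw [← b4, b6, b5, abs_mul, abs_of_pos hμ, ← hs]
  have : |C.J (2 * μ) h x| ≤ l * √(N / (2 * μ)) := abs_le.2 ⟨by linarith only [b2], b1⟩
  calc μ * |C.J (2 * μ) h x| ≤ μ * (l * √(N / (2 * μ))) := mul_le_mul_of_nonneg_left this hμ.le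
    _ = _ := by ring

/-- In finite dimension the resolvent moves Lipschitz functions uniformly little. -/
theorem J_sub_le [SigmaFinite m] (hk : 0 ≤ k) (hN : 0 < N)
    (hB : C.BE (-k) N) {f : M →ₘ[m] ℝ} (hf : f ∈ C.A) {l : ℝ} (hl : 0 ≤ l)
    (hf' : ∀ᵐ x ∂m, C.Γ f f x ≤ l ^ 2) {μ : ℝ} (hμ : 0 < μ) (hμk : 8 * μ * k ≤ 1) :
    ∀ᵐ x ∂m, |C.J μ f x - f x| ≤ 4 * l * √(N * μ) := by
  have hD := hC.toIsDir
  have hf2 := hC.memLp _ hf.1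
  set ν : ℕ → ℝ := fun n => μ / 2 ^ n with hν
  have ν0 : ∀ n, 0 < ν n := fun n => by positivity
  have ν2 : ∀ n, 2 * ν (n + 1) = ν n := fun n => by
    simp only [hν]; rw [pow_succ]; field_simp
  have νk : ∀ n, 8 * ν n * k ≤ 1 := by
    intro n
    have h1 : ν n ≤ μ := by
      simp only [hν]
      exact div_le_self hμ.le (one_le_pow₀ (by norm_num))
    have := mul_le_mul_of_nonneg_right h1 hk
    linarith only [this, hμk]
  have step : ∀ᵐ x ∂m, ∀ n, |C.J (ν n) f x - C.J (ν (n + 1)) f x| ≤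
      l * √(N * μ) / 2 * (3 / 4) ^ n := by
    rw [ae_all_iff]
    intro n
    have h1 := hC.J_step hk hN hB hf hl hf' (ν0 (n + 1)) (νk (n + 1))
    rw [ν2] at h1
    filter_upwards [h1] with x hx
    refine hx.trans ?_
    have h2 : √(N * ν (n + 1) / 2) ≤ √(N * μ) / 2 * (3 / 4) ^ n := by
      refine Real.sqrt_le_iff.2 ⟨by positivity, ?_⟩
      rw [mul_pow, div_pow, Real.sq_sqrt (by positivity), ← pow_mul, mul_comm n 2, pow_mul]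
      have h3 : N * ν (n + 1) / 2 = N * μ / 4 * (1 / 2) ^ n := by
        simp only [hν]; rw [pow_succ, one_div, inv_pow]; field_simp; ring
      rw [h3]
      have h4 : (1 / 2 : ℝ) ^ n ≤ ((3 / 4) ^ 2) ^ n := pow_le_pow_left₀ (by norm_num) (by norm_num) n
      have h5 : (2 : ℝ) ^ 2 = 4 := by norm_num
      rw [h5]
      exact mul_le_mul_of_nonneg_left h4 (by positivity)
    calc l * √(N * ν (n + 1) / 2) ≤ l * (√(N * μ) / 2 * (3 / 4) ^ n) :=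
          mul_le_mul_of_nonneg_left h2 hl
      _ = _ := by ring
  have tel : ∀ᵐ x ∂m, ∀ n, |C.J μ f x - C.J (ν n) f x| ≤ 4 * l * √(N * μ) := by
    filter_upwards [step] with x hx
    have h1 : ∀ n, |C.J μ f x - C.J (ν n) f x| ≤ l * √(N * μ) / 2 * (4 * (1 - (3 / 4) ^ n)) := by
      intro n
      induction n with
      | zero =>
        have : ν 0 = μ := by simp [hν]
        rw [this]; simp
      | succ n ih =>
        have h2 : C.J μ f x - C.J (ν (n + 1)) f x =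
          (C.J μ f x - C.J (ν n) f x) + (C.J (ν n) f x - C.J (ν (n + 1)) f x) := by ring
        rw [h2]
        refine (abs_add_le _ _).trans ((add_le_add ih (hx n)).trans (le_of_eq ?_))
        rw [pow_succ]; ring
    intro n
    refine (h1 n).trans ?_
    have h3 : 0 ≤ l * √(N * μ) := by (clear * - hl hN hμ; positivity)
    have h4 : (0 : ℝ) ≤ (3 / 4) ^ n := by positivity
    linarith only [mul_nonneg (sub_nonneg.2 h3) (sub_nonneg.2 h4), mul_nonneg (mul_self_nonneg (1 : ℝ)) (sub_nonneg.2 h3)]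
  -- convergence
  have hlim : Tendsto (fun n => I ((C.J (ν n) f - f) ^ 2)) atTop (𝓝 0) := by
    have h1 : Tendsto (fun n : ℕ => ν n * I (C.Γ f f)) atTop (𝓝 0) := by
      have h2 : Tendsto ν atTop (𝓝 0) := by
        have h3 := tendsto_pow_atTop_nhds_zero_of_lt_one (r := (1 / 2 : ℝ)) (by norm_num)
          (by norm_num)
        have h4 := h3.const_mul μ
        rw [mul_zero] at h4
        refine h4.congr fun n => ?_
        simp only [hν, one_div, inv_pow]; rw [div_eq_mul_inv]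
      simpa using h2.mul_const (I (C.Γ f f))
    exact squeeze_zero (fun n => I_sq_nonneg _) (fun n => (hD.J_est (ν0 n) hf.1).2.2) h1
  obtain ⟨ns, hns, hae⟩ := exists_subseq_of_I_sq (fun n => hD.J_mem2 (ν0 n) hf2) hf2 hlim
  filter_upwards [tel, hae] with x b1 b2
  exact le_of_tendsto ((tendsto_const_nhds.sub b2).abs) (Eventually.of_forall fun n => b1 (ns n))

end IsGamma

end Vale.Agent.P233
end

section

open MeasureTheory Filter Topology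
open scoped ENNReal NNReal

namespace Vale.Agent.P233

variable {M : Type*} [MeasurableSpace M] {m : Measure M} {C : Calc m}

namespace IsGamma

variable (hC : IsGamma C) {κ : ℝ} (hB : C.BEi κ)
variable {u v w φ G r f a b e h F R1 R2 : M →ₘ[m] ℝ}

section first
include hC

theorem Γ_smul_self (c : ℝ) (ha : a ∈ C.W) : C.Γ (c • a) (c • a) = c ^ 2 • C.Γ a a := by
  rw [hC.smul_left c a ha _ (hC.smul_mem c a ha), hC.Γ_smul_right c ha ha, smul_smul, sq]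

theorem Γ_add_le_ae (ha : a ∈ C.W) (hb : b ∈ C.W) :
    ∀ᵐ x ∂m, C.Γ (a + b) (a + b) x ≤ 2 * C.Γ a a x + 2 * C.Γ b b x := by
  have h2 := hC.Γ_expand 1 ha hb
  have h3 := hC.Γ_expand_ae (-1) ha hb
  rw [one_smul, mul_one, one_pow, one_smul] at h2
  filter_upwards [eq_iff_ae.1 h2, h3, add_ae (C.Γ a a + (2 : ℝ) • C.Γ a b) (C.Γ b b),
    add_ae (C.Γ a a) ((2 : ℝ) • C.Γ a b), smul_ae (C.Γ a b) (2 : ℝ)] with x h2 h3 h4 h5 h6
  rw [h2, h4, h5, h6]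
  linarith

theorem Γ_sub_le_ae (ha : a ∈ C.W) (hb : b ∈ C.W) :
    ∀ᵐ x ∂m, C.Γ (a - b) (a - b) x ≤ 2 * C.Γ a a x + 2 * C.Γ b b x := by
  have h1 := hC.Γ_add_le_ae ha (hC.smul_mem (-1) _ hb)
  have h2 := hC.Γ_smul_self (-1) hb
  have h3 : a + (-1 : ℝ) • b = a - b := by module
  rw [h3] at h1
  filter_upwards [h1, eq_iff_ae.1 h2, smul_ae (C.Γ b b) ((-1 : ℝ) ^ 2)] with x h1 h2 h4
  rw [h2, h4] at h1
  linarith

end first

include hC hB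

theorem hess_int (hb : b ∈ C.Test) (hw : w ∈ C.Test) :
    I (C.hess b w w) = (2 : ℝ)⁻¹ * I (C.lap b * C.Γ w w) - I (C.lap w * C.Γ b w) := by
  have := hC.en_cross hB hw hb
  linarith

theorem hess_add (ha : a ∈ C.Test) (hb : b ∈ C.Test) (hw : w ∈ C.Test) :
    I (C.hess (a + b) w w) = I (C.hess a w w) + I (C.hess b w w) := by
  have aA := hC.test_A ha
  have bA := hC.test_A hb
  have wA := hC.test_A hw
  have l2 : MemLp (C.Γ w w) 2 m := hC.memLp _ (hC.Γ_mem hB hw hw).1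
  have e1 : I (C.lap (a + b) * C.Γ w w) = I (C.lap a * C.Γ w w) + I (C.lap b * C.Γ w w) := by
    rw [hC.lap_add hB ha hb, add_mul, I_add (mem_mul_22 (hC.test_isLap ha).2.1 l2)
      (mem_mul_22 (hC.test_isLap hb).2.1 l2)]
  have e2 : I (C.lap w * C.Γ (a + b) w) = I (C.lap w * C.Γ a w) + I (C.lap w * C.Γ b w) := by
    rw [hC.add_left _ aA.1 _ bA.1 _ wA.1, mul_add, I_add
      (mem_mul_22 (hC.test_isLap hw).2.1 (hC.memLp _ (hC.Γ_mem hB ha hw).1))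
      (mem_mul_22 (hC.test_isLap hw).2.1 (hC.memLp _ (hC.Γ_mem hB hb hw).1))]
  rw [hC.hess_int hB (hC.test_add hB ha hb) hw, hC.hess_int hB ha hw, hC.hess_int hB hb hw, e1, e2]
  ring

theorem hess_smul (c : ℝ) (hb : b ∈ C.Test) (hw : w ∈ C.Test) :
    I (C.hess (c • b) w w) = c * I (C.hess b w w) := by
  have bA := hC.test_A hb
  have wA := hC.test_A hw
  rw [hC.hess_int hB (hC.test_smul hB c hb) hw, hC.hess_int hB hb hw, hC.lap_smul hB c hb,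
    hC.smul_left c _ bA.1 _ wA.1, smul_mul_assoc, mul_smul_comm, I_smul, I_smul]
  ring

theorem testI_bdd (hf : f ∈ C.TestI) : ∃ K : ℝ, 0 ≤ K ∧ (∀ᵐ x ∂m, |C.lap f x| ≤ K) ∧
    ∀ᵐ x ∂m, C.Γ f f x ≤ K := by
  obtain ⟨K1, h1⟩ := mem_top_iff.1 hf.2
  obtain ⟨K2, h2⟩ := mem_top_iff.1 (hC.test_Γ_top hf.1)
  refine ⟨|K1| + |K2|, by positivity, ?_, ?_⟩
  · filter_upwards [h1] with x h
    linarith [le_abs_self K1, abs_nonneg K2]
  · filter_upwards [h2] with x h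
    linarith [le_abs_self K2, abs_nonneg K1, le_abs_self (C.Γ f f x)]

theorem pot_lap (he : e ∈ C.Test) (hh : h ∈ C.Test) (hG : G ∈ C.Test) (ε t : ℝ) :
    C.lap (e + ε • h - t • G) = C.lap e + ε • C.lap h - t • C.lap G := by
  rw [hC.en_lap_sub hB (hC.test_add hB he (hC.test_smul hB ε hh)) (hC.test_smul hB t hG),
    hC.lap_add hB he (hC.test_smul hB ε hh), hC.lap_smul hB ε hh, hC.lap_smul hB t hG]

theorem pot_b1 (he : e ∈ C.Test) (hh : h ∈ C.Test) (hG : G ∈ C.Test) {Ke Kh KG ε t : ℝ}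
    (le1 : ∀ᵐ x ∂m, |C.lap e x| ≤ Ke) (lh1 : ∀ᵐ x ∂m, |C.lap h x| ≤ Kh)
    (lG1 : ∀ᵐ x ∂m, |C.lap G x| ≤ KG) (ht : 0 ≤ t) (htε : t ≤ ε) (hε : ε ≤ 1) :
    ∀ᵐ x ∂m, |C.lap (e + ε • h - t • G) x| ≤ Ke + Kh + KG := by
  have hε0 : 0 ≤ ε := ht.trans htε
  filter_upwards [le1, lh1, lG1, eq_iff_ae.1 (hC.pot_lap hB he hh hG ε t),
    sub_ae (C.lap e + ε • C.lap h) (t • C.lap G),
    add_ae (C.lap e) (ε • C.lap h), smul_ae (C.lap h) ε, smul_ae (C.lap G) t]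
    with x q1 q2 q3 q4 q5 q6 q7 q8
  rw [q4, q5, q6, q7, q8]
  have r1 : |ε * C.lap h x| ≤ Kh := by
    rw [abs_mul, abs_of_nonneg hε0]
    linarith only [mul_nonneg (sub_nonneg.2 hε0) (sub_nonneg.2 q2), mul_nonneg (sub_nonneg.2 hε) (sub_nonneg.2 (abs_nonneg (C.lap h x))), mul_nonneg (sub_nonneg.2 hε) (sub_nonneg.2 q2)]
  have r2 : |t * C.lap G x| ≤ KG := by
    rw [abs_mul, abs_of_nonneg ht]
    linarith only [mul_nonneg (sub_nonneg.2 hε0) (sub_nonneg.2 q3), mul_nonneg (sub_nonneg.2 hε) (sub_nonneg.2 (abs_nonneg (C.lap G x))), mul_nonneg (sub_nonneg.2 hε) (sub_nonneg.2 q3), mul_nonneg (sub_nonneg.2 htε) (sub_nonneg.2 (abs_nonneg (C.lap G x)))]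
  have r3 := abs_sub (C.lap e x + ε * C.lap h x) (t * C.lap G x)
  have r4 := abs_add_le (C.lap e x) (ε * C.lap h x)
  linarith

theorem pot_b2 (he : e ∈ C.Test) (hh : h ∈ C.Test) (hG : G ∈ C.Test) {Ke Kh KG ε t : ℝ}
    (ge1 : ∀ᵐ x ∂m, C.Γ e e x ≤ Ke) (gh1 : ∀ᵐ x ∂m, C.Γ h h x ≤ Kh)
    (gG1 : ∀ᵐ x ∂m, C.Γ G G x ≤ KG) (ht : 0 ≤ t) (htε : t ≤ ε) (hε : ε ≤ 1) :
    ∀ᵐ x ∂m, C.Γ (e + ε • h - t • G) (e + ε • h - t • G) x ≤ 4 * (Ke + Kh + KG) := by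
  have hε0 : 0 ≤ ε := ht.trans htε
  have eA := hC.test_A he
  have hA := hC.test_A hh
  have GA := hC.test_A hG
  filter_upwards [hC.Γ_sub_le_ae (hC.add_mem _ eA.1 _ (hC.smul_mem ε _ hA.1))
      (hC.smul_mem t _ GA.1),
    hC.Γ_add_le_ae eA.1 (hC.smul_mem ε _ hA.1), eq_iff_ae.1 (hC.Γ_smul_self t GA.1),
    eq_iff_ae.1 (hC.Γ_smul_self ε hA.1), smul_ae (C.Γ G G) (t ^ 2), smul_ae (C.Γ h h) (ε ^ 2),
    ge1, gh1, gG1, hC.Γ_nonneg_ae hA.1, hC.Γ_nonneg_ae GA.1, hC.Γ_nonneg_ae eA.1]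
    with x q1 q2 q3 q4 q5 q6 q7 q8 q9 q10 q11 q12
  rw [q3, q5] at q1
  rw [q4, q6] at q2
  have r1 : ε ^ 2 * C.Γ h h x ≤ Kh := by
    have : ε ^ 2 ≤ 1 := by linarith only [mul_nonneg (sub_nonneg.2 hε) (sub_nonneg.2 hε0), mul_nonneg (sub_nonneg.2 hε) (sub_nonneg.2 hε)]
    linarith only [mul_nonneg (sub_nonneg.2 q10) (sub_nonneg.2 this), mul_nonneg (sub_nonneg.2 hε0) (sub_nonneg.2 q8), mul_nonneg (sub_nonneg.2 hε) (sub_nonneg.2 q8)]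
  have r2 : t ^ 2 * C.Γ G G x ≤ KG := by
    have : t ^ 2 ≤ 1 := by linarith only [mul_nonneg (sub_nonneg.2 hε) (sub_nonneg.2 hε0), mul_nonneg (sub_nonneg.2 hε) (sub_nonneg.2 hε), mul_nonneg (sub_nonneg.2 htε) (sub_nonneg.2 hε0), mul_nonneg (sub_nonneg.2 ht) (sub_nonneg.2 htε)]
    linarith only [mul_nonneg (sub_nonneg.2 q11) (sub_nonneg.2 this), mul_nonneg (sub_nonneg.2 hε0) (sub_nonneg.2 q9), mul_nonneg (sub_nonneg.2 hε) (sub_nonneg.2 q9)]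
  linarith

theorem pot_b3 (he : e ∈ C.Test) (hh : h ∈ C.Test) (hG : G ∈ C.Test) {ε t : ℝ}
    (ht : 0 ≤ t) (htε : t ≤ ε) (hε : ε ≤ 1) :
    √(I (C.Γ (e + ε • h - t • G) (e + ε • h - t • G)))
      ≤ √(I (C.Γ e e)) + √(I (C.Γ h h)) + √(I (C.Γ G G)) := by
  have hε0 : 0 ≤ ε := ht.trans htε
  have eA := hC.test_A he
  have hA := hC.test_A hh
  have GA := hC.test_A hG
  have q1 := hC.sE_sub_le (hC.add_mem _ eA.1 _ (hC.smul_mem ε _ hA.1)) (hC.smul_mem t _ GA.1)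
  have q2 := hC.sqrt_E_add_le eA.1 (hC.smul_mem ε _ hA.1)
  rw [hC.sE_smul t GA.1, abs_of_nonneg ht] at q1
  rw [hC.sE_smul ε hA.1, abs_of_nonneg hε0] at q2
  have r1 : ε * √(I (C.Γ h h)) ≤ √(I (C.Γ h h)) := by
    linarith only [mul_nonneg (sub_nonneg.2 hε) (sub_nonneg.2 (Real.sqrt_nonneg (I (C.Γ h h))))]
  have r2 : t * √(I (C.Γ G G)) ≤ √(I (C.Γ G G)) := by
    linarith only [mul_nonneg (sub_nonneg.2 hε) (sub_nonneg.2 (Real.sqrt_nonneg (I (C.Γ G G)))), mul_nonneg (sub_nonneg.2 htε) (sub_nonneg.2 (Real.sqrt_nonneg (I (C.Γ G G))))]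
  linarith

theorem pot_b4 (he : e ∈ C.Test) (hh : h ∈ C.Test) (hG : G ∈ C.Test) {ε t : ℝ}
    (ht : 0 ≤ t) (htε : t ≤ ε) (hε : ε ≤ 1) :
    I (C.lap (e + ε • h - t • G) ^ 2)
      ≤ 2 * I (C.lap e ^ 2) + 4 * I (C.lap h ^ 2) + 4 * I (C.lap G ^ 2) := by
  have hε0 : 0 ≤ ε := ht.trans htε
  rw [hC.pot_lap hB he hh hG ε t]
  have m1 := (hC.test_isLap he).2.1
  have m2 := (hC.test_isLap hh).2.1
  have m3 := (hC.test_isLap hG).2.1
  have q0 : C.lap e + ε • C.lap h - t • C.lap G = C.lap e + (ε • C.lap h + (-t) • C.lap G) := by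
    module
  rw [q0]
  have q1 := I_sq_add_le m1 (mem_add (mem_smul ε m2) (mem_smul (-t) m3))
  have q2 := I_sq_add_le (mem_smul ε m2) (mem_smul (-t) m3)
  have q3 : I ((ε • C.lap h) ^ 2) = ε ^ 2 * I (C.lap h ^ 2) := by
    rw [← I_smul, smul_pow]
  have q4 : I (((-t) • C.lap G) ^ 2) = t ^ 2 * I (C.lap G ^ 2) := by
    rw [← I_smul, smul_pow, neg_sq]
  rw [q3, q4] at q2
  have n1 := I_sq_nonneg (C.lap h)
  have n2 := I_sq_nonneg (C.lap G)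
  have r1 : ε ^ 2 * I (C.lap h ^ 2) ≤ I (C.lap h ^ 2) := by
    have : ε ^ 2 ≤ 1 := by linarith only [mul_nonneg (sub_nonneg.2 hε) (sub_nonneg.2 hε0), mul_nonneg (sub_nonneg.2 hε) (sub_nonneg.2 hε)]
    linarith only [mul_nonneg (sub_nonneg.2 n1) (sub_nonneg.2 this)]
  have r2 : t ^ 2 * I (C.lap G ^ 2) ≤ I (C.lap G ^ 2) := by
    have : t ^ 2 ≤ 1 := by linarith only [mul_nonneg (sub_nonneg.2 hε) (sub_nonneg.2 hε0), mul_nonneg (sub_nonneg.2 hε) (sub_nonneg.2 hε), mul_nonneg (sub_nonneg.2 htε) (sub_nonneg.2 hε0), mul_nonneg (sub_nonneg.2 ht) (sub_nonneg.2 htε)]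
    linarith only [mul_nonneg (sub_nonneg.2 n2) (sub_nonneg.2 this)]
  linarith

theorem pot_b5 (he : e ∈ C.Test) (hh : h ∈ C.Test) (hG : G ∈ C.Test) {ε t : ℝ}
    (ht : 0 ≤ t) (htε : t ≤ ε) (hε : ε ≤ 1) :
    √(I (C.Γ (G - (2 : ℝ)⁻¹ • C.Γ (e + ε • h - t • G) (e + ε • h - t • G))
        (G - (2 : ℝ)⁻¹ • C.Γ (e + ε • h - t • G) (e + ε • h - t • G))))
      ≤ √(I (C.Γ (G - (2 : ℝ)⁻¹ • C.Γ e e) (G - (2 : ℝ)⁻¹ • C.Γ e e)))
        + (√(I (C.Γ (C.Γ e h) (C.Γ e h))) + √(I (C.Γ (C.Γ e G) (C.Γ e G)))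
    + √(I (C.Γ (C.Γ h h) (C.Γ h h))) + √(I (C.Γ (C.Γ h G) (C.Γ h G)))
    + √(I (C.Γ (C.Γ G G) (C.Γ G G)))) * ε := by
  have hε0 : 0 ≤ ε := ht.trans htε
  have ht1 : t ≤ 1 := htε.trans hε
  have eA := hC.test_A he
  have hA := hC.test_A hh
  have GA := hC.test_A hG
  have geh := (hC.Γ_mem hB he hh).1
  have geG := (hC.Γ_mem hB he hG).1
  have gee := (hC.Γ_mem hB he he).1
  have ghh := (hC.Γ_mem hB hh hh).1
  have ghG := (hC.Γ_mem hB hh hG).1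
  have gGG := (hC.Γ_mem hB hG hG).1
  have q1 : C.Γ (e + ε • h - t • G) (e + ε • h - t • G)
      = C.Γ e e + (2 * ε) • C.Γ e h - (2 * t) • C.Γ e G + ε ^ 2 • C.Γ h h
        - (2 * ε * t) • C.Γ h G + t ^ 2 • C.Γ G G := by
    have ehA := hC.add_mem _ eA.1 _ (hC.smul_mem ε _ hA.1)
    have s1 := hC.Γ_expand (-t) ehA GA.1
    have s2 := hC.Γ_expand ε eA.1 hA.1
    have s3 : e + ε • h + (-t) • G = e + ε • h - t • G := by module
    rw [s3] at s1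
    rw [s1, s2, hC.add_left _ eA.1 _ (hC.smul_mem ε _ hA.1) _ GA.1,
      hC.smul_left ε _ hA.1 _ GA.1]
    module
  have q2 : G - (2 : ℝ)⁻¹ • C.Γ (e + ε • h - t • G) (e + ε • h - t • G)
      = (G - (2 : ℝ)⁻¹ • C.Γ e e) - ε • C.Γ e h + t • C.Γ e G - (ε ^ 2 / 2) • C.Γ h h
        + (ε * t) • C.Γ h G - (t ^ 2 / 2) • C.Γ G G := by
    rw [q1]; module
  rw [q2]
  have z0 := hC.sub_mem GA.1 (hC.smul_mem (2 : ℝ)⁻¹ _ gee)
  have z1 := hC.sub_mem z0 (hC.smul_mem ε _ geh)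
  have z2 := hC.add_mem _ z1 _ (hC.smul_mem t _ geG)
  have z3 := hC.sub_mem z2 (hC.smul_mem (ε ^ 2 / 2) _ ghh)
  have z4 := hC.add_mem _ z3 _ (hC.smul_mem (ε * t) _ ghG)
  have y1 := hC.sE_sub_le z4 (hC.smul_mem (t ^ 2 / 2) _ gGG)
  have y2 := hC.sqrt_E_add_le z3 (hC.smul_mem (ε * t) _ ghG)
  have y3 := hC.sE_sub_le z2 (hC.smul_mem (ε ^ 2 / 2) _ ghh)
  have y4 := hC.sqrt_E_add_le z1 (hC.smul_mem t _ geG)
  have y5 := hC.sE_sub_le z0 (hC.smul_mem ε _ geh)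
  rw [hC.sE_smul _ gGG, abs_of_nonneg (by (clear * -; positivity))] at y1
  rw [hC.sE_smul _ ghG, abs_of_nonneg (by (clear * - hε0 ht; positivity))] at y2
  rw [hC.sE_smul _ ghh, abs_of_nonneg (by (clear * -; positivity))] at y3
  rw [hC.sE_smul _ geG, abs_of_nonneg ht] at y4
  rw [hC.sE_smul _ geh, abs_of_nonneg hε0] at y5
  have w2 := Real.sqrt_nonneg (I (C.Γ (C.Γ e G) (C.Γ e G)))
  have w3 := Real.sqrt_nonneg (I (C.Γ (C.Γ h h) (C.Γ h h)))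
  have w4 := Real.sqrt_nonneg (I (C.Γ (C.Γ h G) (C.Γ h G)))
  have w5 := Real.sqrt_nonneg (I (C.Γ (C.Γ G G) (C.Γ G G)))
  have x1 : t ^ 2 / 2 * √(I (C.Γ (C.Γ G G) (C.Γ G G))) ≤ ε * √(I (C.Γ (C.Γ G G) (C.Γ G G))) :=
    mul_le_mul_of_nonneg_right (by linarith only [mul_nonneg (sub_nonneg.2 hε0) (sub_nonneg.2 ht1), mul_nonneg (sub_nonneg.2 hε0) (sub_nonneg.2 hε0), mul_nonneg (sub_nonneg.2 htε) (sub_nonneg.2 hε), mul_nonneg (sub_nonneg.2 ht) (sub_nonneg.2 ht1)]) w5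
  have x2 : ε * t * √(I (C.Γ (C.Γ h G) (C.Γ h G))) ≤ ε * √(I (C.Γ (C.Γ h G) (C.Γ h G))) :=
    mul_le_mul_of_nonneg_right (by linarith only [mul_nonneg (sub_nonneg.2 hε0) (sub_nonneg.2 ht1)]) w4
  have x3 : ε ^ 2 / 2 * √(I (C.Γ (C.Γ h h) (C.Γ h h))) ≤ ε * √(I (C.Γ (C.Γ h h) (C.Γ h h))) :=
    mul_le_mul_of_nonneg_right (by linarith only [mul_nonneg (sub_nonneg.2 hε0) (sub_nonneg.2 hε0), mul_nonneg (sub_nonneg.2 hε) (sub_nonneg.2 hε0)]) w3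
  have x4 : t * √(I (C.Γ (C.Γ e G) (C.Γ e G))) ≤ ε * √(I (C.Γ (C.Γ e G) (C.Γ e G))) :=
    mul_le_mul_of_nonneg_right htε w2
  linarith

/-- all bounds for the potentials `e + ε h - t G` -/
theorem pot_bounds (he : e ∈ C.TestI) (hh : h ∈ C.TestI) (hG : G ∈ C.TestI) :
    ∃ K : ℝ, 0 ≤ K ∧ ∀ ε t : ℝ, 0 ≤ t → t ≤ ε → ε ≤ 1 →
      (∀ᵐ x ∂m, |C.lap (e + ε • h - t • G) x| ≤ K) ∧
      (∀ᵐ x ∂m, C.Γ (e + ε • h - t • G) (e + ε • h - t • G) x ≤ K) ∧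
      √(I (C.Γ (e + ε • h - t • G) (e + ε • h - t • G))) ≤ K ∧
      I (C.lap (e + ε • h - t • G) ^ 2) ≤ K ∧
      √(I (C.Γ (G - (2 : ℝ)⁻¹ • C.Γ (e + ε • h - t • G) (e + ε • h - t • G))
        (G - (2 : ℝ)⁻¹ • C.Γ (e + ε • h - t • G) (e + ε • h - t • G))))
        ≤ √(I (C.Γ (G - (2 : ℝ)⁻¹ • C.Γ e e) (G - (2 : ℝ)⁻¹ • C.Γ e e))) + K * ε := by
  obtain ⟨Ke, hKe, le1, ge1⟩ := hC.testI_bdd hB he
  obtain ⟨Kh, hKh, lh1, gh1⟩ := hC.testI_bdd hB hh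
  obtain ⟨KG, hKG, lG1, gG1⟩ := hC.testI_bdd hB hG
  obtain ⟨K1, hK1⟩ : ∃ K, K = Ke + Kh + KG := ⟨_, rfl⟩
  obtain ⟨K3, hK3⟩ : ∃ K, K = √(I (C.Γ e e)) + √(I (C.Γ h h)) + √(I (C.Γ G G)) := ⟨_, rfl⟩
  obtain ⟨K4, hK4⟩ : ∃ K, K = 2 * I (C.lap e ^ 2) + 4 * I (C.lap h ^ 2) + 4 * I (C.lap G ^ 2) :=
    ⟨_, rfl⟩
  obtain ⟨K5, hK5⟩ : ∃ K, K = √(I (C.Γ (C.Γ e h) (C.Γ e h))) + √(I (C.Γ (C.Γ e G) (C.Γ e G)))
    + √(I (C.Γ (C.Γ h h) (C.Γ h h))) + √(I (C.Γ (C.Γ h G) (C.Γ h G)))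
    + √(I (C.Γ (C.Γ G G) (C.Γ G G))) := ⟨_, rfl⟩
  have h3 : 0 ≤ K3 := by rw [hK3]; (clear * -; positivity)
  have h4 : 0 ≤ K4 := by
    have q1 := I_sq_nonneg (C.lap e)
    have q2 := I_sq_nonneg (C.lap h)
    have q3 := I_sq_nonneg (C.lap G)
    rw [hK4]; (clear * - q1 q2 q3; positivity)
  have h5 : 0 ≤ K5 := by rw [hK5]; (clear * -; positivity)
  have h1 : 0 ≤ K1 := by rw [hK1]; positivity
  refine ⟨5 * K1 + K3 + K4 + K5, by (clear * - h1 h3 h4 h5; positivity), fun ε t ht htε hε => ⟨?_, ?_, ?_, ?_, ?_⟩⟩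
  · filter_upwards [hC.pot_b1 hB he.1 hh.1 hG.1 le1 lh1 lG1 ht htε hε] with x hx
    rw [← hK1] at hx
    linarith only [hx, h1, h5, h4, h3]
  · filter_upwards [hC.pot_b2 hB he.1 hh.1 hG.1 ge1 gh1 gG1 ht htε hε] with x hx
    rw [← hK1] at hx
    linarith
  · have hx := hC.pot_b3 hB he.1 hh.1 hG.1 ht htε hε
    rw [← hK3] at hx
    linarith only [hx, h1, h5, h4]
  · have hx := hC.pot_b4 hB he.1 hh.1 hG.1 ht htε hε
    rw [← hK4] at hx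
    linarith
  · have hx := hC.pot_b5 hB he.1 hh.1 hG.1 ht htε hε
    rw [← hK5] at hx
    have x6 : K5 * ε ≤ (5 * K1 + K3 + K4 + K5) * ε :=
      mul_le_mul_of_nonneg_right (by linarith only [h1, h4, h3]) (ht.trans htε)
    linarith only [x6, hx]

end IsGamma

end Vale.Agent.P233
end

section

open MeasureTheory Filter Topology
open scoped ENNReal NNReal

namespace Vale.Agent.P233

variable {M : Type*} [MeasurableSpace M] {m : Measure M} {C : Calc m}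

theorem ac_exp_bound {y : ℝ} (hy : y ≤ 11 / 5) : Real.exp y ≤ 93 / 10 := by
  have h1 : Real.exp y ≤ Real.exp (11 / 5) := Real.exp_le_exp.2 hy
  have h2 : Real.exp (11 / 5) = Real.exp 1 * Real.exp 1 * Real.exp (1 / 5) := by
    rw [← Real.exp_add, ← Real.exp_add]; norm_num
  have h3 : Real.exp (1 / 5) ≤ 5 / 4 := by
    have h := Real.add_one_le_exp (-(1 / 5) : ℝ)
    have h5 : Real.exp (1 / 5) * Real.exp (-(1 / 5) : ℝ) = 1 := by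
      rw [← Real.exp_add]; norm_num
    have h6 : 0 < Real.exp (1 / 5) := Real.exp_pos _
    (by_contra nlg; linarith only [nlg, mul_eq_zero_of_left (sub_eq_zero.2 h5) (Real.exp (1 / 5) - (0)), mul_nonneg (sub_nonneg.2 h) (le_of_lt (sub_pos.2 h6)), mul_eq_zero_of_left (sub_eq_zero.2 h5) (Real.exp (1 / 5) - (5 / 4))])
  have h4 := Real.exp_one_lt_d9
  have h5 : 0 < Real.exp 1 := Real.exp_pos _
  have h6 : Real.exp 1 * Real.exp 1 ≤ 2.7182818286 * 2.7182818286 := by nlinarith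
  rw [h2] at h1
  have h7 : 0 < Real.exp (1 / 5) := Real.exp_pos _
  nlinarith

theorem Calc.VHJ.mono_D {σ τ L Λ D D' : ℝ} {n : ℕ} {U : ℕ → M →ₘ[m] ℝ}
    (hU : C.VHJ σ τ L Λ D n U) (h : D ≤ D') : C.VHJ σ τ L Λ D' n U where
  test := hU.test
  grad := hU.grad
  lap_le := hU.lap_le
  lap_abs k hk := (hU.lap_abs k hk).mono fun x hx => hx.trans h
  step_le := hU.step_le
  step_ge k hk := by
    obtain ⟨R, h1, h2, h3⟩ := hU.step_ge k hk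
    have h4 : D * τ ^ 2 ≤ D' * τ ^ 2 := mul_le_mul_of_nonneg_right h (sq_nonneg _)
    exact ⟨R, h1, h2.trans h4, h3.mono fun x hx => ⟨hx.1, hx.2.1.trans h4, hx.2.2⟩⟩

namespace IsGamma

variable (hC : IsGamma C) {κ : ℝ} (hB : C.BEi κ)
variable {e h G : M →ₘ[m] ℝ}

include hC hB

/-- the Hessian of the potentials, tested with fields of bounded length -/
theorem pot_hess [SigmaFinite m] (he : e ∈ C.Test) (hh : h ∈ C.Test) (hG : G ∈ C.Test)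
    {δ Lw : ℝ} (hδ : 0 < δ) :
    ∃ Λ : ℝ, 0 ≤ Λ ∧ ∀ ε t : ℝ, 0 ≤ t → t ≤ ε → ε ≤ 1 → ∀ w ∈ C.Test,
      (∀ᵐ x ∂m, C.Γ w w x ≤ Lw) → |I (C.hess (e + ε • h - t • G) w w)|
        ≤ Λ * I (C.Γ w w) + δ / 10 * √(I (C.Γ w w)) := by
  obtain ⟨δ', hδ'⟩ : ∃ d, d = δ / (30 * (√Lw + 1)) := ⟨_, rfl⟩
  have hs := Real.sqrt_nonneg Lw
  have hδ'0 : 0 < δ' := by rw [hδ']; positivity
  have hδ'1 : 3 * δ' * √Lw ≤ δ / 10 := by
    have : δ' * (30 * (√Lw + 1)) = δ := by rw [hδ']; field_simp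
    linarith only [this, hδ'0]
  obtain ⟨Λe, hΛe, qe⟩ := hC.hess_approx hB he hδ'0
  obtain ⟨Λh, hΛh, qh⟩ := hC.hess_approx hB hh hδ'0
  obtain ⟨ΛG, hΛG, qG⟩ := hC.hess_approx hB hG hδ'0
  refine ⟨Λe + Λh + ΛG, by positivity, fun ε t ht htε hε w hw hwL => ?_⟩
  have hε0 : 0 ≤ ε := ht.trans htε
  have ht1 : t ≤ 1 := htε.trans hε
  have wA := hC.test_A hw
  have hX : 0 ≤ I (C.Γ w w) := hC.E_nonneg wA.1
  have e1 : e + ε • h - t • G = e + (ε • h + (-t) • G) := by module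
  have e2 : I (C.hess (e + ε • h - t • G) w w)
      = I (C.hess e w w) + (ε * I (C.hess h w w) + (-t) * I (C.hess G w w)) := by
    rw [e1, hC.hess_add hB he (hC.test_add hB (hC.test_smul hB ε hh) (hC.test_smul hB (-t) hG)) hw,
      hC.hess_add hB (hC.test_smul hB ε hh) (hC.test_smul hB (-t) hG) hw, hC.hess_smul hB ε hh hw,
      hC.hess_smul hB (-t) hG hw]
  have e3 : √(I (C.Γ w w ^ 2)) ≤ √Lw * √(I (C.Γ w w)) := by
    have h1 : I (C.Γ w w ^ 2) ≤ Lw * I (C.Γ w w) := by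
      rw [← I_smul]
      refine I_mono (mem_sq (hC.memLp _ (hC.Γ_mem hB hw hw).1)) (mem_smul _ (hC.mem1 w wA.1)) ?_
      rw [le_iff_ae]
      filter_upwards [hwL, hC.Γ_nonneg_ae wA.1, sq_ae (C.Γ w w), smul_ae (C.Γ w w) Lw]
        with x q1 q2 q3 q4
      rw [q3, q4, sq]
      exact mul_le_mul_of_nonneg_right q1 q2
    calc √(I (C.Γ w w ^ 2)) ≤ √(Lw * I (C.Γ w w)) := Real.sqrt_le_sqrt h1
      _ = √Lw * √(I (C.Γ w w)) := by rw [mul_comm, Real.sqrt_mul hX, mul_comm]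
  have e4 : δ' * √(I (C.Γ w w ^ 2)) ≤ δ' * (√Lw * √(I (C.Γ w w))) :=
    mul_le_mul_of_nonneg_left e3 hδ'0.le
  have a1 := qe w hw
  have a2 := qh w hw
  have a3 := qG w hw
  have b2 : |ε * I (C.hess h w w)| ≤ |I (C.hess h w w)| := by
    rw [abs_mul, abs_of_nonneg hε0]
    linarith only [mul_nonneg (sub_nonneg.2 hε) (sub_nonneg.2 (abs_nonneg (I (C.hess h w w))))]
  have b3 : |(-t) * I (C.hess G w w)| ≤ |I (C.hess G w w)| := by
    rw [abs_mul, abs_neg, abs_of_nonneg ht]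
    linarith only [mul_nonneg (sub_nonneg.2 ht1) (sub_nonneg.2 (abs_nonneg (I (C.hess G w w))))]
  have b4 := abs_add_le (I (C.hess e w w)) (ε * I (C.hess h w w) + (-t) * I (C.hess G w w))
  have b5 := abs_add_le (ε * I (C.hess h w w)) ((-t) * I (C.hess G w w))
  rw [e2]
  have b6 : 3 * δ' * √Lw * √(I (C.Γ w w)) ≤ δ / 10 * √(I (C.Γ w w)) :=
    mul_le_mul_of_nonneg_right hδ'1 (Real.sqrt_nonneg _)
  have b7 : 3 * (δ' * (√Lw * √(I (C.Γ w w)))) = 3 * δ' * √Lw * √(I (C.Γ w w)) := by ring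
  linarith only [b6, b5, b4, b3, b2, a3, a2, a1, e4]

end IsGamma

end Vale.Agent.P233
end

section

open MeasureTheory Filter Topology
open scoped ENNReal NNReal

namespace Vale.Agent.P233

variable {M : Type*} [MeasurableSpace M] {m : Measure M} {C : Calc m}

namespace IsGamma

variable (hC : IsGamma C) {κ : ℝ} (hB : C.BEi κ)
variable {e h G F R1 R2 : M →ₘ[m] ℝ}

include hC hB

/-- the energy estimate for the potentials: `‖∇(u_k - φ_k)‖₂ ≤ 4 ε δ` -/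
theorem en_final [SigmaFinite m] (he : e ∈ C.TestI) (hh : h ∈ C.TestI) (hG : G ∈ C.TestI)
    {δ L Λ : ℝ} (hδ : 0 < δ) (hL : 0 ≤ L) (hΛ : 0 ≤ Λ)
    (hGe : I (C.Γ (G - (2 : ℝ)⁻¹ • C.Γ e e) (G - (2 : ℝ)⁻¹ • C.Γ e e)) ≤ δ ^ 2) :
    ∃ ε₀ : ℝ, 0 < ε₀ ∧ ε₀ ≤ 1 ∧ ∀ ε, 0 < ε → ε ≤ ε₀ → ∃ σ₀ > 0, ∀ σ, 0 < σ → σ ≤ σ₀ →
      ∀ D : ℝ, 0 ≤ D → ∃ n₀ : ℕ, ∀ n ≥ n₀, 0 < n → ∀ U : ℕ → M →ₘ[m] ℝ,
        C.VHJ σ (ε / n) L Λ D n U → U 0 = e + ε • h →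
        ∀ k ≤ n, √(I (C.Γ (U k - (e + ε • h - ((k : ℝ) * (ε / n)) • G))
          (U k - (e + ε • h - ((k : ℝ) * (ε / n)) • G)))) ≤ 4 * ε * δ := by
  obtain ⟨K, hK, hpot⟩ := hC.pot_bounds hB he hh hG
  obtain ⟨Λh, hΛh, hhess⟩ := hC.pot_hess hB he.1 hh.1 hG.1 (Lw := 2 * (L + K)) hδ
  obtain ⟨A, hA⟩ : ∃ A, A = 2 * Λh + 2 * K + Λ := ⟨_, rfl⟩
  have hA0 : 0 ≤ A := by rw [hA]; (clear * - hΛh hK hΛ; positivity)
  refine ⟨min 1 (min (δ / (10 * (K + 1))) (1 / (10 * (A + 1)))), by positivity,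
    min_le_left _ _, fun ε hε hε0 => ?_⟩
  have hε1 : ε ≤ 1 := hε0.trans (min_le_left _ _)
  have hε2 : K * ε ≤ δ / 10 := by
    have h1 : ε ≤ δ / (10 * (K + 1)) := hε0.trans ((min_le_right _ _).trans (min_le_left _ _))
    rw [le_div_iff₀ (by positivity)] at h1
    linarith only [h1, hε]
  have hε3 : A * ε ≤ 1 / 10 := by
    have h1 : ε ≤ 1 / (10 * (A + 1)) := hε0.trans ((min_le_right _ _).trans (min_le_right _ _))
    rw [le_div_iff₀ (by positivity)] at h1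
    linarith only [h1, hε]
  refine ⟨ε * δ ^ 2 / (5 * (K + 1)), by positivity, fun σ hσ hσ0 D hD => ?_⟩
  have hσ1 : ε * σ * K / 2 ≤ ε ^ 2 * δ ^ 2 / 10 := by
    rw [le_div_iff₀ (by positivity)] at hσ0
    have h1 : σ * K * 5 ≤ ε * δ ^ 2 := by linarith only [hσ0, hσ]
    (by_contra nlg; linarith only [nlg, mul_nonneg (le_of_lt (sub_pos.2 hε)) (sub_nonneg.2 hσ0), mul_pos (sub_pos.2 hε) (sub_pos.2 hσ), mul_nonneg (le_of_lt (sub_pos.2 (not_le.1 nlg))) (sub_nonneg.2 hε1), mul_pos (sub_pos.2 (not_le.1 nlg)) (sub_pos.2 hε)])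
  obtain ⟨n1, hn1⟩ := exists_nat_gt (20 * (Λ + K) * D / δ ^ 2)
  refine ⟨max n1 3, fun n hn hn0 U hU hU0 k hk => ?_⟩
  have hnR : (0 : ℝ) < n := by exact_mod_cast hn0
  have hn3 : (3 : ℝ) ≤ n := by exact_mod_cast (le_max_right _ _).trans hn
  have hnD : 2 * (Λ + K) * D * ε ^ 2 / n ≤ ε ^ 2 * δ ^ 2 / 10 := by
    have h1 : 20 * (Λ + K) * D / δ ^ 2 ≤ n :=
      hn1.le.trans (by exact_mod_cast (le_max_left _ _).trans hn)
    rw [div_le_iff₀ (by positivity)] at h1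
    rw [div_le_iff₀ hnR]
    have h2 : 0 ≤ ε ^ 2 := sq_nonneg _
    (by_contra nlg; linarith only [nlg, mul_nonneg (sub_nonneg.2 h1) (sub_nonneg.2 h2), mul_nonneg (le_of_lt (sub_pos.2 (not_le.1 nlg))) (sub_nonneg.2 hε1), mul_pos (sub_pos.2 (not_le.1 nlg)) (sub_pos.2 hε)])
  have hGe' : √(I (C.Γ (G - (2 : ℝ)⁻¹ • C.Γ e e) (G - (2 : ℝ)⁻¹ • C.Γ e e))) ≤ δ :=
    Real.sqrt_le_iff.2 ⟨hδ.le, hGe⟩
  have heh : e + ε • h ∈ C.Test := hC.test_add hB he.1 (hC.test_smul hB ε hh.1)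
  have hmain := hC.en_iter hB (σ := σ) (ε := ε) (L := L) (Λ := Λ) (D := D) (P := K) (Λh := Λh)
    (δ := δ / 10) (γ := δ + K * ε) (Q := K) (Lφ := K) hσ.le hε hn0 hΛ hD hK hΛh hK heh hG.1 hU hU0
    (fun s hs hsε => (hpot ε s hs hsε hε1).1) (fun s hs hsε => (hpot ε s hs hsε hε1).2.1)
    (fun s hs hsε w hw hwL => hhess ε s hs hsε hε1 w hw hwL)
    (fun s hs hsε => ((hpot ε s hs hsε hε1).2.2.2.2).trans (by linarith only [hGe']))
    (fun s hs hsε => (hpot ε s hs hsε hε1).2.2.2.1)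
    (by rw [← hA]; linarith only [hn3, hε3]) k hk
  rw [← hA] at hmain
  refine Real.sqrt_le_iff.2 ⟨by positivity, hmain.trans ?_⟩
  have hexp : Real.exp (2 * (A * ε + 1)) ≤ 93 / 10 := ac_exp_bound (by linarith only [hε3])
  have h1 : (δ / 10 + (δ + K * ε)) ^ 2 ≤ 36 / 25 * δ ^ 2 := by
    have h2 : 0 ≤ K * ε := by positivity
    (by_contra nlg; linarith only [nlg, mul_nonneg (sub_nonneg.2 hε2) (sub_nonneg.2 h2), mul_nonneg (sub_nonneg.2 hε2) (sub_nonneg.2 hε2), mul_nonneg (le_of_lt (sub_pos.2 (not_le.1 nlg))) (sub_nonneg.2 hε1), mul_pos (sub_pos.2 (not_le.1 nlg)) (sub_pos.2 hε)])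
  have h3 : ε ^ 2 * (δ / 10 + (δ + K * ε)) ^ 2 ≤ ε ^ 2 * (36 / 25 * δ ^ 2) :=
    mul_le_mul_of_nonneg_left h1 (sq_nonneg _)
  have h4 : ε ^ 2 * (δ / 10 + (δ + K * ε)) ^ 2 + ε * σ * K / 2 + 2 * (Λ + K) * D * ε ^ 2 / n
      ≤ 41 / 25 * (ε ^ 2 * δ ^ 2) := by linarith only [h3, hnD, hσ1]
  have h5 : 0 ≤ ε ^ 2 * δ ^ 2 := by positivity
  have h6 : 0 ≤ ε ^ 2 * (δ / 10 + (δ + K * ε)) ^ 2 + ε * σ * K / 2
      + 2 * (Λ + K) * D * ε ^ 2 / n := by (clear * - hε hδ hK hσ hΛ hD hn0; positivity)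
  calc _ ≤ (41 / 25 * (ε ^ 2 * δ ^ 2)) * (93 / 10) :=
        mul_le_mul h4 hexp (Real.exp_pos _).le (by positivity)
    _ ≤ (4 * ε * δ) ^ 2 := by linarith only [h5]

omit hB in
theorem ac_gρ (hF : F ∈ C.A) (hR1 : R1 ∈ C.A) (hR2 : R2 ∈ C.A) {t : ℝ} (ht : 0 ≤ t)
    (t1 : t ≤ 1) : √(I (C.Γ (F + t • R1 + (t ^ 2 / 2) • R2) (F + t • R1 + (t ^ 2 / 2) • R2)))
      ≤ √(I (C.Γ F F)) + √(I (C.Γ R1 R1)) + √(I (C.Γ R2 R2)) := by
  have q1 := hC.sqrt_E_add_le (hC.A_add hF (hC.A_smul t hR1)).1 (hC.smul_mem (t ^ 2 / 2) _ hR2.1)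
  have q2 := hC.sqrt_E_add_le hF.1 (hC.smul_mem t _ hR1.1)
  rw [hC.sE_smul _ hR2.1, abs_of_nonneg (by positivity)] at q1
  rw [hC.sE_smul _ hR1.1, abs_of_nonneg ht] at q2
  have r1 : t * √(I (C.Γ R1 R1)) ≤ √(I (C.Γ R1 R1)) := by
    linarith only [mul_nonneg (sub_nonneg.2 t1) (sub_nonneg.2 (Real.sqrt_nonneg (I (C.Γ R1 R1))))]
  have r2 : t ^ 2 / 2 * √(I (C.Γ R2 R2)) ≤ √(I (C.Γ R2 R2)) := by
    have : t ^ 2 / 2 ≤ 1 := by (by_contra nlg; linarith [mul_nonneg (sub_nonneg.2 t1) (sub_nonneg.2 t1), mul_nonneg (sub_nonneg.2 ht) (sub_nonneg.2 t1), mul_nonneg (le_of_lt (sub_pos.2 (not_le.1 nlg))) (sub_nonneg.2 t1), mul_nonneg (le_of_lt (sub_pos.2 (not_le.1 nlg))) (sub_nonneg.2 ht)])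
    linarith only [mul_nonneg (sub_nonneg.2 this) (sub_nonneg.2 (Real.sqrt_nonneg (I (C.Γ R2 R2))))]
  linarith

omit hC hB in
theorem ac_E {M1 M2 t : ℝ} (hM1 : ∀ᵐ x ∂m, |R1 x| ≤ M1) (hM2 : ∀ᵐ x ∂m, |R2 x| ≤ M2)
    (ht : 0 ≤ t) (t1 : t ≤ 1) :
    ∀ᵐ y ∂m, |((2 : ℝ)⁻¹ • R1 + (t / 2) • R2) y| ≤ |M1| + |M2| := by
  filter_upwards [hM1, hM2, add_ae ((2 : ℝ)⁻¹ • R1) ((t / 2) • R2), smul_ae R1 (2 : ℝ)⁻¹,
    smul_ae R2 (t / 2)] with y q1 q2 q3 q4 q5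
  rw [q3, q4, q5]
  have r1 : |(2 : ℝ)⁻¹ * R1 y| ≤ |M1| := by
    rw [abs_mul, abs_of_pos (by norm_num : (0 : ℝ) < 2⁻¹)]
    linarith only [le_abs_self M1, abs_nonneg (R1 y), q1]
  have r2 : |t / 2 * R2 y| ≤ |M2| := by
    rw [abs_mul, abs_of_nonneg (by positivity : (0 : ℝ) ≤ t / 2)]
    have h3 : t / 2 * |R2 y| ≤ 1 * |R2 y| :=
      mul_le_mul_of_nonneg_right (by linarith only [t1]) (abs_nonneg _)
    linarith only [le_abs_self M2, h3, q2]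
  exact (abs_add_le _ _).trans (add_le_add r1 r2)

set_option maxHeartbeats 1000000 in
/-- THE ACTION LOWER BOUND, for all `δ > 0` -/
theorem ac_lower0 [SigmaFinite m] (he : e ∈ C.TestI) (hh : h ∈ C.TestI) (hG : G ∈ C.TestI)
    {δ L Λ : ℝ} (hδ : 0 < δ) (hL : 0 ≤ L) (hΛ : 0 ≤ Λ)
    (hGe : I (C.Γ (G - (2 : ℝ)⁻¹ • C.Γ e e) (G - (2 : ℝ)⁻¹ • C.Γ e e)) ≤ δ ^ 2) :
    ∃ ε₀ : ℝ, 0 < ε₀ ∧ ε₀ ≤ 1 ∧ ∀ ε, 0 < ε → ε ≤ ε₀ →
      ∀ F ∈ C.A, ∀ R1 ∈ C.A, ∀ R2 ∈ C.A, ∀ Kρ CH : ℝ, 0 ≤ Kρ → 0 ≤ CH →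
      (∀ t, 0 ≤ t → t ≤ ε → ∀ᵐ x ∂m, 0 ≤ (F + t • R1 + (t ^ 2 / 2) • R2) x ∧
        (F + t • R1 + (t ^ 2 / 2) • R2) x ≤ Kρ) →
      (∀ t, 0 ≤ t → t ≤ ε → ∀ w ∈ C.A, MemLp (C.Γ w w) ∞ m →
        |I (w * (R1 + t • R2))
          - I ((F + t • R1 + (t ^ 2 / 2) • R2) * C.Γ (e + ε • h - t • G) w)|
          ≤ CH * ε * √(I (C.Γ w w))) →
      ∀ ξ > 0, ∃ σ₀ > 0, ∀ σ, 0 < σ → σ ≤ σ₀ → ∀ D : ℝ, ∃ n₀ : ℕ, ∀ n ≥ n₀, 0 < n →
        ∀ u : ℕ → M →ₘ[m] ℝ, C.VHJ σ (ε / n) L Λ D n u → u 0 = e + ε • h →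
        (∫ t in (0 : ℝ)..ε, (I ((e + ε • h - t • G) * (R1 + t • R2))
          - (2 : ℝ)⁻¹ * I ((F + t • R1 + (t ^ 2 / 2) • R2)
            * C.Γ (e + ε • h - t • G) (e + ε • h - t • G))))
          - (10 * CH * δ + 100 * Kρ * δ ^ 2) * ε ^ 3 - ξ
        ≤ I (u n * (F + ε • R1 + (ε ^ 2 / 2) • R2)) - I (u 0 * F) := by
  obtain ⟨Kp, hKp, hpot⟩ := hC.pot_bounds hB he hh hG
  obtain ⟨ε₀, hε₀, hε₀1, hen⟩ := hC.en_final hB he hh hG hδ hL hΛ hGe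
  refine ⟨ε₀, hε₀, hε₀1, fun ε hε hεε F hF R1 hR1 R2 hR2 K CH hK hCH hρ hP ξ hξ => ?_⟩
  have hε1 : ε ≤ 1 := hεε.trans hε₀1
  obtain ⟨σ₁, hσ₁, hen1⟩ := hen ε hε hεε
  obtain ⟨M1, hM1⟩ := mem_top_iff.1 hR1.2
  obtain ⟨M2, hM2⟩ := mem_top_iff.1 hR2.2
  obtain ⟨x, hx⟩ : ∃ x, x = 4 * ε * δ := ⟨_, rfl⟩
  obtain ⟨gρ, hgρ⟩ : ∃ g, g = √(I (C.Γ F F)) + √(I (C.Γ R1 R1)) + √(I (C.Γ R2 R2)) := ⟨_, rfl⟩
  obtain ⟨gG, hgG⟩ : ∃ g, g = √(I (C.Γ G G)) := ⟨_, rfl⟩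
  obtain ⟨K', hK'⟩ : ∃ k, k = |M1| + |M2| := ⟨_, rfl⟩
  obtain ⟨c2, hc2⟩ : ∃ c, c = K' * (Kp * x) + (2 : ℝ)⁻¹ * (K * (gG * x)) := ⟨_, rfl⟩
  have hx0 : 0 ≤ x := by rw [hx]; positivity
  have hgρ0 : 0 ≤ gρ := by rw [hgρ]; (clear * -; positivity)
  have hgG0 : 0 ≤ gG := by rw [hgG]; positivity
  have hK'0 : 0 ≤ K' := by rw [hK']; (clear * -; positivity)
  have hc20 : 0 ≤ c2 := by rw [hc2]; (clear * - hK'0 hKp hx0 hK hgG0; positivity)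
  refine ⟨min σ₁ (ξ / (4 * (ε * ((Kp + x) * gρ) + 1))), by (clear * - hσ₁ hξ hε hKp hx0 hgρ0; positivity),
    fun σ hσ hσσ D => ?_⟩
  have hσ1 : σ ≤ σ₁ := hσσ.trans (min_le_left _ _)
  have hσ2 : ε * (σ * ((Kp + x) * gρ)) ≤ ξ / 4 := by
    have h1 := hσσ.trans (min_le_right _ _)
    rw [le_div_iff₀ (by (clear * - hε hKp hx0 hgρ0; positivity))] at h1
    linarith only [h1, hσ]
  obtain ⟨n1, hn1⟩ := hen1 σ hσ hσ1 (max D 0) (le_max_right _ _)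
  have hehA : e + ε • h ∈ C.A :=
    hC.A_add (hC.test_A he.1) (hC.A_smul _ (hC.test_A hh.1))
  have hehT : e + ε • h ∈ C.Test := hC.test_add hB he.1 (hC.test_smul hB ε hh.1)
  obtain ⟨n2, hn2⟩ := hC.ac_riem hehA (hC.test_A hG.1) hF hR1 hR2 hε
    (show (0 : ℝ) < ξ / 4 by positivity)
  obtain ⟨n3, hn3⟩ := exists_nat_gt (4 * (ε ^ 2 * c2 + K * max D 0 * ε ^ 2) / ξ)
  refine ⟨max n1 (max n2 n3), fun n hn hn0 u hu hu0 => ?_⟩
  have hnR : (0 : ℝ) < n := by exact_mod_cast hn0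
  have k1 : n1 ≤ n := (le_max_left _ _).trans hn
  have k2 : n2 ≤ n := ((le_max_left _ _).trans (le_max_right _ _)).trans hn
  have k3 : n3 ≤ n := ((le_max_right _ _).trans (le_max_right _ _)).trans hn
  have hu' : C.VHJ σ (ε / n) L Λ (max D 0) n u := hu.mono_D (le_max_left _ _)
  have hxk := hn1 n k1 hn0 u hu' hu0
  rw [← hx] at hxk
  have hrie := hn2 n k2 hn0
  have hρA : ∀ t : ℝ, F + t • R1 + (t ^ 2 / 2) • R2 ∈ C.A := fun t =>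
    hC.A_add (hC.A_add hF (hC.A_smul _ hR1)) (hC.A_smul _ hR2)
  have hsum := hC.ac_sum hB (φ := e + ε • h) (G := G) (F := F) (R1 := R1) (R2 := R2) (σ := σ)
    (ε := ε) (L := L) (Λ := Λ) (D := max D 0) (K := K) (K' := K') (N1 := CH * ε) (x := x)
    (gφ := Kp) (gρ := gρ) (gG := gG) hσ.le hε hn0 hK hK'0 hehT hG.1 hF hR1 hR2 hu'
    (fun t ht htε => by
      filter_upwards [hρ t ht htε] with y hy
      rw [abs_of_nonneg hy.1]
      exact hy.2)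
    (fun t ht htε => by rw [hK']; exact ac_E hM1 hM2 ht (htε.trans hε1))
    (fun t ht htε => (hpot ε t ht htε hε1).2.2.1)
    (fun t ht htε => by rw [hgρ]; exact hC.ac_gρ hF hR1 hR2 ht (htε.trans hε1))
    hgG.ge hxk
    (fun t ht htε w hw hwx => by
      refine (hP t ht htε w (hC.test_A hw) (hC.test_Γ_top hw)).trans ?_
      exact mul_le_mul_of_nonneg_left hwx (by (clear * - hCH hε; positivity)))
  rw [← hc2] at hsum
  have hfin1 : ε ^ 2 / n * c2 + K * max D 0 * ε ^ 2 / n ≤ ξ / 4 := by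
    have h1 : 4 * (ε ^ 2 * c2 + K * max D 0 * ε ^ 2) / ξ ≤ n := hn3.le.trans (by exact_mod_cast k3)
    rw [div_le_iff₀ hξ] at h1
    have h2 : ε ^ 2 / n * c2 + K * max D 0 * ε ^ 2 / n
        = (ε ^ 2 * c2 + K * max D 0 * ε ^ 2) / n := by ring
    rw [h2, div_le_iff₀ hnR]
    linarith only [h1]
  have hfin2 : ε * (CH * ε * x) ≤ 10 * CH * δ * ε ^ 3 := by
    rw [hx]
    have h0 : 0 ≤ CH * δ * ε ^ 3 := by (clear * - hCH hδ hε; positivity)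
    have h1 : ε * (CH * ε * (4 * ε * δ)) = 4 * (CH * δ * ε ^ 3) := by ring
    rw [h1]; linarith only [h0]
  have hfin3 : ε * ((2 : ℝ)⁻¹ * K * x ^ 2) ≤ 100 * K * δ ^ 2 * ε ^ 3 := by
    rw [hx]
    have h0 : 0 ≤ K * δ ^ 2 * ε ^ 3 := by (clear * - hK hδ hε; positivity)
    have h1 : ε * ((2 : ℝ)⁻¹ * K * (4 * ε * δ) ^ 2) = 8 * (K * δ ^ 2 * ε ^ 3) := by ring
    rw [h1]; linarith only [h0]
  have hu0' : u 0 = e + ε • h := hu0
  have e1 : ε * (CH * ε * x + (2 : ℝ)⁻¹ * K * x ^ 2 + σ * ((Kp + x) * gρ))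
      = ε * (CH * ε * x) + ε * ((2 : ℝ)⁻¹ * K * x ^ 2) + ε * (σ * ((Kp + x) * gρ)) := by ring
  rw [e1] at hsum
  linarith

/-- the form used by helper783 -/
theorem ac_lower [SigmaFinite m] (he : e ∈ C.TestI) (hh : h ∈ C.TestI) (hG : G ∈ C.TestI)
    {δ L Λ CH Kρ : ℝ} (hδ : 0 < δ)
    (hGe : I (C.Γ (G - (2 : ℝ)⁻¹ • C.Γ e e) (G - (2 : ℝ)⁻¹ • C.Γ e e)) ≤ δ ^ 2)
    (hL : 0 ≤ L) (hΛ : 0 ≤ Λ) (hCH : 0 ≤ CH) (hKρ : 0 ≤ Kρ) :
    ∃ ε₀ > 0, ∀ ε, 0 < ε → ε ≤ ε₀ → ∀ F R1 R2 : M →ₘ[m] ℝ, F ∈ C.A → R1 ∈ C.A → R2 ∈ C.A →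
      (∀ t ∈ Set.Icc 0 ε, 0 ≤ F + t • R1 + (t ^ 2 / 2) • R2 ∧
        (∀ᵐ x ∂m, (F + t • R1 + (t ^ 2 / 2) • R2) x ≤ Kρ) ∧
        ∀ w ∈ C.A, MemLp (C.Γ w w) ∞ m →
          |I (w * (R1 + t • R2))
            - I ((F + t • R1 + (t ^ 2 / 2) • R2) * C.Γ (e + ε • h - t • G) w)|
            ≤ CH * ε * √(I (C.Γ w w))) →
      ∀ ξ > 0, ∃ σ₀ > 0, ∀ σ, 0 < σ → σ ≤ σ₀ → ∀ D : ℝ, ∃ n₀ : ℕ, ∀ n ≥ n₀, 0 < n →
        ∀ u : ℕ → M →ₘ[m] ℝ, C.VHJ σ (ε / n) L Λ D n u → u 0 = e + ε • h →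
        (∫ t in (0 : ℝ)..ε, (I ((e + ε • h - t • G) * (R1 + t • R2))
          - (2 : ℝ)⁻¹ * I ((F + t • R1 + (t ^ 2 / 2) • R2)
            * C.Γ (e + ε • h - t • G) (e + ε • h - t • G))))
          - (10 * CH * δ + 100 * Kρ * δ ^ 2) * ε ^ 3 - ξ
        ≤ I (u n * (F + ε • R1 + (ε ^ 2 / 2) • R2)) - I (u 0 * F) := by
  obtain ⟨ε₀, hε₀, -, H⟩ := hC.ac_lower0 hB he hh hG hδ hL hΛ hGe
  refine ⟨ε₀, hε₀, fun ε hε hεε F R1 R2 hF hR1 hR2 hh2 ξ hξ => ?_⟩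
  refine H ε hε hεε F hF R1 hR1 R2 hR2 Kρ CH hKρ hCH (fun t ht htε => ?_)
    (fun t ht htε => (hh2 t ⟨ht, htε⟩).2.2) ξ hξ
  obtain ⟨q1, q2, -⟩ := hh2 t ⟨ht, htε⟩
  filter_upwards [nonneg_iff_ae.1 q1, q2] with x h1 h2
  exact ⟨h1, h2⟩

end IsGamma

end Vale.Agent.P233
end

section

/-!
Block CENI-2, first part: the `δ`-errors of the coefficient of `ε³` of a centre curve.
-/

open MeasureTheory Filter Topology
open scoped ENNReal NNReal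

namespace Vale.Agent.P233

variable {M : Type*} [MeasurableSpace M] {m : Measure M} {C : Calc m}

theorem AB.cenK_real {η Kg KF δ f g0 pg pu gg gu uu dd dp : ℝ} (hδ : 0 < δ) (hη : 0 < η)
    (hf0 : 0 ≤ f) (hfK : f ≤ KF) (hreg : η ≤ f ∨ g0 = 0) (hg0 : 0 ≤ g0) (hgK : g0 ≤ Kg)
    (h1 : pg ^ 2 ≤ g0 * gg) (h2 : pu ^ 2 ≤ g0 * uu) (h3 : 0 ≤ gg) (h4 : 0 ≤ uu)
    (h5 : 0 ≤ δ ^ 2 * gg + 2 * δ * (-1) * gu + (-1) ^ 2 * uu) :
    ((dp - dd) ^ 2 * g0 / f + (dp - dd) * (pg + pu) + 4⁻¹ * (f * (gg + 2 * gu + uu)))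
      + 2⁻¹ * (dp * pg + 2⁻¹ * (f * (gg + gu)))
      ≤ 2⁻¹ * (f * gg + dd * pg) + (Kg / η + 3 / 4 / δ + 1 / 2) * (dp - dd) ^ 2
        + (3 / 4 * δ * Kg + 3 / 8 * δ * KF) * gg
        + (Kg / 2 + 3 / 8 / δ * KF + KF / 4) * uu := by
  set d := dp - dd with hd
  have hKg : 0 ≤ Kg := hg0.trans hgK
  have hKF : 0 ≤ KF := hf0.trans hfK
  have a1 : d ^ 2 * g0 / f ≤ Kg / η * d ^ 2 := by
    rcases hreg with h | h
    · have hf : 0 < f := hη.trans_le h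
      calc d ^ 2 * g0 / f ≤ d ^ 2 * Kg / η := by
            apply div_le_div₀ (by positivity) (by gcongr) hη h
        _ = Kg / η * d ^ 2 := by ring
    · rw [h, mul_zero, zero_div]
      positivity
  have k1 : pg ^ 2 ≤ Kg * gg := h1.trans (mul_le_mul_of_nonneg_right hgK h3)
  have k2 : pu ^ 2 ≤ Kg * uu := h2.trans (mul_le_mul_of_nonneg_right hgK h4)
  have a2 : 2 * (d * pg) ≤ d ^ 2 / δ + δ * (Kg * gg) := by
    have e1 : 2 * (d * pg) ≤ d ^ 2 / δ + δ * pg ^ 2 := by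
      have e2 : d ^ 2 / δ + δ * pg ^ 2 - 2 * (d * pg) = (d - δ * pg) ^ 2 / δ := by
        field_simp
        ring
      have e3 : 0 ≤ (d - δ * pg) ^ 2 / δ := by positivity
      linarith only [e3, e2]
    have e4 : δ * pg ^ 2 ≤ δ * (Kg * gg) := mul_le_mul_of_nonneg_left k1 hδ.le
    linarith
  have a3 : 2 * (d * pu) ≤ d ^ 2 + Kg * uu := by linarith only [sq_nonneg (d - pu), k2]
  have a4 : gu ≤ δ / 2 * gg + uu / (2 * δ) := by
    have e1 : δ / 2 * gg + uu / (2 * δ) - gu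
        = (δ ^ 2 * gg + 2 * δ * (-1) * gu + (-1) ^ 2 * uu) / (2 * δ) := by
      field_simp
      ring
    have e2 : 0 ≤ (δ ^ 2 * gg + 2 * δ * (-1) * gu + (-1) ^ 2 * uu) / (2 * δ) := by (clear * - h5 hδ; positivity)
    linarith only [e2, e1]
  have a5 : f * gu ≤ KF * (δ / 2 * gg + uu / (2 * δ)) := by
    have e1 : f * gu ≤ f * (δ / 2 * gg + uu / (2 * δ)) := mul_le_mul_of_nonneg_left a4 hf0
    have e2 : 0 ≤ δ / 2 * gg + uu / (2 * δ) := by positivity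
    exact e1.trans (mul_le_mul_of_nonneg_right hfK e2)
  have a6 : f * uu ≤ KF * uu := mul_le_mul_of_nonneg_right hfK h4
  have e : (d ^ 2 * g0 / f + d * (pg + pu) + 4⁻¹ * (f * (gg + 2 * gu + uu)))
      + 2⁻¹ * (dp * pg + 2⁻¹ * (f * (gg + gu)))
      = 2⁻¹ * (f * gg + dd * pg) + d ^ 2 * g0 / f + 3 / 4 * (2 * (d * pg)) + 1 / 2 * (2 * (d * pu))
        + 3 / 4 * (f * gu) + 1 / 4 * (f * uu) := by
    rw [hd]; ring
  have e' : (Kg / η + 3 / 4 / δ + 1 / 2) * d ^ 2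
        + (3 / 4 * δ * Kg + 3 / 8 * δ * KF) * gg
        + (Kg / 2 + 3 / 8 / δ * KF + KF / 4) * uu
      = Kg / η * d ^ 2 + 3 / 4 * (d ^ 2 / δ + δ * (Kg * gg)) + 1 / 2 * (d ^ 2 + Kg * uu)
        + 3 / 4 * (KF * (δ / 2 * gg + uu / (2 * δ))) + 1 / 4 * (KF * uu) := by
    field_simp
    ring
  rw [e]
  linarith

namespace Dat

/-- `|Y_ee - D_e ∇e|²/F` -/
noncomputable def qc (X : Dat m) (C : Calc m) (e : ℝ × ℝ) : M →ₘ[m] ℝ :=
  AEEqFun.mk (fun x => (X.D' e x - X.D C e x) ^ 2 * C.Γ (X.pt e) (X.pt e) x / X.F x)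
    ((((((AEEqFun.measurable _).sub (AEEqFun.measurable _)).pow_const 2).mul
      (AEEqFun.measurable _)).div (AEEqFun.measurable _)).aestronglyMeasurable)
    + (X.D' e - X.D C e) * C.Γ (X.pt e) (X.G' e e)
    + (4 : ℝ)⁻¹ • (X.F * C.Γ (X.G' e e) (X.G' e e))

variable {X : Dat m} {θ : M →ₘ[m] ℝ} {η δ : ℝ}

theorem qc_ae (e : ℝ × ℝ) : ∀ᵐ x ∂m, X.qc C e x
    = (X.D' e x - X.D C e x) ^ 2 * C.Γ (X.pt e) (X.pt e) x / X.F x
      + (X.D' e x - X.D C e x) * C.Γ (X.pt e) (X.G' e e) x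
      + 4⁻¹ * (X.F x * C.Γ (X.G' e e) (X.G' e e) x) := by
  unfold qc
  set q₁ : M →ₘ[m] ℝ :=
    AEEqFun.mk (fun x => (X.D' e x - X.D C e x) ^ 2 * C.Γ (X.pt e) (X.pt e) x / X.F x)
    ((((((AEEqFun.measurable _).sub (AEEqFun.measurable _)).pow_const 2).mul
      (AEEqFun.measurable _)).div (AEEqFun.measurable _)).aestronglyMeasurable) with hq₁
  have h1 : ∀ᵐ x ∂m, q₁ x
      = (X.D' e x - X.D C e x) ^ 2 * C.Γ (X.pt e) (X.pt e) x / X.F x := AEEqFun.coeFn_mk _ _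
  filter_upwards [h1, add_ae (q₁ + (X.D' e - X.D C e) * C.Γ (X.pt e) (X.G' e e))
      ((4 : ℝ)⁻¹ • (X.F * C.Γ (X.G' e e) (X.G' e e))),
    add_ae q₁ ((X.D' e - X.D C e) * C.Γ (X.pt e) (X.G' e e)),
    mul_ae (X.D' e - X.D C e) (C.Γ (X.pt e) (X.G' e e)), sub_ae (X.D' e) (X.D C e),
    smul_ae (X.F * C.Γ (X.G' e e) (X.G' e e)) (4 : ℝ)⁻¹,
    mul_ae X.F (C.Γ (X.G' e e) (X.G' e e))] with x a1 a2 a3 a4 a5 a6 a7
  rw [a2, a3, a1, a4, a5, a6, a7]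

section Ok

variable (hC : IsGamma C) {κ : ℝ} (hB : C.BEi κ) (hX : X.Ok C θ η δ)
include hC hB hX

theorem qc_mem1 (e : ℝ × ℝ) : MemLp (X.qc C e) 1 m := by
  have hD := hC.toIsDir
  have hp := pt_memI hC hB hX e
  have hg := G'_memI hC hB hX e e
  have pW := (hC.test_A hp.1).1
  have gW := (hC.test_A hg.1).1
  have dA := hD.A_sub (hC.test_A (D'_memI hC hB hX e).1) (D_memA hC hB hX e)
  refine mem_add (mem_add ?_ ?_) ?_
  · obtain ⟨K, hK⟩ := mem_top_iff.1 dA.2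
    refine mem_of_le (mem_smul (K ^ 2 / η) (hC.mem1 _ pW)) ?_
    have h1 : ∀ᵐ x ∂m, (AEEqFun.mk (fun x => (X.D' e x - X.D C e x) ^ 2
        * C.Γ (X.pt e) (X.pt e) x / X.F x) ((((((AEEqFun.measurable _).sub
        (AEEqFun.measurable _)).pow_const 2).mul (AEEqFun.measurable _)).div
        (AEEqFun.measurable _)).aestronglyMeasurable) : M →ₘ[m] ℝ) x
      = (X.D' e x - X.D C e x) ^ 2 * C.Γ (X.pt e) (X.pt e) x / X.F x := AEEqFun.coeFn_mk _ _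
    filter_upwards [h1, hK, sub_ae (X.D' e) (X.D C e), loc_ae hC hB hX e,
      hD.Γ_nonneg_ae pW, smul_ae (C.Γ (X.pt e) (X.pt e)) (K ^ 2 / η)] with x a1 a2 a3 a4 a5 a6
    rw [a1, a6]
    rw [a3] at a2
    have hη := hX.hη
    rcases a4 with ⟨-, hF⟩ | ⟨-, hF, -, -, z, -, -⟩
    · have hF0 : 0 < X.F x := hη.trans_le hF
      rw [abs_of_nonneg (by (clear * - a5 hF0; positivity)), abs_of_nonneg (by (clear * - hη a5; positivity))]
      have h2 : (X.D' e x - X.D C e x) ^ 2 ≤ K ^ 2 := by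
        rw [← sq_abs]; gcongr
      calc (X.D' e x - X.D C e x) ^ 2 * C.Γ (X.pt e) (X.pt e) x / X.F x
          ≤ K ^ 2 * C.Γ (X.pt e) (X.pt e) x / η :=
            div_le_div₀ (by positivity) (mul_le_mul_of_nonneg_right h2 a5) hη hF
        _ = K ^ 2 / η * C.Γ (X.pt e) (X.pt e) x := by ring
    · rw [z]
      simp
  · exact mem_mul_top dA.2 (hD.Γ_mem1 pW gW)
  · exact mem_smul _ (mem_mul_top (hC.test_A hX.hF.1).2 (hC.mem1 _ gW))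

theorem Ge_memA (e : ℝ × ℝ) : X.Ge C e ∈ C.A :=
  hC.Γ_mem hB (pt_memI hC hB hX e).1 (pt_memI hC hB hX e).1

/-- the difference of `Γ(e,e)` and its approximation -/
theorem nrm2_Ge (e : ℝ × ℝ) : C.nrm2 (X.G' e e - X.Ge C e)
    ≤ (4 * (e.1 * e.1) ^ 2 + 4 * (e.1 * e.2 + e.2 * e.1) ^ 2 + 2 * (e.2 * e.2) ^ 2) * δ ^ 2 := by
  have hD := hC.toIsDir
  have aW := (hC.test_A hX.ha.1).1
  have bW := (hC.test_A hX.hb.1).1
  have hsm : ∀ (c : ℝ) {f : M →ₘ[m] ℝ}, f ∈ C.W → C.nrm2 (c • f) = c ^ 2 * C.nrm2 f := by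
    intro c f hf
    unfold Calc.nrm2
    have e1 : (c • f) ^ 2 = c ^ 2 • f ^ 2 := by algebra
    rw [hD.E_smul c hf, e1, I_smul]
    ring
  have m1 := hD.sub_mem (hC.test_A hX.hP.1).1 (hC.Γ_mem hB hX.ha.1 hX.ha.1).1
  have m2 := hD.sub_mem (hC.test_A hX.hQ.1).1 (hC.Γ_mem hB hX.ha.1 hX.hb.1).1
  have m3 := hD.sub_mem (hC.test_A hX.hR.1).1 (hC.Γ_mem hB hX.hb.1 hX.hb.1).1
  have s1 := hD.smul_mem (e.1 * e.1) _ m1
  have s2 := hD.smul_mem (e.1 * e.2 + e.2 * e.1) _ m2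
  have s3 := hD.smul_mem (e.2 * e.2) _ m3
  have e0 : X.G' e e - X.Ge C e = (e.1 * e.1) • (X.P - C.Γ X.a X.a)
      + (e.1 * e.2 + e.2 * e.1) • (X.Q - C.Γ X.a X.b) + (e.2 * e.2) • (X.R - C.Γ X.b X.b) := by
    have a1 := hD.smul_mem e.1 _ aW
    have b1 := hD.smul_mem e.2 _ bW
    have e1 : X.Ge C e = (e.1 * e.1) • C.Γ X.a X.a + (e.1 * e.2 + e.2 * e.1) • C.Γ X.a X.b
        + (e.2 * e.2) • C.Γ X.b X.b := by
      unfold Ge pt
      rw [hD.add_left _ a1 _ b1 _ (hD.add_mem _ a1 _ b1), hD.Γ_add_right a1 a1 b1,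
        hD.Γ_add_right b1 a1 b1, hD.smul_left _ _ aW _ a1, hD.smul_left _ _ aW _ b1,
        hD.smul_left _ _ bW _ a1, hD.smul_left _ _ bW _ b1, hD.Γ_smul_right _ aW aW,
        hD.Γ_smul_right _ aW bW, hD.Γ_smul_right _ bW aW, hD.Γ_smul_right _ bW bW,
        hD.symm _ bW _ aW]
      algebra
    rw [e1]
    unfold G'
    algebra
  rw [e0]
  have h1 := hD.nrm2_add_le (hD.add_mem _ s1 _ s2) s3
  have h2 := hD.nrm2_add_le s1 s2
  rw [hsm _ m1, hsm _ m2] at h2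
  rw [hsm _ m3] at h1
  have q1 : (e.1 * e.1) ^ 2 * C.nrm2 (X.P - C.Γ X.a X.a) ≤ (e.1 * e.1) ^ 2 * δ ^ 2 :=
    mul_le_mul_of_nonneg_left hX.nP (sq_nonneg _)
  have q2 : (e.1 * e.2 + e.2 * e.1) ^ 2 * C.nrm2 (X.Q - C.Γ X.a X.b)
      ≤ (e.1 * e.2 + e.2 * e.1) ^ 2 * δ ^ 2 :=
    mul_le_mul_of_nonneg_left hX.nQ (sq_nonneg _)
  have q3 : (e.2 * e.2) ^ 2 * C.nrm2 (X.R - C.Γ X.b X.b) ≤ (e.2 * e.2) ^ 2 * δ ^ 2 :=
    mul_le_mul_of_nonneg_left hX.nR (sq_nonneg _)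
  linarith

theorem I_D_sub (e : ℝ × ℝ) : I ((X.D' e - X.D C e) ^ 2) ≤ (2 * e.1 ^ 2 + 2 * e.2 ^ 2) * δ ^ 2 := by
  have hD := hC.toIsDir
  have m1 := hD.sub_mem (hC.test_A hX.hA.1).1 (De_memA hC hB hX.hF hX.ha).1
  have m2 := hD.sub_mem (hC.test_A hX.hB.1).1 (De_memA hC hB hX.hF hX.hb).1
  have e0 : X.D' e - X.D C e = e.1 • (X.A - C.De X.F X.a) + e.2 • (X.B - C.De X.F X.b) := by
    unfold D' D
    algebra
  rw [e0]
  have s1 := hD.smul_mem e.1 _ m1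
  have s2 := hD.smul_mem e.2 _ m2
  have h1 := I_sq_add_le (hC.memLp _ s1) (hC.memLp _ s2)
  have e1 : ∀ (c : ℝ) (f : M →ₘ[m] ℝ), I ((c • f) ^ 2) = c ^ 2 * I (f ^ 2) := by
    intro c f
    have e1 : (c • f) ^ 2 = c ^ 2 • f ^ 2 := by algebra
    rw [e1, I_smul]
  rw [e1, e1] at h1
  have q1 : e.1 ^ 2 * I ((X.A - C.De X.F X.a) ^ 2) ≤ e.1 ^ 2 * δ ^ 2 :=
    mul_le_mul_of_nonneg_left ((hD.I_sq_le_nrm2 m1).trans hX.nA) (sq_nonneg _)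
  have q2 : e.2 ^ 2 * I ((X.B - C.De X.F X.b) ^ 2) ≤ e.2 ^ 2 * δ ^ 2 :=
    mul_le_mul_of_nonneg_left ((hD.I_sq_le_nrm2 m2).trans hX.nB) (sq_nonneg _)
  linarith

omit hC hB hX in
theorem Y_self_ae (e : ℝ × ℝ) (g : M →ₘ[m] ℝ) : ∀ᵐ x ∂m, X.Y C e e g x
    = X.D' e x * C.Γ (X.pt e) g x + 2⁻¹ * (X.F x * C.Γ (X.G' e e) g x) := by
  have e0 : X.Y C e e g = X.D' e * C.Γ (X.pt e) g + (2 : ℝ)⁻¹ • (X.F * C.Γ (X.G' e e) g) := by
    unfold Y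
    algebra
  rw [e0]
  filter_upwards [add_ae (X.D' e * C.Γ (X.pt e) g) ((2 : ℝ)⁻¹ • (X.F * C.Γ (X.G' e e) g)),
    mul_ae (X.D' e) (C.Γ (X.pt e) g), smul_ae (X.F * C.Γ (X.G' e e) g) (2 : ℝ)⁻¹,
    mul_ae X.F (C.Γ (X.G' e e) g)] with x a1 a2 a3 a4
  rw [a1, a2, a3, a4]

/-- the coefficient of `ε³`, up to `δ` -/
theorem cenK (hδ : 0 < δ) (hδ1 : δ ≤ 1) (e : ℝ × ℝ) {Kg KF : ℝ}
    (hKg : ∀ᵐ x ∂m, C.Γ (X.pt e) (X.pt e) x ≤ Kg) (hKF : ∀ᵐ x ∂m, X.F x ≤ KF) (hKg0 : 0 ≤ Kg)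
    (hKF0 : 0 ≤ KF) {Cd Cu : ℝ} (hCd : Cd = 2 * e.1 ^ 2 + 2 * e.2 ^ 2)
    (hCu : Cu = 4 * (e.1 * e.1) ^ 2 + 4 * (e.1 * e.2 + e.2 * e.1) ^ 2 + 2 * (e.2 * e.2) ^ 2) :
    I (X.qc C e) - 2⁻¹ * I (X.r C e e * X.Ge C e) ≤ 6 * X.C3 C e
      + ((Kg / η + 1 / 2) * Cd + 3 / 4 * Cd + (3 / 4 * Kg + 3 / 8 * KF) * I (C.Γ (X.Ge C e)
        (X.Ge C e)) + (Kg / 2 + KF / 4) * Cu + 3 / 8 * KF * Cu) * δ := by
  have hD := hC.toIsDir
  have hη := hX.hη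
  have hp := pt_memI hC hB hX e
  have hg := G'_memI hC hB hX e e
  have pW := (hC.test_A hp.1).1
  have gW := (hC.test_A hg.1).1
  have GA := Ge_memA hC hB hX e
  have GW := GA.1
  set G := X.Ge C e with hG
  set u := X.G' e e - G with hu
  have uW : u ∈ C.W := hD.sub_mem gW GW
  have eG : X.G' e e = G + u := by rw [hu]; ring
  have dA := hD.A_sub (hC.test_A (D'_memI hC hB hX e).1) (D_memA hC hB hX e)
  have d2 : MemLp (X.D' e - X.D C e : M →ₘ[m] ℝ) 2 m := hC.memLp _ dA.1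
  have FA := hC.test_A hX.hF.1
  have i1 : I (G * X.r C e e) = - I (X.Y C e e G) := ibp_r hC hB hX e e GW
  rw [mul_comm (X.r C e e) G, i1]
  have YM := Y_mem1 hC hB hX e e GW
  have qM := qc_mem1 hC hB hX e
  have lhs : I (X.qc C e) - 2⁻¹ * -I (X.Y C e e G) = I (X.qc C e + (2 : ℝ)⁻¹ • X.Y C e e G) := by
    rw [I_add qM (mem_smul _ YM), I_smul]
    ring
  rw [lhs]
  have c3 : 6 * X.C3 C e = I ((2 : ℝ)⁻¹ • (X.F * C.Γ G G + X.D C e * C.Γ (X.pt e) G)) := by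
    unfold C3
    rw [← hG, I_smul, I_add (mem_mul_top FA.2 (hC.mem1 _ GW))
      (mem_mul_top (D_memA hC hB hX e).2 (hD.Γ_mem1 pW GW))]
    ring
  set R0 : M →ₘ[m] ℝ := (2 : ℝ)⁻¹ • (X.F * C.Γ G G + X.D C e * C.Γ (X.pt e) G) with hR0
  set c1 : ℝ := Kg / η + 3 / 4 / δ + 1 / 2 with hc1
  set c2 : ℝ := 3 / 4 * δ * Kg + 3 / 8 * δ * KF with hc2
  set c3' : ℝ := Kg / 2 + 3 / 8 / δ * KF + KF / 4 with hc3
  have mR0 : MemLp R0 1 m := mem_smul _ (mem_add (mem_mul_top FA.2 (hC.mem1 _ GW))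
      (mem_mul_top (D_memA hC hB hX e).2 (hD.Γ_mem1 pW GW)))
  have mono : I (X.qc C e + (2 : ℝ)⁻¹ • X.Y C e e G)
      ≤ I (R0 + c1 • (X.D' e - X.D C e) ^ 2 + c2 • C.Γ G G + c3' • C.Γ u u) := by
    refine I_mono (mem_add qM (mem_smul _ YM)) (mem_add (mem_add (mem_add mR0
      (mem_smul _ (mem_sq d2))) (mem_smul _ (hC.mem1 _ GW))) (mem_smul _ (hC.mem1 _ uW))) ?_
    rw [le_iff_ae]
    have f1 : C.Γ (X.pt e) (X.G' e e) = C.Γ (X.pt e) G + C.Γ (X.pt e) u := by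
      rw [eG, hD.Γ_add_right pW GW uW]
    have f2 : C.Γ (X.G' e e) (X.G' e e) = C.Γ G G + (2 : ℝ) • C.Γ G u + C.Γ u u := by
      have := hD.Γ_expand 1 GW uW
      rw [one_smul, mul_one, one_pow, one_smul] at this
      rw [eG, this]
    have f3 : C.Γ (X.G' e e) G = C.Γ G G + C.Γ G u := by
      rw [eG, hD.add_left _ GW _ uW _ GW, hD.symm _ uW _ GW]
    filter_upwards [add_ae (X.qc C e) ((2 : ℝ)⁻¹ • X.Y C e e G), smul_ae (X.Y C e e G) (2 : ℝ)⁻¹,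
      qc_ae (X := X) (C := C) e, Y_self_ae (X := X) (C := C) e G, eq_iff_ae.1 f1, eq_iff_ae.1 f2,
      eq_iff_ae.1 f3, add_ae (C.Γ (X.pt e) G) (C.Γ (X.pt e) u),
      add_ae (C.Γ G G + (2 : ℝ) • C.Γ G u) (C.Γ u u), add_ae (C.Γ G G) ((2 : ℝ) • C.Γ G u),
      smul_ae (C.Γ G u) 2, add_ae (C.Γ G G) (C.Γ G u),
      add_ae (R0 + c1 • (X.D' e - X.D C e) ^ 2 + c2 • C.Γ G G) (c3' • C.Γ u u),
      add_ae (R0 + c1 • (X.D' e - X.D C e) ^ 2) (c2 • C.Γ G G),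
      add_ae R0 (c1 • (X.D' e - X.D C e) ^ 2), smul_ae ((X.D' e - X.D C e) ^ 2) c1,
      sq_ae (X.D' e - X.D C e), sub_ae (X.D' e) (X.D C e), smul_ae (C.Γ G G) c2,
      smul_ae (C.Γ u u) c3', smul_ae (X.F * C.Γ G G + X.D C e * C.Γ (X.pt e) G) (2 : ℝ)⁻¹,
      add_ae (X.F * C.Γ G G) (X.D C e * C.Γ (X.pt e) G), mul_ae X.F (C.Γ G G),
      mul_ae (X.D C e) (C.Γ (X.pt e) G), loc_ae hC hB hX e, hD.Γ_nonneg_ae pW, hKg, hKF,
      hD.Γ_cs_ae pW GW, hD.Γ_cs_ae pW uW, hD.Γ_nonneg_ae GW, hD.Γ_nonneg_ae uW,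
      hD.gram2_ae GW uW]
      with x a1 a2 a3 a4 a5 a6 a7 a8 a9 a10 a11 a12 a13 a14 a15 a16 a17 a18 a19 a20 a21 a22 a23 a24
        b1 b2 b3 b4 b5 b6 b7 b8 b9
    rw [a1, a2, a3, a4, a5, a6, a7, a8, a9, a10, a11, a12, a13, a14, a15, a16, a17, a18, a19, a20,
      hR0, a21, a22, a23, a24, hc1, hc2, hc3]
    refine AB.cenK_real hδ hη ?_ b4 ?_ b2 b3 b5 b6 b7 b8 (b9 δ (-1))
    · rcases b1 with ⟨-, h⟩ | ⟨-, h, -⟩
      · exact hη.le.trans h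
      · exact h
    · rcases b1 with ⟨-, h⟩ | ⟨-, -, -, -, z, -, -⟩
      · exact Or.inl h
      · exact Or.inr z
  refine mono.trans ?_
  rw [I_add (mem_add (mem_add mR0 (mem_smul _ (mem_sq d2))) (mem_smul _ (hC.mem1 _ GW)))
    (mem_smul _ (hC.mem1 _ uW)), I_add (mem_add mR0 (mem_smul _ (mem_sq d2)))
    (mem_smul _ (hC.mem1 _ GW)), I_add mR0 (mem_smul _ (mem_sq d2)), I_smul c1,
    I_smul c2, I_smul c3', ← c3]
  have hI1 : I ((X.D' e - X.D C e) ^ 2) ≤ Cd * δ ^ 2 := by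
    rw [hCd]; exact I_D_sub hC hB hX e
  have hI2 : I (C.Γ u u) ≤ Cu * δ ^ 2 := by
    rw [hCu]; exact (hD.E_le_nrm2 u).trans (nrm2_Ge hC hB hX e)
  have hE : 0 ≤ I (C.Γ G G) := hD.E_nonneg GW
  have hCd0 : 0 ≤ Cd := by rw [hCd]; (clear * -; positivity)
  have hCu0 : 0 ≤ Cu := by rw [hCu]; (clear * -; positivity)
  have hc10 : 0 ≤ c1 := by rw [hc1]; (clear * - hKg0 hη hδ; positivity)
  have hc30 : 0 ≤ c3' := by rw [hc3]; (clear * - hKg0 hδ hKF0; positivity)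
  have t1 : c1 * I ((X.D' e - X.D C e) ^ 2) ≤ ((Kg / η + 1 / 2) * Cd + 3 / 4 * Cd) * δ := by
    calc c1 * I ((X.D' e - X.D C e) ^ 2) ≤ c1 * (Cd * δ ^ 2) :=
          mul_le_mul_of_nonneg_left hI1 hc10
      _ = (Kg / η + 1 / 2) * Cd * δ * δ + 3 / 4 * Cd * δ := by
          rw [hc1]; field_simp; ring
      _ ≤ (Kg / η + 1 / 2) * Cd * δ * 1 + 3 / 4 * Cd * δ := by gcongr
      _ = _ := by ring
  have t2 : c2 * I (C.Γ G G) = (3 / 4 * Kg + 3 / 8 * KF) * I (C.Γ G G) * δ := by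
    rw [hc2]; ring
  have t3 : c3' * I (C.Γ u u) ≤ ((Kg / 2 + KF / 4) * Cu + 3 / 8 * KF * Cu) * δ := by
    calc c3' * I (C.Γ u u) ≤ c3' * (Cu * δ ^ 2) := mul_le_mul_of_nonneg_left hI2 hc30
      _ = (Kg / 2 + KF / 4) * Cu * δ * δ + 3 / 8 * KF * Cu * δ := by
          rw [hc3]; field_simp; ring
      _ ≤ (Kg / 2 + KF / 4) * Cu * δ * 1 + 3 / 8 * KF * Cu * δ := by gcongr
      _ = _ := by ring
  linarith only [t3, t2, t1]

end Ok

end Dat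

end Vale.Agent.P233
end

section

namespace Vale.Agent.P233

/-- the real inequality behind the dual form: after the quadratic inequality for the squared
distances `D i`, the right-hand side is the sum of the centre costs. -/
theorem dual_real (κ ε : ℝ) (hε : 0 < ε) (t : Fin 3 → ℝ) (D0 D1 D2 : ℝ) :
    (3 * (D0 + D1 + D2) - κ / 4 * (2 * (D0 * D1 + D1 * D2 + D0 * D2)
      - (D0 ^ 2 + D1 ^ 2 + D2 ^ 2))) / (6 * ε)
      ≤ (1 / 2 - bet κ t 0 * ε ^ 2) * D0 / ε + (|κ| / 8 * ε ^ 2) * D0 ^ 2 / ε ^ 3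
        + ((1 / 2 - bet κ t 1 * ε ^ 2) * D1 / ε + (|κ| / 8 * ε ^ 2) * D1 ^ 2 / ε ^ 3)
        + ((1 / 2 - bet κ t 2 * ε ^ 2) * D2 / ε + (|κ| / 8 * ε ^ 2) * D2 ^ 2 / ε ^ 3)
        + ε ^ 3 * (κ / 24 * HH t + |κ| / 8 * (t 0 ^ 2 + t 1 ^ 2 + t 2 ^ 2)) := by
  set s0 := D0 - ε ^ 2 * t 0 with hs0
  set s1 := D1 - ε ^ 2 * t 1 with hs1
  set s2 := D2 - ε ^ 2 * t 2 with hs2
  have hκ := abs_nonneg κ
  have hκ1 := le_abs_self κ
  have hκ2 := neg_abs_le κ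
  have key : 0 ≤ (3 * |κ| * (s0 ^ 2 + s1 ^ 2 + s2 ^ 2)
      + κ * (2 * (s0 * s1 + s1 * s2 + s0 * s2) - (s0 ^ 2 + s1 ^ 2 + s2 ^ 2))) / (24 * ε) := by
    apply div_nonneg _ (by positivity)
    have h1 : |2 * (s0 * s1 + s1 * s2 + s0 * s2) - (s0 ^ 2 + s1 ^ 2 + s2 ^ 2)|
        ≤ 3 * (s0 ^ 2 + s1 ^ 2 + s2 ^ 2) := by
      rw [abs_le]
      constructor
      · linarith only [sq_nonneg s2, sq_nonneg s1, sq_nonneg s0, sq_nonneg (s0 + s1 + s2)]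
      · linarith only [sq_nonneg s2, sq_nonneg s1, sq_nonneg s0, sq_nonneg (s0 - s2), sq_nonneg (s1 - s2), sq_nonneg (s0 - s1)]
    have h2 : |κ * (2 * (s0 * s1 + s1 * s2 + s0 * s2) - (s0 ^ 2 + s1 ^ 2 + s2 ^ 2))|
        ≤ |κ| * (3 * (s0 ^ 2 + s1 ^ 2 + s2 ^ 2)) := by
      rw [abs_mul]; exact mul_le_mul_of_nonneg_left h1 hκ
    have h3 := (abs_le.1 h2).1
    linarith
  have e : ((1 / 2 - bet κ t 0 * ε ^ 2) * D0 / ε + (|κ| / 8 * ε ^ 2) * D0 ^ 2 / ε ^ 3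
        + ((1 / 2 - bet κ t 1 * ε ^ 2) * D1 / ε + (|κ| / 8 * ε ^ 2) * D1 ^ 2 / ε ^ 3)
        + ((1 / 2 - bet κ t 2 * ε ^ 2) * D2 / ε + (|κ| / 8 * ε ^ 2) * D2 ^ 2 / ε ^ 3)
        + ε ^ 3 * (κ / 24 * HH t + |κ| / 8 * (t 0 ^ 2 + t 1 ^ 2 + t 2 ^ 2)))
        - (3 * (D0 + D1 + D2) - κ / 4 * (2 * (D0 * D1 + D1 * D2 + D0 * D2)
      - (D0 ^ 2 + D1 ^ 2 + D2 ^ 2))) / (6 * ε)
      = (3 * |κ| * (s0 ^ 2 + s1 ^ 2 + s2 ^ 2)
      + κ * (2 * (s0 * s1 + s1 * s2 + s0 * s2) - (s0 ^ 2 + s1 ^ 2 + s2 ^ 2))) / (24 * ε) := by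
    simp only [bet, dHH, HH, hs0, hs1, hs2]
    have := hε.ne'
    field_simp
    ring
  linarith

theorem inf3 {M : Type*} [Nonempty M] (F0 F1 F2 : M → ℝ) (X : ℝ)
    (h : ∀ x y w, X ≤ F0 x + F1 y + F2 w) : X ≤ (⨅ x, F0 x) + (⨅ x, F1 x) + ⨅ x, F2 x := by
  have h1 : ∀ y w, X - F2 w - F1 y ≤ ⨅ x, F0 x := fun y w => le_ciInf fun x => by
    linarith [h x y w]
  have h2 : ∀ w, X - F2 w - (⨅ x, F0 x) ≤ ⨅ x, F1 x := fun w => le_ciInf fun y => by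
    linarith [h1 y w]
  have h3 : X - (⨅ x, F0 x) - (⨅ x, F1 x) ≤ ⨅ x, F2 x := le_ciInf fun w => by
    linarith [h2 w]
  linarith

/-- dual form of the quadratic (1+3)-point inequality -/
theorem dual_lss {M : Type*} [MetricSpace M] {κ r₀ C : ℝ} (hr₀ : 0 < r₀) (hC : 0 ≤ C)
    (h : LSS M κ r₀ C) (t : Fin 3 → ℝ) (L : ℝ) (hL : 0 ≤ L) :
    ∃ C₁ ≥ 0, ∃ ε₀ > 0, ∀ ε, 0 < ε → ε ≤ ε₀ → ∀ ξ : ℝ, 0 ≤ ξ →
      ∀ u₁₂ w₁₂ u₁₃ w₁₃ u₂₃ w₂₃ : M → ℝ,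
      (∀ f ∈ ({u₁₂, w₁₂, u₁₃, w₁₃, u₂₃, w₂₃} : Set (M → ℝ)),
        (∀ x y, |f x - f y| ≤ L * dist x y) ∧ ∃ b, ∀ x, |f x| ≤ b) →
      (∀ x y, w₁₂ y - u₁₂ x ≤ dist x y ^ 2 / (2 * ε) + ξ) →
      (∀ x y, w₁₃ y - u₁₃ x ≤ dist x y ^ 2 / (2 * ε) + ξ) →
      (∀ x y, w₂₃ y - u₂₃ x ≤ dist x y ^ 2 / (2 * ε) + ξ) →
      ∀ z, -(ε ^ 3 * (κ / 24 * HH t + |κ| / 8 * (t 0 ^ 2 + t 1 ^ 2 + t 2 ^ 2))) - C₁ * ε ^ 5 - ξ
        ≤ (⨅ y, ((u₁₂ y + u₁₃ y) / 3 + cst κ t 0 ε (dist z y)))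
          + (⨅ y, ((u₂₃ y - w₁₂ y) / 3 + cst κ t 1 ε (dist z y)))
          + (⨅ y, (-(w₁₃ y + w₂₃ y) / 3 + cst κ t 2 ε (dist z y))) := by
  set R : ℝ := 4 * L + 4 with hR
  have hR0 : 0 < R := by positivity
  set Bt : ℝ := |bet κ t 0| + |bet κ t 1| + |bet κ t 2| + 1 with hBt
  have hBt0 : 0 < Bt := by (clear * -; positivity)
  refine ⟨C * R ^ 6 / 6, by positivity, min 1 (min (1 / (4 * Bt)) (r₀ / R)), by (clear * - hr₀ hL; positivity), ?_⟩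
  intro ε hε hε0 ξ hξ u₁₂ w₁₂ u₁₃ w₁₃ u₂₃ w₂₃ hf h12 h13 h23 z
  have hε1 : ε ≤ 1 := hε0.trans (min_le_left _ _)
  have hε2 : ε ≤ 1 / (4 * Bt) := hε0.trans ((min_le_right _ _).trans (min_le_left _ _))
  have hε3 : ε ≤ r₀ / R := hε0.trans ((min_le_right _ _).trans (min_le_right _ _))
  have hRε : R * ε ≤ r₀ := by
    rw [le_div_iff₀ hR0] at hε3; linarith
  have hBε : Bt * ε ^ 2 ≤ 1 / 4 := by
    rw [le_div_iff₀ (by (clear * -; positivity))] at hε2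
    (by_contra nlg; linarith only [nlg, mul_nonneg (sub_nonneg.2 hε1) (sub_nonneg.2 hε1), mul_nonneg (le_of_lt (sub_pos.2 hε)) (sub_nonneg.2 hε2), mul_nonneg (le_of_lt (sub_pos.2 hε)) (sub_nonneg.2 hε1), mul_nonneg (le_of_lt (sub_pos.2 (not_le.1 nlg))) (sub_nonneg.2 hε1), mul_pos (sub_pos.2 (not_le.1 nlg)) (sub_pos.2 hε)])
  have : Nonempty M := ⟨z⟩
  -- localisation
  have loc : ∀ (f : M → ℝ), (∀ x y, |f x - f y| ≤ L * dist x y) → ∀ i : Fin 3, ∀ x : M,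
      ∃ x' : M, dist z x' ≤ R * ε ∧
        f x' + cst κ t i ε (dist z x') ≤ f x + cst κ t i ε (dist z x) := by
    intro f hfL i x
    by_cases hx : dist z x ≤ R * ε
    · exact ⟨x, hx, le_refl _⟩
    · push Not at hx
      refine ⟨z, by rw [dist_self]; positivity, ?_⟩
      have h1 := (abs_le.1 (hfL x z)).1
      rw [dist_comm] at h1
      have hd : 0 ≤ dist z x := dist_nonneg
      have h2 : cst κ t i ε (dist z z) = 0 := by
        rw [dist_self]; simp [cst]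
      have hbi : bet κ t i ≤ Bt := by
        have h3 : |bet κ t i| ≤ Bt := by
          have a0 := abs_nonneg (bet κ t 0)
          have a1 := abs_nonneg (bet κ t 1)
          have a2 := abs_nonneg (bet κ t 2)
          fin_cases i <;> simp only [hBt] <;> simp <;> linarith
        exact (le_abs_self _).trans h3
      have h4 : (1 : ℝ) / 4 ≤ 1 / 2 - bet κ t i * ε ^ 2 := by
        have : bet κ t i * ε ^ 2 ≤ Bt * ε ^ 2 := mul_le_mul_of_nonneg_right hbi (by positivity)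
        linarith only [this, hBε]
      have h5 : L * dist z x ≤ cst κ t i ε (dist z x) := by
        have h6 : 0 ≤ (|κ| / 8 * ε ^ 2) * dist z x ^ 4 / ε ^ 3 := by (clear * - hε; positivity)
        have h7 : 1 / 4 * dist z x ^ 2 / ε ≤ (1 / 2 - bet κ t i * ε ^ 2) * dist z x ^ 2 / ε := by
          gcongr
        have h8 : L * dist z x ≤ 1 / 4 * dist z x ^ 2 / ε := by
          rw [le_div_iff₀ hε]
          have h9 : L * ε ≤ 1 / 4 * dist z x := by linarith only [hx, hε]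
          (by_contra nlg; linarith only [nlg, mul_nonneg (sub_nonneg.2 hd) (sub_nonneg.2 h9), mul_nonneg (le_of_lt (sub_pos.2 (not_le.1 nlg))) (sub_nonneg.2 hε1), mul_pos (sub_pos.2 (not_le.1 nlg)) (sub_pos.2 hε)])
        rw [cst]; linarith only [h8, h7, h6]
      rw [h2]
      linarith only [h5, h1]
  -- the inequality for points
  have main : ∀ x0 x1 x2 : M,
      -(ε ^ 3 * (κ / 24 * HH t + |κ| / 8 * (t 0 ^ 2 + t 1 ^ 2 + t 2 ^ 2)))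
        - C * R ^ 6 / 6 * ε ^ 5 - ξ
        ≤ ((u₁₂ x0 + u₁₃ x0) / 3 + cst κ t 0 ε (dist z x0))
          + ((u₂₃ x1 - w₁₂ x1) / 3 + cst κ t 1 ε (dist z x1))
          + (-(w₁₃ x2 + w₂₃ x2) / 3 + cst κ t 2 ε (dist z x2)) := by
    intro x0 x1 x2
    have lip2 : ∀ (f g : M → ℝ), (∀ x y, |f x - f y| ≤ L * dist x y) →
        (∀ x y, |g x - g y| ≤ L * dist x y) → ∀ x y : M,
        |f x - f y| + |g x - g y| ≤ 3 * (L * dist x y) := by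
      intro f g hf hg x y
      have := mul_nonneg hL (dist_nonneg (x := x) (y := y))
      linarith [hf x y, hg x y]
    have l12 := (hf u₁₂ (by simp)).1
    have lw12 := (hf w₁₂ (by simp)).1
    have l13 := (hf u₁₃ (by simp)).1
    have lw13 := (hf w₁₃ (by simp)).1
    have l23 := (hf u₂₃ (by simp)).1
    have lw23 := (hf w₂₃ (by simp)).1
    obtain ⟨y0, hy0, hy0'⟩ := loc (fun y => (u₁₂ y + u₁₃ y) / 3) (by
      intro x y
      have h1 := lip2 _ _ l12 l13 x y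
      have h2 := abs_add_le (u₁₂ x - u₁₂ y) (u₁₃ x - u₁₃ y)
      have h3 : (u₁₂ x + u₁₃ x) / 3 - (u₁₂ y + u₁₃ y) / 3
        = ((u₁₂ x - u₁₂ y) + (u₁₃ x - u₁₃ y)) / 3 := by ring
      rw [h3, abs_div, abs_of_pos (show (0 : ℝ) < 3 by norm_num), div_le_iff₀ (by norm_num)]
      linarith only [h2, h1]) 0 x0
    obtain ⟨y1, hy1, hy1'⟩ := loc (fun y => (u₂₃ y - w₁₂ y) / 3) (by
      intro x y
      have h1 := lip2 _ _ l23 lw12 x y
      have h2 := abs_sub (u₂₃ x - u₂₃ y) (w₁₂ x - w₁₂ y)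
      have h3 : (u₂₃ x - w₁₂ x) / 3 - (u₂₃ y - w₁₂ y) / 3
        = ((u₂₃ x - u₂₃ y) - (w₁₂ x - w₁₂ y)) / 3 := by ring
      rw [h3, abs_div, abs_of_pos (show (0 : ℝ) < 3 by norm_num), div_le_iff₀ (by norm_num)]
      linarith only [h2, h1]) 1 x1
    obtain ⟨y2, hy2, hy2'⟩ := loc (fun y => -(w₁₃ y + w₂₃ y) / 3) (by
      intro x y
      have h1 := lip2 _ _ lw13 lw23 x y
      have h2 := abs_add_le (w₁₃ x - w₁₃ y) (w₂₃ x - w₂₃ y)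
      have h3 : -(w₁₃ x + w₂₃ x) / 3 - -(w₁₃ y + w₂₃ y) / 3
        = -(((w₁₃ x - w₁₃ y) + (w₂₃ x - w₂₃ y)) / 3) := by ring
      rw [h3, abs_neg, abs_div, abs_of_pos (show (0 : ℝ) < 3 by norm_num),
        div_le_iff₀ (by norm_num)]
      linarith only [h2, h1]) 2 x2
    refine le_trans ?_ (add_le_add (add_le_add hy0' hy1') hy2')
    have hl := h z y0 y1 y2 (R * ε) hy0 hy1 hy2 hRε
    have hr := dual_real κ ε hε t (dist z y0 ^ 2) (dist z y1 ^ 2) (dist z y2 ^ 2)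
    have e12 := h12 y0 y1
    have e13 := h13 y0 y2
    have e23 := h23 y1 y2
    have hε6 : 0 < 6 * ε := by positivity
    have hl2 : (dist y0 y1 ^ 2 + dist y1 y2 ^ 2 + dist y0 y2 ^ 2) / (6 * ε)
        ≤ (3 * (dist z y0 ^ 2 + dist z y1 ^ 2 + dist z y2 ^ 2)
          - κ / 4 * (2 * (dist z y0 ^ 2 * dist z y1 ^ 2 + dist z y1 ^ 2 * dist z y2 ^ 2
          + dist z y0 ^ 2 * dist z y2 ^ 2)
          - ((dist z y0 ^ 2) ^ 2 + (dist z y1 ^ 2) ^ 2 + (dist z y2 ^ 2) ^ 2))) / (6 * ε)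
          + C * R ^ 6 / 6 * ε ^ 5 := by
      have h5 : C * R ^ 6 / 6 * ε ^ 5 = (C * (R * ε) ^ 6) / (6 * ε) := by
        have := hε.ne'
        field_simp
      rw [h5, ← add_div]
      apply div_le_div_of_nonneg_right _ hε6.le
      have h6 : ∀ x : ℝ, (x ^ 2) ^ 2 = x ^ 4 := fun x => by ring
      rw [h6, h6, h6]
      linarith only [hl]
    have e3 : (dist y0 y1 ^ 2 + dist y1 y2 ^ 2 + dist y0 y2 ^ 2) / (6 * ε)
        = (dist y0 y1 ^ 2 / (2 * ε) + dist y1 y2 ^ 2 / (2 * ε) + dist y0 y2 ^ 2 / (2 * ε)) / 3 := by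
      have := hε.ne'
      field_simp
      ring
    have c0 : ∀ (i : Fin 3) (d : ℝ), cst κ t i ε d = (1 / 2 - bet κ t i * ε ^ 2) * d ^ 2 / ε
        + (|κ| / 8 * ε ^ 2) * (d ^ 2) ^ 2 / ε ^ 3 := by
      intro i d; rw [cst]; ring_nf
    rw [c0, c0, c0]
    linarith only [e3, hl2, e23, e13, e12, hr]
  exact inf3 _ _ _ _ main

end Vale.Agent.P233
end

section

open MeasureTheory Filter Topology
open scoped ENNReal NNReal

namespace Vale.Agent.P233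

variable {M : Type*} [MeasurableSpace M] {m : Measure M} {C : Calc m}

/-- strong locality: `Γ(a,a) = 0` a.e. on `{a = 0}` -/
theorem IsDir.Γ_zero_ae (hD : IsDir C) {a : M →ₘ[m] ℝ} (ha : a ∈ C.W) :
    ∀ᵐ x ∂m, a x = 0 → C.Γ a a x = 0 := by
  have ha2 := hD.memLp a ha
  have hN : ∀ n : ℕ, (0 : ℝ) < (n : ℝ) + 1 := fun n => by positivity
  set φ : ℕ → ℝ → ℝ := fun n t => t - ((n : ℝ) + 1)⁻¹ * Real.arctan (((n : ℝ) + 1) * t) with hφ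
  set φ' : ℕ → ℝ → ℝ := fun n t => 1 - 1 / (1 + (((n : ℝ) + 1) * t) ^ 2) with hφ'
  have hc : ∀ n, Continuous (φ n) := by
    intro n
    simp only [hφ]
    exact continuous_id.sub (continuous_const.mul
      (Real.continuous_arctan.comp (continuous_const.mul continuous_id)))
  have hc' : ∀ n, Continuous (φ' n) := by
    intro n
    simp only [hφ']
    refine continuous_const.sub (continuous_const.div (by fun_prop) fun t => ?_)
    (clear * -; positivity)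
  have hd : ∀ n t, HasDerivAt (φ n) (φ' n t) t := by
    intro n t
    have h1 := ((hasDerivAt_id t).const_mul ((n : ℝ) + 1)).arctan.const_mul ((n : ℝ) + 1)⁻¹
    have h2 := (hasDerivAt_id t).sub h1
    refine h2.congr_deriv ?_
    simp only [hφ', id, mul_one]
    have := (hN n).ne'
    field_simp
  have hb : ∀ n t, 0 ≤ φ' n t ∧ φ' n t ≤ 1 := by
    intro n t
    simp only [hφ']
    constructor
    · rw [sub_nonneg, div_le_one (by positivity)]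
      linarith only [sq_nonneg (((n : ℝ) + 1) * t)]
    · rw [sub_le_self_iff]; (clear * -; positivity)
  have hch := fun n => hD.chain a ha (φ n) (φ' n) (hc n) (hc' n) (hd n) (by simp [hφ])
    ⟨1, fun t => by rw [abs_of_nonneg (hb n t).1]; exact (hb n t).2⟩
  set u : ℕ → M →ₘ[m] ℝ := fun n => AEEqFun.comp (φ n) (hc n) a with hu
  have hΓ : ∀ n, C.Γ (u n) (u n) = AEEqFun.comp (φ' n) (hc' n) a * (AEEqFun.comp (φ' n) (hc' n) a
      * C.Γ a a) := by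
    intro n
    have h1 := (hch n).2 _ (hch n).1
    have h2 := (hch n).2 _ ha
    rw [hD.symm _ (hch n).1 _ ha] at h2
    rw [h1, h2]
  have hΓae : ∀ᵐ x ∂m, ∀ n, C.Γ (u n) (u n) x = φ' n (a x) ^ 2 * C.Γ a a x := by
    rw [ae_all_iff]
    intro n
    rw [hΓ n]
    filter_upwards [mul_ae (AEEqFun.comp (φ' n) (hc' n) a) (AEEqFun.comp (φ' n) (hc' n) a * C.Γ a a),
      mul_ae (AEEqFun.comp (φ' n) (hc' n) a) (C.Γ a a), AEEqFun.coeFn_comp _ (hc' n) a]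
      with x b1 b2 b3
    rw [b1, b2, b3, Function.comp_apply]
    ring
  have hΓ0 := hD.Γ_nonneg_ae ha
  have hint := int_of_mem (hD.mem1 a ha)
  -- the limit of the energies
  have lim1 : Tendsto (fun n => I (C.Γ (u n) (u n))) atTop
      (𝓝 (∫ x, (if a x = 0 then 0 else C.Γ a a x) ∂m)) := by
    unfold I
    refine tendsto_integral_of_dominated_convergence (fun x => C.Γ a a x)
      (fun n => (C.Γ (u n) (u n)).aestronglyMeasurable) hint (fun n => ?_) ?_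
    · filter_upwards [hΓae, hΓ0] with x b1 b2
      rw [b1 n, Real.norm_eq_abs, abs_mul, abs_of_nonneg b2, abs_of_nonneg (sq_nonneg _)]
      have h1 : φ' n (a x) ^ 2 ≤ 1 := pow_le_one₀ (hb n _).1 (hb n _).2
      linarith only [mul_nonneg (sub_nonneg.2 b2) (sub_nonneg.2 h1)]
    · filter_upwards [hΓae] with x b1
      simp only [b1]
      by_cases h0 : a x = 0
      · rw [if_pos h0, h0]
        have : ∀ n, φ' n 0 = 0 := fun n => by simp [hφ']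
        simp only [this]
        simp
      · rw [if_neg h0]
        have h1 : Tendsto (fun n : ℕ => φ' n (a x)) atTop (𝓝 1) := by
          have h2 : Tendsto (fun n : ℕ => (1 + (((n : ℝ) + 1) * a x) ^ 2)) atTop atTop := by
            refine tendsto_atTop_add_const_left _ _ ?_
            have h3 : Tendsto (fun n : ℕ => (n : ℝ) + 1) atTop atTop :=
              tendsto_atTop_add_const_right _ _ tendsto_natCast_atTop_atTop
            have h4 := (tendsto_pow_atTop (two_ne_zero)).comp h3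
            have h5 : (fun n : ℕ => (((n : ℝ) + 1) * a x) ^ 2) =
                fun n : ℕ => ((n : ℝ) + 1) ^ 2 * a x ^ 2 := by funext n; ring
            rw [h5]
            exact h4.atTop_mul_const (by positivity)
          have h6 := (tendsto_inv_atTop_zero.comp h2).const_sub 1
          simp only [hφ', one_div]
          simpa [Function.comp_def] using h6
        simpa using (h1.pow 2).mul_const (C.Γ a a x)
  -- convergence in `L²`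
  have lim2 : Tendsto (fun n => I ((u n - a) ^ 2)) atTop (𝓝 0) := by
    have : Tendsto (fun n => I ((u n - a) ^ 2)) atTop (𝓝 (I (0 : M →ₘ[m] ℝ))) := by
      refine I_tendsto_of_dominated (G := fun x => a x ^ 2)
        ((int_of_mem (mem_sq ha2)).congr (sq_ae a)) (fun n => ?_) ?_
      · filter_upwards [sq_ae (u n - a), sub_ae (u n) a, AEEqFun.coeFn_comp _ (hc n) a]
          with x b1 b2 b3
        rw [b1, b2, hu, b3, Function.comp_apply, abs_of_nonneg (sq_nonneg _)]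
        have h1 : φ n (a x) - a x = -(((n : ℝ) + 1)⁻¹ * Real.arctan (((n : ℝ) + 1) * a x)) := by
          simp only [hφ]; ring
        rw [h1, neg_sq]
        have h2 := abs_arctan_le (((n : ℝ) + 1) * a x)
        rw [← sq_abs (((n : ℝ) + 1)⁻¹ * Real.arctan (((n : ℝ) + 1) * a x)), ← sq_abs (a x)]
        refine pow_le_pow_left₀ (abs_nonneg _) ?_ 2
        rw [abs_mul, abs_of_pos (inv_pos.2 (hN n)), inv_mul_le_iff₀ (hN n)]
        rwa [abs_mul, abs_of_pos (hN n)] at h2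
      · have hall : ∀ᵐ x ∂m, ∀ n, ((u n - a) ^ 2 : M →ₘ[m] ℝ) x =
            (((n : ℝ) + 1)⁻¹ * Real.arctan (((n : ℝ) + 1) * a x)) ^ 2 := by
          rw [ae_all_iff]
          intro n
          filter_upwards [sq_ae (u n - a), sub_ae (u n) a, AEEqFun.coeFn_comp _ (hc n) a]
            with x b1 b2 b3
          rw [b1, b2, hu, b3, Function.comp_apply]
          simp only [hφ]; ring
        filter_upwards [hall, zero_ae (M := M) (m := m)] with x b1 b2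
        simp only [b1, b2]
        have h1 : Tendsto (fun n : ℕ => ((n : ℝ) + 1)⁻¹ * Real.arctan (((n : ℝ) + 1) * a x)) atTop
            (𝓝 0) := by
          refine squeeze_zero_norm (a := fun n : ℕ => ((n : ℝ) + 1)⁻¹ * (Real.pi / 2))
            (fun n => ?_) (by simpa using tendsto_inv_succ.mul_const (Real.pi / 2))
          rw [Real.norm_eq_abs, abs_mul, abs_of_pos (inv_pos.2 (hN n))]
          refine mul_le_mul_of_nonneg_left ?_ (inv_pos.2 (hN n)).le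
          rw [abs_le]
          exact ⟨(Real.neg_pi_div_two_lt_arctan _).le, (Real.arctan_lt_pi_div_two _).le⟩
        simpa using h1.pow 2
    rwa [I_zero] at this
  -- lower semicontinuity
  have key : I (C.Γ a a) ≤ ∫ x, (if a x = 0 then 0 else C.Γ a a x) ∂m := by
    refine le_of_forall_pos_le_add fun ε hε => ?_
    obtain ⟨n₀, hn₀⟩ := eventually_atTop.1 (lim1.eventually (gt_mem_nhds
      (show ∫ x, (if a x = 0 then 0 else C.Γ a a x) ∂m <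
        ∫ x, (if a x = 0 then 0 else C.Γ a a x) ∂m + ε by linarith)))
    exact (hD.mem_of_bounded (u := fun n => u (n + n₀)) (fun n => (hch _).1)
      (fun n => (hn₀ (n + n₀) (by omega)).le) ha2 ((tendsto_add_atTop_iff_nat n₀).2 lim2)).2
  have hi1 : Integrable (fun x => if a x = 0 then 0 else C.Γ a a x) m := by
    have hs : MeasurableSet {x | a x = 0} :=
      (AEEqFun.stronglyMeasurable a).measurable (measurableSet_singleton 0)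
    have : (fun x => if a x = 0 then 0 else C.Γ a a x) = ({x | a x = 0}ᶜ).indicator (C.Γ a a) := by
      funext x
      by_cases h : a x = 0
      · rw [if_pos h, Set.indicator_of_notMem (by simpa using h)]
      · rw [if_neg h, Set.indicator_of_mem (by simpa using h)]
    rw [this]
    exact hint.indicator hs.compl
  have h3 : ∫ x, (C.Γ a a x - (if a x = 0 then 0 else C.Γ a a x)) ∂m = 0 := by
    refine le_antisymm ?_ ?_
    · rw [integral_sub hint hi1]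
      unfold I at key
      linarith
    · refine integral_nonneg_of_ae ?_
      filter_upwards [hΓ0] with x hx
      show (0 : ℝ) ≤ _
      split_ifs <;> simp [hx]
  have h4 := (integral_eq_zero_iff_of_nonneg_ae (f := fun x => C.Γ a a x -
    (if a x = 0 then 0 else C.Γ a a x)) (by
    filter_upwards [hΓ0] with x hx
    show (0 : ℝ) ≤ C.Γ a a x - (if a x = 0 then 0 else C.Γ a a x)
    split_ifs <;> simp [hx]) (hint.sub hi1)).1 h3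
  filter_upwards [h4] with x hx h0
  have : C.Γ a a x - (if a x = 0 then 0 else C.Γ a a x) = 0 := hx
  rwa [if_pos h0, sub_zero] at this

/-- strong locality -/
theorem IsGamma.Γ_loc (hC : IsGamma C) {a θ : M →ₘ[m] ℝ} (ha : a ∈ C.A) (hθ : θ ∈ C.A)
    (h : θ * a = a) : C.Γ θ a = 0 ∧ (∀ g ∈ C.W, θ * C.Γ a g = C.Γ a g) ∧
      ∀ d, C.IsLap a d → θ * d = d := by
  have hD := hC.toIsDir
  have e1 : ∀ g ∈ C.W, C.Γ a g = θ * C.Γ a g + a * C.Γ θ g := by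
    intro g hg
    have := hD.Γ_mul_left hθ ha hg
    rwa [h] at this
  have e0 : (1 - θ) * a = 0 := by rw [sub_mul, one_mul, h, sub_self]
  have e2 : ∀ g ∈ C.W, (1 - θ) * C.Γ a g = 0 := by
    intro g hg
    have h1 : (1 - θ) * ((1 - θ) * C.Γ a g) = 0 := by
      have : (1 - θ) * C.Γ a g = a * C.Γ θ g := by
        have := e1 g hg
        linear_combination this
      rw [this, ← mul_assoc, e0, zero_mul]
    rw [eq_iff_ae] at h1 ⊢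
    filter_upwards [h1, mul_ae (1 - θ) ((1 - θ) * C.Γ a g), mul_ae (1 - θ) (C.Γ a g),
      zero_ae (M := M) (m := m)] with x b1 b2 b3 b4
    rw [b2, b3, b4] at b1
    rw [b3, b4]
    rcases mul_eq_zero.1 b1 with h2 | h2
    · rw [h2, zero_mul]
    · exact h2
  have c2 : ∀ g ∈ C.W, θ * C.Γ a g = C.Γ a g := by
    intro g hg
    have := e2 g hg
    rw [sub_mul, one_mul, sub_eq_zero] at this
    exact this.symm
  have c1 : C.Γ θ a = 0 := by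
    have h1 : a * C.Γ θ a = 0 := by
      have h3 := e1 a ha.1
      rw [c2 a ha.1] at h3
      exact left_eq_add.1 h3
    rw [eq_iff_ae] at h1 ⊢
    filter_upwards [h1, mul_ae a (C.Γ θ a), zero_ae (M := M) (m := m), hD.Γ_zero_ae ha.1,
      hD.Γ_cs_ae hθ.1 ha.1] with x b1 b2 b3 b4 b5
    rw [b2, b3] at b1
    rw [b3]
    rcases mul_eq_zero.1 b1 with h2 | h2
    · rw [b4 h2, mul_zero] at b5
      exact pow_eq_zero_iff (two_ne_zero) |>.1 (le_antisymm b5 (sq_nonneg _))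
    · exact h2
  refine ⟨c1, c2, fun d hd => ?_⟩
  have hθd : MemLp (d - θ * d : M →ₘ[m] ℝ) 2 m := mem_sub hd.2.1 (mem_mul_top hθ.2 hd.2.1)
  suffices hz : d - θ * d = 0 by rw [sub_eq_zero] at hz; exact hz.symm
  refine hD.eq_zero_of_orth hθd fun g hg => ?_
  have key := hD.ext_A hD.zero_mem hθd (fun ψ hψ => ?_) hg
  · rw [hD.Γ_zero_left hg, I_zero, zero_add] at key
    exact key
  · rw [hD.Γ_zero_left hψ.1, I_zero, zero_add]
    have h1 : I (C.Γ a ψ) = -I (d * ψ) := hd.2.2 _ hψ.1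
    have hθψ := hD.mul_mem_A hθ hψ
    have h2 : I (C.Γ a (θ * ψ)) = -I (d * (θ * ψ)) := hd.2.2 _ hθψ.1
    have h3 : C.Γ a (θ * ψ) = C.Γ a ψ := by
      rw [hD.Γ_mul_right hθ hψ ha.1, hC.symm _ ha.1 _ hθ.1, c1, c2 _ hψ.1, mul_zero, add_zero]
    have hψ2 := hC.memLp _ hψ.1
    have h4 : (d - θ * d) * ψ = d * ψ - d * (θ * ψ) := by ring
    rw [h4, I_sub (mem_mul_22 hd.2.1 hψ2) (mem_mul_22 hd.2.1 (hC.memLp _ hθψ.1))]
    rw [h3] at h2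
    linarith

/-- approximation of functions in `A` supported where `χ = 1` -/
theorem exists_approx [SigmaFinite m] (hC : IsGamma C) {K : ℝ} (hB : C.BEi K)
    {G θ χ : M →ₘ[m] ℝ} (hG : G ∈ C.A) (hχ : χ ∈ C.TestI) (χG : χ * G = G) (θχ : θ * χ = χ)
    {δ : ℝ} (hδ : 0 < δ) :
    ∃ P ∈ C.TestI, θ * P = P ∧ C.nrm2 (P - G) ≤ δ ^ 2 := by
  have hD := hC.toIsDir
  have χA := hC.test_A hχ.1
  obtain ⟨A, hA⟩ := mem_top_iff.1 χA.2
  obtain ⟨L, hL⟩ := mem_top_iff.1 (hC.test_Γ_top hχ.1)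
  set c : ℝ := 2 * A ^ 2 + 2 * |L| + 1 with hc
  have hc0 : 0 < c := by (clear * -; positivity)
  obtain ⟨g, hg, hg2⟩ := hC.testI_dense hB hG.1 (show 0 < δ ^ 2 / c by (clear * - hδ; positivity))
  have gA := hC.test_A hg.1
  refine ⟨χ * g, hC.testI_mul hB hχ hg, by rw [← mul_assoc, θχ], ?_⟩
  have e : χ * g - G = χ * (g - G) := by rw [mul_sub, χG]
  rw [e]
  have h1 := hD.nrm2_mul_le χA hA hL (hD.A_sub gA hG)
  have h2 : 0 ≤ C.nrm2 (g - G) := hD.nrm2_nonneg (hD.sub_mem gA.1 hG.1)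
  rw [lt_div_iff₀ hc0] at hg2
  linarith only [h2, h1, hg2]

/-- existence of the approximations -/
theorem exists_dat [SigmaFinite m] (hC : IsGamma C) {K : ℝ} (hB : C.BEi K)
    {a b F θ χ : M →ₘ[m] ℝ} (ha : a ∈ C.TestI) (hb : b ∈ C.TestI) (hF : F ∈ C.TestI)
    (hθ : θ ∈ C.TestI) (hχ : χ ∈ C.TestI) (hF1 : MemLp F 1 m) (hθ0 : 0 ≤ θ)
    (χa : χ * a = a) (χb : χ * b = b) (θχ : θ * χ = χ) {η : ℝ} (hη : 0 < η) (Fη : η • θ ≤ F)
    {δ : ℝ} (hδ : 0 < δ) :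
    ∃ X : Dat m, X.a = a ∧ X.b = b ∧ X.F = F ∧ X.Ok C θ η δ := by
  have hD := hC.toIsDir
  have aA := hC.test_A ha.1
  have bA := hC.test_A hb.1
  have FA := hC.test_A hF.1
  have χA := hC.test_A hχ.1
  obtain ⟨-, la, ma⟩ := hC.Γ_loc aA χA χa
  obtain ⟨-, lb, mb⟩ := hC.Γ_loc bA χA χb
  have hDe : ∀ {u : M →ₘ[m] ℝ}, u ∈ C.TestI → χ * u = u → C.De F u ∈ C.A ∧ χ * C.De F u = C.De F u := by
    intro u hu χu
    have uA := hC.test_A hu.1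
    obtain ⟨-, l, n⟩ := hC.Γ_loc uA χA χu
    refine ⟨hD.A_add (hC.Γ_mem hB hF.1 hu.1) (hD.mul_mem_A FA (hC.testI_lap_A hB hu)), ?_⟩
    unfold Calc.De
    have e1 := l F FA.1
    have e2 := n _ (hC.test_isLap hu.1)
    rw [hC.symm _ FA.1 _ uA.1, mul_add, e1]
    congr 1
    calc χ * (F * C.lap u) = F * (χ * C.lap u) := by ring
      _ = _ := by rw [e2]
  obtain ⟨P, hP, θP, nP⟩ := exists_approx hC hB (hC.Γ_mem hB ha.1 ha.1) hχ (la a aA.1) θχ hδ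
  obtain ⟨Q, hQ, θQ, nQ⟩ := exists_approx hC hB (hC.Γ_mem hB ha.1 hb.1) hχ (la b bA.1) θχ hδ
  obtain ⟨R, hR, θR, nR⟩ := exists_approx hC hB (hC.Γ_mem hB hb.1 hb.1) hχ (lb b bA.1) θχ hδ
  obtain ⟨A, hA, θA, nA⟩ := exists_approx hC hB (hDe ha χa).1 hχ (hDe ha χa).2 θχ hδ
  obtain ⟨B, hB', θB, nB⟩ := exists_approx hC hB (hDe hb χb).1 hχ (hDe hb χb).2 θχ hδ
  have θa : θ * a = a := by rw [← χa, ← mul_assoc, θχ]
  have θb : θ * b = b := by rw [← χb, ← mul_assoc, θχ]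
  exact ⟨⟨a, b, F, P, Q, R, A, B⟩, rfl, rfl, rfl, ⟨ha, hb, hF, hP, hQ, hR, hA, hB', hθ, hF1, hθ0,
    θa, θb, θP, θQ, θR, θA, θB, hη, Fη, nP, nQ, nR, nA, nB⟩⟩

end Vale.Agent.P233
end
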