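import Vale.Agent.P233.MathlibUsed2
import Vale.Agent.P233.Bd3.B8
import Vale.Agent.P233.Bd3.B1
import Vale.Agent.P233.Bd3.B6
import Vale.Agent.P233.Bd3.B5
import Vale.Agent.P233.Bd3.B4
import Vale.Agent.P233.Bd3.B2
import Vale.Agent.P233.Bd3.B9
import Vale.Agent.P233.Bd3.B7
import Vale.Agent.P233.Bd3.B3
import Vale.Agent.P233.AB.StmtAB

set_option linter.all false

section

open MeasureTheory Filter Topology
open scoped ENNReal NNReal InnerProductSpace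

namespace Vale.Agent.P233

variable {M : Type*} [MeasurableSpace M] {m : Measure M} {C : Calc m}
variable {E : Type*} [NormedAddCommGroup E] [InnerProductSpace ℝ E] {Gr : (M →ₘ[m] ℝ) → M → E}
variable {U : (M →ₘ[m] ℝ) → (M →ₘ[m] ℝ) → M → E}
variable {S T : Set (M →ₘ[m] ℝ)}

/-- elimination of a constant by localisation -/
theorem t_elim (hC : IsGamma C) (hST : IsMod S T) (hT1 : ∀ f ∈ T, MemLp f 1 m)
    (hTT : ∀ f ∈ T, MemLp f ∞ m)
    (hSd : ∀ f ∈ C.W, ∀ ε > 0, ∃ g ∈ S, g ∈ C.W ∧ C.nrm2 (g - f) < ε)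
    {B : (M →ₘ[m] ℝ) → ℝ} (hBl : ∀ φ ∈ T, ∀ ψ ∈ T, ∀ t : ℝ, B (φ + t • ψ) = B φ + t * B ψ)
    {g : M →ₘ[m] ℝ} (hg : g ∈ C.A) (hg0 : 0 ≤ g) {K : ℝ} (hK : 0 ≤ K)
    (h : ∀ φ ∈ T, 0 ≤ φ → ∀ t : ℝ, 0 ≤ t → 0 ≤ B φ + K * I (φ * (g - t • 1) ^ 2)) :
    ∀ φ ∈ T, 0 ≤ φ → 0 ≤ B φ := by
  have B0 : B 0 = 0 := by
    have := hBl 0 hST.zero 0 hST.zero 1
    simpa using this
  have Badd : ∀ φ ∈ T, ∀ ψ ∈ T, B (φ + ψ) = B φ + B ψ := by
    intro φ hφ ψ hψ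
    have := hBl φ hφ ψ hψ 1
    rwa [one_smul, one_mul] at this
  have Bsm : ∀ (t : ℝ), ∀ φ ∈ T, B (t • φ) = t * B φ := by
    intro t φ hφ
    have := hBl 0 hST.zero φ hφ t
    rwa [zero_add, B0, zero_add] at this
  -- for functions
  have step : ∀ τ ∈ S, ∀ φ ∈ T, 0 ≤ φ → 0 ≤ B φ + K * I (φ * (g - τ) ^ 2) := by
    intro τ hτ φ hφ hφ0
    have hτT := hST.topS τ hτ
    have m1 : ∀ φ ∈ T, MemLp (φ * g ^ 2 : M →ₘ[m] ℝ) 1 m := fun φ hφ =>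
      mem_top_mul (hT1 φ hφ) (by rw [sq]; exact mem_mul_top hg.2 hg.2)
    have m2 : ∀ φ ∈ T, MemLp (φ * g : M →ₘ[m] ℝ) 1 m := fun φ hφ =>
      mem_top_mul (hT1 φ hφ) hg.2
    have key := hST.bernstein
      (P0 := fun φ => B φ + K * I (φ * g ^ 2))
      (P1 := fun φ => (-2 * K) * I (φ * g))
      (P2 := fun φ => K * I φ) ?_ ?_ ?_ ?_ ?_ ?_ ?_ (hST.AP_of_A hτ) hφ hφ0
    · have e : φ * (g - τ) ^ 2 = φ * g ^ 2 + (-2 : ℝ) • (φ * τ * g) + φ * τ ^ 2 := by algebra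
      have n2 : MemLp (φ * τ * g : M →ₘ[m] ℝ) 1 m := mem_top_mul (mem_top_mul (hT1 φ hφ) hτT) hg.2
      have n3 : MemLp (φ * τ ^ 2 : M →ₘ[m] ℝ) 1 m :=
        mem_top_mul (hT1 φ hφ) (by rw [sq]; exact mem_mul_top hτT hτT)
      rw [e, I_add (mem_add (m1 φ hφ) (mem_smul _ n2)) n3, I_add (m1 φ hφ) (mem_smul _ n2), I_smul]
      linarith
    · intro φ hφ ψ hψ
      rw [Badd φ hφ ψ hψ, add_mul, I_add (m1 φ hφ) (m1 ψ hψ)]; ring
    · intro φ hφ ψ hψ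
      rw [add_mul, I_add (m2 φ hφ) (m2 ψ hψ)]; ring
    · intro φ hφ ψ hψ
      rw [I_add (hT1 φ hφ) (hT1 ψ hψ)]; ring
    · intro c φ hφ
      rw [Bsm c φ hφ, smul_mul_assoc, I_smul]; ring
    · intro c φ hφ
      rw [smul_mul_assoc, I_smul]; ring
    · intro c φ hφ
      rw [I_smul]; ring
    · intro c φ hφ hφ0
      have e : ∀ c : ℝ, I (φ * (g - c • 1) ^ 2) = I (φ * g ^ 2) + (-2 * c) * I (φ * g)
          + c ^ 2 * I φ := by
        intro c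
        have e : φ * (g - c • 1) ^ 2 = φ * g ^ 2 + (-2 * c) • (φ * g) + (c ^ 2) • φ := by algebra
        rw [e, I_add (mem_add (m1 φ hφ) (mem_smul _ (m2 φ hφ))) (mem_smul _ (hT1 φ hφ)),
          I_add (m1 φ hφ) (mem_smul _ (m2 φ hφ)), I_smul, I_smul]
      have p1 : 0 ≤ I (φ * g) := I_nonneg (mul_nonneg hφ0 hg0)
      have p2 : 0 ≤ I φ := I_nonneg hφ0
      rcases le_or_gt 0 c with hc | hc
      · have := h φ hφ hφ0 c hc
        rw [e c] at this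
        linarith
      · have := h φ hφ hφ0 0 le_rfl
        rw [e 0] at this
        have q1 : 0 ≤ (-c) * (2 * K * I (φ * g)) :=
          mul_nonneg (by linarith) (by (clear * - hK p1; positivity))
        have q2 : 0 ≤ c ^ 2 * (K * I φ) := by (clear * - hK p2; positivity)
        linarith only [q2, q1, this]
  -- choose `τ` close to `g`
  intro φ hφ hφ0
  obtain ⟨L, hL⟩ := mem_top_iff.1 (hTT φ hφ)
  refine le_of_forall_pos_le_add fun ε hε => ?_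
  obtain ⟨τ, hτ, hτW, hτε⟩ := hSd g hg.1 (ε / (K * |L| + 1)) (by (clear * - hε hK; positivity))
  have h1 := step τ hτ φ hφ hφ0
  have hd2 : MemLp (g - τ : M →ₘ[m] ℝ) 2 m := mem_sub (hC.memLp _ hg.1) (hC.memLp _ hτW)
  have h2 : I (φ * (g - τ) ^ 2) ≤ |L| * I ((g - τ) ^ 2) := by
    rw [← I_smul]
    refine I_mono (mem_mul_top (hTT φ hφ) (mem_sq hd2)) (mem_smul _ (mem_sq hd2)) ?_
    rw [le_iff_ae]
    filter_upwards [mul_ae φ ((g - τ) ^ 2), smul_ae ((g - τ) ^ 2) |L|, sq_ae (g - τ), hL]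
      with x a1 a2 a3 a4
    rw [a1, a2, a3]
    exact mul_le_mul_of_nonneg_right ((le_abs_self _).trans (a4.trans (le_abs_self _)))
      (sq_nonneg _)
  have h3 : I ((g - τ) ^ 2) ≤ ε / (K * |L| + 1) := by
    have e : (g - τ) ^ 2 = (τ - g) ^ 2 := by ring
    rw [e]
    exact (hC.I_sq_le_nrm2 (hC.sub_mem hτW hg.1)).trans hτε.le
  have h4 : K * I (φ * (g - τ) ^ 2) ≤ ε := by
    calc K * I (φ * (g - τ) ^ 2) ≤ K * (|L| * I ((g - τ) ^ 2)) := by gcongr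
      _ ≤ K * (|L| * (ε / (K * |L| + 1))) := by gcongr
      _ = (K * |L|) / (K * |L| + 1) * ε := by ring
      _ ≤ 1 * ε := by
          refine mul_le_mul_of_nonneg_right ?_ hε.le
          rw [div_le_one (by positivity)]; linarith
      _ = ε := one_mul ε
  linarith

variable (hC : IsGamma C) {κ κ' K : ℝ} (hB : C.BEi κ) (hG : IsGrad C Gr) (hU : IsHU C Gr U)
variable {a b : M →ₘ[m] ℝ}

include hC hB hG hU

theorem rkI_lin' (hTA : ∀ f ∈ T, f ∈ C.A) (ha : a ∈ C.Test) (hb : b ∈ C.Test) :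
    ∀ φ ∈ T, ∀ ψ ∈ T, ∀ t : ℝ, I (C.rkI (UUof m U) κ' a b b a (φ + t • ψ))
      = I (C.rkI (UUof m U) κ' a b b a φ) + t * I (C.rkI (UUof m U) κ' a b b a ψ) := by
  have hUU := hU.isUU hC hB hG
  intro φ hφ ψ hψ t
  rw [hC.rkI_linφ t ha hb (hTA φ hφ).1 (hTA ψ hψ).1,
    I_add (hC.rkI_mem hB hUU ha hb hb ha (hTA φ hφ))
      (mem_smul _ (hC.rkI_mem hB hUU ha hb hb ha (hTA ψ hψ))), I_smul]

/-- the constants `t_i` are eliminated -/
theorem elim_t [SigmaFinite m] (hST : IsMod S T) (hTA : ∀ f ∈ T, f ∈ C.A)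
    (hT1 : ∀ f ∈ T, MemLp f 1 m)
    (hSd : ∀ f ∈ C.W, ∀ ε > 0, ∃ g ∈ S, g ∈ C.W ∧ C.nrm2 (g - f) < ε)
    (ha : a ∈ C.Test) (hb : b ∈ C.Test) (hK : 0 ≤ K)
    (h : ∀ φ ∈ T, 0 ≤ φ → C.CoreAt κ' K a b φ) :
    ∀ k ∈ C.Test, ∀ φ ∈ T, 0 ≤ φ → 0 ≤ I (C.rkI (UUof m U) κ' a b b a φ)
      + 3 * nE m φ (fun x => U b a x + Gr k x) := by
  intro k hk
  have hTT : ∀ f ∈ T, MemLp f ∞ m := fun f hf => (hTA f hf).2
  have hv : MemLp (fun x => U b a x + Gr k x) 2 m := (hU.mem b hb a ha).add (hG.mem k (hC.tW hk))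
  have hl := rkI_lin' (κ' := κ') hC hB hG hU hTA ha hb
  have hab := hC.test_add hB ha hb
  have lin2 : ∀ φ ∈ T, ∀ ψ ∈ T, ∀ t : ℝ, nE m (φ + t • ψ) (fun x => U b a x + Gr k x)
      = nE m φ (fun x => U b a x + Gr k x) + t * nE m ψ (fun x => U b a x + Gr k x) :=
    fun φ hφ ψ hψ t => nE_lin (hTT φ hφ) (hTT ψ hψ) t hv
  have lin3 : ∀ g : M →ₘ[m] ℝ, g ∈ C.A → ∀ s : ℝ, ∀ φ ∈ T, ∀ ψ ∈ T, ∀ t : ℝ,
      I ((φ + t • ψ) * (g - s • 1) ^ 2) = I (φ * (g - s • 1) ^ 2) + t * I (ψ * (g - s • 1) ^ 2) := by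
    intro g hg s φ hφ ψ hψ t
    have hgT : MemLp ((g - s • 1) ^ 2 : M →ₘ[m] ℝ) ∞ m := by
      rw [sq]; exact mem_mul_top (mem_sub hg.2 (mem_smul _ mem_top_one))
        (mem_sub hg.2 (mem_smul _ mem_top_one))
    rw [add_mul, smul_mul_assoc, I_add (mem_top_mul (hT1 φ hφ) hgT)
      (mem_smul _ (mem_top_mul (hT1 ψ hψ) hgT)), I_smul]
  have gaa := hC.Γ_mem hB ha ha
  have gbb := hC.Γ_mem hB hb hb
  have gcc := hC.Γ_mem hB hab hab
  refine t_elim hC hST hT1 hTT hSd (g := C.Γ a a) (K := K) ?_ gaa (hC.nonneg _ (hC.tW ha)) hK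
    fun φ hφ hφ0 t₁ h1 => ?_
  · intro φ hφ ψ hψ t
    rw [hl φ hφ ψ hψ t, lin2 φ hφ ψ hψ t]; ring
  revert φ
  have key2 : ∀ φ ∈ T, 0 ≤ φ → 0 ≤ (I (C.rkI (UUof m U) κ' a b b a φ)
      + 3 * nE m φ (fun x => U b a x + Gr k x)) + K * I (φ * (C.Γ a a - t₁ • 1) ^ 2) := by
    refine t_elim hC hST hT1 hTT hSd (g := C.Γ b b) (K := K) ?_ gbb (hC.nonneg _ (hC.tW hb)) hK
      fun φ hφ hφ0 t₂ h2 => ?_
    · intro φ hφ ψ hψ t
      rw [hl φ hφ ψ hψ t, lin2 φ hφ ψ hψ t, lin3 _ gaa t₁ φ hφ ψ hψ t]; ring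
    revert φ
    refine t_elim hC hST hT1 hTT hSd (g := C.Γ (a + b) (a + b)) (K := K) ?_ gcc
      (hC.nonneg _ (hC.tW hab)) hK fun φ hφ hφ0 t₃ h3 => ?_
    · intro φ hφ ψ hψ t
      rw [hl φ hφ ψ hψ t, lin2 φ hφ ψ hψ t, lin3 _ gaa t₁ φ hφ ψ hψ t,
        lin3 _ gbb t₂ φ hφ ψ hψ t]; ring
    have := core_form hC hB hG hU ha hb (hTA φ hφ) (h φ hφ hφ0) hk h1 h2 h3
    linarith
  exact key2

end Vale.Agent.P233
end

section

set_option linter.all false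

open MeasureTheory Filter Topology
open scoped ENNReal NNReal InnerProductSpace

namespace Vale.Agent.P233

section ms

variable {M : Type*} [MetricSpace M] [MeasurableSpace M] {m : Measure M}

/-- bounded support -/
def BSupp (χ : M →ₘ[m] ℝ) : Prop := ∃ (x₀ : M) (R : ℝ), ∀ᵐ x ∂m, R < dist x x₀ → χ x = 0

theorem BSupp.union {χ θ : M →ₘ[m] ℝ} (h : BSupp χ) (h' : BSupp θ) :
    BSupp (χ + θ - χ * θ) := by
  obtain ⟨x₀, R, hR⟩ := h
  obtain ⟨x₁, R', hR'⟩ := h'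
  refine ⟨x₀, max R (R' + dist x₀ x₁), ?_⟩
  filter_upwards [hR, hR', AEEqFun.coeFn_sub (χ + θ) (χ * θ), AEEqFun.coeFn_add χ θ, mul_ae χ θ]
    with x h1 h2 h3 h4 h5 h6
  have h7 : R < dist x x₀ := (le_max_left _ _).trans_lt h6
  have h8 : R' < dist x x₁ := by
    have h9 := (le_max_right _ _).trans_lt h6
    have h10 := dist_triangle_right x x₀ x₁
    have h11 := dist_triangle x x₁ x₀
    rw [dist_comm x₁ x₀] at h11
    linarith
  rw [h3, Pi.sub_apply, h4, Pi.add_apply, h5, h1 h7, h2 h8]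
  ring

theorem BSupp.mul {χ f : M →ₘ[m] ℝ} (h : BSupp χ) (hf : χ * f = f) : BSupp f := by
  obtain ⟨x₀, R, hR⟩ := h
  refine ⟨x₀, R, ?_⟩
  rw [eq_iff_ae] at hf
  filter_upwards [hR, hf, mul_ae χ f] with x h1 h2 h3 h4
  rw [← h2, h3, h1 h4, zero_mul]

/-- a bounded function with bounded support is integrable -/
theorem BSupp.mem1 (hfin : ∀ (x : M) (r : ℝ), m (Metric.ball x r) < ∞) {f : M →ₘ[m] ℝ}
    (hf : MemLp f ∞ m) (hs : BSupp f) : MemLp f 1 m := by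
  obtain ⟨x₀, R, h⟩ := hs
  obtain ⟨B, hB⟩ := mem_top_iff.1 hf
  rw [memLp_one_iff_integrable]
  have h1 : IntegrableOn f (Metric.ball x₀ (R + 1)) m := by
    refine Measure.integrableOn_of_bounded (M := B) (hfin x₀ (R + 1)).ne
      f.aestronglyMeasurable ?_
    filter_upwards [ae_restrict_of_ae hB] with x hx
    rwa [Real.norm_eq_abs]
  refine h1.integrable_of_ae_notMem_eq_zero ?_
  filter_upwards [h] with x hx hx2
  rw [Metric.mem_ball, not_lt] at hx2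
  exact hx (by linarith)

/-- test functions with bounded support -/
def TB (C : Calc m) : Set (M →ₘ[m] ℝ) := {f | f ∈ C.TestI ∧ ∃ θ ∈ C.TestI, θ * f = f ∧ BSupp θ}

theorem union_mul {χ θ f : M →ₘ[m] ℝ} (h : χ * f = f) : (χ + θ - χ * θ) * f = f := by
  have h1 : (χ + θ - χ * θ) * f = χ * f + θ * f - θ * (χ * f) := by ring
  rw [h1, h]
  ring

theorem union_mul' {χ θ f : M →ₘ[m] ℝ} (h : θ * f = f) : (χ + θ - χ * θ) * f = f := by
  have h1 : (χ + θ - χ * θ) * f = χ * f + θ * f - χ * (θ * f) := by ring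
  rw [h1, h]
  ring

theorem testI_union {C : Calc m} (hC : IsGamma C) {κ : ℝ} (hB : C.BEi κ) {χ θ : M →ₘ[m] ℝ}
    (h : χ ∈ C.TestI) (h' : θ ∈ C.TestI) : χ + θ - χ * θ ∈ C.TestI := by
  have h1 := hC.testI_add hB (hC.testI_add hB h h') (hC.testI_smul hB (-1) (hC.testI_mul hB h h'))
  have h2 : χ + θ - χ * θ = χ + θ + (-1 : ℝ) • (χ * θ) := by
    rw [neg_smul, one_smul, sub_eq_add_neg]
  rwa [h2]

theorem isMod_TB {C : Calc m} (hC : IsGamma C) {κ : ℝ} (hB : C.BEi κ) (x₀ : M) :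
    IsMod C.TestI (TB C) where
  zero := ⟨hC.testI_zero hB, 0, hC.testI_zero hB, mul_zero _, x₀, 0, by
    filter_upwards [zero_ae (M := M) (m := m)] with x hx _
    exact hx⟩
  add := by
    rintro f ⟨hf, θ, hθ, h1, h2⟩ g ⟨hg, θ', hθ', h1', h2'⟩
    refine ⟨hC.testI_add hB hf hg, θ + θ' - θ * θ', testI_union hC hB hθ hθ', ?_, h2.union h2'⟩
    rw [mul_add, union_mul h1, union_mul' h1']
  smul := by
    rintro c f ⟨hf, θ, hθ, h1, h2⟩
    refine ⟨hC.testI_smul hB c hf, θ, hθ, ?_, h2⟩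
    rw [mul_smul_comm, h1]
  mul := by
    rintro f ⟨hf, θ, hθ, h1, h2⟩ g hg
    refine ⟨hC.testI_mul hB hf hg, θ, hθ, ?_, h2⟩
    rw [← mul_assoc, h1]
  zeroS := hC.testI_zero hB
  smulS := fun c f hf => hC.testI_smul hB c hf
  topS := fun f hf => (hC.test_A hf.1).2

end ms

variable {M : Type*} [MetricSpace M] [SecondCountableTopology M] [MeasurableSpace M]
  [BorelSpace M] {m : Measure M}
variable {E : Type*} [NormedAddCommGroup E] [InnerProductSpace ℝ E] [CompleteSpace E]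
  {Gr : (M →ₘ[m] ℝ) → M → E} {U : (M →ₘ[m] ℝ) → (M →ₘ[m] ℝ) → M → E}

/-- localisation of the core inequality: nonnegativity of the curvature defect of nice functions -/
theorem nice_pos {C : Calc m} (hC : IsGamma C) (hfin : ∀ (x : M) (r : ℝ), m (Metric.ball x r) < ∞)
    {K₀ κ K : ℝ} (hB : C.BEi K₀) (hK : 0 ≤ K) (hG : IsGrad C Gr) (hU : IsHU C Gr U)
    (hcore : ∀ a b f χ : M →ₘ[m] ℝ, a ∈ C.TestI → b ∈ C.TestI → f ∈ C.TestI →
      0 ≤ f → χ ∈ C.TestI → χ * a = a → χ * b = b → χ * f = f → BSupp χ →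
      C.CoreAt κ K a b f)
    (a b f χ : M →ₘ[m] ℝ) (ha : a ∈ C.TestI) (hb : b ∈ C.TestI) (hf : f ∈ C.TestI)
    (hf0 : 0 ≤ f) (hχ : χ ∈ C.TestI) (χa : χ * a = a) (χb : χ * b = b) (χf : χ * f = f)
    (hsupp : BSupp χ) : 0 ≤ I (C.rkI (UUof m U) κ a b b a f) := by
  have : SigmaFinite m := sigmaFinite_of_ball hfin
  obtain ⟨x₀, -, -⟩ := id hsupp
  have hM := isMod_TB hC hB x₀
  have hTA : ∀ f ∈ TB C, f ∈ C.A := fun f hf => hC.test_A hf.1.1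
  have hT1 : ∀ f ∈ TB C, MemLp f 1 m := by
    rintro f ⟨hf, θ, hθ, h1, h2⟩
    exact (h2.mul h1).mem1 hfin (hC.test_A hf.1).2
  have hSd : ∀ f ∈ C.W, ∀ ε > 0, ∃ g ∈ C.TestI, g ∈ C.W ∧ C.nrm2 (g - f) < ε := by
    intro f hf ε hε
    obtain ⟨g, h1, h2⟩ := hC.testI_dense hB hf hε
    exact ⟨g, h1, hC.tW h1.1, h2⟩
  have h : ∀ φ ∈ TB C, 0 ≤ φ → C.CoreAt κ K a b φ := by
    rintro φ ⟨hφ, θ, hθ, h1, h2⟩ hφ0
    exact hcore a b φ (χ + θ - χ * θ) ha hb hφ hφ0 (testI_union hC hB hχ hθ)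
      (union_mul χa) (union_mul χb) (union_mul' h1) (hsupp.union h2)
  exact loc_all hC hB hG hU hM hTA hSd ha.1 hb.1
    (elim_t hC hB hG hU hM hTA hT1 hSd ha.1 hb.1 hK h) f ⟨hf, χ, hχ, χf, hsupp⟩ hf0

end Vale.Agent.P233
end

section

open MeasureTheory Filter Topology
open scoped ENNReal NNReal

namespace Vale.Agent.P233

/-- The standing assumptions on the metric measure space: `RCD(K,N)` (with `K ≤ 0`), geodesic, and
the quadratic (1+3)-point inequality of curvature `≥ κ`. -/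
structure ABSpace {M : Type*} [MetricSpace M] [MeasurableSpace M] (m : Measure M) (κ K N : ℝ) :
    Prop where
  hfin : ∀ (x : M) (r : ℝ), m (Metric.ball x r) < ∞
  hq : ∀ f ∈ (sob m).W, ∀ g ∈ (sob m).W,
    ∫ x, (slope (f + g) ^ 2) x ∂m + ∫ x, (slope (f - g) ^ 2) x ∂m
      = 2 * ∫ x, (slope f ^ 2) x ∂m + 2 * ∫ x, (slope g ^ 2) x ∂m
  hK : K ≤ 0
  hN : 0 < N
  hBN : (sob m).BE K N
  hSL : ∀ f ∈ (sob m).W, slope f ≤ 1 → ∃ u : M → ℝ, LipschitzWith 1 u ∧ f =ᵐ[m] u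
  geo : ∀ (x y : M) (s t : ℝ), 0 ≤ s → 0 ≤ t → s + t = dist x y →
    ∃ w, dist x w = s ∧ dist w y = t
  lss : ∃ r₀ > 0, ∃ C ≥ 0, LSS M κ r₀ C

theorem ABSpace.hC {M : Type*} [MetricSpace M] [SecondCountableTopology M] [MeasurableSpace M]
    [BorelSpace M] {m : Measure M} {κ K N : ℝ} (h : ABSpace m κ K N) : IsGamma (sob m) :=
  isGamma_sob h.hfin h.hq h.hSL

theorem ABSpace.hB {M : Type*} [MetricSpace M] [SecondCountableTopology M] [MeasurableSpace M]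
    [BorelSpace M] {m : Measure M} {κ K N : ℝ} (h : ABSpace m κ K N) : (sob m).BEi K :=
  h.hC.bei h.hN h.hBN

namespace Dat

variable {M : Type*} [MeasurableSpace M] {m : Measure M} (X : Dat m) (C : Calc m)

/-- the upper bound of the action of a centre curve -/
noncomputable def cp (e : ℝ × ℝ) (β α ε : ℝ) : ℝ :=
  ε / 2 * X.E2 C e e + ε ^ 2 / 2 * (X.X3 C e e e + X.W3 C e e e)
    + ε ^ 3 * (X.C3 C e - β * I (X.F * X.Ge C e) + α * I (X.F * X.Ge C e ^ 2))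

/-- the sum of the three actions of the pairs -/
noncomputable def actS (k : M →ₘ[m] ℝ) (ε : ℝ) : ℝ :=
  X.actP C (dir 0) (dir 1 - dir 0) (k + (2 : ℝ)⁻¹ • X.P) ε
    + X.actP C (dir 0) (dir 2 - dir 0) (X.P - k) ε
    + X.actP C (dir 1) (dir 2 - dir 1) (k + X.Q + X.R) ε

end Dat

end Vale.Agent.P233
end

section

/-!
# P233 / AB : the Lang-Schroeder-Sturm inequality for three points, curvature `≥ κ`
-/

namespace Vale.Agent.P233.AB

open Real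

/-- the degenerate case: one of the three points is `z` -/
lemma lss_degen {κ d₁ d₂ c r : ℝ} (h1 : 0 ≤ d₁) (h2 : 0 ≤ d₂) (h1r : d₁ ≤ r) (h2r : d₂ ≤ r)
    (hκ : |κ| * r ^ 2 ≤ 1) (hc0 : 0 ≤ c) (hc : c ≤ d₁ + d₂) :
    c ^ 2 + d₁ ^ 2 + d₂ ^ 2 - κ / 4 * (d₁ ^ 2 - d₂ ^ 2) ^ 2 ≤ 3 * (d₁ ^ 2 + d₂ ^ 2) := by
  have e1 : c ^ 2 ≤ (d₁ + d₂) ^ 2 := pow_le_pow_left₀ hc0 hc 2
  have e2 : (d₁ + d₂) ^ 2 ≤ (2 * r) ^ 2 := pow_le_pow_left₀ (by linarith) (by linarith) 2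
  have e3 : -(κ / 4 * (d₁ ^ 2 - d₂ ^ 2) ^ 2) ≤ |κ| / 4 * (d₁ ^ 2 - d₂ ^ 2) ^ 2 := by
    have h := mul_le_mul_of_nonneg_right (neg_abs_le κ) (sq_nonneg (d₁ ^ 2 - d₂ ^ 2))
    linarith
  have e4 : |κ| / 4 * (d₁ ^ 2 - d₂ ^ 2) ^ 2 ≤ (d₁ - d₂) ^ 2 := by
    have h3 : |κ| / 4 * (d₁ + d₂) ^ 2 ≤ 1 := by
      have h := mul_le_mul_of_nonneg_left e2 (by positivity : 0 ≤ |κ| / 4)
      linarith only [h, hκ]
    have h4 := mul_le_mul_of_nonneg_right h3 (sq_nonneg (d₁ - d₂))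
    calc |κ| / 4 * (d₁ ^ 2 - d₂ ^ 2) ^ 2 = |κ| / 4 * (d₁ + d₂) ^ 2 * (d₁ - d₂) ^ 2 := by ring
      _ ≤ 1 * (d₁ - d₂) ^ 2 := h4
      _ = (d₁ - d₂) ^ 2 := one_mul _
  linarith only [e4, e3, e1]

/-- **(LSS)** for three points and curvature `≥ κ`, with an error of order six -/
theorem IsAlexandrov.lss {M : Type*} [MetricSpace M] [CompleteSpace M] {κ : ℝ}
    (h : IsAlexandrov M κ) :
    ∃ r₀ > 0, ∃ C ≥ 0, ∀ (z x₁ x₂ x₃ : M) (r : ℝ), r ≤ r₀ → dist z x₁ ≤ r → dist z x₂ ≤ r →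
      dist z x₃ ≤ r →
      dist x₁ x₂ ^ 2 + dist x₂ x₃ ^ 2 + dist x₁ x₃ ^ 2 +
        κ / 4 * (2 * (dist z x₁ ^ 2 * dist z x₂ ^ 2 + dist z x₂ ^ 2 * dist z x₃ ^ 2
          + dist z x₁ ^ 2 * dist z x₃ ^ 2)
          - (dist z x₁ ^ 4 + dist z x₂ ^ 4 + dist z x₃ ^ 4))
        ≤ 3 * (dist z x₁ ^ 2 + dist z x₂ ^ 2 + dist z x₃ ^ 2) + C * r ^ 6 := by
  obtain ⟨r₁, hr1, H1⟩ := h.angle_sum
  obtain ⟨r₂, hr2, C, hC, H2⟩ := lss_of_angle_sum κ
  have hK : 0 < 1 + |κ| := by positivity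
  refine ⟨min r₁ (min r₂ (1 / (1 + |κ|))), lt_min hr1 (lt_min hr2 (by positivity)), C, hC, ?_⟩
  intro z x₁ x₂ x₃ r hr h1 h2 h3
  have k1 : r ≤ r₁ := hr.trans (min_le_left _ _)
  have k2 : r ≤ r₂ := hr.trans ((min_le_right _ _).trans (min_le_left _ _))
  have k3 : r ≤ 1 / (1 + |κ|) := hr.trans ((min_le_right _ _).trans (min_le_right _ _))
  have hr0 : 0 ≤ r := dist_nonneg.trans h1
  have hκ : |κ| * r ^ 2 ≤ 1 := by
    have h4 : (1 + |κ|) * r ≤ 1 := by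
      rw [le_div_iff₀ hK] at k3
      linarith
    have h5 : |κ| * r ≤ 1 := by linarith only [h4, hr0]
    have h6 : r ≤ 1 := by linarith only [mul_nonneg (abs_nonneg κ) hr0, h4]
    have h7 : |κ| * r * r ≤ 1 * 1 := mul_le_mul h5 h6 hr0 zero_le_one
    linarith [h7, pow_two r]
  have hCr : 0 ≤ C * r ^ 6 := by positivity
  have T : ∀ a b : M, dist a b ≤ dist z a + dist z b := fun a b => by
    have := dist_triangle a z b
    rwa [dist_comm a z] at this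
  have T' : ∀ a b : M, |dist z a - dist z b| ≤ dist a b := fun a b => by
    have := abs_dist_sub_le a b z
    rwa [dist_comm a z, dist_comm b z] at this
  rcases eq_or_ne z x₁ with e1 | e1
  · subst e1
    have := lss_degen (κ := κ) dist_nonneg dist_nonneg h2 h3 hκ dist_nonneg (T x₂ x₃)
    simp only [dist_self] at *
    linarith only [this, hCr]
  rcases eq_or_ne z x₂ with e2 | e2
  · subst e2
    have := lss_degen (κ := κ) dist_nonneg dist_nonneg h1 h3 hκ dist_nonneg (T x₁ x₃)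
    rw [dist_comm x₁ z]
    simp only [dist_self] at *
    linarith only [this, hCr]
  rcases eq_or_ne z x₃ with e3 | e3
  · subst e3
    have := lss_degen (κ := κ) dist_nonneg dist_nonneg h1 h2 hκ dist_nonneg (T x₁ x₂)
    rw [dist_comm x₁ z, dist_comm x₂ z]
    simp only [dist_self] at *
    linarith only [this, hCr]
  exact H2 _ _ _ _ _ _ r (dist_pos.2 e1) (dist_pos.2 e2) (dist_pos.2 e3) h1 h2 h3 k2
    (T' _ _) (T _ _) (T' _ _) (T _ _) (T' _ _) (T _ _)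
    (H1 z x₁ x₂ x₃ e1 e2 e3 (h1.trans k1) (h2.trans k1) (h3.trans k1))

end Vale.Agent.P233.AB
end

section

set_option linter.all false

open MeasureTheory Filter Topology
open scoped ENNReal NNReal InnerProductSpace

universe u

namespace Vale.Agent.P233

/-- the Bochner inequality with a smaller constant -/
theorem IsGamma.BE_mono {M : Type*} [MeasurableSpace M] {m : Measure M} {C : Calc m}
    (hC : IsGamma C) {K K' N : ℝ} (hK : K' ≤ K) (hN : 0 < N) (hB : C.BE K N) : C.BE K' N := by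
  intro f h φ ψ h1 h2 h3 h4 h5 h6
  refine le_trans ?_ (hB f h φ ψ h1 h2 h3 h4 h5 h6)
  have hfW := h1.1
  have hh2 := hC.memLp h h2
  have hm : ∀ c : ℝ, MemLp (φ * (C.Γ f h + c • C.Γ f f + N⁻¹ • h ^ 2) : M →ₘ[m] ℝ) 1 m := fun c =>
    mem_mul_top h5 (mem_add (mem_add (hC.toIsDir.Γ_mem1 hfW h2) (mem_smul _ (hC.mem1 f hfW)))
      (mem_smul _ (mem_sq hh2)))
  refine I_mono (hm K') (hm K) ?_
  refine mul_le_mul_of_nonneg_left ?_ h4
  rw [add_le_add_iff_right, add_le_add_iff_left, ← sub_nonneg, ← sub_smul]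
  exact smul_nonneg' (sub_nonneg.2 hK) (hC.nonneg f hfW)

/-- the Hilbert space of vector fields exists -/
theorem IsGrad.exists_model {M : Type u} [MeasurableSpace M] {m : Measure M} {C : Calc m}
    {E : Type} [NormedAddCommGroup E] [InnerProductSpace ℝ E] [CompleteSpace E]
    {Gr : (M →ₘ[m] ℝ) → M → E} (hG : IsGrad C Gr) (hC : IsGamma C) {κ : ℝ} (hB : C.BEi κ) :
    ∃ (H : Type u) (_ : NormedAddCommGroup H) (_ : InnerProductSpace ℝ H) (_ : CompleteSpace H)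
      (ι : List ((M →ₘ[m] ℝ) × (M →ₘ[m] ℝ)) → H), C.IsL2TM ι := by
  classical
  let L : Submodule ℝ (Lp E 2 m) :=
    { carrier := {v | ∃ X, C.IsTestV X ∧ eE Gr X = v}
      add_mem' := by
        rintro _ _ ⟨X, hX, rfl⟩ ⟨Y, hY, rfl⟩
        refine ⟨X ++ Y, testV_append hX hY, ?_⟩
        have h1 := mem_fvec hG hC hX
        have h2 := mem_fvec hG hC hY
        have h3 : MemLp (fvec Gr (X ++ Y)) 2 m := mem_fvec hG hC (testV_append hX hY)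
        unfold eE lE
        rw [dif_pos h1, dif_pos h2, dif_pos h3, ← MemLp.toLp_add]
        refine (MemLp.toLp_eq_toLp_iff _ _).2 (Eventually.of_forall fun x => ?_)
        rw [IsGrad.fvec_append]
        rfl
      zero_mem' := by
        refine ⟨[], testV_nil, ?_⟩
        unfold eE lE
        have h : MemLp (fvec Gr []) 2 m := by rw [IsGrad.fvec_nil]; exact MemLp.zero
        rw [dif_pos h, ← MemLp.toLp_zero (MemLp.zero (p := 2) (μ := m) (ε := E))]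
        refine (MemLp.toLp_eq_toLp_iff _ _).2 ?_
        rw [IsGrad.fvec_nil]
      smul_mem' := by
        rintro c _ ⟨X, hX, rfl⟩
        have hX' : C.IsTestV (X.map fun p => (c • p.1, p.2)) := by
          intro p hp
          obtain ⟨q, hq, rfl⟩ := List.mem_map.1 hp
          exact ⟨hC.test_smul hB c (hX q hq).1, (hX q hq).2⟩
        refine ⟨_, hX', ?_⟩
        have h1 := mem_fvec hG hC hX
        have h3 := mem_fvec hG hC hX'
        unfold eE lE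
        rw [dif_pos h1, dif_pos h3, ← MemLp.toLp_const_smul]
        refine (MemLp.toLp_eq_toLp_iff _ _).2 ?_
        clear hX hX' h1 h3
        induction X with
        | nil => exact Eventually.of_forall fun x => by simp [fvec]
        | cons p X ih =>
          filter_upwards [ih, AEEqFun.coeFn_smul c p.1] with x h1 h2
          rw [Pi.smul_apply] at h1 ⊢
          rw [List.map_cons, IsGrad.fvec_cons, IsGrad.fvec_cons, h1, h2, Pi.smul_apply, smul_add,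
            smul_assoc] }
  haveI : CompleteSpace L.topologicalClosure := L.isClosed_topologicalClosure.completeSpace_coe
  refine ⟨L.topologicalClosure, inferInstance, inferInstance, this,
    fun X => if h : C.IsTestV X then ⟨eE Gr X, L.le_topologicalClosure ⟨X, h, rfl⟩⟩ else 0, ?_, ?_⟩
  · intro X Y hX hY
    beta_reduce
    rw [dif_pos hX, dif_pos hY]
    change ⟪eE Gr X, eE Gr Y⟫_ℝ = _
    unfold eE
    rw [lE_inner (mem_fvec hG hC hX) (mem_fvec hG hC hY)]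
    exact integral_congr_ae (hG.inner_fvec (fun p hp => (hC.test_A (hX p hp).2).1)
      fun p hp => (hC.test_A (hY p hp).2).1)
  · rintro ⟨v, hv⟩
    rw [Metric.mem_closure_iff]
    intro ε hε
    obtain ⟨_, ⟨X, hX, rfl⟩, hw⟩ := Metric.mem_closure_iff.1 hv ε hε
    refine ⟨_, ⟨X, hX, rfl⟩, ?_⟩
    beta_reduce
    rw [dif_pos hX]
    exact hw

section

variable {M : Type u} [MetricSpace M] [SecondCountableTopology M] [MeasurableSpace M]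
  [BorelSpace M] {m : Measure M}

/-- `ABSpace` from the two hypotheses of the main theorem -/
theorem abSpace_of [CompleteSpace M] {κ K N : ℝ} (hN : 0 < N) (h : S.IsRCD m K N)
    (hA : AB.IsAlexandrov M κ) : ABSpace m κ (min K 0) N := by
  have hR := isRCD_of_S h
  have hfin := ball_lt_top_of_growth hR.growth
  have hC : IsGamma (sob m) := isGamma_sob hfin hR.quadratic hR.sobolev_to_lipschitz
  obtain ⟨r₀, h1, C, h2, h3⟩ := hA.lss
  have h4 : LSS M κ r₀ C := fun z x₁ x₂ x₃ r a1 a2 a3 a4 => h3 z x₁ x₂ x₃ r a4 a1 a2 a3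
  exact ⟨hfin, hR.quadratic, min_le_right _ _, hN,
    hC.BE_mono (min_le_left _ _) hN hR.bochner, hR.sobolev_to_lipschitz, hA.geodesic,
    ⟨r₀, h1, C, h2, h4⟩⟩

end

end Vale.Agent.P233
end

section

set_option linter.all false

open MeasureTheory Filter Topology
open scoped ENNReal NNReal

namespace Vale.Agent.P233

theorem IsGamma.be_mono {M : Type*} [MeasurableSpace M] {m : Measure M} {C : Calc m}
    (hC : IsGamma C) {K K' N : ℝ} (hN : 0 < N) (hK : K' ≤ K) (hB : C.BE K N) : C.BE K' N := by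
  intro f h φ ψ h1 h2 h3 h4 h5 h6
  refine le_trans ?_ (hB f h φ ψ h1 h2 h3 h4 h5 h6)
  have hfW := h1.1
  have hh2 := hC.memLp h h2
  have hG := hC.toIsDir.Γ_mem1 hfW h2
  refine I_mono (mem_mul_top h5 (mem_add (mem_add hG (mem_smul _ (hC.mem1 f hfW)))
    (mem_smul _ (mem_sq hh2)))) (mem_mul_top h5 (mem_add (mem_add hG
    (mem_smul _ (hC.mem1 f hfW))) (mem_smul _ (mem_sq hh2)))) ?_
  refine mul_le_mul_of_nonneg_left ?_ h4
  have h7 : K' • C.Γ f f ≤ K • C.Γ f f := by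
    rw [le_iff_ae]
    filter_upwards [smul_ae (C.Γ f f) K', smul_ae (C.Γ f f) K,
      hC.toIsDir.Γ_nonneg_ae hfW] with x a1 a2 a3
    rw [a1, a2]
    exact mul_le_mul_of_nonneg_right hK a3
  exact add_le_add (add_le_add le_rfl h7) le_rfl

/-- cut-off functions with bounded Laplacian and bounded support in finite dimension -/
theorem exists_cutI {M : Type*} [MetricSpace M] [SecondCountableTopology M] [MeasurableSpace M]
    [BorelSpace M] {m : Measure M}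
    (hfin : ∀ (x : M) (r : ℝ), m (Metric.ball x r) < ∞) (hC : IsGamma (sob m))
    {K N : ℝ} (hN : 0 < N) (hB : (sob m).BE K N) (x₀ : M) :
    ∃ Cc : ℝ, ∀ R : ℝ, 1 ≤ R → ∃ χ ∈ (sob m).TestI, 0 ≤ χ ∧ χ ≤ 1 ∧
      (∀ᵐ x ∂m, dist x x₀ ≤ R → χ x = 1) ∧ (∃ R', ∀ᵐ x ∂m, R' < dist x x₀ → χ x = 0) ∧
      (∀ᵐ x ∂m, (sob m).Γ χ χ x ≤ Cc / R ^ 2) ∧ (∀ᵐ x ∂m, |(sob m).lap χ x| ≤ Cc / R) := by
  haveI : SigmaFinite m := by
    refine ⟨⟨⟨fun n => Metric.ball x₀ n, fun n => trivial, fun n => hfin _ _, ?_⟩⟩⟩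
    exact Metric.iUnion_ball_nat x₀
  have hBi : (sob m).BEi K := hC.bei hN hB
  set k : ℝ := |K| with hk
  have hk0 : 0 ≤ k := abs_nonneg K
  have hB' : (sob m).BE (-k) N := hC.be_mono hN (neg_abs_le K) hB
  set μ : ℝ := (8 * k + 256 * N + 1)⁻¹ with hμ
  have hd : 0 < 8 * k + 256 * N + 1 := by positivity
  have hμ0 : 0 < μ := inv_pos.2 hd
  have hμ1 : μ * (8 * k + 256 * N + 1) = 1 := inv_mul_cancel₀ hd.ne'
  have hμk : 8 * μ * k ≤ 1 := by linarith only [mul_pos hμ0 hN, hμ1, hμ0]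
  have hμN : N * μ ≤ 1 / 256 := by linarith only [mul_nonneg hμ0.le hk0, hμ1, hμ0]
  have hμK : 1 / 2 ≤ 1 + 2 * μ * K := by
    have h1 : -k ≤ K := neg_abs_le K
    linarith only [mul_le_mul_of_nonneg_left h1 hμ0.le, hμk]
  have hc : 4 * √(N * μ) ≤ 1 / 4 := by
    have h1 : √(N * μ) ≤ 1 / 16 := by
      refine Real.sqrt_le_iff.2 ⟨by norm_num, ?_⟩
      norm_num
      linarith only [hμN]
    linarith only [h1]
  refine exists_cutI_of hfin hC hBi hμ0 hμK hc (fun f hf l hl hf' => ?_) x₀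
  filter_upwards [hC.J_sub_le hk0 hN hB' hf hl hf' hμ0 hμk] with x hx
  refine hx.trans (le_of_eq ?_)
  ring

end Vale.Agent.P233
end

section

set_option linter.all false

open MeasureTheory Filter Topology
open scoped ENNReal NNReal InnerProductSpace

namespace Vale.Agent.P233

variable {M : Type*} [MeasurableSpace M] {m : Measure M} {C : Calc m}
variable {E : Type*} [NormedAddCommGroup E] [InnerProductSpace ℝ E]
variable {Gr : (M →ₘ[m] ℝ) → M → E} {U : (M →ₘ[m] ℝ) → (M →ₘ[m] ℝ) → M → E}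

theorem sum_I {ι : Type*} (s : Finset ι) {f : ι → M →ₘ[m] ℝ} (hf : ∀ i, MemLp (f i) 1 m) :
    ∑ i ∈ s, I (f i) = ∫ x, ∑ i ∈ s, f i x ∂m := by
  unfold I
  rw [integral_finset_sum s fun i _ => int_of_mem (hf i)]

namespace IsGamma

variable (hC : IsGamma C) {κ : ℝ} (hB : C.BEi κ) (hG : IsGrad C Gr) (hU : IsHU C Gr U)
variable {a a' b b' c : M →ₘ[m] ℝ}
include hC hB hG hU

/-- the tensor inequality for fields -/
theorem tens_vec [SigmaFinite m] (hb : b ∈ C.Test) (ha : a ∈ C.Test) {K : ℝ}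
    (hK : ∀ᵐ x ∂m, C.Γ a a x ≤ K) {n : ℕ} {c d : Fin n → M →ₘ[m] ℝ} (hc : ∀ i, c i ∈ C.Test)
    (hd : ∀ i, d i ∈ C.Test) :
    0 ≤ (I (C.lap b ^ 2) - κ * I (C.Γ b b))
      + 4 * ∫ x, ⟪U b a x, ∑ i, c i x • Gr (d i) x⟫_ℝ ∂m
      + 4 * |K| * ∫ x, ‖∑ i, c i x • Gr (d i) x‖ ^ 2 ∂m := by
  have hcT := fun i => (hC.test_A (hc i)).2
  have hc2 := fun i => hC.memLp _ (hC.tW (hc i))
  have aW := hC.tW ha
  have h1 := hC.tensor_ineq_one hB hb (F := fun _ => a) (H := d) (s := c) (fun _ => ha) hd hcT hc2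
  have hV : MemLp (fun x => ∑ i, c i x • Gr (d i) x) 2 m := by
    refine memLp_finset_sum _ fun i _ => ?_
    exact hG.smul_mem2 (hcT i) (hC.tW (hd i))
  have e1 : ∑ i, I (c i * C.KK b a (d i)) = 2 * ∫ x, ⟪U b a x, ∑ i, c i x • Gr (d i) x⟫_ℝ ∂m := by
    rw [sum_I _ fun i => mem_mul_22 (hc2 i) (hC.KK_mem2 hB ha (hd i) hb), ← integral_const_mul]
    refine integral_congr_ae ?_
    have g1 : ∀ᵐ x ∂m, ∀ i, (c i * C.KK b a (d i)) x = 2 * (c i x * ⟪U b a x, Gr (d i) x⟫_ℝ) := by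
      rw [ae_all_iff]
      intro i
      unfold Calc.KK
      filter_upwards [mul_ae (c i) ((2 : ℝ) • C.hess b a (d i)), smul_ae (C.hess b a (d i)) 2,
        hU.inner b hb a ha (d i) (hd i)] with x a1 a2 a3
      rw [a1, a2, a3]; ring
    filter_upwards [g1] with x a1
    rw [inner_sum, Finset.mul_sum]
    refine Finset.sum_congr rfl fun i _ => ?_
    rw [a1, real_inner_smul_right]
  have hmem : ∀ i j, MemLp (c i * c j * C.MM a (d i) a (d j) : M →ₘ[m] ℝ) 1 m := fun i j =>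
    mem_mul_top (mem_mul_top (hcT i) (hcT j)) (hC.MM_mem1 hB ha (hd i) ha (hd j))
  have e2 : ∑ i, ∑ j, I (c i * c j * C.MM a (d i) a (d j)) ≤
      2 * |K| * ∫ x, ‖∑ i, c i x • Gr (d i) x‖ ^ 2 ∂m := by
    have g0 : ∀ i, ∑ j, I (c i * c j * C.MM a (d i) a (d j)) =
        I (∑ j, c i * c j * C.MM a (d i) a (d j)) := fun i => (I_fsum _ fun j _ => hmem i j).1.symm
    simp only [g0]
    rw [sum_I _ fun i => (I_fsum _ fun j _ => hmem i j).2, ← integral_const_mul]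
    have g1 : ∀ᵐ x ∂m, ∀ i j, (c i * c j * C.MM a (d i) a (d j)) x =
        (c i x * c j x) * (⟪Gr a x, Gr a x⟫_ℝ * ⟪Gr (d j) x, Gr (d i) x⟫_ℝ
          + ⟪Gr a x, Gr (d i) x⟫_ℝ * ⟪Gr (d j) x, Gr a x⟫_ℝ) := by
      rw [ae_all_iff]; intro i; rw [ae_all_iff]; intro j
      unfold Calc.MM
      filter_upwards [mul_ae (c i * c j) (C.Γ a a * C.Γ (d j) (d i) + C.Γ a (d i) * C.Γ (d j) a),
        mul_ae (c i) (c j), add_ae (C.Γ a a * C.Γ (d j) (d i)) (C.Γ a (d i) * C.Γ (d j) a),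
        mul_ae (C.Γ a a) (C.Γ (d j) (d i)), mul_ae (C.Γ a (d i)) (C.Γ (d j) a),
        hG.inner a aW a aW, hG.inner _ (hC.tW (hd j)) _ (hC.tW (hd i)),
        hG.inner a aW _ (hC.tW (hd i)), hG.inner _ (hC.tW (hd j)) a aW]
        with x b1 b2 b3 b4 b5 b6 b7 b8 b9
      rw [b1, b2, b3, b4, b5, b6, b7, b8, b9]
    have g2 : ∀ᵐ x ∂m, ∀ i, (∑ j, c i * c j * C.MM a (d i) a (d j) : M →ₘ[m] ℝ) x =
        ∑ j, (c i * c j * C.MM a (d i) a (d j)) x := by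
      rw [ae_all_iff]; intro i; exact fsum_ae _ _
    refine integral_mono_ae ?_ ((n2_int hV).const_mul _) ?_
    · exact integrable_finset_sum _ fun i _ => int_of_mem (I_fsum _ fun j _ => hmem i j).2
    filter_upwards [g1, g2, hK, hG.inner a aW a aW] with x b1 b2 b3 b4
    simp only [b2, b1]
    set V := ∑ i, c i x • Gr (d i) x with hVd
    have d1 : ∑ i, ∑ j, (c i x * c j x) * (⟪Gr a x, Gr a x⟫_ℝ * ⟪Gr (d j) x, Gr (d i) x⟫_ℝ
          + ⟪Gr a x, Gr (d i) x⟫_ℝ * ⟪Gr (d j) x, Gr a x⟫_ℝ)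
        = ⟪Gr a x, Gr a x⟫_ℝ * ⟪V, V⟫_ℝ + ⟪Gr a x, V⟫_ℝ * ⟪V, Gr a x⟫_ℝ := by
      rw [hVd]
      simp only [sum_inner, inner_sum, real_inner_smul_left, real_inner_smul_right,
        Finset.mul_sum, Finset.sum_mul]
      rw [Finset.sum_comm, ← Finset.sum_add_distrib]
      refine Finset.sum_congr rfl fun p hp => ?_
      rw [← Finset.sum_add_distrib]
      refine Finset.sum_congr rfl fun q hq => ?_
      rw [real_inner_comm (Gr (d q) x) (Gr (d p) x)]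
      ring
    rw [d1]
    have d2 : ⟪Gr a x, V⟫_ℝ * ⟪V, Gr a x⟫_ℝ ≤ ⟪Gr a x, Gr a x⟫_ℝ * ⟪V, V⟫_ℝ := by
      have q1 := real_inner_mul_inner_self_le (Gr a x) V
      rw [real_inner_comm V (Gr a x)] at q1 ⊢
      exact q1
    have d3 : ⟪Gr a x, Gr a x⟫_ℝ ≤ |K| := by rw [b4]; exact b3.trans (le_abs_self _)
    have d4 : ⟪Gr a x, Gr a x⟫_ℝ * ⟪V, V⟫_ℝ ≤ |K| * ‖V‖ ^ 2 := by
      rw [real_inner_self_eq_norm_sq V]
      exact mul_le_mul_of_nonneg_right d3 (by positivity)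
    linarith
  rw [e1] at h1
  linarith

/-- the norm of `∇_{∇a} ∇b` -/
theorem U_norm_le [SigmaFinite m] (hb : b ∈ C.Test) (ha : a ∈ C.Test) {K : ℝ}
    (hK : ∀ᵐ x ∂m, C.Γ a a x ≤ K) :
    ∫ x, ‖U b a x‖ ^ 2 ∂m ≤ |K| * (I (C.lap b ^ 2) - κ * I (C.Γ b b)) := by
  obtain ⟨Z, hZ1, hZ2⟩ := hC.inF_of_dense hG (hU.mem b hb a ha) (hU.dense b hb a ha)
  set N := ∫ x, ‖U b a x‖ ^ 2 ∂m with hN
  set h2 := I (C.lap b ^ 2) - κ * I (C.Γ b b) with hh2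
  have e0 : ∀ (Z : List ((M →ₘ[m] ℝ) × (M →ₘ[m] ℝ))) (x : M),
      fvec Gr Z x = ∑ i : Fin Z.length, (Z.get i).1 x • Gr (Z.get i).2 x := by
    intro Z x
    unfold fvec
    exact (Fin.sum_univ_fun_getElem Z (fun p => p.1 x • Gr p.2 x)).symm
  have key : ∀ t : ℝ, 0 ≤ h2 + 2 * t * (2 * N) + t ^ 2 * (4 * |K| * N) := by
    intro t
    have h3 : ∀ k, 0 ≤ h2 + 4 * (t * ∫ x, ⟪U b a x, fvec Gr (Z k) x⟫_ℝ ∂m)
        + 4 * |K| * (t ^ 2 * ∫ x, ‖fvec Gr (Z k) x‖ ^ 2 ∂m) := by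
      intro k
      have h4 := hC.tens_vec hB hG hU hb ha hK (n := (Z k).length)
        (c := fun i => t • ((Z k).get i).1) (d := fun i => ((Z k).get i).2)
        (fun i => hC.test_smul hB t (hZ1 k _ (List.get_mem _ _)).1)
        (fun i => (hZ1 k _ (List.get_mem _ _)).2)
      have h5 : ∀ᵐ x ∂m, ∑ i, (t • ((Z k).get i).1 : M →ₘ[m] ℝ) x • Gr ((Z k).get i).2 x =
          t • fvec Gr (Z k) x := by
        have h6 : ∀ᵐ x ∂m, ∀ i, (t • ((Z k).get i).1 : M →ₘ[m] ℝ) x = t * ((Z k).get i).1 x := by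
          rw [ae_all_iff]; intro i; exact smul_ae _ _
        filter_upwards [h6] with x hx
        rw [e0, Finset.smul_sum]
        refine Finset.sum_congr rfl fun i _ => ?_
        rw [hx, smul_smul]
      have h7 : ∫ x, ⟪U b a x, ∑ i, (t • ((Z k).get i).1 : M →ₘ[m] ℝ) x • Gr ((Z k).get i).2 x⟫_ℝ ∂m
          = t * ∫ x, ⟪U b a x, fvec Gr (Z k) x⟫_ℝ ∂m := by
        rw [← integral_const_mul]
        refine integral_congr_ae ?_
        filter_upwards [h5] with x hx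
        rw [hx, real_inner_smul_right]
      have h8 : ∫ x, ‖∑ i, (t • ((Z k).get i).1 : M →ₘ[m] ℝ) x • Gr ((Z k).get i).2 x‖ ^ 2 ∂m
          = t ^ 2 * ∫ x, ‖fvec Gr (Z k) x‖ ^ 2 ∂m := by
        rw [← integral_const_mul]
        refine integral_congr_ae ?_
        filter_upwards [h5] with x hx
        rw [hx, norm_smul, mul_pow, Real.norm_eq_abs, sq_abs]
      rw [h7, h8] at h4
      exact h4
    have l1 : Tendsto (fun k => ∫ x, ⟪U b a x, fvec Gr (Z k) x⟫_ℝ ∂m) atTop (𝓝 N) := by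
      have := (TE.const hZ2.mem').inner_lim hZ2
      simp only [real_inner_self_eq_norm_sq] at this
      exact this
    have l2 : Tendsto (fun k => ∫ x, ‖fvec Gr (Z k) x‖ ^ 2 ∂m) atTop (𝓝 N) := by
      have := hZ2.inner_lim hZ2
      simp only [real_inner_self_eq_norm_sq] at this
      exact this
    have l3 := (((l1.const_mul t).const_mul 4).const_add h2).add
      ((l2.const_mul (t ^ 2)).const_mul (4 * |K|))
    have := ge_of_tendsto l3 (Eventually.of_forall h3)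
    linarith
  have h9 := disc_of_forall key
  have hN0 : 0 ≤ N := n2_nonneg _
  rcases hN0.eq_or_lt with h0 | h0
  · rw [← h0]
    have h10 : 0 ≤ h2 := hC.h2_nonneg hB hb
    (clear * - h10; positivity)
  · (by_contra nlg; linarith only [nlg, mul_pos (sub_pos.2 (not_le.1 nlg)) (sub_pos.2 h0), h9])

theorem U_inF [SigmaFinite m] (hb : b ∈ C.Test) (ha : a ∈ C.Test) : InF C Gr (U b a) :=
  hC.inF_of_dense hG (hU.mem b hb a ha) (hU.dense b hb a ha)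

theorem U_lin1 [SigmaFinite m] (t : ℝ) (hb : b ∈ C.Test) (hb' : b' ∈ C.Test) (ha : a ∈ C.Test) :
    ∀ᵐ x ∂m, U (b + t • b') a x = U b a x + t • U b' a x := by
  have hs := hC.test_add hB hb (hC.test_smul hB t hb')
  have h1 := InF.eq_zero hC hG ((hC.U_inF hB hG hU hs ha).add ((((hC.U_inF hB hG hU hb ha).add
    (InF.smul hC hG hB t (hC.U_inF hB hG hU hb' ha)))).smul hC hG hB (-1))) (fun c hc => by
      have h2 := hU.inner _ hs a ha c hc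
      rw [hC.hess_lin1 hB t hb hb' ha hc] at h2
      filter_upwards [h2, hU.inner b hb a ha c hc, hU.inner b' hb' a ha c hc,
        add_ae (C.hess b a c) (t • C.hess b' a c), smul_ae (C.hess b' a c) t] with x a1 a2 a3 a4 a5
      rw [inner_add_left, a1, real_inner_smul_left, inner_add_left, real_inner_smul_left, a2, a3,
        a4, a5]
      ring)
  filter_upwards [h1] with x hx
  rw [neg_one_smul, ← sub_eq_add_neg, sub_eq_zero] at hx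
  exact hx

theorem U_lin2 [SigmaFinite m] (t : ℝ) (hb : b ∈ C.Test) (ha : a ∈ C.Test) (ha' : a' ∈ C.Test) :
    ∀ᵐ x ∂m, U b (a + t • a') x = U b a x + t • U b a' x := by
  have hs := hC.test_add hB ha (hC.test_smul hB t ha')
  have h1 := InF.eq_zero hC hG ((hC.U_inF hB hG hU hb hs).add ((((hC.U_inF hB hG hU hb ha).add
    (InF.smul hC hG hB t (hC.U_inF hB hG hU hb ha')))).smul hC hG hB (-1))) (fun c hc => by
      have h2 := hU.inner b hb _ hs c hc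
      rw [hC.hess_lin2 hB t ha ha' hb hc] at h2
      filter_upwards [h2, hU.inner b hb a ha c hc, hU.inner b hb a' ha' c hc,
        add_ae (C.hess b a c) (t • C.hess b a' c), smul_ae (C.hess b a' c) t] with x a1 a2 a3 a4 a5
      rw [inner_add_left, a1, real_inner_smul_left, inner_add_left, real_inner_smul_left, a2, a3,
        a4, a5]
      ring)
  filter_upwards [h1] with x hx
  rw [neg_one_smul, ← sub_eq_add_neg, sub_eq_zero] at hx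
  exact hx

/-- `∇⟨∇b,∇a⟩ = ∇_{∇a}∇b + ∇_{∇b}∇a` -/
theorem U_Gr [SigmaFinite m] (hb : b ∈ C.Test) (ha : a ∈ C.Test) :
    ∀ᵐ x ∂m, Gr (C.Γ b a) x = U b a x + U a b x := by
  have hg := (hC.Γ_mem hB hb ha).1
  have h1 := InF.eq_zero hC hG ((hC.inF_Gr hG hB hg).add (((hC.U_inF hB hG hU hb ha).add
    (hC.U_inF hB hG hU ha hb)).smul hC hG hB (-1))) (fun c hc => by
      have h2 := hG.inner _ hg c (hC.tW hc)
      have h3 : C.Γ (C.Γ b a) c = C.hess b a c + C.hess a b c := by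
        have n1 := (hC.Γ_mem hB hb hc).1
        have n2 := (hC.Γ_mem hB ha hc).1
        unfold Calc.hess
        rw [hC.symm _ hg _ (hC.tW hc), hC.symm _ (hC.tW ha) _ (hC.tW hb)]
        algebra
      rw [h3] at h2
      filter_upwards [h2, hU.inner b hb a ha c hc, hU.inner a ha b hb c hc,
        add_ae (C.hess b a c) (C.hess a b c)] with x a1 a2 a3 a4
      rw [inner_add_left, a1, real_inner_smul_left, inner_add_left, a2, a3, a4]
      ring)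
  filter_upwards [h1] with x hx
  rw [neg_one_smul, ← sub_eq_add_neg, sub_eq_zero] at hx
  exact hx

variable {u v F : ℕ → M →ₘ[m] ℝ} {f φ : M →ₘ[m] ℝ}

/-- `∇_{∇a}∇b` depends continuously on `a`, `b` -/
theorem Cv_U [SigmaFinite m] (h1 : C.Cv v b) (h2 : C.Cv u a) :
    TE m (fun n => U (v n) (u n)) (U b a) := by
  have hv := hC.Cv_sub_test hB h1
  have hu := hC.Cv_sub_test hB h2
  obtain ⟨K, hK⟩ := hC.Cv_bd hB h2
  obtain ⟨L, hL'⟩ := mem_top_iff.1 (hC.test_Γ_top h1.lim)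
  have hL : ∀ᵐ x ∂m, C.Γ b b x ≤ L := by
    filter_upwards [hL'] with x hx
    exact (le_abs_self _).trans hx
  have sq0 : ∀ {w : ℕ → M →ₘ[m] ℝ}, (∀ n, w n ∈ C.Test) → Tendsto (fun n =>
      √(I (C.lap (w n) ^ 2) - κ * I (C.Γ (w n) (w n)))) atTop (𝓝 0) → Tendsto (fun n =>
      I (C.lap (w n) ^ 2) - κ * I (C.Γ (w n) (w n))) atTop (𝓝 0) := by
    intro w hw h
    have h3 := h.pow 2
    rw [zero_pow two_ne_zero] at h3
    refine h3.congr fun n => ?_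
    rw [Real.sq_sqrt (hC.h2_nonneg hB (hw n))]
  have l1 := (sq0 hv (hC.Cv_h2 hB h1)).const_mul |K|
  have l2 := (sq0 hu (hC.Cv_h2 hB h2)).const_mul |L|
  have l3 := hC.Cv_Γ_zero hB h2 h1.lim
  rw [mul_zero] at l1 l2
  -- the first part
  have t1 : Tendsto (fun n => ∫ x, ‖U (v n - b) (u n) x‖ ^ 2 ∂m) atTop (𝓝 0) :=
    squeeze_zero (fun n => n2_nonneg _) (fun n => hC.U_norm_le hB hG hU (hv n) (h2.test n) (hK n)) l1
  -- the second part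
  have t2 : Tendsto (fun n => ∫ x, ‖U b (u n - a) x‖ ^ 2 ∂m) atTop (𝓝 0) := by
    refine squeeze_zero (fun n => n2_nonneg _) (fun n => ?_)
      (by simpa using (l3.const_mul 2).add (l2.const_mul 2))
    have hg := (hC.Γ_mem hB h1.lim (hu n)).1
    have h3 := n2_add_le (hG.mem _ hg) ((hU.mem _ (hu n) _ h1.lim).neg)
    have h4 : ∫ x, ‖U b (u n - a) x‖ ^ 2 ∂m =
        ∫ x, ‖Gr (C.Γ b (u n - a)) x + (-U (u n - a) b) x‖ ^ 2 ∂m := by
      refine integral_congr_ae ?_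
      filter_upwards [hC.U_Gr hB hG hU h1.lim (hu n)] with x hx
      rw [hx, Pi.neg_apply]
      congr 2
      abel
    have h5 : ∫ x, ‖(-U (u n - a) b) x‖ ^ 2 ∂m = ∫ x, ‖U (u n - a) b x‖ ^ 2 ∂m := by
      simp only [Pi.neg_apply, norm_neg]
    have h6 := hC.U_norm_le hB hG hU (hu n) h1.lim hL
    rw [h4]
    rw [h5, hG.int_norm_sq hg] at h3
    linarith
  refine ⟨fun n => hU.mem _ (h1.test n) _ (h2.test n), hU.mem _ h1.lim _ h2.lim, ?_⟩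
  refine squeeze_zero (fun n => n2_nonneg _) (fun n => ?_)
    (by simpa using (t1.const_mul 2).add (t2.const_mul 2))
  have h3 := n2_add_le (hU.mem _ (hv n) _ (h2.test n)) (hU.mem _ h1.lim _ (hu n))
  refine le_trans (le_of_eq ?_) h3
  refine integral_congr_ae ?_
  have e1 : b + (1 : ℝ) • (v n - b) = v n := by rw [one_smul]; abel
  have e2 : a + (1 : ℝ) • (u n - a) = u n := by rw [one_smul]; abel
  have h4 := hC.U_lin1 hB hG hU 1 h1.lim (hv n) (h2.test n)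
  have h5 := hC.U_lin2 hB hG hU 1 h1.lim h2.lim (hu n)
  rw [e1] at h4
  rw [e2] at h5
  filter_upwards [h4, h5] with x a1 a2
  simp only [a1, a2, one_smul]
  congr 2
  abel

omit hG in
theorem I_rkI [SigmaFinite m] (κ' : ℝ) (ha : a ∈ C.Test) (hb : b ∈ C.Test) (hφ : φ ∈ C.A) :
    I (C.rkI (UUof m U) κ' a b b a φ) =
      -I (C.De φ a * C.hess b b a) + I (C.De φ b * C.hess b a a)
      + (-I (φ * ipE m (U a a) (U b b)) + 2 * I (φ * ipE m (U a b) (U b a))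
        - I (φ * ipE m (U b a) (U b a)))
      - κ' * (I (φ * C.Γ a a * C.Γ b b) - I (φ * C.Γ a b * C.Γ a b)) := by
  have m1 := mem_mul_22 (hC.mem_De hφ ha) (hC.hess_mem2 hB hb hb ha)
  have m2 := mem_mul_22 (hC.mem_De hφ hb) (hC.hess_mem2 hB hb ha ha)
  have mU : ∀ {p q r s : M →ₘ[m] ℝ}, p ∈ C.Test → q ∈ C.Test → r ∈ C.Test → s ∈ C.Test →
      MemLp (φ * ipE m (U p q) (U r s) : M →ₘ[m] ℝ) 1 m := fun hp hq hr hs =>
    mem_mul_top hφ.2 (ipE_mem (hU.mem _ hp _ hq) (hU.mem _ hr _ hs))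
  have mΓ : ∀ {p q r s : M →ₘ[m] ℝ}, p ∈ C.Test → q ∈ C.Test → r ∈ C.Test → s ∈ C.Test →
      MemLp (φ * C.Γ p q * C.Γ r s : M →ₘ[m] ℝ) 1 m := fun hp hq hr hs =>
    mem_mul_top (mem_mul_top hφ.2 (hC.Γ_mem hB hp hq).2) (hC.Γ_mem1 (hC.tW hr) (hC.tW hs))
  have e : C.rkI (UUof m U) κ' a b b a φ =
      (-(C.De φ a * C.hess b b a) + C.De φ b * C.hess b a a)
      + ((-(φ * ipE m (U a a) (U b b)) + (2 : ℝ) • (φ * ipE m (U a b) (U b a)))
        - φ * ipE m (U b a) (U b a))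
      - κ' • (φ * C.Γ a a * C.Γ b b - φ * C.Γ a b * C.Γ a b) := by
    unfold Calc.rkI Calc.rrI UUof
    algebra
  have n1 := mem_neg m1
  have n2 := mem_neg (mU ha ha hb hb)
  have n3 := mem_smul (2 : ℝ) (mU ha hb hb ha)
  have n4 := mU hb ha hb ha
  have n5 := mΓ ha ha hb hb
  have n6 := mΓ ha hb ha hb
  rw [e, I_sub (mem_add (mem_add n1 m2) (mem_sub (mem_add n2 n3) n4)) (mem_smul _ (mem_sub n5 n6)),
    I_add (mem_add n1 m2) (mem_sub (mem_add n2 n3) n4), I_add n1 m2, I_sub (mem_add n2 n3) n4,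
    I_add n2 n3, I_smul, I_smul, I_sub n5 n6, I_neg, I_neg]

/-- **Continuity of the curvature functional.** -/
theorem Cv_rkI [SigmaFinite m] {κ' : ℝ} (hF : C.Cv F f) (hFb : Tb F f) (h1 : C.Cv u a)
    (h2 : C.Cv v b) :
    Tendsto (fun n => I (C.rkI (UUof m U) κ' (u n) (v n) (v n) (u n) (F n))) atTop
      (𝓝 (I (C.rkI (UUof m U) κ' a b b a f))) := by
  have hD := hC.toIsDir
  have t1 := (hC.Cv_De hB hF hFb h1).mul_lim (hC.Cv_hess hB h2 h2 h1)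
  have t2 := (hC.Cv_De hB hF hFb h2).mul_lim (hC.Cv_hess hB h2 h1 h1)
  have t3 := TE.ip hFb (hC.Cv_U hB hG hU h1 h1) (hC.Cv_U hB hG hU h2 h2)
  have t4 := TE.ip hFb (hC.Cv_U hB hG hU h1 h2) (hC.Cv_U hB hG hU h2 h1)
  have t5 := TE.ip hFb (hC.Cv_U hB hG hU h2 h1) (hC.Cv_U hB hG hU h2 h1)
  have t6 := (hFb.mul (hD.TW_T2 (hC.Cv_Γ hB h1 h1))).mul_lim (hD.TW_T2 (hC.Cv_Γ hB h2 h2))
  have t7 := (hFb.mul (hD.TW_T2 (hC.Cv_Γ hB h1 h2))).mul_lim (hD.TW_T2 (hC.Cv_Γ hB h1 h2))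
  rw [hC.I_rkI hB hU κ' h1.lim h2.lim (hC.test_A hF.lim)]
  refine (((t1.neg.add t2).add ((t3.neg.add (t4.const_mul 2)).sub t5)).sub
    ((t6.sub t7).const_mul κ')).congr fun n => ?_
  rw [hC.I_rkI hB hU κ' (h1.test n) (h2.test n) (hC.test_A (hF.test n))]

end IsGamma

end Vale.Agent.P233
end

section

set_option linter.all false

open MeasureTheory Filter Topology
open scoped ENNReal NNReal InnerProductSpace

namespace Vale.Agent.P233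

variable {M : Type*} [MeasurableSpace M] {m : Measure M} {C : Calc m}
variable {E : Type*} [NormedAddCommGroup E] [InnerProductSpace ℝ E]
variable {Gr : (M →ₘ[m] ℝ) → M → E} {U : (M →ₘ[m] ℝ) → (M →ₘ[m] ℝ) → M → E}

/-- positivity of the curvature functional passes to limits of test functions -/
theorem IsGamma.rkI_lim [SigmaFinite m] (hC : IsGamma C) {κ : ℝ} (hB : C.BEi κ)
    (hG : IsGrad C Gr) (hU : IsHU C Gr U) {κ' : ℝ} {u v F : ℕ → M →ₘ[m] ℝ} {a b f : M →ₘ[m] ℝ}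
    (h1 : C.Cw u a) (h2 : C.Cw v b) (h3 : C.Cw F f)
    (hFb : ∃ B : ℝ, ∀ n, ∀ᵐ x ∂m, |F n x| ≤ B)
    (h : ∀ n, 0 ≤ I (C.rkI (UUof m U) κ' (u n) (v n) (v n) (u n) (F n))) :
    0 ≤ I (C.rkI (UUof m U) κ' a b b a f) := by
  obtain ⟨ns, -, c1, c2, c3, c4⟩ := hC.exists_common hB h1 h2 h3 hFb
  exact ge_of_tendsto (hC.Cv_rkI hB hG hU c3 c4 c1 c2) (Eventually.of_forall fun n => h (ns n))

end Vale.Agent.P233
end

section

set_option linter.all false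

open MeasureTheory Filter Topology
open scoped ENNReal NNReal

namespace Vale.Agent.P233

variable {M : Type*} [MetricSpace M] [SecondCountableTopology M] [MeasurableSpace M]
  [BorelSpace M] {m : Measure M}

/-- cut-off sequences with bounded support -/
theorem cut_seq (hfin : ∀ (x : M) (r : ℝ), m (Metric.ball x r) < ∞) (hC : IsGamma (sob m))
    {K N : ℝ} (hN : 0 < N) (hB : (sob m).BE K N) (x₀ : M) :
    ∃ (χ θ : ℕ → M →ₘ[m] ℝ) (Λ : ℝ), (∀ k, χ k ∈ (sob m).TestI) ∧ (∀ k, θ k ∈ (sob m).TestI) ∧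
      (∀ k, 0 ≤ χ k) ∧ (∀ k, ∀ᵐ x ∂m, |χ k x| ≤ 1) ∧ (∀ k, θ k * χ k = χ k) ∧
      (∀ k, ∃ (x₀ : M) (R : ℝ), ∀ᵐ x ∂m, R < dist x x₀ → θ k x = 0) ∧
      (∀ᵐ x ∂m, Tendsto (fun k => χ k x) atTop (𝓝 1)) ∧
      (∀ k, ∀ᵐ x ∂m, |(sob m).lap (χ k) x| ≤ Λ) ∧
      (∀ᵐ x ∂m, Tendsto (fun k => (sob m).lap (χ k) x) atTop (𝓝 0)) ∧
      (∀ k, ∀ᵐ x ∂m, |(sob m).Γ (χ k) (χ k) x| ≤ Λ * ((k : ℝ) + 1)⁻¹) := by
  have hD := hC.toIsDir
  obtain ⟨Cc, hcut⟩ := exists_cutI hfin hC hN hB x₀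
  have h1 : ∀ k : ℕ, (1 : ℝ) ≤ (k : ℝ) + 1 := fun k => by
    have : (0 : ℝ) ≤ k := Nat.cast_nonneg k
    linarith
  choose χ c1 c2 c3 c4 c5 c6 c7 using fun k : ℕ => hcut ((k : ℝ) + 1) (h1 k)
  choose R' hR' using c5
  choose θ t1 t2 t3 t4 t5 t6 t7 using fun k : ℕ => hcut (max (R' k) 1) (le_max_right _ _)
  have hpos : ∀ k : ℕ, (0 : ℝ) < (k : ℝ) + 1 := fun k => by positivity
  refine ⟨χ, θ, |Cc|, c1, t1, c2, fun k => ?_, fun k => ?_, fun k => ?_, ?_, fun k => ?_, ?_,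
    fun k => ?_⟩
  · filter_upwards [nonneg_iff_ae.1 (c2 k), le_iff_ae.1 (c3 k), one_ae (M := M) (m := m)]
      with x b1 b2 b3
    rw [abs_of_nonneg b1]
    rwa [b3] at b2
  · rw [eq_iff_ae]
    filter_upwards [mul_ae (θ k) (χ k), hR' k, t4 k] with x b1 b2 b3
    rw [b1]
    rcases lt_or_ge (R' k) (dist x x₀) with h | h
    · rw [b2 h, mul_zero]
    · rw [b3 (h.trans (le_max_left _ _)), one_mul]
  · obtain ⟨R'', hR''⟩ := t5 k
    exact ⟨x₀, R'', hR''⟩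
  · filter_upwards [ae_all_iff.2 c4] with x b1
    obtain ⟨n, hn⟩ := exists_nat_ge (dist x x₀)
    refine tendsto_const_nhds.congr' ?_
    filter_upwards [eventually_ge_atTop n] with k hk
    refine (b1 k ?_).symm
    have : (n : ℝ) ≤ k := by exact_mod_cast hk
    linarith
  · filter_upwards [c7 k] with x b1
    refine b1.trans ?_
    rw [div_le_iff₀ (hpos k)]
    have := h1 k
    linarith only [mul_nonneg (sub_nonneg.2 this) (sub_nonneg.2 (abs_nonneg Cc)), le_abs_self Cc]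
  · filter_upwards [ae_all_iff.2 c7] with x b1
    refine squeeze_zero_norm (a := fun k : ℕ => Cc * ((k : ℝ) + 1)⁻¹) (fun k => ?_)
      (by simpa using tendsto_inv_succ.const_mul Cc)
    rw [Real.norm_eq_abs, ← div_eq_mul_inv]
    exact b1 k
  · filter_upwards [c6 k, hD.Γ_nonneg_ae (hC.test_A (c1 k).1).1] with x b1 b2
    rw [abs_of_nonneg b2]
    refine b1.trans ?_
    rw [← div_eq_mul_inv, div_le_div_iff₀ (by have := hpos k; positivity) (hpos k)]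
    have h2 := h1 k
    have h3 : Cc * ((k : ℝ) + 1) ≤ |Cc| * ((k : ℝ) + 1) :=
      mul_le_mul_of_nonneg_right (le_abs_self _) (hpos k).le
    have h4 : |Cc| * ((k : ℝ) + 1) ≤ |Cc| * ((k : ℝ) + 1) ^ 2 :=
      mul_le_mul_of_nonneg_left (by nlinarith) (abs_nonneg _)
    linarith

variable {E : Type*} [NormedAddCommGroup E] [InnerProductSpace ℝ E] {Gr : (M →ₘ[m] ℝ) → M → E}

/-- from nice functions to all test functions -/
theorem ext_all (hfin : ∀ (x : M) (r : ℝ), m (Metric.ball x r) < ∞) (hC : IsGamma (sob m))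
    {K N : ℝ} (hN : 0 < N) (hBN : (sob m).BE K N) (hG : IsGrad (sob m) Gr) [CompleteSpace E]
    {U : (M →ₘ[m] ℝ) → (M →ₘ[m] ℝ) → M → E} (hU : IsHU (sob m) Gr U) {κ : ℝ}
    (H : ∀ a b f χ : M →ₘ[m] ℝ, a ∈ (sob m).TestI → b ∈ (sob m).TestI → f ∈ (sob m).TestI →
      0 ≤ f → χ ∈ (sob m).TestI → χ * a = a → χ * b = b → χ * f = f →
      (∃ (x₀ : M) (R : ℝ), ∀ᵐ x ∂m, R < dist x x₀ → χ x = 0) →
      0 ≤ I ((sob m).rkI (UUof m U) κ a b b a f)) :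
    ∀ a ∈ (sob m).Test, ∀ b ∈ (sob m).Test, ∀ f ∈ (sob m).Test, 0 ≤ f →
      0 ≤ I ((sob m).rkI (UUof m U) κ a b b a f) := by
  rcases isEmpty_or_nonempty M with hM | ⟨⟨x₀⟩⟩
  · intro a _ b _ f _ _
    unfold I
    rw [integral_of_isEmpty]
  have hB : (sob m).BEi K := hC.bei hN hBN
  haveI : SigmaFinite m := by
    refine ⟨⟨⟨fun n => Metric.ball x₀ n, fun n => trivial, fun n => hfin _ _, ?_⟩⟩⟩
    exact Metric.iUnion_ball_nat x₀
  have hD := hC.toIsDir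
  obtain ⟨χ, θ, Λ, cT, tT, c0, cb, tc, tsupp, clim, clap, clap0, cΓ⟩ := cut_seq hfin hC hN hBN x₀
  -- step A: bounded Laplacian
  have stepA : ∀ a ∈ (sob m).TestI, ∀ b ∈ (sob m).TestI, ∀ f ∈ (sob m).TestI, 0 ≤ f →
      0 ≤ I ((sob m).rkI (UUof m U) κ a b b a f) := by
    intro a ha b hb f hf hf0
    have key := fun {g : M →ₘ[m] ℝ} (hg : g ∈ (sob m).Test) =>
      hC.Cv_Cw hB (hC.Cv_cut hB cT cb clim clap clap0 cΓ hg)
    obtain ⟨B, hBf⟩ := mem_top_iff.1 (hC.test_A hf.1).2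
    refine hC.rkI_lim hB hG hU (key ha.1) (key hb.1) (key hf.1) ⟨|B|, fun n => ?_⟩ fun n => ?_
    · filter_upwards [mul_ae (χ n) f, cb n, hBf] with x b1 b2 b3
      rw [b1, abs_mul]
      calc |χ n x| * |f x| ≤ 1 * |B| :=
            mul_le_mul b2 (b3.trans (le_abs_self _)) (abs_nonneg _) zero_le_one
        _ = |B| := one_mul _
    · refine H _ _ _ (θ n) (hC.testI_mul hB (cT n) ha) (hC.testI_mul hB (cT n) hb)
        (hC.testI_mul hB (cT n) hf) (mul_nonneg (c0 n) hf0) (tT n) ?_ ?_ ?_ (tsupp n)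
      · rw [← mul_assoc, tc]
      · rw [← mul_assoc, tc]
      · rw [← mul_assoc, tc]
  -- step B: all test functions
  intro a ha b hb f hf hf0
  obtain ⟨u, u1, u2, -, -⟩ := hC.Cw_J hB ha
  obtain ⟨v, v1, v2, -, -⟩ := hC.Cw_J hB hb
  obtain ⟨F, F1, F2, F3, F4⟩ := hC.Cw_J hB hf
  exact hC.rkI_lim hB hG hU u1 v1 F1 F3 fun n => stepA _ (u2 n) _ (v2 n) _ (F2 n) (F4 hf0 n)

end Vale.Agent.P233
end

section

open MeasureTheory Filter Topology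
open scoped ENNReal NNReal

namespace Vale.Agent.P233

variable {M : Type*} [MetricSpace M] [SecondCountableTopology M] [MeasurableSpace M]
  [BorelSpace M] {m : Measure M} [m.IsOpenPosMeasure]

/-- One pair at scale `ε`: existence of dual potentials `U`, `V` with an almost optimal value.
`L` and `K₁` do not depend on `δ` and the approximations; `h` ranges over test functions close
to `g`, with gradient and Laplacian bounds `Λ`. -/
theorem eps_pair {κ K N : ℝ} (hM : ABSpace m κ K N) (a b F θ g : M →ₘ[m] ℝ) (hg : g ∈ (sob m).A)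
    (η : ℝ) (v e : ℝ × ℝ) :
    ∃ K₁ ≥ 0, ∀ δ, 0 < δ → δ ≤ 1 → ∀ X : Dat m, X.Ok (sob m) θ η δ → X.a = a → X.b = b →
      X.F = F → ∀ h ∈ (sob m).TestI, (sob m).nrm2 (h - g) ≤ (2 * δ) ^ 2 →
      ∃ L ≥ 0, ∃ ε₀ > 0, ∀ ε, 0 < ε → ε ≤ ε₀ → ∀ ξ > 0, ∃ U V : M → ℝ,
        (∀ x y, |U x - U y| ≤ L * dist x y) ∧ (∀ x y, |V x - V y| ≤ L * dist x y) ∧
        (∃ b, ∀ x, |U x| ≤ b) ∧ (∃ b, ∀ x, |V x| ≤ b) ∧
        (∀ x y, V y - U x ≤ dist x y ^ 2 / (2 * ε) + ξ) ∧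
        X.actP (sob m) v e h ε - K₁ * δ * ε ^ 3 - ξ
          ≤ (∫ x, V x * X.rho (sob m) (ε • (v + e)) x ∂m)
            - ∫ x, U x * X.rho (sob m) (ε • v) x ∂m := by
  have hC : IsGamma (sob m) := hM.hC
  have hB : (sob m).BEi K := hM.hB
  haveI : SigmaFinite m := sigmaFinite_of_ball hM.hfin
  obtain ⟨CH, hCH, Kρ, hKρ, hpair⟩ := Dat.pairH hC hB a b F θ g hg η v e
  obtain ⟨c, hc⟩ : ∃ c : ℝ, c = (|e.1| + |e.2|) ^ 2 + 1 := ⟨_, rfl⟩
  have hc0 : 0 < c := by rw [hc]; (clear * -; positivity)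
  refine ⟨10 * CH * c + 100 * Kρ * c ^ 2, by positivity,
    fun δ hδ hδ1 X hX hXa hXb hXF h hh hhg => ?_⟩
  obtain ⟨ε₁, hε₁, hp⟩ := hpair δ hδ hδ1 X hX hXa hXb hXF h hh hhg
  have peI := Dat.pt_memI hC hB hX e
  have GI : (2 : ℝ)⁻¹ • X.G' e e ∈ (sob m).TestI :=
    hC.testI_smul hB _ (Dat.G'_memI hC hB hX e e)
  obtain ⟨Kb, hKb0, hKb⟩ := hC.pot_bounds hB peI hh GI
  have hcl := Dat.e_close hC hB hX hδ.le e
  rw [← hc] at hcl
  obtain ⟨ε₂, hε₂, hac⟩ := hC.ac_lower hB peI hh GI (δ := c * δ) (L := 4 * Kb)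
    (Λ := Kb + 8 * |K| * Kb) (CH := CH) (Kρ := Kρ) (by positivity) hcl (by positivity)
    (by (clear * - hKb0; positivity)) hCH hKρ
  refine ⟨2 * √Kb + 1, by positivity, min (min ε₁ ε₂) 1, by positivity,
    fun ε hε hεle ξ hξ => ?_⟩
  have hε1 : ε ≤ ε₁ := hεle.trans ((min_le_left _ _).trans (min_le_left _ _))
  have hε2 : ε ≤ ε₂ := hεle.trans ((min_le_left _ _).trans (min_le_right _ _))
  have hε3 : ε ≤ 1 := hεle.trans (min_le_right _ _)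
  obtain ⟨σ₀, hσ₀, hσ⟩ := hac ε hε hε2 (X.rho (sob m) (ε • v))
    (X.r (sob m) (ε • v) e - X.D (sob m) e) (X.r (sob m) e e)
    (Dat.e_rho_memA hC hB hX _)
    (hC.toIsDir.A_sub (Dat.r_memA hC hB hX _ _) (Dat.D_memA hC hB hX _))
    (Dat.r_memA hC hB hX _ _)
    (by
      intro t ht
      have h1 := hp ε hε hε1 t ht
      rw [Dat.e_rho hC hB hX, Dat.e_r_sub hC hB hX, Dat.e_ph] at h1
      exact h1) ξ hξ
  -- the viscosity
  obtain ⟨Λ, hΛ⟩ : ∃ Λ : ℝ, Λ = Kb + 8 * |K| * Kb := ⟨_, rfl⟩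
  have hΛ0 : 0 ≤ Λ := by rw [hΛ]; (clear * - hKb0; positivity)
  obtain ⟨σ, hσd⟩ : ∃ σ : ℝ, σ = min σ₀ (min (1 / (8 * |K| + 1)) (ξ / (2 * (Λ + 1)))) := ⟨_, rfl⟩
  have hσ0 : 0 < σ := by rw [hσd]; (clear * - hσ₀ hξ hΛ0; positivity)
  have hσ1 : σ ≤ σ₀ := by rw [hσd]; exact min_le_left _ _
  have hσ2 : σ ≤ 1 / (8 * |K| + 1) := by
    rw [hσd]; exact (min_le_right _ _).trans (min_le_left _ _)
  have hσ3 : σ ≤ ξ / (2 * (Λ + 1)) := by
    rw [hσd]; exact (min_le_right _ _).trans (min_le_right _ _)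
  have h8 : 8 * |K| * σ * ε ≤ 1 := by
    have h9 : 8 * |K| * σ ≤ 1 := by
      calc 8 * |K| * σ ≤ (8 * |K| + 1) * (1 / (8 * |K| + 1)) := by
            refine mul_le_mul (by linarith) hσ2 hσ0.le (by (clear * -; positivity))
        _ = 1 := by field_simp
    calc 8 * |K| * σ * ε ≤ 1 * 1 := mul_le_mul h9 hε3 hε.le zero_le_one
      _ = 1 := one_mul 1
  have hΛσ : Λ * σ * ε ≤ ξ / 2 := by
    have h9 : Λ * σ ≤ ξ / 2 := by
      calc Λ * σ ≤ (Λ + 1) * (ξ / (2 * (Λ + 1))) := by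
            refine mul_le_mul (by linarith) hσ3 hσ0.le (by positivity)
        _ = ξ / 2 := by field_simp
    calc Λ * σ * ε ≤ ξ / 2 * 1 := mul_le_mul h9 hε3 hε.le (by positivity)
      _ = ξ / 2 := mul_one _
  -- the scheme
  have hKb' := hKb ε 0 le_rfl hε.le hε3
  simp only [zero_smul, sub_zero] at hKb'
  have hφT : X.pt e + ε • h ∈ (sob m).Test :=
    hC.test_add' peI.1 (hC.test_smul' ε hh.1)
  obtain ⟨D, N₀, hex⟩ := hC.exists_vhj hB hφT hKb'.2.1 hKb'.1 hσ0 hε h8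
  obtain ⟨n₁, hn₁⟩ := hσ σ hσ0 hσ1 D
  obtain ⟨n₂, hn₂⟩ := pt_vhj (D := D) hM.hfin hM.hq hM.hSL hB hM.geo hσ0.le hε
    (show (0 : ℝ) ≤ 4 * Kb by (clear * - hKb0; positivity)) hΛ0 (half_pos hξ)
  obtain ⟨n, hn⟩ : ∃ n : ℕ, n = max (max N₀ n₁) (max n₂ 1) := ⟨_, rfl⟩
  have hnN : N₀ ≤ n := by omega
  have hn1 : n₁ ≤ n := by omega
  have hn2 : n₂ ≤ n := by omega
  have hn0 : 0 < n := by omega
  obtain ⟨u, hu0, huV⟩ := hex n hnN hn0
  have huV' : (sob m).VHJ σ (ε / n) (4 * Kb) Λ D n u := by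
    refine huV.mono le_rfl ?_
    rw [hΛ]
    have : 8 * |K| * ε * Kb ≤ 8 * |K| * 1 * Kb := by gcongr
    linarith only [this]
  have hG0 : 0 < 2 * √Kb + 1 := by (clear * -; positivity)
  have hG2 : 4 * Kb ≤ (2 * √Kb + 1) ^ 2 := by
    linarith only [Real.sqrt_nonneg Kb, Real.sq_sqrt hKb0]
  have hrep : ∀ k ≤ n, ∃ U : M → ℝ, (∀ x y, |U x - U y| ≤ (2 * √Kb + 1) * dist x y) ∧
      (∃ b, ∀ x, |U x| ≤ b) ∧ u k =ᵐ[m] U := by
    intro k hk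
    have hA := hC.test_A (huV'.test k)
    obtain ⟨U, hU1, hU2⟩ := exists_lip_rep hM.hSL hA.1 hG0 (by
      filter_upwards [huV'.grad k hk] with x hx
      exact hx.trans hG2)
    obtain ⟨B, hBk⟩ := mem_top_iff.1 hA.2
    refine ⟨U, hU1, ⟨B, ?_⟩, hU2⟩
    refine le_of_ae_cont (m := m) (u := fun x => |U x|) (v := fun _ => B)
      (lipschitz_of_abs_sub_le hG0.le hU1).continuous.abs continuous_const ?_
    filter_upwards [hBk, hU2] with x a1 a2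
    rwa [a2] at a1
  obtain ⟨U, hU1, hU2, hU3⟩ := hrep 0 (Nat.zero_le n)
  obtain ⟨V, hV1, hV2, hV3⟩ := hrep n le_rfl
  refine ⟨U, V, hU1, hV1, hU2, hV2, fun x y => ?_, ?_⟩
  · have h1 := hn₂ n hn2 u huV' U V (lipschitz_of_abs_sub_le hG0.le hU1).continuous
      (lipschitz_of_abs_sub_le hG0.le hV1).continuous hU3 hV3 x y
    linarith only [h1, hΛσ]
  · have h1 := hn₁ n hn1 hn0 u (by rw [← hΛ]; exact huV') hu0
    have e1 : ∫ x, V x * X.rho (sob m) (ε • (v + e)) x ∂m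
        = I (u n * (X.rho (sob m) (ε • v) + ε • (X.r (sob m) (ε • v) e - X.D (sob m) e)
          + (ε ^ 2 / 2) • X.r (sob m) e e)) := by
      rw [← Dat.e_rho hC hB hX, ← smul_add]
      unfold I
      refine integral_congr_ae ?_
      filter_upwards [hV3, mul_ae (u n) (X.rho (sob m) (ε • (v + e)))] with x a1 a2
      rw [a2, a1]
    have e2 : ∫ x, U x * X.rho (sob m) (ε • v) x ∂m = I (u 0 * X.rho (sob m) (ε • v)) := by
      unfold I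
      refine integral_congr_ae ?_
      filter_upwards [hU3, mul_ae (u 0) (X.rho (sob m) (ε • v))] with x a1 a2
      rw [a2, a1]
    have e3 : X.actP (sob m) v e h ε = ∫ t in (0:ℝ)..ε,
        (I ((X.pt e + ε • h - t • ((2 : ℝ)⁻¹ • X.G' e e))
            * (X.r (sob m) (ε • v) e - X.D (sob m) e + t • X.r (sob m) e e))
          - 2⁻¹ * I ((X.rho (sob m) (ε • v) + t • (X.r (sob m) (ε • v) e - X.D (sob m) e)
            + (t^2/2) • X.r (sob m) e e) *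
            (sob m).Γ (X.pt e + ε • h - t • ((2 : ℝ)⁻¹ • X.G' e e))
              (X.pt e + ε • h - t • ((2 : ℝ)⁻¹ • X.G' e e)))) := by
      unfold Dat.actP
      refine intervalIntegral.integral_congr fun t _ => ?_
      simp only [Dat.e_ph]
      rw [Dat.e_rho hC hB hX, Dat.e_r_sub hC hB hX]
    rw [e1, e2, e3]
    refine le_trans ?_ h1
    have h2 : (10 * CH * (c * δ) + 100 * Kρ * (c * δ) ^ 2) * ε ^ 3
        ≤ (10 * CH * c + 100 * Kρ * c ^ 2) * δ * ε ^ 3 := by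
      refine mul_le_mul_of_nonneg_right ?_ (by positivity)
      have h3 : 0 ≤ Kρ * c ^ 2 * (δ * (1 - δ)) := by
        have : 0 ≤ δ * (1 - δ) := mul_nonneg hδ.le (by linarith only [hδ1])
        (clear * - hKρ hc0 hδ hδ1; positivity)
      linarith only [h3]
    linarith only [h2]

end Vale.Agent.P233
end

section

/-!
Block CENI-2: the action of the centre curve.
-/

open MeasureTheory Filter Topology
open scoped ENNReal NNReal

namespace Vale.Agent.P233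

variable {M : Type*} [MeasurableSpace M] {m : Measure M} {C : Calc m}

theorem AB.act_alg {ρ J A B : ℝ} (hρ : ρ ≠ 0) :
    ρ * (A * (J / ρ ^ 2) + B * (J / ρ ^ 2) ^ 2) = A * (J / ρ) + B * (J ^ 2 / ρ ^ 3) := by
  field_simp

theorem AB.q_alg {F g D d b c : ℝ} (hF : F ≠ 0) :
    ((d ^ 2 * g + d * F * b + 4⁻¹ * (F ^ 2 * c)) - 2 * (d * g + 2⁻¹ * (F * b)) * D + D ^ 2 * g) / F
      = (d - D) ^ 2 * g / F + (d - D) * b + 4⁻¹ * (F * c) := by
  field_simp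
  ring

theorem AB.int_poly (c0 c1 c2 ε : ℝ) :
    ∫ t in (0 : ℝ)..ε, (c0 + c1 * t + c2 * t ^ 2) = c0 * ε + c1 * (ε ^ 2 / 2) + c2 * (ε ^ 3 / 3) := by
  rw [intervalIntegral.integral_add, intervalIntegral.integral_add,
    intervalIntegral.integral_const, intervalIntegral.integral_const_mul,
    intervalIntegral.integral_const_mul, integral_id, integral_pow]
  · simp
    ring
  all_goals exact (by fun_prop : Continuous _).intervalIntegrable _ _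

theorem AB.y_bd {B d g f b : ℝ} (hB : 0 ≤ B) (hd : |d| ≤ B) (hg : |g| ≤ B) (hf : |f| ≤ B)
    (hb : |b| ≤ B) : |d * g + 2⁻¹ * (f * b)| ≤ B + 2 * B ^ 2 + 3 * B ^ 3 := by
  have h0 : 0 ≤ B ^ 3 := by positivity
  have h1 : 0 ≤ B ^ 2 := by positivity
  calc |d * g + 2⁻¹ * (f * b)| ≤ |d * g| + |2⁻¹ * (f * b)| := abs_add_le _ _
    _ = |d| * |g| + 2⁻¹ * (|f| * |b|) := by
        rw [abs_mul, abs_mul, abs_mul, abs_of_pos (by norm_num : (0 : ℝ) < 2⁻¹)]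
    _ ≤ B * B + 2⁻¹ * (B * B) := by gcongr
    _ = 3 / 2 * B ^ 2 := by ring
    _ ≤ B + 2 * B ^ 2 + 3 * B ^ 3 := by linarith

theorem AB.y2_bd {B d g f b c : ℝ} (hB : 0 ≤ B) (hd : |d| ≤ B) (hg : |g| ≤ B) (hf : |f| ≤ B)
    (hb : |b| ≤ B) (hc : |c| ≤ B) :
    |d ^ 2 * g + d * f * b + 4⁻¹ * (f ^ 2 * c)| ≤ B + 2 * B ^ 2 + 3 * B ^ 3 := by
  have h0 : 0 ≤ B ^ 3 := by positivity
  have h1 : 0 ≤ B ^ 2 := by positivity
  calc |d ^ 2 * g + d * f * b + 4⁻¹ * (f ^ 2 * c)|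
      ≤ |d ^ 2 * g| + |d * f * b| + |4⁻¹ * (f ^ 2 * c)| := abs_add_three _ _ _
    _ = |d| ^ 2 * |g| + |d| * |f| * |b| + 4⁻¹ * (|f| ^ 2 * |c|) := by
        rw [abs_mul, abs_mul, abs_mul, abs_mul, abs_mul, abs_pow, abs_pow,
          abs_of_pos (by norm_num : (0 : ℝ) < 4⁻¹)]
    _ ≤ B ^ 2 * B + B * B * B + 4⁻¹ * (B ^ 2 * B) := by gcongr
    _ = 9 / 4 * B ^ 3 := by ring
    _ ≤ B + 2 * B ^ 2 + 3 * B ^ 3 := by linarith

/-- the pointwise part of `act_le` -/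
theorem AB.act_pt {η B β α C₁ ε₁ : ℝ} (hη : 0 < η) (hB : 0 ≤ B) (hC₁ : 0 ≤ C₁)
    (hreal : ∀ F g D y y2 r t ε : ℝ, η ≤ F → F ≤ B + 2 * B ^ 2 + 3 * B ^ 3 →
      |g| ≤ B + 2 * B ^ 2 + 3 * B ^ 3 → |D| ≤ B + 2 * B ^ 2 + 3 * B ^ 3 →
      |y| ≤ B + 2 * B ^ 2 + 3 * B ^ 3 → |y2| ≤ B + 2 * B ^ 2 + 3 * B ^ 3 →
      |r| ≤ B + 2 * B ^ 2 + 3 * B ^ 3 → 0 ≤ t → t ≤ ε → ε ≤ ε₁ →
      η / 2 ≤ F - t * D + t ^ 2 / 2 * r ∧
      (1 / 2 - β * ε ^ 2) * ((F ^ 2 * g - 2 * t * (F * y) + t ^ 2 * y2) / (F - t * D + t ^ 2 / 2 * r))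
        + α * ε ^ 2 * ((F ^ 2 * g - 2 * t * (F * y) + t ^ 2 * y2) ^ 2
          / (F - t * D + t ^ 2 / 2 * r) ^ 3)
        ≤ 1 / 2 * (F * g) + t / 2 * (D * g - 2 * y)
          + t ^ 2 / 2 * ((y2 - 2 * y * D + D ^ 2 * g) / F - 1 / 2 * (r * g))
          - β * ε ^ 2 * (F * g) + α * ε ^ 2 * (F * g ^ 2) + C₁ * ε ^ 3)
    {F g D d b c r q y y2 J ρ v th t ε : ℝ} (hε : 0 ≤ ε) (ht0 : 0 ≤ t) (htε : t ≤ ε)
    (hε1 : ε ≤ ε₁) (c1 : |F| ≤ B) (c2 : |D| ≤ B) (c3 : |r| ≤ B) (c4 : |d| ≤ B) (c5 : |g| ≤ B)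
    (c6 : |b| ≤ B) (c7 : |c| ≤ B) (ay : y = d * g + 2⁻¹ * (F * b))
    (ay2 : y2 = d ^ 2 * g + d * F * b + 4⁻¹ * (F ^ 2 * c))
    (aq : q = (d - D) ^ 2 * g / F + (d - D) * b + 4⁻¹ * (F * c))
    (aρ : ρ = F - t * D + t ^ 2 / 2 * r) (av : v = J / ρ ^ 2)
    (aJ : J = F ^ 2 * g - 2 * t * (F * y) + t ^ 2 * y2) (b1 : th = 1 → η / 2 ≤ ρ)
    (al : (th = 1 ∧ η ≤ F) ∨ (th ≠ 1 ∧ 0 ≤ F ∧ D = 0 ∧ r = 0 ∧ g = 0 ∧ b = 0 ∧ c = 0)) :
    ρ * ((1 / 2 - β * ε ^ 2) * v + α * ε ^ 2 * v ^ 2)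
      ≤ 2⁻¹ * (F * g) + t / 2 * (D * g - 2 * y) + t ^ 2 / 2 * (q - 2⁻¹ * (r * g))
        - β * ε ^ 2 * (F * g) + α * ε ^ 2 * (F * g ^ 2) + C₁ * ε ^ 3 * th ^ 2 := by
  rcases al with ⟨hθ, hF⟩ | ⟨-, hF, z1, z2, z3, z4, z5⟩
  · have hρ := b1 hθ
    have hρ0 : ρ ≠ 0 := (lt_of_lt_of_le (by positivity) hρ).ne'
    have hF0 : F ≠ 0 := (hη.trans_le hF).ne'
    have hL1 : B ≤ B + 2 * B ^ 2 + 3 * B ^ 3 := by
      have : 0 ≤ 2 * B ^ 2 + 3 * B ^ 3 := by (clear * - hB; positivity)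
      linarith only [this]
    have hyB : |y| ≤ B + 2 * B ^ 2 + 3 * B ^ 3 := by
      rw [ay]; exact AB.y_bd hB c4 c5 c1 c6
    have hy2B : |y2| ≤ B + 2 * B ^ 2 + 3 * B ^ 3 := by
      rw [ay2]; exact AB.y2_bd hB c4 c5 c1 c6 c7
    have hr := (hreal F g D y y2 r t ε hF ((le_abs_self _).trans (c1.trans hL1)) (c5.trans hL1)
      (c2.trans hL1) hyB hy2B (c3.trans hL1) ht0 htε hε1).2
    have hq : (y2 - 2 * y * D + D ^ 2 * g) / F = q := by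
      rw [ay2, ay, aq]
      exact AB.q_alg hF0
    rw [← aρ, ← aJ, hq] at hr
    rw [av, AB.act_alg hρ0, hθ]
    linarith
  · have hJ : J = 0 := by
      rw [aJ, ay, ay2, z3, z4, z5]; ring
    have hv : v = 0 := by rw [av, hJ, zero_div]
    have hq : q = 0 := by
      rw [aq, z3, z4, z5]; simp
    have hy0 : y = 0 := by rw [ay, z3, z4]; ring
    rw [hv, hq, hy0, z3, z1, z2]
    have h1 : 0 ≤ C₁ * ε ^ 3 * th ^ 2 := by (clear * - hC₁ hε; positivity)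
    have e1 : ρ * ((1 / 2 - β * ε ^ 2) * 0 + α * ε ^ 2 * 0 ^ 2) = 0 := by ring
    have e2 : 2⁻¹ * (F * 0) + t / 2 * (0 * 0 - 2 * 0) + t ^ 2 / 2 * (0 - 2⁻¹ * (0 * 0))
        - β * ε ^ 2 * (F * 0) + α * ε ^ 2 * (F * 0 ^ 2) + C₁ * ε ^ 3 * th ^ 2
        = C₁ * ε ^ 3 * th ^ 2 := by ring
    rw [e1, e2]
    exact h1

theorem AB.actL_ae {ρ v : M →ₘ[m] ℝ} (A B : ℝ) : ∀ᵐ x ∂m, (ρ * (A • v + B • v ^ 2)) x
    = ρ x * (A * v x + B * v x ^ 2) := by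
  filter_upwards [mul_ae ρ (A • v + B • v ^ 2), add_ae (A • v) (B • v ^ 2), smul_ae v A,
    smul_ae (v ^ 2) B, sq_ae v] with x a2 a3 a4 a5 a6
  rw [a2, a3, a4, a5, a6]

theorem AB.actR_ae {F g D y q r th : M →ₘ[m] ℝ} (c0 c1 c2 c3 c4 c5 : ℝ) :
    ∀ᵐ x ∂m, (c0 • (F * g) + c1 • (D * g - (2 : ℝ) • y)
      + c2 • (q - (2 : ℝ)⁻¹ • (r * g)) - c3 • (F * g) + c4 • (F * g ^ 2) + c5 • th ^ 2
        : M →ₘ[m] ℝ) x
      = c0 * (F x * g x) + c1 * (D x * g x - 2 * y x) + c2 * (q x - 2⁻¹ * (r x * g x))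
        - c3 * (F x * g x) + c4 * (F x * g x ^ 2) + c5 * th x ^ 2 := by
  set s1 : M →ₘ[m] ℝ := c0 • (F * g) with hs1
  set s2 : M →ₘ[m] ℝ := c1 • (D * g - (2 : ℝ) • y) with hs2
  set s3 : M →ₘ[m] ℝ := c2 • (q - (2 : ℝ)⁻¹ • (r * g)) with hs3
  set s4 : M →ₘ[m] ℝ := c3 • (F * g) with hs4
  set s5 : M →ₘ[m] ℝ := c4 • (F * g ^ 2) with hs5
  set s6 : M →ₘ[m] ℝ := c5 • th ^ 2 with hs6
  have h1 : ∀ᵐ x ∂m, s1 x = c0 * (F x * g x) := by
    filter_upwards [smul_ae (F * g) c0, mul_ae F g] with x a1 a2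
    rw [hs1, a1, a2]
  have h2 : ∀ᵐ x ∂m, s2 x = c1 * (D x * g x - 2 * y x) := by
    filter_upwards [smul_ae (D * g - (2 : ℝ) • y) c1, sub_ae (D * g) ((2 : ℝ) • y), mul_ae D g,
      smul_ae y 2] with x a1 a2 a3 a4
    rw [hs2, a1, a2, a3, a4]
  have h3 : ∀ᵐ x ∂m, s3 x = c2 * (q x - 2⁻¹ * (r x * g x)) := by
    filter_upwards [smul_ae (q - (2 : ℝ)⁻¹ • (r * g)) c2, sub_ae q ((2 : ℝ)⁻¹ • (r * g)),
      smul_ae (r * g) (2 : ℝ)⁻¹, mul_ae r g] with x a1 a2 a3 a4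
    rw [hs3, a1, a2, a3, a4]
  have h4 : ∀ᵐ x ∂m, s4 x = c3 * (F x * g x) := by
    filter_upwards [smul_ae (F * g) c3, mul_ae F g] with x a1 a2
    rw [hs4, a1, a2]
  have h5 : ∀ᵐ x ∂m, s5 x = c4 * (F x * g x ^ 2) := by
    filter_upwards [smul_ae (F * g ^ 2) c4, mul_ae F (g ^ 2), sq_ae g] with x a1 a2 a3
    rw [hs5, a1, a2, a3]
  have h6 : ∀ᵐ x ∂m, s6 x = c5 * th x ^ 2 := by
    filter_upwards [smul_ae (th ^ 2) c5, sq_ae th] with x a1 a2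
    rw [hs6, a1, a2]
  filter_upwards [add_ae (s1 + s2 + s3 - s4 + s5) s6, add_ae (s1 + s2 + s3 - s4) s5,
    sub_ae (s1 + s2 + s3) s4, add_ae (s1 + s2) s3, add_ae s1 s2, h1, h2, h3, h4, h5, h6]
    with x a1 a2 a3 a4 a5 b1 b2 b3 b4 b5 b6
  rw [a1, a2, a3, a4, a5, b1, b2, b3, b4, b5, b6]

namespace Dat

variable {X : Dat m} {θ : M →ₘ[m] ℝ} {η δ : ℝ}

section Ok

variable (hC : IsGamma C) {κ : ℝ} (hB : C.BEi κ) (hX : X.Ok C θ η δ)
include hC hB hX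

theorem Yp_ae (e : ℝ × ℝ) : ∀ᵐ x ∂m, X.Y C e e (X.pt e) x
    = X.D' e x * C.Γ (X.pt e) (X.pt e) x + 2⁻¹ * (X.F x * C.Γ (X.pt e) (X.G' e e) x) := by
  have h := Y_self_ae (X := X) (C := C) e (X.pt e)
  rw [hC.symm _ (hC.test_A (G'_memI hC hB hX e e).1).1 _
    (hC.test_A (pt_memI hC hB hX e).1).1] at h
  exact h

omit hC hB hX in
theorem Y2_ae (e : ℝ × ℝ) : ∀ᵐ x ∂m, X.Y2 C e x
    = X.D' e x ^ 2 * C.Γ (X.pt e) (X.pt e) x + X.D' e x * X.F x * C.Γ (X.pt e) (X.G' e e) x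
      + 4⁻¹ * (X.F x ^ 2 * C.Γ (X.G' e e) (X.G' e e) x) := by
  unfold Y2
  filter_upwards [add_ae (X.D' e ^ 2 * C.Γ (X.pt e) (X.pt e)
      + X.D' e * X.F * C.Γ (X.pt e) (X.G' e e)) ((4 : ℝ)⁻¹ • (X.F ^ 2 * C.Γ (X.G' e e) (X.G' e e))),
    add_ae (X.D' e ^ 2 * C.Γ (X.pt e) (X.pt e)) (X.D' e * X.F * C.Γ (X.pt e) (X.G' e e)),
    mul_ae (X.D' e ^ 2) (C.Γ (X.pt e) (X.pt e)), sq_ae (X.D' e),
    mul_ae (X.D' e * X.F) (C.Γ (X.pt e) (X.G' e e)), mul_ae (X.D' e) X.F,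
    smul_ae (X.F ^ 2 * C.Γ (X.G' e e) (X.G' e e)) (4 : ℝ)⁻¹,
    mul_ae (X.F ^ 2) (C.Γ (X.G' e e) (X.G' e e)), sq_ae X.F] with x a1 a2 a3 a4 a5 a6 a7 a8 a9
  rw [a1, a2, a3, a4, a5, a6, a7, a8, a9]

omit hC hB hX in
theorem J2_ae' (t : ℝ) (e : ℝ × ℝ) : ∀ᵐ x ∂m, X.J2 C e t x
    = X.F x ^ 2 * C.Γ (X.pt e) (X.pt e) x - 2 * t * (X.F x * X.Y C e e (X.pt e) x)
      + t ^ 2 * X.Y2 C e x := by
  unfold J2
  filter_upwards [add_ae (X.F ^ 2 * C.Γ (X.pt e) (X.pt e) - (2 * t) • (X.F * X.Y C e e (X.pt e)))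
      (t ^ 2 • X.Y2 C e), sub_ae (X.F ^ 2 * C.Γ (X.pt e) (X.pt e))
      ((2 * t) • (X.F * X.Y C e e (X.pt e))), mul_ae (X.F ^ 2) (C.Γ (X.pt e) (X.pt e)), sq_ae X.F,
    smul_ae (X.F * X.Y C e e (X.pt e)) (2 * t), mul_ae X.F (X.Y C e e (X.pt e)),
    smul_ae (X.Y2 C e) (t ^ 2)] with x a1 a2 a3 a4 a5 a6 a7
  rw [a1, a2, a3, a4, a5, a6, a7]

theorem Y2_mem1 (e : ℝ × ℝ) : MemLp (X.Y2 C e) 1 m := by
  have hD := hC.toIsDir
  have hp := pt_memI hC hB hX e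
  have hg := G'_memI hC hB hX e e
  have pW := (hC.test_A hp.1).1
  have gW := (hC.test_A hg.1).1
  have dT := (hC.test_A (D'_memI hC hB hX e).1).2
  have FT := (hC.test_A hX.hF.1).2
  have d2 : MemLp (X.D' e ^ 2 : M →ₘ[m] ℝ) ∞ m := by rw [sq]; exact mem_mul_top dT dT
  have F2 : MemLp (X.F ^ 2 : M →ₘ[m] ℝ) ∞ m := by rw [sq]; exact mem_mul_top FT FT
  exact mem_add (mem_add (mem_mul_top d2 (hC.mem1 _ pW))
    (mem_mul_top (mem_mul_top dT FT) (hD.Γ_mem1 pW gW))) (mem_smul _ (mem_mul_top F2 (hC.mem1 _ gW)))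

theorem J2_mem1 (t : ℝ) (e : ℝ × ℝ) : MemLp (X.J2 C e t) 1 m := by
  have pW := (hC.test_A (pt_memI hC hB hX e).1).1
  have FT := (hC.test_A hX.hF.1).2
  have F2 : MemLp (X.F ^ 2 : M →ₘ[m] ℝ) ∞ m := by rw [sq]; exact mem_mul_top FT FT
  exact mem_add (mem_sub (mem_mul_top F2 (hC.mem1 _ pW))
    (mem_smul _ (mem_mul_top FT (Y_mem1 hC hB hX e e pW)))) (mem_smul _ (Y2_mem1 hC hB hX e))

/-- the integrand of the action is integrable -/
theorem act_mem (e : ℝ × ℝ) : ∃ ε₀ > 0, ∀ t ∈ Set.Icc (0 : ℝ) ε₀, ∀ A B : ℝ,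
    MemLp (X.rho C (t • e) * (A • X.v2 C e t + B • X.v2 C e t ^ 2) : M →ₘ[m] ℝ) 1 m := by
  obtain ⟨ε₀, hε₀, -, V, hV, hp⟩ := pos_ae hC hB hX e
  refine ⟨ε₀, hε₀, fun t ht A B => ?_⟩
  have hη := hX.hη
  refine mem_of_le (mem_smul ((|A| + |B| * V) * (2 / η)) (J2_mem1 hC hB hX t e)) ?_
  filter_upwards [hp t ht, mul_ae (X.rho C (t • e)) (A • X.v2 C e t + B • X.v2 C e t ^ 2),
    add_ae (A • X.v2 C e t) (B • X.v2 C e t ^ 2), smul_ae (X.v2 C e t) A,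
    smul_ae (X.v2 C e t ^ 2) B, sq_ae (X.v2 C e t),
    smul_ae (X.J2 C e t) ((|A| + |B| * V) * (2 / η)), loc_ae hC hB hX e,
    v2_ae (X := X) (C := C) e t, J2_ae hC hB hX t e] with x a1 a2 a3 a4 a5 a6 a7 a8 a9 a10
  obtain ⟨b1, b2, b3, b4, b5, b6⟩ := a1
  rw [a2, a3, a4, a5, a6, a7, abs_mul, abs_of_nonneg b2,
    abs_of_nonneg (mul_nonneg (by (clear * - hV hη; positivity)) b3)]
  set ρ := X.rho C (t • e) x
  set v := X.v2 C e t x
  set J := X.J2 C e t x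
  have h1 : |A * v + B * v ^ 2| ≤ (|A| + |B| * V) * v := by
    have e1 : |A * v| = |A| * v := by rw [abs_mul, abs_of_nonneg b4]
    have e2 : |B * v ^ 2| = |B| * v * v := by
      rw [abs_mul, abs_of_nonneg (sq_nonneg v)]; ring
    have e3 : |B| * v * v ≤ |B| * V * v := by gcongr
    calc |A * v + B * v ^ 2| ≤ |A * v| + |B * v ^ 2| := abs_add_le _ _
      _ ≤ |A| * v + |B| * V * v := by rw [e1, e2]; linarith only [e3]
      _ = _ := by ring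
  have h2 : ρ * v ≤ 2 / η * J := by
    rcases a8 with ⟨hθ, -⟩ | ⟨-, -, -, -, z3, z4, z5⟩
    · have hρ := b1 hθ
      have hρ0 : 0 < ρ := lt_of_lt_of_le (by positivity) hρ
      have e1 : ρ * v = J / ρ := by
        rw [← b6]; field_simp
      rw [e1, div_le_iff₀ hρ0]
      have e2 : J * (2 / η * (η / 2)) ≤ J * (2 / η * ρ) := by gcongr
      have e3 : (2 / η * (η / 2) : ℝ) = 1 := by field_simp
      rw [e3, mul_one] at e2
      linarith only [e2]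
    · have hJ : J = 0 := by
        rw [a10, z3, z4, z5]; ring
      have hv : v = 0 := by
        rw [a9, hJ, zero_div]
      rw [hv, hJ]; simp
  calc ρ * |A * v + B * v ^ 2| ≤ ρ * ((|A| + |B| * V) * v) := mul_le_mul_of_nonneg_left h1 b2
    _ = (|A| + |B| * V) * (ρ * v) := by ring
    _ ≤ (|A| + |B| * V) * (2 / η * J) := mul_le_mul_of_nonneg_left h2 (by (clear * - hV; positivity))
    _ = _ := by ring

/-- the pointwise upper bound of the integrand of the action -/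
theorem act_le (e : ℝ × ℝ) (β α : ℝ) (hα : 0 ≤ α) : ∃ C₁ ≥ 0, ∃ ε₀ > 0, ∀ ε, 0 < ε → ε ≤ ε₀ →
    ∀ t ∈ Set.Icc 0 ε,
      X.rho C (t • e) * ((1 / 2 - β * ε ^ 2) • X.v2 C e t + (α * ε ^ 2) • X.v2 C e t ^ 2)
        ≤ (2 : ℝ)⁻¹ • (X.F * X.Ge C e) + (t / 2) • (X.D C e * X.Ge C e
            - (2 : ℝ) • X.Y C e e (X.pt e))
          + (t ^ 2 / 2) • (X.qc C e - (2 : ℝ)⁻¹ • (X.r C e e * X.Ge C e))
          - (β * ε ^ 2) • (X.F * X.Ge C e) + (α * ε ^ 2) • (X.F * X.Ge C e ^ 2)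
          + (C₁ * ε ^ 3) • θ ^ 2 := by
  have hη := hX.hη
  obtain ⟨B, hB0, hb⟩ := exists_bound hC hB hX e
  obtain ⟨C₁, hC₁, ε₁, hε₁, hreal⟩ := AB.cen_real η (B + 2 * B ^ 2 + 3 * B ^ 3) β α hη hα
  obtain ⟨ε₂, hε₂, -, V, hV, hp⟩ := pos_ae hC hB hX e
  refine ⟨C₁, hC₁, min ε₁ ε₂, lt_min hε₁ hε₂, fun ε hε hεε t ht => ?_⟩
  have ht2 : t ∈ Set.Icc (0 : ℝ) ε₂ := ⟨ht.1, ht.2.trans (hεε.trans (min_le_right _ _))⟩
  have hε1 : ε ≤ ε₁ := hεε.trans (min_le_left _ _)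
  rw [le_iff_ae]
  filter_upwards [AB.actL_ae (ρ := X.rho C (t • e)) (v := X.v2 C e t) (1 / 2 - β * ε ^ 2)
      (α * ε ^ 2), AB.actR_ae (F := X.F) (g := X.Ge C e) (D := X.D C e)
      (y := X.Y C e e (X.pt e)) (q := X.qc C e) (r := X.r C e e) (th := θ) (2 : ℝ)⁻¹ (t / 2)
      (t ^ 2 / 2) (β * ε ^ 2) (α * ε ^ 2) (C₁ * ε ^ 3), hb, hp t ht2, loc_ae hC hB hX e,
    rho_ae hC hB hX t e, v2_ae (X := X) (C := C) e t, J2_ae' (X := X) (C := C) t e,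
    Yp_ae hC hB hX e, Y2_ae (X := X) (C := C) e, qc_ae (X := X) (C := C) e]
    with x aL aR ab ap al aρ av aJ ay ay2 aq
  rw [aL, aR]
  exact AB.act_pt hη hB0 hC₁ hreal hε.le ht.1 ht.2 hε1 ab.1 ab.2.1 ab.2.2.1 ab.2.2.2.1
    ab.2.2.2.2.1 ab.2.2.2.2.2.1 ab.2.2.2.2.2.2 ay ay2 aq aρ av aJ ap.1 al

end Ok

/-- the action of the centre curve, with a constant `K₁` that does not depend on `δ` and on the
approximations -/
theorem cen_act [SigmaFinite m] (hC : IsGamma C) {K : ℝ} (hB : C.BEi K)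
    (a b F θ : M →ₘ[m] ℝ) (η : ℝ) (e : ℝ × ℝ) :
    ∃ K₁ ≥ 0, ∀ δ, 0 < δ → δ ≤ 1 → ∀ X : Dat m, X.Ok C θ η δ → X.a = a → X.b = b →
      X.F = F → ∀ β α : ℝ, 0 ≤ α → ∃ C₀ ≥ 0, ∃ ε₀ > 0, ∀ ε, 0 < ε → ε ≤ ε₀ →
      ∃ act : ℝ → ℝ, Continuous act ∧ (∀ t ∈ Set.Icc 0 ε,
        MemLp (X.rho C (t • e) * ((1 / 2 - β * ε ^ 2) • X.v2 C e t
          + (α * ε ^ 2) • X.v2 C e t ^ 2) : M →ₘ[m] ℝ) 1 m ∧
        I (X.rho C (t • e) * ((1 / 2 - β * ε ^ 2) • X.v2 C e t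
          + (α * ε ^ 2) • X.v2 C e t ^ 2)) ≤ act t) ∧
        ∫ t in (0 : ℝ)..ε, act t ≤ ε / 2 * X.E2 C e e
          + ε ^ 2 / 2 * (X.X3 C e e e + X.W3 C e e e)
          + ε ^ 3 * (X.C3 C e - β * I (X.F * X.Ge C e) + α * I (X.F * X.Ge C e ^ 2))
          + K₁ * δ * ε ^ 3 + C₀ * ε ^ 4 := by
  by_cases h : a ∈ C.TestI ∧ b ∈ C.TestI ∧ F ∈ C.TestI ∧ 0 < η
  swap
  · exact ⟨0, le_rfl, fun δ _ _ X hX ha hb hF => absurd
      ⟨ha ▸ hX.ha, hb ▸ hX.hb, hF ▸ hX.hF, hX.hη⟩ h⟩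
  obtain ⟨ha, hb, hF, hη⟩ := h
  have hD := hC.toIsDir
  have hpt : e.1 • a + e.2 • b ∈ C.TestI :=
    hC.testI_add hB (hC.testI_smul hB _ ha) (hC.testI_smul hB _ hb)
  obtain ⟨Kg, hKg⟩ := mem_top_iff.1 (hC.Γ_mem hB hpt.1 hpt.1).2
  obtain ⟨KF, hKF⟩ := mem_top_iff.1 (hC.test_A hF.1).2
  set Cd : ℝ := 2 * e.1 ^ 2 + 2 * e.2 ^ 2 with hCd
  set Cu : ℝ := 4 * (e.1 * e.1) ^ 2 + 4 * (e.1 * e.2 + e.2 * e.1) ^ 2 + 2 * (e.2 * e.2) ^ 2
    with hCu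
  set G0 := C.Γ (e.1 • a + e.2 • b) (e.1 • a + e.2 • b) with hG0
  have hE0 : 0 ≤ I (C.Γ G0 G0) := hD.E_nonneg (hC.Γ_mem hB hpt.1 hpt.1).1
  set K₆ : ℝ := (|Kg| / η + 1 / 2) * Cd + 3 / 4 * Cd + (3 / 4 * |Kg| + 3 / 8 * |KF|)
    * I (C.Γ G0 G0) + (|Kg| / 2 + |KF| / 4) * Cu + 3 / 8 * |KF| * Cu with hK₆
  have hCd0 : 0 ≤ Cd := by positivity
  have hCu0 : 0 ≤ Cu := by (clear * -; positivity)
  have hK₆0 : 0 ≤ K₆ := by (clear * - hη hE0; positivity)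
  refine ⟨K₆ / 6, by (clear * - hη hE0; positivity), fun δ hδ hδ1 X hX hXa hXb hXF β α hα => ?_⟩
  subst hXa hXb hXF
  have eG : X.Ge C e = G0 := rfl
  have hck := cenK hC hB hX hδ hδ1 e (Kg := |Kg|) (KF := |KF|)
    (hKg.mono fun x hx => ((le_abs_self _).trans hx).trans (le_abs_self _))
    (hKF.mono fun x hx => ((le_abs_self _).trans hx).trans (le_abs_self _))
    (abs_nonneg _) (abs_nonneg _) hCd hCu
  rw [eG] at hck
  obtain ⟨ε₁, hε₁, hmem⟩ := act_mem hC hB hX e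
  obtain ⟨C₁, hC₁, ε₂, hε₂, hle⟩ := act_le hC hB hX e β α hα
  have hθ2 : 0 ≤ I (θ ^ 2) := I_sq_nonneg θ
  refine ⟨C₁ * I (θ ^ 2), by positivity, min ε₁ ε₂, lt_min hε₁ hε₂, fun ε hε hεε => ?_⟩
  have hε1 : ε ≤ ε₁ := hεε.trans (min_le_left _ _)
  have hε2 : ε ≤ ε₂ := hεε.trans (min_le_right _ _)
  -- the pieces
  have pW := (hC.test_A (pt_memI hC hB hX e).1).1
  have GA : X.Ge C e ∈ C.A := Ge_memA hC hB hX e
  have G1 : MemLp (X.Ge C e) 1 m := hC.mem1 _ pW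
  have FT := (hC.test_A hX.hF.1).2
  have m1 : MemLp (X.F * X.Ge C e : M →ₘ[m] ℝ) 1 m := mem_mul_top FT G1
  have m2 : MemLp (X.D C e * X.Ge C e : M →ₘ[m] ℝ) 1 m := mem_mul_top (D_memA hC hB hX e).2 G1
  have m3 : MemLp (X.Y C e e (X.pt e)) 1 m := Y_mem1 hC hB hX e e pW
  have m4 : MemLp (X.qc C e) 1 m := qc_mem1 hC hB hX e
  have m5 : MemLp (X.r C e e * X.Ge C e : M →ₘ[m] ℝ) 1 m :=
    mem_mul_top (r_memA hC hB hX e e).2 G1
  have m6 : MemLp (X.F * X.Ge C e ^ 2 : M →ₘ[m] ℝ) 1 m :=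
    mem_mul_top FT (by rw [sq]; exact mem_mul_top GA.2 G1)
  have m7 : MemLp (θ ^ 2 : M →ₘ[m] ℝ) 1 m := mem_sq (hC.memLp _ (hC.test_A hX.hθ.1).1)
  set c0 : ℝ := 2⁻¹ * I (X.F * X.Ge C e) - β * ε ^ 2 * I (X.F * X.Ge C e)
    + α * ε ^ 2 * I (X.F * X.Ge C e ^ 2) + C₁ * ε ^ 3 * I (θ ^ 2) with hc0
  set c1 : ℝ := 2⁻¹ * (I (X.D C e * X.Ge C e) - 2 * I (X.Y C e e (X.pt e))) with hc1
  set c2 : ℝ := 2⁻¹ * (I (X.qc C e) - 2⁻¹ * I (X.r C e e * X.Ge C e)) with hc2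
  refine ⟨fun t => c0 + c1 * t + c2 * t ^ 2, by fun_prop, fun t ht => ?_, ?_⟩
  · have hm := hmem t ⟨ht.1, ht.2.trans hε1⟩ (1 / 2 - β * ε ^ 2) (α * ε ^ 2)
    refine ⟨hm, ?_⟩
    have n1 := mem_smul (2 : ℝ)⁻¹ m1
    have n2 := mem_smul (t / 2) (mem_sub m2 (mem_smul (2 : ℝ) m3))
    have n3 := mem_smul (t ^ 2 / 2) (mem_sub m4 (mem_smul (2 : ℝ)⁻¹ m5))
    have n4 := mem_smul (β * ε ^ 2) m1
    have n5 := mem_smul (α * ε ^ 2) m6
    have n6 := mem_smul (C₁ * ε ^ 3) m7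
    refine (I_mono hm (mem_add (mem_add (mem_sub (mem_add (mem_add n1 n2) n3) n4) n5) n6)
      (hle ε hε hε2 t ht)).trans (le_of_eq ?_)
    rw [I_add (mem_add (mem_sub (mem_add (mem_add n1 n2) n3) n4) n5) n6,
      I_add (mem_sub (mem_add (mem_add n1 n2) n3) n4) n5,
      I_sub (mem_add (mem_add n1 n2) n3) n4, I_add (mem_add n1 n2) n3, I_add n1 n2,
      I_smul, I_smul, I_smul, I_smul, I_smul, I_smul, I_sub m2 (mem_smul _ m3), I_smul,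
      I_sub m4 (mem_smul _ m5), I_smul]
    rw [hc0, hc1, hc2]
    ring
  · rw [AB.int_poly]
    have e1 : X.E2 C e e = I (X.F * X.Ge C e) := rfl
    have e2 : X.X3 C e e e = -I (X.Y C e e (X.pt e)) := rfl
    have e3 : X.W3 C e e e = 2⁻¹ * I (X.D C e * X.Ge C e) := rfl
    rw [e1, e2, e3, hc0, hc1, hc2]
    have h3 : ε ^ 3 * (I (X.qc C e) - 2⁻¹ * I (X.r C e e * X.Ge C e))
        ≤ ε ^ 3 * (6 * X.C3 C e + K₆ * δ) := by
      refine mul_le_mul_of_nonneg_left ?_ (by positivity)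
      rw [eG]
      exact hck
    linarith only [h3]

end Dat

end Vale.Agent.P233
end

section

/-!
Block EPS-2: one centre curve at scale `ε`.
-/

open MeasureTheory Filter Topology
open scoped ENNReal NNReal

namespace Vale.Agent.P233

section

variable {M : Type*} [MeasurableSpace M] {m : Measure M} {C : Calc m} {X : Dat m}
  {θ : M →ₘ[m] ℝ} {η δ : ℝ}

theorem Dat.eps2_D_mem1 (hC : IsGamma C) {κ : ℝ} (hB : C.BEi κ) (hX : X.Ok C θ η δ) (e : ℝ × ℝ) :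
    MemLp (X.D C e) 1 m := by
  rw [← mul_eq_of_sub_one (Dat.loc_D hC hB hX e)]
  exact mem_mul_22 (hC.memLp _ (hC.test_A hX.hθ.1).1) (hC.memLp _ (Dat.D_memA hC hB hX e).1)

theorem Dat.eps2_r_mem1 (hC : IsGamma C) {κ : ℝ} (hB : C.BEi κ) (hX : X.Ok C θ η δ) (e : ℝ × ℝ) :
    MemLp (X.r C e e) 1 m := by
  rw [← mul_eq_of_sub_one (Dat.loc_r hC hB hX e e)]
  exact mem_mul_22 (hC.memLp _ (hC.test_A hX.hθ.1).1) (hC.memLp _ (Dat.r_memA hC hB hX e e).1)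

end

variable {M : Type*} [MetricSpace M] [SecondCountableTopology M] [MeasurableSpace M]
  [BorelSpace M] {m : Measure M}

/-- One centre curve at scale `ε`. -/
theorem eps_centre {κ K N : ℝ} (hM : ABSpace m κ K N) (a b F θ : M →ₘ[m] ℝ)
    (η : ℝ) (hsupp : ∃ (x₀ : M) (R : ℝ), ∀ᵐ x ∂m, R < dist x x₀ → F x = 0)
    (e : ℝ × ℝ) :
    ∃ K₁ ≥ 0, ∀ δ, 0 < δ → δ ≤ 1 → ∀ X : Dat m, X.Ok (sob m) θ η δ → X.a = a → X.b = b →
      X.F = F → ∀ β α : ℝ, 0 ≤ α → ∃ C₀ ≥ 0, ∃ ε₀ > 0, ∀ ε, 0 < ε → ε ≤ ε₀ →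
      ∀ ψ : M → ℝ, (∃ L : ℝ, ∀ x y, |ψ x - ψ y| ≤ L * dist x y) → (∃ b, ∀ x, |ψ x| ≤ b) →
        ∫ x, (⨅ y, (ψ y + ((1 / 2 - β * ε ^ 2) * dist x y ^ 2 / ε
          + (α * ε ^ 2) * dist x y ^ 4 / ε ^ 3))) * F x ∂m
        ≤ (∫ x, ψ x * X.rho (sob m) (ε • e) x ∂m) + X.cp (sob m) e β α ε
          + K₁ * δ * ε ^ 3 + C₀ * ε ^ 4 := by
  have hC := hM.hC
  have hB := hM.hB
  have : SigmaFinite m := sigmaFinite_of_ball hM.hfin
  obtain ⟨K₁, hK₁, hact⟩ := Dat.cen_act hC hB a b F θ η e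
  refine ⟨K₁, hK₁, fun δ hδ hδ1 X hX ha hb hF β α hα => ?_⟩
  obtain ⟨C₀, hC₀, ε₁, hε₁, H⟩ := hact δ hδ hδ1 X hX ha hb hF β α hα
  obtain ⟨ε₂, hε₂, V, hV, Hf⟩ := Dat.cen_flux hC hB hX e
  refine ⟨C₀, hC₀, min ε₁ (min ε₂ (1 / (4 * (|β| + 1)))),
    lt_min hε₁ (lt_min hε₂ (by (clear * -; positivity))), ?_⟩
  intro ε hε hεm ψ hψL hψb
  have k1 : ε ≤ ε₁ := hεm.trans (min_le_left _ _)
  have k2 : ε ≤ ε₂ := hεm.trans ((min_le_right _ _).trans (min_le_left _ _))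
  have k3 : ε ≤ 1 / (4 * (|β| + 1)) := hεm.trans ((min_le_right _ _).trans (min_le_right _ _))
  have hA : 0 < 1 / 2 - β * ε ^ 2 := by
    rw [le_div_iff₀ (by positivity)] at k3
    have h0 := abs_nonneg β
    have h1 : β * ε ^ 2 ≤ |β| * ε ^ 2 := mul_le_mul_of_nonneg_right (le_abs_self β) (sq_nonneg ε)
    have h2 : 0 ≤ |β| * ε := mul_nonneg h0 hε.le
    have h3 : ε ≤ 1 / 4 := by linarith only [h2, k3]
    have h4 : |β| * ε ^ 2 ≤ |β| * ε * (1 / 4) := by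
      calc |β| * ε ^ 2 = |β| * ε * ε := by ring
        _ ≤ |β| * ε * (1 / 4) := mul_le_mul_of_nonneg_left h3 h2
    linarith only [h4, h3, h1, k3, hε]
  obtain ⟨act, hac, hact1, hact2⟩ := H ε hε k1
  have hrho : ∀ t : ℝ, X.rho (sob m) (t • e)
      = F + t • (-X.D (sob m) e) + (t ^ 2 / 2) • X.r (sob m) e e := by
    intro t
    rw [Dat.rho_eq hC hB hX, hF, smul_neg, ← sub_eq_add_neg]
  have hL : ∃ K, LipschitzWith K ψ := by
    obtain ⟨L, hL⟩ := hψL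
    refine ⟨L.toNNReal, LipschitzWith.of_dist_le_mul fun x y => ?_⟩
    rw [Real.dist_eq]
    exact (hL x y).trans (mul_le_mul_of_nonneg_right (Real.le_coe_toNNReal L) dist_nonneg)
  have hs : ∃ (x₀ : M) (R : ℝ), ∀ᵐ x ∂m, R < dist x x₀ →
      F x = 0 ∧ (-X.D (sob m) e : M →ₘ[m] ℝ) x = 0 ∧ X.r (sob m) e e x = 0 := by
    obtain ⟨x₀, R, hR⟩ := hsupp
    refine ⟨x₀, R, ?_⟩
    filter_upwards [hR, Dat.loc_ae hC hB hX e, neg_ae (X.D (sob m) e)] with x h1 h2 h3 hd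
    have h4 := h1 hd
    rcases h2 with h2 | h2
    · have := hX.hη
      rw [hF, h4] at h2
      linarith [h2.2]
    · refine ⟨h4, ?_, h2.2.2.2.1⟩
      rw [h3, h2.2.2.1, neg_zero]
  have main := bb (F := F) (R1 := -X.D (sob m) e) (R2 := X.r (sob m) e e) hM.hfin hA
    (by positivity : 0 ≤ α * ε ^ 2) hε hL hψb (by rw [← hF]; exact hX.hF1)
    (mem_neg (Dat.eps2_D_mem1 hC hB hX e)) (Dat.eps2_r_mem1 hC hB hX e) hs
    (fun t ht => by
      rw [← hrho]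
      exact (Hf t ⟨ht.1, ht.2.trans k2⟩).1)
    (fun t g => X.F * (sob m).Γ (X.pt e) g - t • X.Y (sob m) e e g)
    (fun t => X.v2 (sob m) e t)
    (fun t ht => (Hf t ⟨ht.1, ht.2.trans k2⟩).2.1) act
    (fun t ht g hg hg1 hg2 => by
      have h := (Hf t ⟨ht.1, ht.2.trans k2⟩).2.2.2.2 g hg hg1 hg2
      refine ⟨h.1, ?_⟩
      rw [neg_add_eq_sub]
      exact h.2.1)
    (fun t ht g hg hg1 hg2 => by
      rw [← hrho]
      exact ((Hf t ⟨ht.1, ht.2.trans k2⟩).2.2.2.2 g hg hg1 hg2).2.2)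
    (fun t ht => by
      rw [← hrho]
      exact (hact1 t ht).1)
    (fun t ht => by
      rw [← hrho]
      exact (hact1 t ht).2)
    (hac.intervalIntegrable 0 ε)
  rw [← hrho] at main
  refine main.trans ?_
  unfold Dat.cp
  linarith only [hact2]

end Vale.Agent.P233
end

section

open MeasureTheory Filter Topology
open scoped ENNReal NNReal

namespace Vale.Agent.P233

namespace EpsM

section rho

variable {M : Type*} [MeasurableSpace M] {m : Measure M} {C : Calc m} {K : ℝ} {θ : M →ₘ[m] ℝ}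
  {η δ : ℝ} {X : Dat m}

/-- bounded Sobolev functions living where `θ = 1` are integrable -/
theorem loc_mem1 (hC : IsGamma C) (hθ : θ ∈ C.TestI) {u : M →ₘ[m] ℝ} (hu : u ∈ C.A)
    (h : (1 - θ) * u = 0) : MemLp u 1 m := by
  have e := mul_eq_of_sub_one h
  rw [← e]
  exact mem_mul_22 (hC.memLp _ (hC.test_A hθ.1).1) (hC.memLp _ hu.1)

theorem rho_mem1 (hC : IsGamma C) (hB : C.BEi K) (hX : X.Ok C θ η δ) (v : ℝ × ℝ) :
    MemLp (X.rho C v) 1 m :=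
  mem_add (mem_sub hX.hF1 (loc_mem1 hC hX.hθ (Dat.D_memA hC hB hX v) (Dat.loc_D hC hB hX v)))
    (mem_smul _ (loc_mem1 hC hX.hθ (Dat.r_memA hC hB hX v v) (Dat.loc_r hC hB hX v v)))

theorem F_nonneg (hX : X.Ok C θ η δ) : 0 ≤ X.F :=
  le_trans (smul_nonneg' hX.hη.le hX.hθ0) hX.Fη

end rho

section inf

variable {M : Type*} [MetricSpace M] [MeasurableSpace M] [BorelSpace M] {m : Measure M}

theorem inf_bdd {ψ : M → ℝ} {c : ℝ → ℝ} {B : ℝ} (hψ : ∀ y, |ψ y| ≤ B) (hc0 : ∀ d, 0 ≤ c d)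
    (z : M) : BddBelow (Set.range fun y => ψ y + c (dist z y)) := by
  refine ⟨-B, ?_⟩
  rintro _ ⟨y, rfl⟩
  have := (abs_le.1 (hψ y)).1
  have := hc0 (dist z y)
  simp only
  linarith

theorem inf_meas {ψ : M → ℝ} {c : ℝ → ℝ} {B : ℝ} (hψ : ∀ y, |ψ y| ≤ B) (hc : Continuous c)
    (hc0 : ∀ d, 0 ≤ c d) : Measurable fun z => ⨅ y, (ψ y + c (dist z y)) := by
  refine UpperSemicontinuous.measurable (upperSemicontinuous_ciInf (fun z => inf_bdd hψ hc0 z)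
    fun y => Continuous.upperSemicontinuous ?_)
  exact continuous_const.add (hc.comp (continuous_id.dist continuous_const))

theorem inf_abs {ψ : M → ℝ} {c : ℝ → ℝ} {B : ℝ} (hψ : ∀ y, |ψ y| ≤ B) (hc0 : ∀ d, 0 ≤ c d)
    (hcz : c 0 = 0) (z : M) : |⨅ y, (ψ y + c (dist z y))| ≤ B := by
  have : Nonempty M := ⟨z⟩
  rw [abs_le]
  constructor
  · refine le_ciInf fun y => ?_
    have := (abs_le.1 (hψ y)).1
    have := hc0 (dist z y)
    linarith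
  · refine (ciInf_le (inf_bdd hψ hc0 z) z).trans ?_
    rw [dist_self, hcz, add_zero]
    exact (abs_le.1 (hψ z)).2

theorem inf_int {ψ : M → ℝ} {c : ℝ → ℝ} {B : ℝ} (hψ : ∀ y, |ψ y| ≤ B) (hc : Continuous c)
    (hc0 : ∀ d, 0 ≤ c d) (hcz : c 0 = 0) {F : M → ℝ} (hF : Integrable F m) :
    Integrable (fun z => (⨅ y, (ψ y + c (dist z y))) * F z) m :=
  hF.bdd_mul (inf_meas hψ hc hc0).aestronglyMeasurable
    (Eventually.of_forall fun z => by rw [Real.norm_eq_abs]; exact inf_abs hψ hc0 hcz z)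

theorem lip_int {U : M → ℝ} {L : ℝ} (hU : ∀ x y, |U x - U y| ≤ L * dist x y)
    (hb : ∃ b, ∀ x, |U x| ≤ b) {F : M → ℝ} (hF : Integrable F m) :
    Integrable (fun z => U z * F z) m := by
  obtain ⟨b, hb⟩ := hb
  have hc : Continuous U := (LipschitzWith.of_dist_le_mul (K := L.toNNReal) fun x y => by
    rw [Real.dist_eq]
    refine (hU x y).trans ?_
    exact mul_le_mul_of_nonneg_right (Real.le_coe_toNNReal L) dist_nonneg).continuous
  exact hF.bdd_mul hc.measurable.aestronglyMeasurable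
    (Eventually.of_forall fun z => by rw [Real.norm_eq_abs]; exact hb z)

end inf

theorem cst_nonneg {κ : ℝ} {t : Fin 3 → ℝ} {i : Fin 3} {ε : ℝ} (hε : 0 < ε)
    (h : bet κ t i * ε ^ 2 ≤ 1 / 2) (d : ℝ) : 0 ≤ cst κ t i ε d := by
  unfold cst
  have h1 : 0 ≤ 1 / 2 - bet κ t i * ε ^ 2 := by linarith
  positivity

theorem cst_zero (κ : ℝ) (t : Fin 3 → ℝ) (i : Fin 3) (ε : ℝ) : cst κ t i ε 0 = 0 := by
  unfold cst; simp

theorem cst_cont (κ : ℝ) (t : Fin 3 → ℝ) (i : Fin 3) (ε : ℝ) : Continuous (cst κ t i ε) := by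
  unfold cst; fun_prop

theorem bet_sq {b ε s : ℝ} (hε : 0 < ε) (h1 : ε ≤ 1) (h2 : ε ≤ 1 / (2 * (s + 1))) (hs : |b| ≤ s) :
    b * ε ^ 2 ≤ 1 / 2 := by
  have hs0 : 0 ≤ s := (abs_nonneg b).trans hs
  rw [le_div_iff₀ (by positivity)] at h2
  have h3 : b ≤ s := (le_abs_self b).trans hs
  have h4 : b * ε ^ 2 ≤ s * ε ^ 2 := mul_le_mul_of_nonneg_right h3 (by positivity)
  have h5 : ε ^ 2 ≤ ε := by nlinarith
  nlinarith

section main

variable {M : Type*} [MetricSpace M] [SecondCountableTopology M] [MeasurableSpace M]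
  [BorelSpace M] {m : Measure M}

/-- the final computation for fixed `ε` and `ξ`, with everything integrated -/
theorem fin_step {J0 J1 J2 F U1 V1 U2 V2 U3 V3 r0 r1 r2 : M → ℝ} {c ξ p1 p2 p3 q0 q1 q2 : ℝ}
    (hF : Integrable F m) (hF0 : ∀ᵐ x ∂m, 0 ≤ F x)
    (i0 : Integrable (fun x => J0 x * F x) m) (i1 : Integrable (fun x => J1 x * F x) m)
    (i2 : Integrable (fun x => J2 x * F x) m)
    (u1 : Integrable (fun x => U1 x * r0 x) m) (u2 : Integrable (fun x => U2 x * r0 x) m)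
    (u3 : Integrable (fun x => U3 x * r1 x) m) (v1 : Integrable (fun x => V1 x * r1 x) m)
    (v2 : Integrable (fun x => V2 x * r2 x) m) (v3 : Integrable (fun x => V3 x * r2 x) m)
    (hd : ∀ z, -c - ξ ≤ J0 z + J1 z + J2 z)
    (a1 : p1 ≤ (∫ x, V1 x * r1 x ∂m) - ∫ x, U1 x * r0 x ∂m)
    (a2 : p2 ≤ (∫ x, V2 x * r2 x ∂m) - ∫ x, U2 x * r0 x ∂m)
    (a3 : p3 ≤ (∫ x, V3 x * r2 x ∂m) - ∫ x, U3 x * r1 x ∂m)
    (w0 : ∫ x, J0 x * F x ∂m ≤ (∫ x, (U1 x + U2 x) / 3 * r0 x ∂m) + q0)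
    (w1 : ∫ x, J1 x * F x ∂m ≤ (∫ x, (U3 x - V1 x) / 3 * r1 x ∂m) + q1)
    (w2 : ∫ x, J2 x * F x ∂m ≤ (∫ x, -(V2 x + V3 x) / 3 * r2 x ∂m) + q2) :
    3⁻¹ * (p1 + p2 + p3) ≤ q0 + q1 + q2 + (c + ξ) * ∫ x, F x ∂m := by
  have e0 : ∫ x, (U1 x + U2 x) / 3 * r0 x ∂m =
      3⁻¹ * ((∫ x, U1 x * r0 x ∂m) + ∫ x, U2 x * r0 x ∂m) := by
    rw [← integral_add u1 u2, ← integral_const_mul]
    refine integral_congr_ae (Eventually.of_forall fun x => ?_)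
    simp only
    ring
  have e1 : ∫ x, (U3 x - V1 x) / 3 * r1 x ∂m =
      3⁻¹ * ((∫ x, U3 x * r1 x ∂m) - ∫ x, V1 x * r1 x ∂m) := by
    rw [← integral_sub u3 v1, ← integral_const_mul]
    refine integral_congr_ae (Eventually.of_forall fun x => ?_)
    simp only
    ring
  have e2 : ∫ x, -(V2 x + V3 x) / 3 * r2 x ∂m =
      -3⁻¹ * ((∫ x, V2 x * r2 x ∂m) + ∫ x, V3 x * r2 x ∂m) := by
    rw [← integral_add v2 v3, ← integral_const_mul]
    refine integral_congr_ae (Eventually.of_forall fun x => ?_)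
    simp only
    ring
  have hI : ∫ x, (-c - ξ) * F x ∂m ≤ ∫ x, (J0 x * F x + J1 x * F x + J2 x * F x) ∂m := by
    refine integral_mono_ae (hF.const_mul _) ((i0.add i1).add i2) ?_
    filter_upwards [hF0] with x hx
    have := mul_le_mul_of_nonneg_right (hd x) hx
    linarith only [this]
  have e3 : ∫ x, (J0 x * F x + J1 x * F x + J2 x * F x) ∂m =
      (∫ x, J0 x * F x ∂m) + (∫ x, J1 x * F x ∂m) + ∫ x, J2 x * F x ∂m := by
    have h := integral_add (i0.add i1) i2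
    have h' := integral_add i0 i1
    simp only [Pi.add_apply] at h
    rw [h, h']
  rw [integral_const_mul, e3] at hI
  rw [e0] at w0
  rw [e1] at w1
  rw [e2] at w2
  linarith only [hI, w2, w1, w0, a3, a2, a1]

end main

end EpsM

variable {M : Type*} [MetricSpace M] [SecondCountableTopology M] [MeasurableSpace M]
  [BorelSpace M] {m : Measure M} [m.IsOpenPosMeasure]

open EpsM in
/-- The inequality between the actions at scale `ε`. -/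
theorem eps_main {κ K N : ℝ} (hM : ABSpace m κ K N) (a b F θ k : M →ₘ[m] ℝ)
    (hk : k ∈ (sob m).TestI) (η : ℝ) (hsupp : ∃ (x₀ : M) (R : ℝ), ∀ᵐ x ∂m, R < dist x x₀ → F x = 0)
    (t : Fin 3 → ℝ) (ht : ∀ i, 0 ≤ t i) :
    ∃ K₁ ≥ 0, ∀ δ, 0 < δ → δ ≤ 1 → ∀ X : Dat m, X.Ok (sob m) θ η δ → X.a = a → X.b = b →
      X.F = F → ∃ C₀ ≥ 0, ∃ ε₀ > 0, ∀ ε, 0 < ε → ε ≤ ε₀ →
      3⁻¹ * X.actS (sob m) k ε ≤
        X.cp (sob m) (dir 0) (bet κ t 0) (|κ| / 8) ε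
          + X.cp (sob m) (dir 1) (bet κ t 1) (|κ| / 8) ε
          + X.cp (sob m) (dir 2) (bet κ t 2) (|κ| / 8) ε
          + ε ^ 3 * (κ / 24 * HH t + |κ| / 8 * (t 0 ^ 2 + t 1 ^ 2 + t 2 ^ 2)) * I F
          + K₁ * δ * ε ^ 3 + C₀ * ε ^ 4 := by
  by_cases hab : a ∈ (sob m).TestI ∧ b ∈ (sob m).TestI
  swap
  · exact ⟨0, le_rfl, fun δ hδ hδ1 X hX ha hb hF =>
      absurd ⟨by rw [← ha]; exact hX.ha, by rw [← hb]; exact hX.hb⟩ hab⟩
  obtain ⟨haI, hbI⟩ := hab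
  have hC := hM.hC
  have hB := hM.hB
  have hD := hC.toIsDir
  have gaa := hC.Γ_mem hB haI.1 haI.1
  have gab := hC.Γ_mem hB haI.1 hbI.1
  have gbb := hC.Γ_mem hB hbI.1 hbI.1
  have hkA := hC.test_A hk.1
  obtain ⟨K1, hK1, H1⟩ := eps_pair hM a b F θ (k + (2 : ℝ)⁻¹ • (sob m).Γ a a)
    (hD.A_add hkA (hD.A_smul _ gaa)) η (dir 0) (dir 1 - dir 0)
  obtain ⟨K2, hK2, H2⟩ := eps_pair hM a b F θ ((sob m).Γ a a - k)
    (hD.A_sub gaa hkA) η (dir 0) (dir 2 - dir 0)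
  obtain ⟨K3, hK3, H3⟩ := eps_pair hM a b F θ (k + (sob m).Γ a b + (sob m).Γ b b)
    (hD.A_add (hD.A_add hkA gab) gbb) η (dir 1) (dir 2 - dir 1)
  obtain ⟨C1, hC1, Z1⟩ := eps_centre hM a b F θ η hsupp (dir 0)
  obtain ⟨C2, hC2, Z2⟩ := eps_centre hM a b F θ η hsupp (dir 1)
  obtain ⟨C3, hC3, Z3⟩ := eps_centre hM a b F θ η hsupp (dir 2)
  obtain ⟨r₀, hr₀, CL, hCL, hL⟩ := hM.lss
  refine ⟨(K1 + K2 + K3) / 3 + (C1 + C2 + C3), by (clear * - hK1 hK2 hK3 hC1 hC2 hC3; positivity), fun δ hδ hδ1 X hX ha hb hF => ?_⟩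
  -- the approximations
  have nP := hX.nP
  have nQ := hX.nQ
  have nR := hX.nR
  rw [ha] at nP nQ
  rw [hb] at nQ nR
  have hPA := (hC.test_A hX.hP.1)
  have hQA := (hC.test_A hX.hQ.1)
  have hRA := (hC.test_A hX.hR.1)
  have hδ2 : (2 * δ) ^ 2 = 4 * δ ^ 2 := by ring
  have hδ3 : 0 ≤ δ ^ 2 := by positivity
  have n1 : (sob m).nrm2 (k + (2 : ℝ)⁻¹ • X.P - (k + (2 : ℝ)⁻¹ • (sob m).Γ a a)) ≤
      (2 * δ) ^ 2 := by
    have e : k + (2 : ℝ)⁻¹ • X.P - (k + (2 : ℝ)⁻¹ • (sob m).Γ a a) =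
        (2 : ℝ)⁻¹ • (X.P - (sob m).Γ a a) := by
      rw [smul_sub]; abel
    have hW := hD.sub_mem hPA.1 gaa.1
    rw [e]
    unfold Calc.nrm2 at nP ⊢
    rw [hC.smul_left _ _ hW _ (hC.smul_mem _ _ hW), hD.Γ_smul_right _ hW hW, I_smul, I_smul,
      smul_pow, I_smul]
    have h1 := I_sq_nonneg (X.P - (sob m).Γ a a)
    have h2 := hD.E_nonneg hW
    linarith only [hδ3, nP]
  have n2 : (sob m).nrm2 (X.P - k - ((sob m).Γ a a - k)) ≤ (2 * δ) ^ 2 := by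
    have e : X.P - k - ((sob m).Γ a a - k) = X.P - (sob m).Γ a a := by abel
    rw [e]
    linarith
  have n3 : (sob m).nrm2 (k + X.Q + X.R - (k + (sob m).Γ a b + (sob m).Γ b b)) ≤
      (2 * δ) ^ 2 := by
    have e : k + X.Q + X.R - (k + (sob m).Γ a b + (sob m).Γ b b) =
        (X.Q - (sob m).Γ a b) + (X.R - (sob m).Γ b b) := by abel
    rw [e]
    have := hD.nrm2_add_le (hD.sub_mem hQA.1 gab.1) (hD.sub_mem hRA.1 gbb.1)
    linarith
  obtain ⟨L1, hL1, e1, he1, P1⟩ := H1 δ hδ hδ1 X hX ha hb hF _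
    (hC.testI_add hB hk (hC.testI_smul hB _ hX.hP)) n1
  obtain ⟨L2, hL2, e2, he2, P2⟩ := H2 δ hδ hδ1 X hX ha hb hF _
    (by
      have := hC.testI_add hB hX.hP (hC.testI_smul hB (-1) hk)
      rwa [neg_one_smul, ← sub_eq_add_neg] at this) n2
  obtain ⟨L3, hL3, e3, he3, P3⟩ := H3 δ hδ hδ1 X hX ha hb hF _
    (hC.testI_add hB (hC.testI_add hB hk hX.hQ) hX.hR) n3
  obtain ⟨D1, hD1, e4, he4, Q4⟩ := dual_lss hr₀ hCL hL t (max L1 (max L2 L3))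
    (hL1.trans (le_max_left _ _))
  have hα : 0 ≤ |κ| / 8 := by (clear * -; positivity)
  obtain ⟨c1, hc1, e5, he5, W1⟩ := Z1 δ hδ hδ1 X hX ha hb hF (bet κ t 0) (|κ| / 8) hα
  obtain ⟨c2, hc2, e6, he6, W2⟩ := Z2 δ hδ hδ1 X hX ha hb hF (bet κ t 1) (|κ| / 8) hα
  obtain ⟨c3, hc3, e7, he7, W3⟩ := Z3 δ hδ hδ1 X hX ha hb hF (bet κ t 2) (|κ| / 8) hα
  have hF1 : Integrable (fun x => F x) m := by
    rw [← hF]; exact memLp_one_iff_integrable.1 hX.hF1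
  have hF0' : (0 : M →ₘ[m] ℝ) ≤ F := by rw [← hF]; exact F_nonneg hX
  have hF0 : ∀ᵐ x ∂m, 0 ≤ F x := by
    have h := AEEqFun.coeFn_le.2 hF0'
    filter_upwards [h, AEEqFun.coeFn_zero (α := M) (μ := m) (β := ℝ)] with x h1 h2
    rwa [h2] at h1
  have hIF : 0 ≤ I F := I_nonneg hF0'
  set s := |bet κ t 0| + |bet κ t 1| + |bet κ t 2| with hs
  have hs0 : |bet κ t 0| ≤ s := by
    have := abs_nonneg (bet κ t 1); have := abs_nonneg (bet κ t 2); linarith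
  have hs1 : |bet κ t 1| ≤ s := by
    have := abs_nonneg (bet κ t 0); have := abs_nonneg (bet κ t 2); linarith
  have hs2 : |bet κ t 2| ≤ s := by
    have := abs_nonneg (bet κ t 0); have := abs_nonneg (bet κ t 1); linarith
  have hsn : 0 ≤ s := (abs_nonneg _).trans hs0
  refine ⟨c1 + c2 + c3 + D1 * I F, by (clear * - hc1 hc2 hc3 hD1 hIF; positivity),
    min (min (min e1 e2) (min e3 e4)) (min (min e5 e6) (min e7 (min 1 (1 / (2 * (s + 1)))))),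
    by (clear * - he1 he2 he3 he4 he5 he6 he7; positivity), fun ε hε hε0 => ?_⟩
  simp only [le_min_iff] at hε0
  obtain ⟨⟨⟨g1, g2⟩, g3, g4⟩, ⟨g5, g6⟩, g7, g8, g9⟩ := hε0
  have key : ∀ ξ > 0, 3⁻¹ * X.actS (sob m) k ε ≤
        X.cp (sob m) (dir 0) (bet κ t 0) (|κ| / 8) ε
          + X.cp (sob m) (dir 1) (bet κ t 1) (|κ| / 8) ε
          + X.cp (sob m) (dir 2) (bet κ t 2) (|κ| / 8) ε
          + ε ^ 3 * (κ / 24 * HH t + |κ| / 8 * (t 0 ^ 2 + t 1 ^ 2 + t 2 ^ 2)) * I F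
          + ((K1 + K2 + K3) / 3 + (C1 + C2 + C3)) * δ * ε ^ 3
          + (c1 + c2 + c3 + D1 * I F) * ε ^ 4 + ξ * (1 + I F) := by
    intro ξ hξ
    obtain ⟨U1, V1, lU1, lV1, bU1, bV1, d1, A1⟩ := P1 ε hε g1 ξ hξ
    obtain ⟨U2, V2, lU2, lV2, bU2, bV2, d2, A2⟩ := P2 ε hε g2 ξ hξ
    obtain ⟨U3, V3, lU3, lV3, bU3, bV3, d3, A3⟩ := P3 ε hε g3 ξ hξ
    rw [add_sub_cancel] at A1 A2 A3
    have hLm : ∀ {f : M → ℝ} {L' : ℝ}, L' ≤ max L1 (max L2 L3) →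
        (∀ x y, |f x - f y| ≤ L' * dist x y) →
        ∀ x y, |f x - f y| ≤ max L1 (max L2 L3) * dist x y := fun hle hf x y =>
      (hf x y).trans (mul_le_mul_of_nonneg_right hle dist_nonneg)
    have m1 : L1 ≤ max L1 (max L2 L3) := le_max_left _ _
    have m2 : L2 ≤ max L1 (max L2 L3) := (le_max_left _ _).trans (le_max_right _ _)
    have m3 : L3 ≤ max L1 (max L2 L3) := (le_max_right _ _).trans (le_max_right _ _)
    have hd := Q4 ε hε g4 ξ hξ.le U1 V1 U2 V2 U3 V3 (by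
      intro f hf
      simp only [Set.mem_insert_iff, Set.mem_singleton_iff] at hf
      rcases hf with rfl | rfl | rfl | rfl | rfl | rfl
      · exact ⟨hLm m1 lU1, bU1⟩
      · exact ⟨hLm m1 lV1, bV1⟩
      · exact ⟨hLm m2 lU2, bU2⟩
      · exact ⟨hLm m2 lV2, bV2⟩
      · exact ⟨hLm m3 lU3, bU3⟩
      · exact ⟨hLm m3 lV3, bV3⟩) d1 d2 d3
    -- integrability
    have r0 : Integrable (fun x => X.rho (sob m) (ε • dir 0) x) m :=
      memLp_one_iff_integrable.1 (rho_mem1 hC hB hX _)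
    have r1 : Integrable (fun x => X.rho (sob m) (ε • dir 1) x) m :=
      memLp_one_iff_integrable.1 (rho_mem1 hC hB hX _)
    have r2 : Integrable (fun x => X.rho (sob m) (ε • dir 2) x) m :=
      memLp_one_iff_integrable.1 (rho_mem1 hC hB hX _)
    obtain ⟨b1, hb1⟩ := bU1
    obtain ⟨b1', hb1'⟩ := bV1
    obtain ⟨b2, hb2⟩ := bU2
    obtain ⟨b2', hb2'⟩ := bV2
    obtain ⟨b3, hb3⟩ := bU3
    obtain ⟨b3', hb3'⟩ := bV3
    have ψ0 : ∀ y, |(U1 y + U2 y) / 3| ≤ (b1 + b2) / 3 := fun y => by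
      rw [abs_div, abs_of_pos (by norm_num : (0 : ℝ) < 3)]
      have := abs_add_le (U1 y) (U2 y)
      have := hb1 y; have := hb2 y
      linarith
    have ψ1 : ∀ y, |(U3 y - V1 y) / 3| ≤ (b3 + b1') / 3 := fun y => by
      rw [abs_div, abs_of_pos (by norm_num : (0 : ℝ) < 3)]
      have := abs_sub (U3 y) (V1 y)
      have := hb3 y; have := hb1' y
      linarith
    have ψ2 : ∀ y, |-(V2 y + V3 y) / 3| ≤ (b2' + b3') / 3 := fun y => by
      rw [abs_div, abs_neg, abs_of_pos (by norm_num : (0 : ℝ) < 3)]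
      have := abs_add_le (V2 y) (V3 y)
      have := hb2' y; have := hb3' y
      linarith
    have l0 : ∃ L : ℝ, ∀ x y, |(U1 x + U2 x) / 3 - (U1 y + U2 y) / 3| ≤ L * dist x y :=
      ⟨(L1 + L2) / 3, fun x y => by
        have h1 := abs_le.1 (lU1 x y); have h2 := abs_le.1 (lU2 x y)
        rw [abs_le]; constructor <;> linarith⟩
    have l1 : ∃ L : ℝ, ∀ x y, |(U3 x - V1 x) / 3 - (U3 y - V1 y) / 3| ≤ L * dist x y :=
      ⟨(L3 + L1) / 3, fun x y => by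
        have h1 := abs_le.1 (lU3 x y); have h2 := abs_le.1 (lV1 x y)
        rw [abs_le]; constructor <;> linarith⟩
    have l2 : ∃ L : ℝ, ∀ x y, |-(V2 x + V3 x) / 3 - -(V2 y + V3 y) / 3| ≤ L * dist x y :=
      ⟨(L2 + L3) / 3, fun x y => by
        have h1 := abs_le.1 (lV2 x y); have h2 := abs_le.1 (lV3 x y)
        rw [abs_le]; constructor <;> linarith⟩
    have w0 := W1 ε hε g5 (fun y => (U1 y + U2 y) / 3) l0 ⟨_, ψ0⟩
    have w1 := W2 ε hε g6 (fun y => (U3 y - V1 y) / 3) l1 ⟨_, ψ1⟩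
    have w2 := W3 ε hε g7 (fun y => -(V2 y + V3 y) / 3) l2 ⟨_, ψ2⟩
    have i0 := inf_int ψ0 (cst_cont κ t 0 ε) (cst_nonneg hε (bet_sq hε g8 g9 hs0))
      (cst_zero κ t 0 ε) hF1
    have i1 := inf_int ψ1 (cst_cont κ t 1 ε) (cst_nonneg hε (bet_sq hε g8 g9 hs1))
      (cst_zero κ t 1 ε) hF1
    have i2 := inf_int ψ2 (cst_cont κ t 2 ε) (cst_nonneg hε (bet_sq hε g8 g9 hs2))
      (cst_zero κ t 2 ε) hF1
    have hfin := fin_step (m := m)
      (c := ε ^ 3 * (κ / 24 * HH t + |κ| / 8 * (t 0 ^ 2 + t 1 ^ 2 + t 2 ^ 2)) + D1 * ε ^ 5)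
      (ξ := ξ) hF1 hF0 i0 i1 i2
      (lip_int lU1 ⟨b1, hb1⟩ r0) (lip_int lU2 ⟨b2, hb2⟩ r0) (lip_int lU3 ⟨b3, hb3⟩ r1)
      (lip_int lV1 ⟨b1', hb1'⟩ r1) (lip_int lV2 ⟨b2', hb2'⟩ r2) (lip_int lV3 ⟨b3', hb3'⟩ r2)
      (fun z => by have := hd z; linarith only [this]) A1 A2 A3
      (q0 := X.cp (sob m) (dir 0) (bet κ t 0) (|κ| / 8) ε + C1 * δ * ε ^ 3 + c1 * ε ^ 4)
      (q1 := X.cp (sob m) (dir 1) (bet κ t 1) (|κ| / 8) ε + C2 * δ * ε ^ 3 + c2 * ε ^ 4)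
      (q2 := X.cp (sob m) (dir 2) (bet κ t 2) (|κ| / 8) ε + C3 * δ * ε ^ 3 + c3 * ε ^ 4)
      (by rw [← add_assoc, ← add_assoc]; exact w0) (by rw [← add_assoc, ← add_assoc]; exact w1)
      (by rw [← add_assoc, ← add_assoc]; exact w2)
    have hI : ∫ x, F x ∂m = I F := rfl
    rw [hI] at hfin
    have h5 : D1 * ε ^ 5 * I F ≤ D1 * I F * ε ^ 4 := by
      have h6 : 0 ≤ D1 * I F * ε ^ 4 := by (clear * - hD1 hIF hε; positivity)
      have h7 : D1 * ε ^ 5 * I F = D1 * I F * ε ^ 4 * ε := by ring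
      rw [h7]
      exact mul_le_of_le_one_right h6 g8
    unfold Dat.actS
    linarith only [h5, hfin]
  by_contra hlt
  rw [not_le] at hlt
  have hpos : 0 < 1 + I F := by linarith only [hIF]
  set A := 3⁻¹ * X.actS (sob m) k ε
  set B := X.cp (sob m) (dir 0) (bet κ t 0) (|κ| / 8) ε
          + X.cp (sob m) (dir 1) (bet κ t 1) (|κ| / 8) ε
          + X.cp (sob m) (dir 2) (bet κ t 2) (|κ| / 8) ε
          + ε ^ 3 * (κ / 24 * HH t + |κ| / 8 * (t 0 ^ 2 + t 1 ^ 2 + t 2 ^ 2)) * I F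
          + ((K1 + K2 + K3) / 3 + (C1 + C2 + C3)) * δ * ε ^ 3
          + (c1 + c2 + c3 + D1 * I F) * ε ^ 4
  have h := key ((A - B) / 2 / (1 + I F)) (by
    have : 0 < A - B := by linarith
    (clear * - hlt hIF; positivity))
  rw [div_mul_cancel₀ _ hpos.ne'] at h
  linarith only [h, hlt]

end Vale.Agent.P233
end

section

open MeasureTheory Filter Topology
open scoped ENNReal NNReal

namespace Vale.Agent.P233

/-- passage to the limit `ε → 0` in an inequality with linear error -/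
theorem nonneg_of_eps {x C₀ ε₀ : ℝ} (hC : 0 ≤ C₀) (h0 : 0 < ε₀)
    (h : ∀ ε, 0 < ε → ε ≤ ε₀ → 0 ≤ x + C₀ * ε) : 0 ≤ x := by
  by_contra hx
  push Not at hx
  have h1 : 0 < min ε₀ (-x / (2 * (C₀ + 1))) := lt_min h0 (by apply div_pos <;> linarith)
  have h2 := h _ h1 (min_le_left _ _)
  have h3 : C₀ * min ε₀ (-x / (2 * (C₀ + 1))) ≤ C₀ * (-x / (2 * (C₀ + 1))) :=
    mul_le_mul_of_nonneg_left (min_le_right _ _) hC
  have h4 : C₀ * (-x / (2 * (C₀ + 1))) ≤ -x / 2 := by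
    rw [mul_div_assoc', div_le_div_iff₀ (by linarith) (by norm_num)]
    linarith only [hx]
  linarith

section aux
variable {M : Type*} [MeasurableSpace M] {m : Measure M} {C : Calc m}

/-- `∫ F (Γ - t)²` -/
theorem I_sq_shift {F G : M →ₘ[m] ℝ} (hF : MemLp F 1 m) (hG : MemLp G ∞ m) (t : ℝ) :
    I (F * (G - t • 1) ^ 2) = I (F * G ^ 2) - 2 * t * I (F * G) + t ^ 2 * I F := by
  have h1 : MemLp (F * G : M →ₘ[m] ℝ) 1 m := mem_top_mul hF hG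
  have h2 : MemLp (F * G ^ 2 : M →ₘ[m] ℝ) 1 m := by
    have : F * G ^ 2 = F * G * G := by ring
    rw [this]
    exact mem_top_mul h1 hG
  have e : F * (G - t • 1) ^ 2 = F * G ^ 2 - (2 * t) • (F * G) + (t ^ 2) • F := by
    rw [Algebra.smul_def, Algebra.smul_def, Algebra.smul_def, map_mul, map_pow]
    simp only [map_ofNat]
    ring
  rw [e, I_add (mem_sub h2 (mem_smul _ h1)) (mem_smul _ hF), I_sub h2 (mem_smul _ h1), I_smul,
    I_smul]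

theorem nrm2_smul' (hC : IsDir C) {f : M →ₘ[m] ℝ} (c : ℝ) (hf : f ∈ C.W) :
    C.nrm2 (c • f) = c ^ 2 * C.nrm2 f := by
  unfold Calc.nrm2
  rw [hC.E_smul c hf, smul_pow, I_smul]
  ring

end aux

variable {M : Type*} [MetricSpace M] [SecondCountableTopology M] [MeasurableSpace M]
  [BorelSpace M] {m : Measure M} [m.IsOpenPosMeasure]

/-- limits `ε → 0` and `δ → 0` -/
theorem lim_eps {κ K N : ℝ} (hM : ABSpace m κ K N) {a b F θ χ k : M →ₘ[m] ℝ}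
    (ha : a ∈ (sob m).TestI) (hb : b ∈ (sob m).TestI) (hF : F ∈ (sob m).TestI)
    (hθ : θ ∈ (sob m).TestI) (hχ : χ ∈ (sob m).TestI) (hk : k ∈ (sob m).TestI)
    (hF1 : MemLp F 1 m) (hθ0 : 0 ≤ θ) (χa : χ * a = a) (χb : χ * b = b) (θχ : θ * χ = χ) {η : ℝ}
    (hη : 0 < η) (Fη : η • θ ≤ F)
    (hsupp : ∃ (x₀ : M) (R : ℝ), ∀ᵐ x ∂m, R < dist x x₀ → F x = 0)
    (t : Fin 3 → ℝ) (ht : ∀ i, 0 ≤ t i) :
    0 ≤ (sob m).S0 a b F + 6 * (sob m).HW b a k F + 3 * I (F * (sob m).Γ k k)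
      + 3 / 4 * |κ| * (I (F * ((sob m).Γ a a - t 0 • 1) ^ 2) + I (F * ((sob m).Γ b b - t 1 • 1) ^ 2)
          + I (F * ((sob m).Γ (a + b) (a + b) - t 2 • 1) ^ 2))
      + κ / 4 * (HH t * I F - (dHH t 0 * I (F * (sob m).Γ a a) + dHH t 1 * I (F * (sob m).Γ b b)
          + dHH t 2 * I (F * (sob m).Γ (a + b) (a + b)))) := by
  have hC := hM.hC
  have hD := hC.toIsDir
  have hB : (sob m).BEi K := hC.bei hM.hN hM.hBN
  have : SigmaFinite m := sigmaFinite_of_ball hM.hfin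
  have kA := hC.test_A hk.1
  have aW := (hC.test_A ha.1).1
  have bW := (hC.test_A hb.1).1
  have Gaa : (sob m).Γ a a ∈ (sob m).A := hC.Γ_mem hB ha.1 ha.1
  have Gab : (sob m).Γ a b ∈ (sob m).A := hC.Γ_mem hB ha.1 hb.1
  have Gbb : (sob m).Γ b b ∈ (sob m).A := hC.Γ_mem hB hb.1 hb.1
  have hab := hC.testI_add hB ha hb
  have Gcc : (sob m).Γ (a + b) (a + b) ∈ (sob m).A := hC.Γ_mem hB hab.1 hab.1
  obtain ⟨K₁, hK₁, H⟩ := eps_main hM a b F θ k hk η hsupp t ht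
  obtain ⟨L₁, hL₁, H₁⟩ := Dat.pairX hC hB a b F θ (k + (2 : ℝ)⁻¹ • (sob m).Γ a a)
    (hD.A_add kA (hD.A_smul _ Gaa)) η (dir 0) (dir 1 - dir 0)
  obtain ⟨L₂, hL₂, H₂⟩ := Dat.pairX hC hB a b F θ ((sob m).Γ a a - k)
    (hD.A_sub Gaa kA) η (dir 0) (dir 2 - dir 0)
  obtain ⟨L₃, hL₃, H₃⟩ := Dat.pairX hC hB a b F θ (k + (sob m).Γ a b + (sob m).Γ b b)
    (hD.A_add (hD.A_add kA Gab) Gbb) η (dir 1) (dir 2 - dir 1)
  refine nonneg_of_eps (C₀ := 6 * K₁ + 2 * (L₁ + L₂ + L₃)) (ε₀ := 1) (by (clear * - hK₁ hL₁ hL₂ hL₃; positivity)) one_pos ?_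
  intro δ hδ hδ1
  obtain ⟨X, Xa, Xb, XF, hX⟩ := exists_dat hC hB ha hb hF hθ hχ hF1 hθ0 χa χb θχ hη Fη hδ
  obtain ⟨C₀, hC₀, ε₀, hε₀, E⟩ := H δ hδ hδ1 X hX Xa Xb XF
  have δ2 : 0 ≤ δ ^ 2 := sq_nonneg δ
  have PW : X.P - (sob m).Γ a a ∈ (sob m).W := hD.sub_mem (hC.test_A hX.hP.1).1 Gaa.1
  have QW : X.Q - (sob m).Γ a b ∈ (sob m).W := hD.sub_mem (hC.test_A hX.hQ.1).1 Gab.1
  have RW : X.R - (sob m).Γ b b ∈ (sob m).W := hD.sub_mem (hC.test_A hX.hR.1).1 Gbb.1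
  have nP := hX.nP
  have nQ := hX.nQ
  have nR := hX.nR
  rw [Xa] at nP
  rw [Xa, Xb] at nQ
  rw [Xb] at nR
  obtain ⟨D₁, hD₁, E₁⟩ := H₁ δ hδ hδ1 X hX Xa Xb XF (k + (2 : ℝ)⁻¹ • X.P)
    (hC.testI_add hB hk (hC.testI_smul hB _ hX.hP)) (by
      have e : k + (2 : ℝ)⁻¹ • X.P - (k + (2 : ℝ)⁻¹ • (sob m).Γ a a)
          = (2 : ℝ)⁻¹ • (X.P - (sob m).Γ a a) := by rw [smul_sub]; abel
      rw [e, nrm2_smul' hD _ PW]
      linarith only [nP, δ2])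
  obtain ⟨D₂, hD₂, E₂⟩ := H₂ δ hδ hδ1 X hX Xa Xb XF (X.P - k)
    (by
      have e : X.P - k = X.P + (-1 : ℝ) • k := by rw [neg_smul, one_smul, sub_eq_add_neg]
      rw [e]
      exact hC.testI_add hB hX.hP (hC.testI_smul hB _ hk)) (by
      have e : X.P - k - ((sob m).Γ a a - k) = X.P - (sob m).Γ a a := by abel
      rw [e]
      linarith only [nP, δ2])
  obtain ⟨D₃, hD₃, E₃⟩ := H₃ δ hδ hδ1 X hX Xa Xb XF (k + X.Q + X.R)
    (hC.testI_add hB (hC.testI_add hB hk hX.hQ) hX.hR) (by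
      have e : k + X.Q + X.R - (k + (sob m).Γ a b + (sob m).Γ b b)
          = (X.Q - (sob m).Γ a b) + (X.R - (sob m).Γ b b) := by abel
      rw [e]
      have := hD.nrm2_add_le QW RW
      linarith only [this, nR, nQ])
  have A1 := X.alg1 hC hB hX
  have A2 := X.alg2 hC hB hX
  have A3 := X.alg3 hC hB hX hk.1
  rw [Xa, Xb, XF] at A3
  have g0 : X.Ge (sob m) (dir 0) = (sob m).Γ a a := by
    simp [Dat.Ge, Dat.pt, dir, Xa]
  have g1 : X.Ge (sob m) (dir 1) = (sob m).Γ b b := by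
    simp [Dat.Ge, Dat.pt, dir, Xb]
  have g2 : X.Ge (sob m) (dir 2) = (sob m).Γ (a + b) (a + b) := by
    have e : X.pt (dir 2) = -(a + b) := by
      simp [Dat.pt, dir, Xa, Xb]
      abel
    have cW := hD.add_mem _ aW _ bW
    rw [Dat.Ge, e, hD.Γ_neg_left cW (hD.neg_mem cW), hD.Γ_neg_right cW cW, neg_neg]
  refine nonneg_of_eps (C₀ := 6 * C₀ + 2 * (D₁ + D₂ + D₃)) (ε₀ := min ε₀ 1) (by (clear * - hC₀ hD₁ hD₂ hD₃; positivity))
    (lt_min hε₀ one_pos) ?_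
  intro ε hε hε1
  have e0 := E ε hε (hε1.trans (min_le_left _ _))
  have e1 := E₁ ε hε (hε1.trans (min_le_right _ _))
  have e2 := E₂ ε hε (hε1.trans (min_le_right _ _))
  have e3 := E₃ ε hε (hε1.trans (min_le_right _ _))
  simp only [Dat.actS, Dat.cp, g0, g1, g2, XF] at e0
  rw [I_sq_shift hF1 Gaa.2, I_sq_shift hF1 Gbb.2, I_sq_shift hF1 Gcc.2]
  have hbet : ∀ i, bet κ t i = κ / 24 * dHH t i + |κ| / 4 * t i := fun i => rfl
  rw [hbet, hbet, hbet] at e0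
  have h3 : 0 < ε ^ 3 := by positivity
  refine nonneg_of_mul_nonneg_right ?_ h3
  have a1 := congrArg (fun z => ε / 2 * z) A1
  have a2 := congrArg (fun z => ε ^ 2 / 2 * z) A2
  have a3 := congrArg (fun z => ε ^ 3 * z) A3
  linarith

end Vale.Agent.P233
end

section

open MeasureTheory Filter Topology
open scoped ENNReal NNReal

namespace Vale.Agent.P233.L2A

variable {M : Type*} [MeasurableSpace M] {m : Measure M} {C : Calc m}

/-! ### linearity in the density -/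

theorem I_lin {F θ G : M →ₘ[m] ℝ} (h1 : MemLp (F * G : M →ₘ[m] ℝ) 1 m)
    (h2 : MemLp (θ * G : M →ₘ[m] ℝ) 1 m) (η : ℝ) :
    I ((F + η • θ) * G) = I (F * G) + η * I (θ * G) := by
  have e : (F + η • θ) * G = F * G + η • (θ * G) := by
    rw [add_mul, smul_mul_assoc]
  rw [e, I_add h1 (mem_smul _ h2), I_smul]

theorem I_lin' {F θ G : M →ₘ[m] ℝ} (h1 : MemLp (G * F : M →ₘ[m] ℝ) 1 m)
    (h2 : MemLp (G * θ : M →ₘ[m] ℝ) 1 m) (η : ℝ) :
    I (G * (F + η • θ)) = I (G * F) + η * I (G * θ) := by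
  rw [mul_comm G, mul_comm G, mul_comm G] at *
  exact I_lin h1 h2 η

section gamma

variable (hC : IsGamma C) {κ : ℝ} (hB : C.BEi κ)
variable {a b c φ ψ h : M →ₘ[m] ℝ}

include hC in
theorem De_lin (hφ : φ ∈ C.W) (hψ : ψ ∈ C.W) (ha : a ∈ C.W) (η : ℝ) :
    C.De (φ + η • ψ) a = C.De φ a + η • C.De ψ a := by
  unfold Calc.De
  rw [hC.add_left φ hφ _ (hC.smul_mem η ψ hψ) a ha, hC.smul_left η ψ hψ a ha, add_mul,
    smul_mul_assoc, smul_add]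
  abel

include hC in
theorem De_mem2 (hφ : φ ∈ C.A) (ha : a ∈ C.Test) : MemLp (C.De φ a) 2 m := by
  unfold Calc.De
  refine mem_add ?_ (mem_mul_top hφ.2 (hC.memLp _ (hC.test_lap_mem ha)))
  rw [hC.symm φ hφ.1 a (hC.test_A ha).1]
  exact hC.toIsDir.Γ_mem2 (hC.test_A ha).1 (hC.test_Γ_top ha) hφ.1

include hC hB in
theorem De_memTop (hφ : φ ∈ C.Test) (ha : a ∈ C.TestI) : MemLp (C.De φ a) ∞ m := by
  unfold Calc.De
  exact mem_add (hC.Γ_mem hB hφ ha.1).2 (mem_mul_top (hC.test_A hφ).2 ha.2)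

include hC in
theorem Γ_mem2' (ha : a ∈ C.Test) (hh : h ∈ C.W) : MemLp (C.Γ a h) 2 m :=
  hC.toIsDir.Γ_mem2 (hC.test_A ha).1 (hC.test_Γ_top ha) hh

include hC hB in
theorem hess_mem2 (ha : a ∈ C.Test) (hb : b ∈ C.Test) (hc : c ∈ C.Test) :
    MemLp (C.hess b a c) 2 m := by
  unfold Calc.hess
  exact mem_smul _ (mem_sub (mem_add (Γ_mem2' hC ha (hC.Γ_mem hB hb hc).1)
    (Γ_mem2' hC hc (hC.Γ_mem hB hb ha).1)) (Γ_mem2' hC hb (hC.Γ_mem hB ha hc).1))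

include hC hB in
theorem HW_lin (ha : a ∈ C.Test) (hb : b ∈ C.Test) (hh : h ∈ C.W) (hφ : φ ∈ C.A) (hψ : ψ ∈ C.A)
    (η : ℝ) : C.HW b a h (φ + η • ψ) = C.HW b a h φ + η * C.HW b a h ψ := by
  have haW := (hC.test_A ha).1
  have hbW := (hC.test_A hb).1
  have hG := hC.toIsDir.Γ_mem1 hh (hC.Γ_mem hB hb ha).1
  unfold Calc.HW
  rw [De_lin hC hφ.1 hψ.1 haW, De_lin hC hφ.1 hψ.1 hbW,
    I_lin' (mem_mul_22 (Γ_mem2' hC hb hh) (De_mem2 hC hφ ha))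
      (mem_mul_22 (Γ_mem2' hC hb hh) (De_mem2 hC hψ ha)),
    I_lin' (mem_mul_22 (Γ_mem2' hC ha hh) (De_mem2 hC hφ hb))
      (mem_mul_22 (Γ_mem2' hC ha hh) (De_mem2 hC hψ hb)),
    I_lin (mem_mul_top hφ.2 hG) (mem_mul_top hψ.2 hG)]
  ring

include hC hB in
theorem S0_lin (ha : a ∈ C.Test) (hb : b ∈ C.Test) (hφ : φ ∈ C.A) (hψ : ψ ∈ C.A)
    (η : ℝ) : C.S0 a b (φ + η • ψ) = C.S0 a b φ + η * C.S0 a b ψ := by
  have haW := (hC.test_A ha).1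
  have hbW := (hC.test_A hb).1
  have hG := hC.toIsDir.Γ_mem1 (hC.Γ_mem hB ha ha).1 (hC.Γ_mem hB hb hb).1
  unfold Calc.S0
  rw [HW_lin hC hB ha hb (hC.Γ_mem hB ha hb).1 hφ hψ, De_lin hC hφ.1 hψ.1 haW,
    De_lin hC hφ.1 hψ.1 hbW,
    I_lin (mem_mul_22 (De_mem2 hC hφ ha) (hess_mem2 hC hB ha hb hb))
      (mem_mul_22 (De_mem2 hC hψ ha) (hess_mem2 hC hB ha hb hb)),
    I_lin (mem_mul_22 (De_mem2 hC hφ hb) (hess_mem2 hC hB ha hb ha))
      (mem_mul_22 (De_mem2 hC hψ hb) (hess_mem2 hC hB ha hb ha)),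
    I_lin (mem_mul_top hφ.2 hG) (mem_mul_top hψ.2 hG)]
  ring

/-! ### the passage to all test functions `k` -/

include hC hB in
theorem ext_k [SigmaFinite m] (ha : a ∈ C.TestI) (hb : b ∈ C.TestI) (hφ : φ ∈ C.Test) {L : ℝ}
    (H : ∀ k ∈ C.TestI, 0 ≤ L + 6 * C.HW b a k φ + 3 * I (φ * C.Γ k k)) {k : M →ₘ[m] ℝ}
    (hk : k ∈ C.Test) : 0 ≤ L + 6 * C.HW b a k φ + 3 * I (φ * C.Γ k k) := by
  have hD := hC.toIsDir
  have hkA := hC.test_A hk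
  have haA := hC.test_A ha.1
  have hbA := hC.test_A hb.1
  have hφA := hC.test_A hφ
  obtain ⟨N, hN⟩ := IsGamma.exists_small κ
  set u : ℕ → M →ₘ[m] ℝ := fun n => C.J ((n : ℝ) + 1)⁻¹ k with hu
  have hl : ∀ n : ℕ, (0 : ℝ) < ((n : ℝ) + 1)⁻¹ := fun n => by positivity
  have huW : ∀ n, u n ∈ C.W := fun n => hD.J_mem (hl n) (hC.memLp _ hkA.1)
  have hdW : ∀ n, u n - k ∈ C.W := fun n => hD.sub_mem (huW n) hkA.1
  have hlim : Tendsto (fun n => C.nrm2 (u n - k)) atTop (𝓝 0) := hD.J_tendsto_W hkA.1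
  -- a general limit: `I (G * Γ g (u n)) → I (G * Γ g k)` for bounded `G`
  have key : ∀ G g : M →ₘ[m] ℝ, MemLp G ∞ m → g ∈ C.W →
      Tendsto (fun n => I (G * C.Γ (u n - k) g)) atTop (𝓝 0) := by
    intro G g hG hg
    obtain ⟨B, hBd⟩ := mem_top_iff.1 hG
    have h1 := (hD.tendsto_int_abs_Γ huW hkA.1 hg hlim).const_mul |B|
    rw [mul_zero] at h1
    refine squeeze_zero_norm (fun n => ?_) h1
    rw [Real.norm_eq_abs, ← integral_const_mul]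
    unfold I
    refine (abs_integral_le_integral_abs).trans ?_
    refine integral_mono_ae (int_of_mem (mem_mul_top hG (hD.Γ_mem1 (hdW n) hg))).abs
      ((int_of_mem (hD.Γ_mem1 (hdW n) hg)).abs.const_mul _) ?_
    filter_upwards [hBd, mul_ae G (C.Γ (u n - k) g)] with x h1 h2
    rw [h2, abs_mul]
    exact mul_le_mul_of_nonneg_right (h1.trans (le_abs_self _)) (abs_nonneg _)
  have hba := (hC.Γ_mem hB hb.1 ha.1).1
  -- `HW` is continuous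
  have l1 : Tendsto (fun n => C.HW b a (u n) φ) atTop (𝓝 (C.HW b a k φ)) := by
    have e : ∀ n, C.HW b a (u n) φ = C.HW b a k φ
        + 2⁻¹ * (-I (C.De φ a * C.Γ (u n - k) b) + I (φ * C.Γ (u n - k) (C.Γ b a))
          + I (C.De φ b * C.Γ (u n - k) a)) := by
      intro n
      have e1 : C.Γ b (u n) = C.Γ b k + (1 : ℝ) • C.Γ (u n - k) b := by
        rw [hD.Γ_sub_left (huW n) hkA.1 hbA.1, hC.symm _ (huW n) _ hbA.1,
          hC.symm _ hkA.1 _ hbA.1]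
        simp
      have e2 : C.Γ a (u n) = C.Γ a k + (1 : ℝ) • C.Γ (u n - k) a := by
        rw [hD.Γ_sub_left (huW n) hkA.1 haA.1, hC.symm _ (huW n) _ haA.1,
          hC.symm _ hkA.1 _ haA.1]
        simp
      have e3 : C.Γ (u n) (C.Γ b a) = C.Γ k (C.Γ b a) + (1 : ℝ) • C.Γ (u n - k) (C.Γ b a) := by
        rw [hD.Γ_sub_left (huW n) hkA.1 hba]
        simp
      have m1 := De_memTop hC hB hφ ha
      have m2 := De_memTop hC hB hφ hb
      unfold Calc.HW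
      rw [e1, e2, e3,
        I_lin (mem_top_mul (hD.Γ_mem1 hbA.1 hkA.1) m1) (mem_top_mul (hD.Γ_mem1 (hdW n) hbA.1) m1),
        I_lin (mem_top_mul (hD.Γ_mem1 haA.1 hkA.1) m2) (mem_top_mul (hD.Γ_mem1 (hdW n) haA.1) m2),
        I_lin' (mem_mul_top hφA.2 (hD.Γ_mem1 hkA.1 hba))
          (mem_mul_top hφA.2 (hD.Γ_mem1 (hdW n) hba)),
        mul_comm (C.De φ a) (C.Γ (u n - k) b), mul_comm (C.De φ b) (C.Γ (u n - k) a)]
      ring
    have h2 := (((key _ _ (De_memTop hC hB hφ ha) hbA.1).neg.add (key _ _ hφA.2 hba)).add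
      (key _ _ (De_memTop hC hB hφ hb) haA.1)).const_mul (2⁻¹ : ℝ) |>.const_add (C.HW b a k φ)
    simp only [neg_zero, add_zero, mul_zero] at h2
    exact h2.congr fun n => (e n).symm
  -- the quadratic term
  have l2 : Tendsto (fun n => I (φ * C.Γ (u n) (u n))) atTop (𝓝 (I (φ * C.Γ k k))) := by
    obtain ⟨B, hBd⟩ := mem_top_iff.1 hφA.2
    have h3 : Tendsto (fun n => I (φ * C.Γ (u n - k) (u n - k))) atTop (𝓝 0) := by
      have h1 := (hD.tendsto_E_of_nrm2 huW hkA.1 hlim).const_mul |B|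
      rw [mul_zero] at h1
      refine squeeze_zero_norm (fun n => ?_) h1
      rw [Real.norm_eq_abs]
      unfold I
      rw [← integral_const_mul]
      refine (abs_integral_le_integral_abs).trans ?_
      refine integral_mono_ae (int_of_mem (mem_mul_top hφA.2 (hD.Γ_mem1 (hdW n) (hdW n)))).abs
        ((int_of_mem (hD.Γ_mem1 (hdW n) (hdW n))).const_mul _) ?_
      filter_upwards [hBd, mul_ae φ (C.Γ (u n - k) (u n - k)), hD.Γ_nonneg_ae (hdW n)]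
        with x h1 h2 h3
      rw [h2, abs_mul, abs_of_nonneg h3]
      exact mul_le_mul_of_nonneg_right (h1.trans (le_abs_self _)) h3
    have e : ∀ n, I (φ * C.Γ (u n) (u n)) = I (φ * C.Γ k k) + 2 * I (φ * C.Γ (u n - k) k)
        + I (φ * C.Γ (u n - k) (u n - k)) := by
      intro n
      have e1 := hD.Γ_expand 1 hkA.1 (hdW n)
      rw [one_smul, add_sub_cancel, mul_one, one_pow, one_smul, hC.symm _ hkA.1 _ (hdW n)] at e1
      have m1 := mem_mul_top hφA.2 (hD.Γ_mem1 hkA.1 hkA.1)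
      have m2 := mem_mul_top hφA.2 (hD.Γ_mem1 (hdW n) hkA.1)
      have m3 := mem_mul_top hφA.2 (hD.Γ_mem1 (hdW n) (hdW n))
      rw [e1, mul_add, mul_add, mul_smul_comm, I_add (mem_add m1 (mem_smul _ m2)) m3,
        I_add m1 (mem_smul _ m2), I_smul]
    have h4 := (((key _ _ hφA.2 hkA.1).const_mul 2).const_add (I (φ * C.Γ k k))).add h3
    simp only [mul_zero, add_zero] at h4
    exact h4.congr fun n => (e n).symm
  have l3 := ((l1.const_mul 6).const_add L).add (l2.const_mul 3)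
  refine ge_of_tendsto l3 ?_
  filter_upwards [eventually_ge_atTop N] with n hn
  exact H _ (hC.testI_J hB (hl n) (hN n hn) hkA (hC.test_Γ_top hk))

/-! ### the passage `η → 0` -/

/-- the pointwise inequality -/
theorem HH_pt (κ : ℝ) (t : Fin 3 → ℝ) (p q r : ℝ) :
    κ * (p * r - q ^ 2) + κ / 4 * (HH t - (dHH t 0 * p + dHH t 1 * r
      + dHH t 2 * (p + 2 * q + r))) ≤ 3 / 4 * |κ| * ((p - t 0) ^ 2 + (r - t 1) ^ 2
        + (p + 2 * q + r - t 2) ^ 2) := by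
  set x := p - t 0 with hx
  set y := r - t 1 with hy
  set z := p + 2 * q + r - t 2 with hz
  have e : κ * (p * r - q ^ 2) + κ / 4 * (HH t - (dHH t 0 * p + dHH t 1 * r
      + dHH t 2 * (p + 2 * q + r)))
      = κ / 4 * (2 * (x * y + y * z + x * z) - (x ^ 2 + y ^ 2 + z ^ 2)) := by
    rw [hx, hy, hz]
    unfold HH dHH
    ring
  rw [e]
  have h1 : |2 * (x * y + y * z + x * z) - (x ^ 2 + y ^ 2 + z ^ 2)|
      ≤ 3 * (x ^ 2 + y ^ 2 + z ^ 2) := by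
    rw [abs_le]
    constructor
    · (by_contra nlg; linarith only [nlg, mul_nonneg (le_of_lt (sub_pos.2 (not_le.1 nlg))) (sq_nonneg (x + y + z)), mul_pos (sub_pos.2 (not_le.1 nlg)) (sub_pos.2 (not_le.1 nlg)), mul_nonneg (sq_nonneg (z : ℝ)) (le_of_lt (sub_pos.2 (not_le.1 nlg))), mul_nonneg (sq_nonneg (y : ℝ)) (le_of_lt (sub_pos.2 (not_le.1 nlg))), mul_nonneg (sq_nonneg (x : ℝ)) (le_of_lt (sub_pos.2 (not_le.1 nlg)))])
    · linarith only [sq_nonneg z, sq_nonneg y, sq_nonneg x, sq_nonneg (x - z), sq_nonneg (y - z), sq_nonneg (x - y)]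
  have h2 : κ * (2 * (x * y + y * z + x * z) - (x ^ 2 + y ^ 2 + z ^ 2))
      ≤ |κ| * (3 * (x ^ 2 + y ^ 2 + z ^ 2)) := by
    refine (le_abs_self _).trans ?_
    rw [abs_mul]
    exact mul_le_mul_of_nonneg_left h1 (abs_nonneg _)
  linarith only [h2]

/-- the expression in `lim_eps` -/
noncomputable def lexp (C : Calc m) (κ : ℝ) (a b k : M →ₘ[m] ℝ) (t : Fin 3 → ℝ)
    (F : M →ₘ[m] ℝ) : ℝ :=
  C.S0 a b F + 6 * C.HW b a k F + 3 * I (F * C.Γ k k)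
      + 3 / 4 * |κ| * (I (F * (C.Γ a a - t 0 • 1) ^ 2) + I (F * (C.Γ b b - t 1 • 1) ^ 2)
          + I (F * (C.Γ (a + b) (a + b) - t 2 • 1) ^ 2))
      + κ / 4 * (HH t * I F - (dHH t 0 * I (F * C.Γ a a) + dHH t 1 * I (F * C.Γ b b)
          + dHH t 2 * I (F * C.Γ (a + b) (a + b))))

include hC hB in
theorem lexp_lin {κ' : ℝ} (ha : a ∈ C.Test) (hb : b ∈ C.Test) {k : M →ₘ[m] ℝ} (hk : k ∈ C.W)
    (hφ : φ ∈ C.A) (hφ1 : MemLp φ 1 m) (hψ : ψ ∈ C.A) (hψ1 : MemLp ψ 1 m) (t : Fin 3 → ℝ) (η : ℝ) :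
    lexp C κ' a b k t (φ + η • ψ) = lexp C κ' a b k t φ + η * lexp C κ' a b k t ψ := by
  have hab := hC.test_add hB ha hb
  have m1 := (hC.Γ_mem hB ha ha).2
  have m2 := (hC.Γ_mem hB hb hb).2
  have m3 := (hC.Γ_mem hB hab hab).2
  have hkk := hC.mem1 _ hk
  have sq : ∀ {G : M →ₘ[m] ℝ} (s : ℝ), MemLp G ∞ m →
      MemLp ((G - s • 1) ^ 2 : M →ₘ[m] ℝ) ∞ m := by
    intro G s hG
    rw [pow_two]
    have := mem_sub hG (mem_smul s mem_top_one)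
    exact mem_mul_top this this
  have hI : I (φ + η • ψ) = I φ + η * I ψ := by
    rw [I_add hφ1 (mem_smul _ hψ1), I_smul]
  unfold lexp
  rw [S0_lin hC hB ha hb hφ hψ, HW_lin hC hB ha hb hk hφ hψ, hI,
    I_lin (mem_mul_top hφ.2 hkk) (mem_mul_top hψ.2 hkk),
    I_lin (mem_top_mul hφ1 (sq (t 0) m1)) (mem_top_mul hψ1 (sq (t 0) m1)),
    I_lin (mem_top_mul hφ1 (sq (t 1) m2)) (mem_top_mul hψ1 (sq (t 1) m2)),
    I_lin (mem_top_mul hφ1 (sq (t 2) m3)) (mem_top_mul hψ1 (sq (t 2) m3)),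
    I_lin (mem_top_mul hφ1 m1) (mem_top_mul hψ1 m1),
    I_lin (mem_top_mul hφ1 m2) (mem_top_mul hψ1 m2),
    I_lin (mem_top_mul hφ1 m3) (mem_top_mul hψ1 m3)]
  ring

include hC hB in
theorem lexp_zero {κ' : ℝ} (ha : a ∈ C.Test) (hb : b ∈ C.Test) {k : M →ₘ[m] ℝ} (hk : k ∈ C.W)
    (hφ : φ ∈ C.A) (hφ1 : MemLp φ 1 m) (hψ : ψ ∈ C.A) (hψ1 : MemLp ψ 1 m) (t : Fin 3 → ℝ)
    (H : ∀ η : ℝ, 0 < η → 0 ≤ lexp C κ' a b k t (φ + η • ψ)) : 0 ≤ lexp C κ' a b k t φ := by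
  have h1 : Tendsto (fun η : ℝ => lexp C κ' a b k t φ + η * lexp C κ' a b k t ψ) (𝓝[>] 0)
      (𝓝 (lexp C κ' a b k t φ)) := by
    have h2 : Tendsto (fun η : ℝ => lexp C κ' a b k t φ + η * lexp C κ' a b k t ψ) (𝓝 0)
        (𝓝 (lexp C κ' a b k t φ + 0 * lexp C κ' a b k t ψ)) :=
      Continuous.tendsto (by fun_prop) 0
    rw [zero_mul, add_zero] at h2
    exact h2.mono_left nhdsWithin_le_nhds
  refine ge_of_tendsto h1 ?_
  filter_upwards [self_mem_nhdsWithin] with η hη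
  rw [← lexp_lin hC hB ha hb hk hφ hφ1 hψ hψ1]
  exact H η hη

include hC hB in
/-- the curvature term -/
theorem lexp_le {κ' : ℝ} (ha : a ∈ C.Test) (hb : b ∈ C.Test) {k : M →ₘ[m] ℝ}
    (hφ1 : MemLp φ 1 m) (hφ0 : 0 ≤ φ) (t : Fin 3 → ℝ) :
    lexp C κ' a b k t φ ≤ C.S0 a b φ + 6 * C.HW b a k φ + 3 * I (φ * C.Γ k k)
        + 2 * |κ'| * (I (φ * (C.Γ a a - t 0 • 1) ^ 2) + I (φ * (C.Γ b b - t 1 • 1) ^ 2)
          + I (φ * (C.Γ (a + b) (a + b) - t 2 • 1) ^ 2))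
        - κ' * I (φ * (C.Γ a a * C.Γ b b - C.Γ a b ^ 2)) := by
  have hD := hC.toIsDir
  have haW := (hC.test_A ha).1
  have hbW := (hC.test_A hb).1
  have hab := hC.test_add hB ha hb
  have m1 := (hC.Γ_mem hB ha ha).2
  have m2 := (hC.Γ_mem hB hb hb).2
  have m3 := (hC.Γ_mem hB hab hab).2
  have m4 := (hC.Γ_mem hB ha hb).2
  have sq : ∀ {G : M →ₘ[m] ℝ} (s : ℝ), MemLp G ∞ m →
      MemLp ((G - s • 1) ^ 2 : M →ₘ[m] ℝ) ∞ m := by
    intro G s hG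
    rw [pow_two]
    have := mem_sub hG (mem_smul s mem_top_one)
    exact mem_mul_top this this
  have n1 : MemLp (φ * C.Γ a a : M →ₘ[m] ℝ) 1 m := mem_top_mul hφ1 m1
  have n2 : MemLp (φ * C.Γ b b : M →ₘ[m] ℝ) 1 m := mem_top_mul hφ1 m2
  have n3 : MemLp (φ * C.Γ (a + b) (a + b) : M →ₘ[m] ℝ) 1 m := mem_top_mul hφ1 m3
  have s1 : MemLp (φ * (C.Γ a a - t 0 • 1) ^ 2 : M →ₘ[m] ℝ) 1 m := mem_top_mul hφ1 (sq _ m1)
  have s2 : MemLp (φ * (C.Γ b b - t 1 • 1) ^ 2 : M →ₘ[m] ℝ) 1 m := mem_top_mul hφ1 (sq _ m2)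
  have s3 : MemLp (φ * (C.Γ (a + b) (a + b) - t 2 • 1) ^ 2 : M →ₘ[m] ℝ) 1 m :=
    mem_top_mul hφ1 (sq _ m3)
  have w1 : MemLp (φ * (C.Γ a a * C.Γ b b - C.Γ a b ^ 2) : M →ₘ[m] ℝ) 1 m :=
    mem_top_mul hφ1 (mem_sub (mem_mul_top m1 m2) (by rw [pow_two]; exact mem_mul_top m4 m4))
  set Ss : ℝ := I (φ * (C.Γ a a - t 0 • 1) ^ 2) + I (φ * (C.Γ b b - t 1 • 1) ^ 2)
          + I (φ * (C.Γ (a + b) (a + b) - t 2 • 1) ^ 2) with hSs
  have key : κ' * I (φ * (C.Γ a a * C.Γ b b - C.Γ a b ^ 2))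
      + κ' / 4 * (HH t * I φ - (dHH t 0 * I (φ * C.Γ a a) + dHH t 1 * I (φ * C.Γ b b)
          + dHH t 2 * I (φ * C.Γ (a + b) (a + b)))) ≤ 3 / 4 * |κ'| * Ss := by
    have e1 : κ' * I (φ * (C.Γ a a * C.Γ b b - C.Γ a b ^ 2))
      + κ' / 4 * (HH t * I φ - (dHH t 0 * I (φ * C.Γ a a) + dHH t 1 * I (φ * C.Γ b b)
          + dHH t 2 * I (φ * C.Γ (a + b) (a + b))))
        = I (κ' • (φ * (C.Γ a a * C.Γ b b - C.Γ a b ^ 2))
          + ((κ' / 4 * HH t) • φ - ((κ' / 4 * dHH t 0) • (φ * C.Γ a a)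
            + (κ' / 4 * dHH t 1) • (φ * C.Γ b b)
            + (κ' / 4 * dHH t 2) • (φ * C.Γ (a + b) (a + b))))) := by
      rw [I_add (mem_smul _ w1) (mem_sub (mem_smul _ hφ1) (mem_add (mem_add (mem_smul _ n1)
        (mem_smul _ n2)) (mem_smul _ n3))), I_sub (mem_smul _ hφ1) (mem_add (mem_add
        (mem_smul _ n1) (mem_smul _ n2)) (mem_smul _ n3)), I_add (mem_add (mem_smul _ n1)
        (mem_smul _ n2)) (mem_smul _ n3), I_add (mem_smul _ n1) (mem_smul _ n2), I_smul, I_smul,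
        I_smul, I_smul, I_smul]
      ring
    have e2 : 3 / 4 * |κ'| * Ss = I ((3 / 4 * |κ'|) • (φ * (C.Γ a a - t 0 • 1) ^ 2
        + φ * (C.Γ b b - t 1 • 1) ^ 2 + φ * (C.Γ (a + b) (a + b) - t 2 • 1) ^ 2)) := by
      rw [I_smul, I_add (mem_add s1 s2) s3, I_add s1 s2]
    rw [e1, e2]
    refine I_mono (mem_add (mem_smul _ w1) (mem_sub (mem_smul _ hφ1) (mem_add (mem_add
      (mem_smul _ n1) (mem_smul _ n2)) (mem_smul _ n3)))) (mem_smul _ (mem_add (mem_add s1 s2) s3))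
      ?_
    have e3 : C.Γ (a + b) (a + b) = C.Γ a a + (2 : ℝ) • C.Γ a b + C.Γ b b := by
      have := hD.Γ_expand 1 haW hbW
      rwa [one_smul, mul_one, one_pow, one_smul] at this
    have hφ0' := nonneg_iff_ae.1 hφ0
    rw [le_iff_ae, e3]
    set P := C.Γ a a
    set Q := C.Γ a b
    set R := C.Γ b b
    filter_upwards [hφ0', add_ae (κ' • (φ * (P * R - Q ^ 2)))
        ((κ' / 4 * HH t) • φ - ((κ' / 4 * dHH t 0) • (φ * P) + (κ' / 4 * dHH t 1) • (φ * R)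
            + (κ' / 4 * dHH t 2) • (φ * (P + (2 : ℝ) • Q + R)))),
      smul_ae (φ * (P * R - Q ^ 2)) κ', mul_ae φ (P * R - Q ^ 2), sub_ae (P * R) (Q ^ 2),
      mul_ae P R, sq_ae Q,
      sub_ae ((κ' / 4 * HH t) • φ) ((κ' / 4 * dHH t 0) • (φ * P) + (κ' / 4 * dHH t 1) • (φ * R)
            + (κ' / 4 * dHH t 2) • (φ * (P + (2 : ℝ) • Q + R))),
      smul_ae φ (κ' / 4 * HH t),
      add_ae ((κ' / 4 * dHH t 0) • (φ * P) + (κ' / 4 * dHH t 1) • (φ * R))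
        ((κ' / 4 * dHH t 2) • (φ * (P + (2 : ℝ) • Q + R))),
      add_ae ((κ' / 4 * dHH t 0) • (φ * P)) ((κ' / 4 * dHH t 1) • (φ * R)),
      smul_ae (φ * P) (κ' / 4 * dHH t 0), smul_ae (φ * R) (κ' / 4 * dHH t 1),
      smul_ae (φ * (P + (2 : ℝ) • Q + R)) (κ' / 4 * dHH t 2), mul_ae φ P, mul_ae φ R,
      mul_ae φ (P + (2 : ℝ) • Q + R), add_ae (P + (2 : ℝ) • Q) R, add_ae P ((2 : ℝ) • Q),
      smul_ae Q (2 : ℝ),
      smul_ae (φ * (P - t 0 • 1) ^ 2 + φ * (R - t 1 • 1) ^ 2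
        + φ * (P + (2 : ℝ) • Q + R - t 2 • 1) ^ 2) (3 / 4 * |κ'|),
      add_ae (φ * (P - t 0 • 1) ^ 2 + φ * (R - t 1 • 1) ^ 2)
        (φ * (P + (2 : ℝ) • Q + R - t 2 • 1) ^ 2),
      add_ae (φ * (P - t 0 • 1) ^ 2) (φ * (R - t 1 • 1) ^ 2),
      mul_ae φ ((P - t 0 • 1) ^ 2), mul_ae φ ((R - t 1 • 1) ^ 2),
      mul_ae φ ((P + (2 : ℝ) • Q + R - t 2 • 1) ^ 2), sq_ae (P - t 0 • 1), sq_ae (R - t 1 • 1),
      sq_ae (P + (2 : ℝ) • Q + R - t 2 • 1), sub_ae P (t 0 • 1), sub_ae R (t 1 • 1),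
      sub_ae (P + (2 : ℝ) • Q + R) (t 2 • 1), smul_ae (1 : M →ₘ[m] ℝ) (t 0),
      smul_ae (1 : M →ₘ[m] ℝ) (t 1), smul_ae (1 : M →ₘ[m] ℝ) (t 2), one_ae (M := M) (m := m)]
      with x a1 a2 a3 a4 a5 a6 a7 a8 a9 a10 a11 a12 a13 a14 a15 a16 a17 a18 a19 a20 a21 a22 a23
        a24 a25 a26 a27 a28 a29 a30 a31 a32 a33 a34 a35 a36
    rw [a2, a3, a4, a5, a6, a7, a8, a9, a10, a11, a12, a13, a14, a15, a16, a17, a18, a19, a20,
      a21, a22, a23, a24, a25, a26, a27, a28, a29, a30, a31, a32, a33, a34, a35, a36, a18, a19,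
      a20]
    have h1 := HH_pt κ' t (P x) (Q x) (R x)
    have h2 := mul_le_mul_of_nonneg_left h1 a1
    linarith only [h2]
  have hSs0 : 0 ≤ Ss := by
    have g : ∀ G : M →ₘ[m] ℝ, 0 ≤ I (φ * G ^ 2) := fun G =>
      I_nonneg (mul_nonneg hφ0 (sq_nonneg' G))
    rw [hSs]
    exact add_nonneg (add_nonneg (g _) (g _)) (g _)
  unfold lexp
  have h3 : 0 ≤ |κ'| * Ss := mul_nonneg (abs_nonneg _) hSs0
  linarith only [h3, key]

end gamma

/-! ### the metric part -/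

section metric

variable {M : Type*} [MetricSpace M] [MeasurableSpace M] [BorelSpace M] {m : Measure M}

omit [BorelSpace M] in
/-- a bounded function with bounded support is integrable -/
theorem mem1_of_supp (hfin : ∀ (x : M) (r : ℝ), m (Metric.ball x r) < ∞) {f : M →ₘ[m] ℝ}
    (hf : MemLp f ∞ m) {x₀ : M} {R : ℝ} (h : ∀ᵐ x ∂m, R < dist x x₀ → f x = 0) :
    MemLp f 1 m := by
  obtain ⟨B, hB⟩ := mem_top_iff.1 hf
  rw [memLp_one_iff_integrable]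
  have h1 : IntegrableOn f (Metric.ball x₀ (R + 1)) m := by
    refine Measure.integrableOn_of_bounded (M := B) (hfin x₀ (R + 1)).ne
      f.aestronglyMeasurable ?_
    filter_upwards [ae_restrict_of_ae hB] with x hx
    rwa [Real.norm_eq_abs]
  refine h1.integrable_of_ae_notMem_eq_zero ?_
  filter_upwards [h] with x hx hx2
  rw [Metric.mem_ball, not_lt] at hx2
  exact hx (by linarith)

/-- the core inequality from the inequality for densities which are positive on the support -/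
theorem core_nice_aux [SecondCountableTopology M] {κ K N : ℝ} (hM : ABSpace m κ K N) {a b f χ θ : M →ₘ[m] ℝ}
    (ha : a ∈ (sob m).TestI) (hb : b ∈ (sob m).TestI) (hf : f ∈ (sob m).TestI) (hf0 : 0 ≤ f)
    (χf : χ * f = f) (hsupp : ∃ (x₀ : M) (R : ℝ), ∀ᵐ x ∂m, R < dist x x₀ → χ x = 0)
    (hθ : θ ∈ (sob m).TestI)
    (θsupp : ∃ (x₀ : M) (R : ℝ), ∀ᵐ x ∂m, R < dist x x₀ → θ x = 0)
    (H : ∀ k ∈ (sob m).TestI, ∀ F ∈ (sob m).TestI, MemLp F 1 m → ∀ η : ℝ, 0 < η → η • θ ≤ F →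
      (∃ (x₀ : M) (R : ℝ), ∀ᵐ x ∂m, R < dist x x₀ → F x = 0) → ∀ t : Fin 3 → ℝ, (∀ i, 0 ≤ t i) →
      0 ≤ lexp (sob m) κ a b k t F) :
    (sob m).CoreAt κ (2 * |κ|) a b f := by
  have hC := hM.hC
  have hB := hC.bei hM.hN hM.hBN
  have : SigmaFinite m := sigmaFinite_of_ball hM.hfin
  obtain ⟨x₀, R, hR⟩ := hsupp
  obtain ⟨y₀, S, hS⟩ := θsupp
  have hfR : ∀ᵐ x ∂m, R < dist x x₀ → f x = 0 := by
    rw [eq_iff_ae] at χf
    filter_upwards [hR, χf, mul_ae χ f] with x h1 h2 h3 h4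
    rw [← h2, h3, h1 h4, zero_mul]
  have hfA := hC.test_A hf.1
  have hθA := hC.test_A hθ.1
  have hf1 := mem1_of_supp hM.hfin hfA.2 hfR
  have hθ1 := mem1_of_supp hM.hfin hθA.2 hS
  have main : ∀ k ∈ (sob m).TestI, ∀ t : Fin 3 → ℝ, (∀ i, 0 ≤ t i) →
      0 ≤ lexp (sob m) κ a b k t f := by
    intro k hk t ht
    refine lexp_zero hC hB ha.1 hb.1 (hC.test_A hk.1).1 hfA hf1 hθA hθ1 t fun η hη => ?_
    refine H k hk _ (hC.testI_add hB hf (hC.testI_smul hB η hθ)) (mem_add hf1 (mem_smul _ hθ1))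
      η hη ?_ ?_ t ht
    · rw [le_add_iff_nonneg_left]
      exact hf0
    · refine ⟨x₀, max R (S + dist x₀ y₀), ?_⟩
      filter_upwards [hfR, hS, add_ae f (η • θ), smul_ae θ η] with x h1 h2 h3 h4 h5
      have h6 : R < dist x x₀ := (le_max_left _ _).trans_lt h5
      have h7 : S < dist x y₀ := by
        have h8 : S + dist x₀ y₀ < dist x x₀ := (le_max_right _ _).trans_lt h5
        have h9 := dist_triangle_right x x₀ y₀
        linarith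
      rw [h3, h4, h1 h6, h2 h7]
      simp
  intro k hk t₁ t₂ t₃ h1 h2 h3
  have ht : ∀ i, 0 ≤ (![t₁, t₂, t₃] : Fin 3 → ℝ) i := by
    intro i
    fin_cases i
    · exact h1
    · exact h2
    · exact h3
  have key := ext_k hC hB ha hb hf.1 (L := (sob m).S0 a b f
      + 2 * |κ| * (I (f * ((sob m).Γ a a - t₁ • 1) ^ 2) + I (f * ((sob m).Γ b b - t₂ • 1) ^ 2)
          + I (f * ((sob m).Γ (a + b) (a + b) - t₃ • 1) ^ 2))
      - κ * I (f * ((sob m).Γ a a * (sob m).Γ b b - (sob m).Γ a b ^ 2))) (fun k' hk' => by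
    have e1 := main k' hk' _ ht
    have e2 := lexp_le hC hB (κ' := κ) ha.1 hb.1 (k := k') hf1 hf0 ![t₁, t₂, t₃]
    simp only [Matrix.cons_val_zero, Matrix.cons_val_one, Matrix.cons_val] at e2
    linarith) hk
  linarith

end metric

end Vale.Agent.P233.L2A
end

section

open MeasureTheory Filter Topology
open scoped ENNReal NNReal

namespace Vale.Agent.P233

variable {M : Type*} [MetricSpace M] [SecondCountableTopology M] [MeasurableSpace M]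
  [BorelSpace M] {m : Measure M} [m.IsOpenPosMeasure]

/-- The core inequality for nice functions. -/
theorem core_nice {κ K N : ℝ} (hM : ABSpace m κ K N) {a b f χ : M →ₘ[m] ℝ}
    (ha : a ∈ (sob m).TestI) (hb : b ∈ (sob m).TestI) (hf : f ∈ (sob m).TestI) (hf0 : 0 ≤ f)
    (hχ : χ ∈ (sob m).TestI) (χa : χ * a = a) (χb : χ * b = b) (χf : χ * f = f)
    (hsupp : ∃ (x₀ : M) (R : ℝ), ∀ᵐ x ∂m, R < dist x x₀ → χ x = 0) :
    (sob m).CoreAt κ (2 * |κ|) a b f := by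
  obtain ⟨x₀, R, hR⟩ := hsupp
  obtain ⟨Cc, hCc⟩ := exists_cutI hM.hfin hM.hC hM.hN hM.hBN x₀
  obtain ⟨θ, hθ, hθ0, -, hθ1, ⟨R', hR'⟩, -, -⟩ := hCc (max 1 R) (le_max_left _ _)
  have θχ : θ * χ = χ := by
    rw [eq_iff_ae]
    filter_upwards [hR, hθ1, mul_ae θ χ] with x h1 h2 h3
    rw [h3]
    rcases le_or_gt (dist x x₀) (max 1 R) with h | h
    · rw [h2 h, one_mul]
    · rw [h1 ((le_max_right _ _).trans_lt h), mul_zero]
  refine L2A.core_nice_aux hM ha hb hf hf0 χf ⟨x₀, R, hR⟩ hθ ⟨x₀, R', hR'⟩ ?_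
  intro k hk F hF hF1 η hη Fη Fsupp t ht
  exact lim_eps hM ha hb hF hθ hχ hk hF1 hθ0 χa χb θχ hη Fη Fsupp t ht

end Vale.Agent.P233
end

section

set_option linter.all false

open MeasureTheory Filter Topology
open scoped ENNReal NNReal InnerProductSpace

universe u

namespace Vale.Agent.P233

/-- (A) implies (B), in terms of functions: an Alexandrov space with curvature `≥ κ` that is
`RCD(K,N)` with full support has distributional sectional curvature `≥ κ`. -/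
theorem ab_main {M : Type u} [MetricSpace M] [CompleteSpace M] [SecondCountableTopology M]
    [MeasurableSpace M] [BorelSpace M] (m : Measure M) [m.IsOpenPosMeasure] {κ K N : ℝ}
    (hN : 0 < N) (h : S.IsRCD m K N) (hA : AB.IsAlexandrov M κ) :
    (∃ (H : Type u) (_ : NormedAddCommGroup H) (_ : InnerProductSpace ℝ H) (ι : S.VF M → H),
      (S.sob m).IsL2TM ι) ∧ (S.sob m).DistSecGE κ := by
  have hM : ABSpace m κ (min K 0) N := abSpace_of hN h hA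
  have hC : IsGamma (sob m) := hM.hC
  have hB : (sob m).BEi (min K 0) := hM.hB
  have hsf : SigmaFinite m := sigmaFinite_of_ball hM.hfin
  obtain ⟨Gr, hG, -⟩ := hC.toIsDir.exists_grad
  obtain ⟨U, hU⟩ := hC.exists_HU hB hG
  have hpos : ∀ a ∈ (sob m).Test, ∀ b ∈ (sob m).Test, ∀ f ∈ (sob m).Test, 0 ≤ f →
      0 ≤ I ((sob m).rkI (UUof m U) κ a b b a f) :=
    ext_all hM.hfin hC hM.hN hM.hBN hG hU fun a b f χ ha hb hf hf0 hχ χa χb χf hs =>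
      nice_pos hC hM.hfin hB (K := 2 * |κ|) (by positivity) hG hU
        (fun a b f χ ha hb hf hf0 hχ χa χb χf hs => core_nice hM ha hb hf hf0 hχ χa χb χf hs)
        a b f χ ha hb hf hf0 hχ χa χb χf hs
  constructor
  · obtain ⟨H, i1, i2, i3, ι, hι⟩ := hG.exists_model hC hB
    refine ⟨H, i1, i2, fun X => ι (clsV m X), i3, ?_, ?_⟩
    · intro X Y hX hY
      have rX := RV_clsV hX
      have rY := RV_clsV hY
      rw [hι.1 _ _ rX.isTestV rY.isTestV, (rX.ip rY hC).int]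
    · intro v ε hε
      obtain ⟨w, ⟨X', hX', rfl⟩, hw⟩ := Metric.mem_closure_iff.1 (hι.2 v) ε hε
      have r := RV_coeV hX'
      refine ⟨coeV X', r.testV, ?_⟩
      have e : clsV m (coeV X') = X' := by
        unfold clsV coeV
        rw [List.map_map]
        conv_rhs => rw [← List.map_id X']
        refine List.map_congr_left fun p _ => ?_
        simp only [Function.comp, id, R_cls (R.coe p.1), R_cls (R.coe p.2)]
      change ‖ι (clsV m (coeV X')) - v‖ < ε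
      rw [e, ← dist_eq_norm, dist_comm]
      exact hw
  · refine distSec_of m hN h ?_
    intro H _ _ _ ι hι X Y hX hY
    exact fin_abs hC hB hG hU hι hpos hX hY

end Vale.Agent.P233
end

section

set_option linter.all false

open MeasureTheory Filter Topology
open scoped ENNReal NNReal InnerProductSpace

universe u

namespace Vale.Agent.P233

section

variable {M : Type u} [MetricSpace M] [MeasurableSpace M] {m : Measure M}

theorem T_test (f : M → ℝ) : (T.sob m).Test f ↔ (S.sob m).Test f := Iff.rfl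

theorem T_testV (X : T.VF M) : (T.sob m).TestV X ↔ (S.sob m).TestV X := Iff.rfl

theorem T_rcd {K N : ℝ} (h : T.IsRCD m K N) : S.IsRCD m K N :=
  ⟨h.quadratic, h.growth, h.sobolev_to_lipschitz, h.bochner⟩

end

theorem T_alex {M : Type u} [MetricSpace M] {κ : ℝ} (h : T.IsAlexandrov M κ) :
    AB.IsAlexandrov M κ := by
  refine ⟨h.geodesic, fun p x y w h1 h2 => h.comparison p x y w h1 ?_⟩
  rcases le_or_gt κ 0 with h3 | h3
  · rw [Real.sqrt_eq_zero_of_nonpos h3, zero_mul]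
    exact Real.two_pi_pos
  · have h4 := h2 h3
    rw [lt_div_iff₀ (Real.sqrt_pos.2 h3)] at h4
    linarith

/-- (A) implies (B) -/
theorem ab_T {M : Type u} [MetricSpace M] [CompleteSpace M] [SecondCountableTopology M]
    [MeasurableSpace M] [BorelSpace M] (m : Measure M) [m.IsOpenPosMeasure] {κ K N : ℝ}
    (hN : 0 < N) (hA : T.IsAlexandrov M κ) (h : T.IsRCD m K N) :
    T.DistSecGE (T.sob m) κ := by
  have hS := T_rcd h
  obtain ⟨⟨H, i1, i2, ι, hι⟩, hD⟩ := ab_main m hN hS (T_alex hA)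
  have hM : ABSpace m κ (min K 0) N := abSpace_of hN hS (T_alex hA)
  have hC : IsGamma (sob m) := hM.hC
  have hB : (sob m).BEi (min K 0) := hM.hB
  refine ⟨H, i1, i2, ι, hι, ?_⟩
  intro X Y hX hY f hf hf0
  rw [T_testV] at hX hY
  rw [T_test] at hf
  have hmul : ∀ {Z : T.VF M}, (S.sob m).TestV Z → (S.sob m).TestV (T.Calc.mul f Z) := by
    intro Z hZ
    obtain ⟨F, hF, hF'⟩ := S_test_exists hf
    exact (RV_mulV hC hB (RV_clsV hZ) hF hF').testV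
  have e1 : ∀ {X Y : T.VF M}, (S.sob m).TestV X → (S.sob m).TestV Y →
      (T.sob m).IsCov ι X Y ((S.sob m).cov ι X Y) := by
    intro X Y hX hY
    have h1 := (hD H ι hι X Y hX hY).1
    unfold S.Calc.cov S.Calc.rep
    rw [dif_pos h1]
    exact h1.choose_spec
  have h2 := (hD H ι hι Y (T.Calc.mul f X) hY (hmul hX)).2.1
  have h3 : ∀ Z, (S.sob m).TestV Z →
      ⟪(S.sob m).rep ι (fun X' => (S.sob m).int ((S.sob m).nab X' Y (T.Calc.mul f X))), ι Z⟫_ℝ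
        = (S.sob m).int ((S.sob m).nab Z Y (T.Calc.mul f X)) := by
    unfold S.Calc.rep
    rw [dif_pos h2]
    exact h2.choose_spec
  refine ⟨_, _, _, _, _, _, e1 hX (hmul hX), e1 hY hY, e1 hY (hmul hX), e1 hX hY, e1 hY hX, h3, ?_⟩
  exact (hD H ι hι X Y hX hY).2.2 f hf hf0

end Vale.Agent.P233
end
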